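import Vale.Agent.P098.CkW
import Vale.Agent.P098.CkOk
import Vale.Agent.P098.Sh.A0
import Vale.Agent.P098.Sh.A1
import Vale.Agent.P098.Sh.A11
import Vale.Agent.P098.Sh.A17
import Vale.Agent.P098.Sh.A25
import Vale.Agent.P098.Sh.A26
import Vale.Agent.P098.Sh.A27
import Vale.Agent.P098.Sh.A3
import Vale.Agent.P098.Sh.A36
import Vale.Agent.P098.Sh.A37
import Vale.Agent.P098.Sh.A38
import Vale.Agent.P098.Sh.A4
import Vale.Agent.P098.Sh.A8

namespace Vale.Agent.P098.Ck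

theorem b1 :
    Ok (pack (bL1 Wt) 0) idm 0 0 0 0 0 0 24 256 216 808 :=
  have c0 : (band (go 16 (pack (bL1 Wt) 0) idm S227_256_216_364 (Tr.lf 12885197073 99580867 0) 0 0 0 0 0 0)
  (band (go 16 (pack (bL1 Wt) 0) idm S227_256_660_808 (Tr.lf 12885197073 103910466 0) 0 0 0 0 0 0)
  (band (go 16 (pack (bL1 Wt) 0) idm S169_198_216_364 (Tr.lf 12885180689 103910466 0) 0 0 0 0 0 0)
  (band (go 16 (pack (bL1 Wt) 0) idm S227_256_364_512 (Tr.lf 12885180689 99580867 0) 0 0 0 0 0 0)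
  (band (go 16 (pack (bL1 Wt) 0) idm S140_169_216_364 (Tr.lf 12885172497 108240065 0) 0 0 0 0 0 0)
  (band (go 16 (pack (bL1 Wt) 0) idm S140_198_364_512 (Tr.lf 12885049617 99580867 0) 0 0 0 0 0 0)
  (band (go 16 (pack (bL1 Wt) 0) idm S140_198_512_660 (Tr.lf 12885049617 99580867 0) 0 0 0 0 0 0)
  (go 16 (pack (bL1 Wt) 0) idm S140_198_660_808 (Tr.lf 12885049617 99580867 0) 0 0 0 0 0 0)))))))) = true := by decide +kernel
  have c1 : (band (go 16 (pack (bL1 Wt) 0) idm S198_227_660_808 (Tr.lf 12885049617 99580867 0) 0 0 0 0 0 0)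
  (band (go 16 (pack (bL1 Wt) 0) idm S198_227_216_364 (Tr.lf 12885041425 99580867 0) 0 0 0 0 0 0)
  (band (go 16 (pack (bL1 Wt) 0) idm S227_256_512_660 (Tr.lf 12885041425 99580867 0) 0 0 0 0 0 0)
  (band (go 16 (pack (bL1 Wt) 0) idm S24_82_216_364 (Tr.lf 12884975889 104045761 0) 0 0 0 0 0 0)
  (band (go 16 (pack (bL1 Wt) 0) idm S82_140_216_364 (Tr.lf 12884975889 104045761 0) 0 0 0 0 0 0)
  (band (go 16 (pack (bL1 Wt) 0) idm S82_140_364_512 (Tr.lf 12884975889 108240065 0) 0 0 0 0 0 0)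
  (band (go 16 (pack (bL1 Wt) 0) idm S82_140_512_660 (Tr.lf 12884975889 108240065 0) 0 0 0 0 0 0)
  (go 16 (pack (bL1 Wt) 0) idm S82_140_660_808 (Tr.lf 12884975889 108240065 0) 0 0 0 0 0 0)))))))) = true := by decide +kernel
  have c2 : (band (go 16 (pack (bL1 Wt) 0) idm S24_82_364_512 (Tr.lf 12884971793 104045761 0) 0 0 0 0 0 0)
  (band (go 16 (pack (bL1 Wt) 0) idm S198_227_364_512 (Tr.lf 8590004497 104045761 0) 0 0 0 0 0 0)
  (band (go 16 (pack (bL1 Wt) 0) idm S24_82_512_660 (Tr.lf 12884971793 104045761 0) 0 0 0 0 0 0)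
  (band (go 16 (pack (bL1 Wt) 0) idm S24_82_660_808 (Tr.lf 12884971793 99851457 0) 0 0 0 0 0 0)
  (go 16 (pack (bL1 Wt) 0) idm S198_227_512_660 (Tr.lf 8590004497 104045761 0) 0 0 0 0 0 0))))) = true := by decide +kernel
  (Ok.s4 512 (Ok.s3 140 (Ok.s4 364 (Ok.s3 82 (Ok.lf S24_82_216_364_ok (bl (br (br (br c1)))))
  (Ok.lf S82_140_216_364_ok (bl (br (br (br (br c1)))))))
  (Ok.s3 82 (Ok.lf S24_82_364_512_ok (bl c2))
  (Ok.lf S82_140_364_512_ok (bl (br (br (br (br (br c1)))))))))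
  (Ok.s4 364 (Ok.s3 198 (Ok.s3 169 (Ok.lf S140_169_216_364_ok (bl (br (br (br (br c0))))))
  (Ok.lf S169_198_216_364_ok (bl (br (br c0)))))
  (Ok.s3 227 (Ok.lf S198_227_216_364_ok (bl (br c1)))
  (Ok.lf S227_256_216_364_ok (bl c0))))
  (Ok.s3 198 (Ok.lf S140_198_364_512_ok (bl (br (br (br (br (br c0)))))))
  (Ok.s3 227 (Ok.lf S198_227_364_512_ok (bl (br c2)))
  (Ok.lf S227_256_364_512_ok (bl (br (br (br c0)))))))))
  (Ok.s3 140 (Ok.s4 660 (Ok.s3 82 (Ok.lf S24_82_512_660_ok (bl (br (br c2))))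
  (Ok.lf S82_140_512_660_ok (bl (br (br (br (br (br (br c1)))))))))
  (Ok.s3 82 (Ok.lf S24_82_660_808_ok (bl (br (br (br c2)))))
  (Ok.lf S82_140_660_808_ok (br (br (br (br (br (br (br c1))))))))))
  (Ok.s4 660 (Ok.s3 198 (Ok.lf S140_198_512_660_ok (bl (br (br (br (br (br (br c0))))))))
  (Ok.s3 227 (Ok.lf S198_227_512_660_ok (br (br (br (br c2)))))
  (Ok.lf S227_256_512_660_ok (bl (br (br c1))))))
  (Ok.s3 198 (Ok.lf S140_198_660_808_ok (br (br (br (br (br (br (br c0))))))))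
  (Ok.s3 227 (Ok.lf S198_227_660_808_ok (bl c1))
  (Ok.lf S227_256_660_808_ok (bl (br c0))))))))

end Vale.Agent.P098.Ck
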