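import Vale.Agent.P098.CkW
import Vale.Agent.P098.CkOk
import Vale.Agent.P098.Sh.A0
import Vale.Agent.P098.Sh.A1
import Vale.Agent.P098.Sh.A10
import Vale.Agent.P098.Sh.A17
import Vale.Agent.P098.Sh.A18
import Vale.Agent.P098.Sh.A19
import Vale.Agent.P098.Sh.A25
import Vale.Agent.P098.Sh.A26
import Vale.Agent.P098.Sh.A29
import Vale.Agent.P098.Sh.A3
import Vale.Agent.P098.Sh.A36
import Vale.Agent.P098.Sh.A37
import Vale.Agent.P098.Sh.A4
import Vale.Agent.P098.Sh.A5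
import Vale.Agent.P098.Sh.A6
import Vale.Agent.P098.Sh.A8
import Vale.Agent.P098.Sh.A9

namespace Vale.Agent.P098.Ck

theorem b2 :
    Ok (pack (bL2 Wt) 0) idm 0 0 0 0 0 0 24 256 216 808 :=
  have c0 : (band (go 16 (pack (bL2 Wt) 0) idm S198_227_216_364 (Tr.lf 12885459217 95251268 0) 0 0 0 0 0 0)
  (band (go 16 (pack (bL2 Wt) 0) idm S198_256_512_660 (Tr.lf 8590098705 86592070 0) 0 0 0 0 0 0)
  (band (go 16 (pack (bL2 Wt) 0) idm S169_198_216_364 (Tr.lf 12885180689 108240065 0) 0 0 0 0 0 0)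
  (band (go 16 (pack (bL2 Wt) 0) idm S227_256_216_364 (Tr.lf 12885180689 86592070 0) 0 0 0 0 0 0)
  (band (go 16 (pack (bL2 Wt) 0) idm S169_198_364_512 (Tr.lf 12885180689 99580867 0) 0 0 0 0 0 0)
  (band (go 16 (pack (bL2 Wt) 0) idm S82_140_364_512 (Tr.lf 12885000465 104045761 0) 0 0 0 0 0 0)
  (band (go 16 (pack (bL2 Wt) 0) idm S198_227_364_512 (Tr.lf 12885049617 90921669 0) 0 0 0 0 0 0)
  (go 16 (pack (bL2 Wt) 0) idm S140_169_512_660 (Tr.lf 12885049617 103910466 0) 0 0 0 0 0 0)))))))) = true := by decide +kernel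
  have c1 : (band (go 16 (pack (bL2 Wt) 0) idm S169_198_512_660 (Tr.lf 12885049617 90921669 0) 0 0 0 0 0 0)
  (band (go 16 (pack (bL2 Wt) 0) idm S140_169_660_808 (Tr.lf 12885049617 103910466 0) 0 0 0 0 0 0)
  (band (go 16 (pack (bL2 Wt) 0) idm S198_256_660_808 (Tr.lf 4295115025 95251268 0) 0 0 0 0 0 0)
  (band (go 16 (pack (bL2 Wt) 0) idm S24_82_216_364 (Tr.lf 12884984081 104045761 0) 0 0 0 0 0 0)
  (band (go 16 (pack (bL2 Wt) 0) idm S82_140_216_364 (Tr.lf 12884984081 104045761 0) 0 0 0 0 0 0)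
  (band (go 16 (pack (bL2 Wt) 0) idm S24_82_364_512 (Tr.lf 12884984081 104045761 0) 0 0 0 0 0 0)
  (band (go 16 (pack (bL2 Wt) 0) idm S24_82_660_808 (Tr.lf 12884984081 104045761 0) 0 0 0 0 0 0)
  (go 16 (pack (bL2 Wt) 0) idm S140_169_216_364 (Tr.lf 12885041425 104045761 0) 0 0 0 0 0 0)))))))) = true := by decide +kernel
  have c2 : (band (go 16 (pack (bL2 Wt) 0) idm S140_169_364_512 (Tr.lf 12885041425 104045761 0) 0 0 0 0 0 0)
  (band (go 16 (pack (bL2 Wt) 0) idm S169_198_660_808 (Tr.lf 8590074129 99580867 0) 0 0 0 0 0 0)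
  (band (go 16 (pack (bL2 Wt) 0) idm S227_256_364_512 (Tr.lf 4295041297 99580867 0) 0 0 0 0 0 0)
  (band (go 16 (pack (bL2 Wt) 0) idm S24_82_512_660 (Tr.lf 12884975889 104045761 0) 0 0 0 0 0 0)
  (band (go 16 (pack (bL2 Wt) 0) idm S111_140_512_660 (Tr.lf 12884975889 104045761 0) 0 0 0 0 0 0)
  (band (go 16 (pack (bL2 Wt) 0) idm S111_140_660_808 (Tr.lf 12884975889 104045761 0) 0 0 0 0 0 0)
  (band (go 16 (pack (bL2 Wt) 0) idm S82_111_512_660 (Tr.lf 12884971793 104045761 0) 0 0 0 0 0 0)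
  (go 16 (pack (bL2 Wt) 0) idm S82_111_660_808 (Tr.lf 12884971793 104045761 0) 0 0 0 0 0 0)))))))) = true := by decide +kernel
  (Ok.s4 512 (Ok.s3 140 (Ok.s4 364 (Ok.s3 82 (Ok.lf S24_82_216_364_ok (bl (br (br (br c1)))))
  (Ok.lf S82_140_216_364_ok (bl (br (br (br (br c1)))))))
  (Ok.s3 82 (Ok.lf S24_82_364_512_ok (bl (br (br (br (br (br c1)))))))
  (Ok.lf S82_140_364_512_ok (bl (br (br (br (br (br c0)))))))))
  (Ok.s4 364 (Ok.s3 198 (Ok.s3 169 (Ok.lf S140_169_216_364_ok (br (br (br (br (br (br (br c1))))))))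
  (Ok.lf S169_198_216_364_ok (bl (br (br c0)))))
  (Ok.s3 227 (Ok.lf S198_227_216_364_ok (bl c0))
  (Ok.lf S227_256_216_364_ok (bl (br (br (br c0)))))))
  (Ok.s3 198 (Ok.s3 169 (Ok.lf S140_169_364_512_ok (bl c2))
  (Ok.lf S169_198_364_512_ok (bl (br (br (br (br c0)))))))
  (Ok.s3 227 (Ok.lf S198_227_364_512_ok (bl (br (br (br (br (br (br c0))))))))
  (Ok.lf S227_256_364_512_ok (bl (br (br c2))))))))
  (Ok.s3 140 (Ok.s4 660 (Ok.s3 82 (Ok.lf S24_82_512_660_ok (bl (br (br (br c2)))))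
  (Ok.s3 111 (Ok.lf S82_111_512_660_ok (bl (br (br (br (br (br (br c2))))))))
  (Ok.lf S111_140_512_660_ok (bl (br (br (br (br c2))))))))
  (Ok.s3 82 (Ok.lf S24_82_660_808_ok (bl (br (br (br (br (br (br c1))))))))
  (Ok.s3 111 (Ok.lf S82_111_660_808_ok (br (br (br (br (br (br (br c2))))))))
  (Ok.lf S111_140_660_808_ok (bl (br (br (br (br (br c2))))))))))
  (Ok.s4 660 (Ok.s3 198 (Ok.s3 169 (Ok.lf S140_169_512_660_ok (br (br (br (br (br (br (br c0))))))))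
  (Ok.lf S169_198_512_660_ok (bl c1)))
  (Ok.lf S198_256_512_660_ok (bl (br c0))))
  (Ok.s3 198 (Ok.s3 169 (Ok.lf S140_169_660_808_ok (bl (br c1)))
  (Ok.lf S169_198_660_808_ok (bl (br c2))))
  (Ok.lf S198_256_660_808_ok (bl (br (br c1))))))))

end Vale.Agent.P098.Ck
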