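import Vale.Agent.P098.CkGd
import Vale.Agent.P098.CkOk
import Vale.Agent.P098.Sh.A0
import Vale.Agent.P098.Sh.A1
import Vale.Agent.P098.Sh.A11
import Vale.Agent.P098.Sh.A17
import Vale.Agent.P098.Sh.A3
import Vale.Agent.P098.Sh.A4
import Vale.Agent.P098.Sh.A8

namespace Vale.Agent.P098.Ck

theorem r0 :
    Ok Gd mult 0 128 0 64 0 128 24 140 216 808 ∧
    Ok Gd mult 0 128 0 64 0 128 140 198 216 512 :=
  have c0 : (band (go 16 Gd mult S82_140_216_364 (Tr.lf 9129068680 94981191 0) 0 128 0 64 0 64)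
  (go 16 Gd mult S24_82_216_364 (Tr.lf 4834034824 107838661 0) 0 128 0 64 0 64)) = true := by decide +kernel
  have c1 : (band (go 16 Gd mult S82_140_364_512 (Tr.lf 9129067656 94981191 0) 0 128 0 64 0 64)
  (band (go 16 Gd mult S140_198_364_512 (Tr.lf 8599667844 90798792 0) 0 128 0 64 0 64)
  (go 16 Gd mult S82_140_364_512 (Tr.lf 547521154 103783366 0) 0 128 0 64 64 128))) = true := by decide +kernel
  have c2 : (band (go 16 Gd mult S82_140_512_660 (Tr.lf 9129068676 99175240 0) 0 128 0 32 0 128)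
  (go 16 Gd mult S82_140_660_808 (Tr.lf 9129068676 99167176 0) 0 128 0 32 0 128)) = true := by decide +kernel
  have c3 : (band (go 16 Gd mult S24_82_364_512 (Tr.lf 4834034824 107838661 0) 0 128 0 64 0 64)
  (band (go 16 Gd mult S24_82_512_660 (Tr.lf 4834034824 107838661 0) 0 128 0 64 0 64)
  (go 16 Gd mult S24_82_660_808 (Tr.lf 4834034824 107838661 0) 0 128 0 64 0 64))) = true := by decide +kernel
  have c4 : (go 16 Gd mult S140_169_216_364 (Tr.lf 8599521412 86596296 0) 0 128 0 64 0 128) = true := by decide +kernel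
  have c5 : (band (go 16 Gd mult S82_140_216_364 (Tr.lf 547652226 103783366 0) 0 128 0 64 64 128)
  (band (go 16 Gd mult S140_198_364_512 (Tr.lf 9732738 108109124 0) 0 128 0 64 64 128)
  (band (go 16 Gd mult S24_82_216_364 (Tr.lf 539050626 104037445 0) 0 128 0 64 64 128)
  (band (go 16 Gd mult S24_82_364_512 (Tr.lf 539050626 104037445 0) 0 128 0 64 64 128)
  (band (go 16 Gd mult S24_82_512_660 (Tr.lf 539050626 104037445 0) 0 128 0 64 64 128)
  (band (go 16 Gd mult S24_82_660_808 (Tr.lf 539050626 104037445 0) 0 128 0 64 64 128)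
  (go 16 Gd mult S169_198_216_364 (Tr.lf 9585218 112303428 0) 0 128 0 64 64 128))))))) = true := by decide +kernel
  have c6 : (go 16 Gd mult S169_198_216_364 (Tr.lf 8598594692 94992840 0) 0 128 0 64 0 64) = true := by decide +kernel
  have c7 : (band (go 16 Gd mult S82_140_660_808 (Tr.lf 547505217 103783621 0) 0 128 32 64 0 128)
  (go 16 Gd mult S82_140_512_660 (Tr.lf 547439681 112299205 0) 0 128 32 64 0 128)) = true := by decide +kernel
  (And.intro (Ok.s3 82 (Ok.s4 512 (Ok.s4 364 (Ok.s2 64 (Ok.lf S24_82_216_364_ok (br c0))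
  (Ok.lf S24_82_216_364_ok (bl (br (br c5)))))
  (Ok.s2 64 (Ok.lf S24_82_364_512_ok (bl c3))
  (Ok.lf S24_82_364_512_ok (bl (br (br (br c5)))))))
  (Ok.s4 660 (Ok.s2 64 (Ok.lf S24_82_512_660_ok (bl (br c3)))
  (Ok.lf S24_82_512_660_ok (bl (br (br (br (br c5)))))))
  (Ok.s2 64 (Ok.lf S24_82_660_808_ok (br (br c3)))
  (Ok.lf S24_82_660_808_ok (bl (br (br (br (br (br c5))))))))))
  (Ok.s4 512 (Ok.s4 364 (Ok.s2 64 (Ok.lf S82_140_216_364_ok (bl c0))
  (Ok.lf S82_140_216_364_ok (bl c5)))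
  (Ok.s2 64 (Ok.lf S82_140_364_512_ok (bl c1))
  (Ok.lf S82_140_364_512_ok (br (br c1)))))
  (Ok.s4 660 (Ok.s1 32 (Ok.lf S82_140_512_660_ok (bl c2))
  (Ok.lf S82_140_512_660_ok (br c7)))
  (Ok.s1 32 (Ok.lf S82_140_660_808_ok (br c2))
  (Ok.lf S82_140_660_808_ok (bl c7))))))
  (Ok.s4 364 (Ok.s3 169 (Ok.lf S140_169_216_364_ok c4)
  (Ok.s2 64 (Ok.lf S169_198_216_364_ok c6)
  (Ok.lf S169_198_216_364_ok (br (br (br (br (br (br c5)))))))))
  (Ok.s2 64 (Ok.lf S140_198_364_512_ok (bl (br c1)))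
  (Ok.lf S140_198_364_512_ok (bl (br c5))))))

end Vale.Agent.P098.Ck
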