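import Vale.Agent.P098.CkGd
import Vale.Agent.P098.CkOk
import Vale.Agent.P098.Sh.A0
import Vale.Agent.P098.Sh.A1

namespace Vale.Agent.P098.Ck

theorem r10 :
    Ok Gd mult 0 128 0 64 480 512 24 82 216 364 ∧
    Ok Gd mult 0 128 0 64 384 512 24 82 364 512 ∧
    Ok Gd mult 0 128 0 64 384 512 24 82 512 660 ∧
    Ok Gd mult 0 128 0 64 384 448 24 82 660 808 ∧
    Ok Gd mult 0 128 0 64 448 480 24 82 660 808 :=
  have c0 : (band (go 16 Gd mult S24_82_364_512 (Tr.lf 1076987012 99576903 0) 0 128 0 64 448 480)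
  (band (go 16 Gd mult S24_82_512_660 (Tr.lf 1076987012 99576903 0) 0 128 0 64 448 480)
  (band (go 16 Gd mult S24_82_660_808 (Tr.lf 1077052546 99576903 0) 0 128 0 64 448 480)
  (band (go 16 Gd mult S24_82_364_512 (Tr.lf 1690403970 99445833 0) 0 128 0 64 384 448)
  (go 16 Gd mult S24_82_512_660 (Tr.lf 1690403970 99445833 0) 0 128 0 64 384 448))))) = true := by decide +kernel
  have c1 : (band (go 16 Gd mult S53_82_364_512 (Tr.lf 9675293832 94862408 254281781568456089556287488) 0 128 32 64 496 512)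
  (band (go 16 Gd mult S53_82_216_364 (Tr.lf 9675359364 94862408 248231433979715858882101248) 0 128 32 64 496 512)
  (band (go 16 Gd mult S24_53_216_364 (Tr.lf 10203776132 107563849 462250558722894076954673152) 0 128 32 64 496 512)
  (band (go 16 Gd mult S24_53_364_512 (Tr.lf 10203776132 107563849 462250558722894076978135040) 0 128 32 64 496 512)
  (go 16 Gd mult S24_53_512_660 (Tr.lf 10203776132 107563849 462250558722894077031415808) 0 128 32 64 496 512))))) = true := by decide +kernel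
  have c2 : (band (go 16 Gd mult S24_82_364_512 (Tr.lf 1076986500 99568839 1069899350358946819614965760) 0 128 0 32 496 512)
  (band (go 16 Gd mult S24_82_216_364 (Tr.lf 1076986498 95374535 1069899350358946819614965760) 0 128 0 32 496 512)
  (band (go 16 Gd mult S24_82_512_660 (Tr.lf 1076986498 99568839 1069899350358946819614965760) 0 128 0 32 496 512)
  (band (go 16 Gd mult S24_82_216_364 (Tr.lf 1076986498 99568839 0) 0 128 0 32 480 496)
  (band (go 16 Gd mult S24_82_364_512 (Tr.lf 1076986434 99568839 0) 0 128 0 32 480 496)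
  (band (go 16 Gd mult S24_82_512_660 (Tr.lf 1076986434 99568839 0) 0 128 0 32 480 496)
  (go 16 Gd mult S24_82_216_364 (Tr.lf 5371953730 107699399 0) 0 128 32 64 480 496))))))) = true := by decide +kernel
  have c3 : (go 16 Gd mult S24_82_660_808 (Tr.lf 1690403970 99445833 0) 0 128 0 64 384 448) = true := by decide +kernel
  have c4 : (go 16 Gd mult S53_82_512_660 (Tr.lf 9683682436 95128648 259130508248226410358898688) 0 128 32 64 496 512) = true := by decide +kernel
  have c5 : (band (go 16 Gd mult S24_82_364_512 (Tr.lf 5371953730 107699399 0) 0 128 32 64 480 496)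
  (go 16 Gd mult S24_82_512_660 (Tr.lf 5371937348 107699399 0) 0 128 32 64 480 496)) = true := by decide +kernel
  (And.intro (Ok.s2 496 (Ok.s1 32 (Ok.lf S24_82_216_364_ok (bl (br (br (br c2)))))
  (Ok.lf S24_82_216_364_ok (br (br (br (br (br (br c2))))))))
  (Ok.s1 32 (Ok.lf S24_82_216_364_ok (bl (br c2)))
  (Ok.s3 53 (Ok.lf S24_53_216_364_ok (bl (br (br c1))))
  (Ok.lf S53_82_216_364_ok (bl (br c1))))))
  (And.intro (Ok.s2 448 (Ok.lf S24_82_364_512_ok (bl (br (br (br c0)))))
  (Ok.s2 480 (Ok.lf S24_82_364_512_ok (bl c0))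
  (Ok.s2 496 (Ok.s1 32 (Ok.lf S24_82_364_512_ok (bl (br (br (br (br c2))))))
  (Ok.lf S24_82_364_512_ok (bl c5)))
  (Ok.s1 32 (Ok.lf S24_82_364_512_ok (bl c2))
  (Ok.s3 53 (Ok.lf S24_53_364_512_ok (bl (br (br (br c1)))))
  (Ok.lf S53_82_364_512_ok (bl c1)))))))
  (And.intro (Ok.s2 448 (Ok.lf S24_82_512_660_ok (br (br (br (br c0)))))
  (Ok.s2 480 (Ok.lf S24_82_512_660_ok (bl (br c0)))
  (Ok.s2 496 (Ok.s1 32 (Ok.lf S24_82_512_660_ok (bl (br (br (br (br (br c2)))))))
  (Ok.lf S24_82_512_660_ok (br c5)))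
  (Ok.s1 32 (Ok.lf S24_82_512_660_ok (bl (br (br c2))))
  (Ok.s3 53 (Ok.lf S24_53_512_660_ok (br (br (br (br c1)))))
  (Ok.lf S53_82_512_660_ok c4))))))
  (And.intro (Ok.lf S24_82_660_808_ok c3)
  (Ok.lf S24_82_660_808_ok (bl (br (br c0))))))))

end Vale.Agent.P098.Ck
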