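import Vale.Agent.P098.CkGd
import Vale.Agent.P098.CkOk
import Vale.Agent.P098.Sh.A27
import Vale.Agent.P098.Sh.A29
import Vale.Agent.P098.Sh.A37
import Vale.Agent.P098.Sh.A38
import Vale.Agent.P098.Sh.A43

namespace Vale.Agent.P098.Ck

theorem r100 :
    Ok Gd mult 0 128 192 224 128 256 198 256 512 660 ∧
    Ok Gd mult 0 128 224 256 128 256 198 256 512 660 ∧
    Ok Gd mult 0 128 192 256 128 256 198 256 660 808 ∧
    Ok Gd mult 0 128 192 224 128 256 256 314 216 364 :=
  have c0 : (go 16 Gd mult S198_227_512_660 (Tr.lf 17734076484 103778888 0) 64 128 240 256 128 256) = true := by decide +kernel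
  have c1 : (go 16 Gd mult S227_256_512_660 (Tr.lf 17734076484 103778888 0) 96 128 240 256 128 256) = true := by decide +kernel
  have c2 : (go 16 Gd mult S198_227_660_808 (Tr.lf 13430704260 108104518 0) 64 128 224 256 128 256) = true := by decide +kernel
  have c3 : (go 16 Gd mult S227_256_660_808 (Tr.lf 13430704260 108104518 0) 64 128 224 256 128 256) = true := by decide +kernel
  have c4 : (go 16 Gd mult S227_256_512_660 (Tr.lf 13430704258 108100550 0) 64 96 224 256 128 256) = true := by decide +kernel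
  have c5 : (go 16 Gd mult S198_256_512_660 (Tr.lf 8590231618 104029253 1540171494189037568575668224) 0 32 224 256 128 256) = true := by decide +kernel
  have c6 : (band (go 16 Gd mult S198_227_512_660 (Tr.lf 9136523332 103906502 0) 0 128 192 224 128 256)
  (band (go 16 Gd mult S198_227_660_808 (Tr.lf 13431489608 95251272 0) 0 128 192 224 128 256)
  (band (go 16 Gd mult S256_314_216_364 (Tr.lf 13505954884 95648456 0) 0 128 192 224 128 256)
  (go 16 Gd mult S227_256_512_660 (Tr.lf 8598602820 95517638 0) 0 128 192 224 128 256)))) = true := by decide +kernel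
  have c7 : (go 16 Gd mult S198_227_512_660 (Tr.lf 13439879236 108100679 0) 64 128 224 240 128 256) = true := by decide +kernel
  have c8 : (go 16 Gd mult S227_256_660_808 (Tr.lf 8598602820 95521606 0) 0 128 192 224 128 256) = true := by decide +kernel
  have c9 : (band (go 16 Gd mult S227_256_512_660 (Tr.lf 13438830626 108100423 0) 96 128 224 240 128 256)
  (band (go 16 Gd mult S227_256_512_660 (Tr.lf 12893570114 95517383 344543858590169314791260160) 32 64 224 256 128 256)
  (go 16 Gd mult S198_227_512_660 (Tr.lf 12893561922 99580870 413452630308203177749512192) 32 64 224 256 128 256))) = true := by decide +kernel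
  have c10 : (band (go 16 Gd mult S198_227_660_808 (Tr.lf 12885173316 95247047 1424114615506033167803875328) 0 64 224 256 128 256)
  (go 16 Gd mult S227_256_660_808 (Tr.lf 12885173316 99310279 1436203873702179459550937088) 0 64 224 256 128 256)) = true := by decide +kernel
  (And.intro (Ok.s3 227 (Ok.lf S198_227_512_660_ok (bl c6))
  (Ok.lf S227_256_512_660_ok (br (br (br c6)))))
  (And.intro (Ok.s0 64 (Ok.s0 32 (Ok.lf S198_256_512_660_ok c5)
  (Ok.s3 227 (Ok.lf S198_227_512_660_ok (br (br c9)))
  (Ok.lf S227_256_512_660_ok (bl (br c9)))))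
  (Ok.s3 227 (Ok.s1 240 (Ok.lf S198_227_512_660_ok c7)
  (Ok.lf S198_227_512_660_ok c0))
  (Ok.s0 96 (Ok.lf S227_256_512_660_ok c4)
  (Ok.s1 240 (Ok.lf S227_256_512_660_ok (bl c9))
  (Ok.lf S227_256_512_660_ok c1)))))
  (And.intro (Ok.s1 224 (Ok.s3 227 (Ok.lf S198_227_660_808_ok (bl (br c6)))
  (Ok.lf S227_256_660_808_ok c8))
  (Ok.s3 227 (Ok.s0 64 (Ok.lf S198_227_660_808_ok (bl c10))
  (Ok.lf S198_227_660_808_ok c2))
  (Ok.s0 64 (Ok.lf S227_256_660_808_ok (br c10))
  (Ok.lf S227_256_660_808_ok c3))))
  (Ok.lf S256_314_216_364_ok (bl (br (br c6)))))))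

end Vale.Agent.P098.Ck
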