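import Vale.Agent.P098.CkGd
import Vale.Agent.P098.CkOk
import Vale.Agent.P098.Sh.A41
import Vale.Agent.P098.Sh.A42
import Vale.Agent.P098.Sh.A43
import Vale.Agent.P098.Sh.A44
import Vale.Agent.P098.Sh.A45
import Vale.Agent.P098.Sh.A46

namespace Vale.Agent.P098.Ck

theorem r101 :
    Ok Gd mult 0 64 224 256 128 256 256 314 216 364 ∧
    Ok Gd mult 64 128 224 256 128 256 256 314 216 364 ∧
    Ok Gd mult 0 128 192 256 128 256 256 314 364 512 ∧
    Ok Gd mult 0 128 192 256 128 256 256 314 512 660 :=
  have c0 : (go 16 Gd mult S256_285_364_512 (Tr.lf 22641395784 99580362 0) 64 128 240 256 128 256) = true := by decide +kernel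
  have c1 : (band (go 16 Gd mult S256_314_216_364 (Tr.lf 8590493732 104164166 524673805712749061822480384) 0 64 224 240 128 256)
  (band (go 16 Gd mult S256_314_364_512 (Tr.lf 8590231588 104033094 973185284789776485638471680) 0 64 224 240 128 256)
  (go 16 Gd mult S256_314_216_364 (Tr.lf 8590493730 99576901 1567990678650693104144859002) 0 16 240 256 128 256))) = true := by decide +kernel
  have c2 : (band (go 16 Gd mult S256_285_216_364 (Tr.lf 13430704196 108227399 89460510651482558928257024) 64 128 224 256 128 256)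
  (band (go 16 Gd mult S256_285_512_586 (Tr.lf 17725409412 99310025 0) 64 128 224 256 128 256)
  (go 16 Gd mult S256_285_586_660 (Tr.lf 13430310980 103644102 0) 64 128 224 256 128 256))) = true := by decide +kernel
  have c3 : (band (go 16 Gd mult S256_314_364_512 (Tr.lf 8590231620 99703750 0) 0 128 192 224 128 256)
  (go 16 Gd mult S256_314_512_660 (Tr.lf 8590231620 99441606 0) 0 128 192 224 128 256)) = true := by decide +kernel
  have c4 : (band (go 16 Gd mult S285_314_216_364 (Tr.lf 12893571140 99576647 0) 64 128 224 256 128 256)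
  (band (go 16 Gd mult S285_314_364_512 (Tr.lf 12893571140 99445575 0) 64 128 224 256 128 256)
  (band (go 16 Gd mult S285_314_512_660 (Tr.lf 12893561924 91060935 0) 64 128 224 256 128 256)
  (go 16 Gd mult S285_314_512_660 (Tr.lf 12885173316 91044679 1432577096243335572026818560) 0 64 224 256 128 256)))) = true := by decide +kernel
  have c5 : (go 16 Gd mult S256_285_512_660 (Tr.lf 12893571140 99314503 1402353950752969842659164160) 0 64 224 256 128 256) = true := by decide +kernel
  have c6 : (band (go 16 Gd mult S256_314_216_364 (Tr.lf 12885198882 99703495 330036748754793764694786048) 32 64 240 256 128 256)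
  (go 16 Gd mult S256_314_216_364 (Tr.lf 8590230561 108231621 657655645870358271040159744) 16 32 240 256 128 256)) = true := by decide +kernel
  have c7 : (band (go 16 Gd mult S256_285_364_512 (Tr.lf 12893571108 99703623 1472471648290618334792122368) 0 64 240 256 128 256)
  (band (go 16 Gd mult S285_314_364_512 (Tr.lf 12885173284 103635655 1563141084761715522895085568) 0 64 240 256 128 256)
  (go 16 Gd mult S256_285_364_512 (Tr.lf 13430440994 112159559 0) 64 128 224 240 128 256))) = true := by decide +kernel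
  (And.intro (Ok.s1 240 (Ok.lf S256_314_216_364_ok (bl c1))
  (Ok.s0 32 (Ok.s0 16 (Ok.lf S256_314_216_364_ok (br (br c1)))
  (Ok.lf S256_314_216_364_ok (br c6)))
  (Ok.lf S256_314_216_364_ok (bl c6))))
  (And.intro (Ok.s3 285 (Ok.lf S256_285_216_364_ok (bl c2))
  (Ok.lf S285_314_216_364_ok (bl c4)))
  (And.intro (Ok.s1 224 (Ok.lf S256_314_364_512_ok (bl c3))
  (Ok.s0 64 (Ok.s1 240 (Ok.lf S256_314_364_512_ok (bl (br c1)))
  (Ok.s3 285 (Ok.lf S256_285_364_512_ok (bl c7))
  (Ok.lf S285_314_364_512_ok (bl (br c7)))))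
  (Ok.s3 285 (Ok.s1 240 (Ok.lf S256_285_364_512_ok (br (br c7)))
  (Ok.lf S256_285_364_512_ok c0))
  (Ok.lf S285_314_364_512_ok (bl (br c4))))))
  (Ok.s1 224 (Ok.lf S256_314_512_660_ok (br c3))
  (Ok.s0 64 (Ok.s3 285 (Ok.lf S256_285_512_660_ok c5)
  (Ok.lf S285_314_512_660_ok (br (br (br c4)))))
  (Ok.s3 285 (Ok.s4 586 (Ok.lf S256_285_512_586_ok (bl (br c2)))
  (Ok.lf S256_285_586_660_ok (br (br c2))))
  (Ok.lf S285_314_512_660_ok (bl (br (br c4))))))))))

end Vale.Agent.P098.Ck
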