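import Vale.Agent.P098.CkGd
import Vale.Agent.P098.CkOk
import Vale.Agent.P098.Sh.A42
import Vale.Agent.P098.Sh.A44
import Vale.Agent.P098.Sh.A46
import Vale.Agent.P098.Sh.A49
import Vale.Agent.P098.Sh.A50
import Vale.Agent.P098.Sh.A52

namespace Vale.Agent.P098.Ck

theorem r102 :
    Ok Gd mult 0 128 192 256 128 256 256 314 660 808 ∧
    Ok Gd mult 0 128 192 256 128 256 314 372 216 808 :=
  have c0 : (band (go 16 Gd mult S256_285_660_808 (Tr.lf 12893833288 86866631 1051765463064727381994373120) 0 128 224 256 128 256)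
  (go 16 Gd mult S285_314_660_808 (Tr.lf 8598602820 99589061 1036049427409737202723192832) 0 128 224 256 128 256)) = true := by decide +kernel
  have c1 : (band (go 16 Gd mult S314_372_660_808 (Tr.lf 8591280200 103775174 1699749702378168619636883456) 0 64 240 256 128 256)
  (go 16 Gd mult S314_372_512_660 (Tr.lf 8591280164 103775174 1601826710989383656485683200) 0 64 240 256 128 256)) = true := by decide +kernel
  have c2 : (band (go 16 Gd mult S314_372_512_660 (Tr.lf 8590231592 99834694 670953829886119191961927680) 0 128 224 240 128 256)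
  (go 16 Gd mult S314_372_660_808 (Tr.lf 8590231592 108092230 672162755705733821136633856) 0 128 224 240 128 256)) = true := by decide +kernel
  have c3 : (band (go 16 Gd mult S256_314_660_808 (Tr.lf 8590231620 95378246 0) 0 128 192 224 128 256)
  (band (go 16 Gd mult S314_372_660_808 (Tr.lf 8590231620 99568327 0) 0 128 192 224 128 256)
  (go 16 Gd mult S314_372_364_512 (Tr.lf 8590099524 95247047 0) 0 128 192 224 128 256))) = true := by decide +kernel
  have c4 : (band (go 16 Gd mult S314_372_216_364 (Tr.lf 12893587524 103901895 0) 64 128 240 256 128 256)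
  (band (go 16 Gd mult S314_372_512_660 (Tr.lf 12886247492 99699655 0) 64 128 240 256 128 256)
  (go 16 Gd mult S343_372_660_808 (Tr.lf 12886098978 99699655 0) 64 128 240 256 128 256))) = true := by decide +kernel
  have c5 : (band (go 16 Gd mult S314_372_216_364 (Tr.lf 8590230568 107965254 664909200788046046088396800) 0 128 224 240 128 256)
  (band (go 16 Gd mult S314_372_364_512 (Tr.lf 8590230568 103770950 667327052427275304437809152) 0 128 224 240 128 256)
  (band (go 16 Gd mult S314_372_364_512 (Tr.lf 12886247460 99699655 0) 64 128 240 256 128 256)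
  (go 16 Gd mult S314_343_660_808 (Tr.lf 12885042210 99445319 0) 64 128 240 256 128 256)))) = true := by decide +kernel
  have c6 : (band (go 16 Gd mult S314_372_216_364 (Tr.lf 8590230596 95378119 0) 0 128 192 224 128 256)
  (band (go 16 Gd mult S314_372_512_660 (Tr.lf 8590099524 99568327 0) 0 128 192 224 128 256)
  (band (go 16 Gd mult S314_372_216_364 (Tr.lf 8590230564 103897926 1520828681075203501780369408) 0 64 240 256 128 256)
  (go 16 Gd mult S314_372_364_512 (Tr.lf 8590230564 99711686 1541380420008652197750374400) 0 64 240 256 128 256)))) = true := by decide +kernel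
  (And.intro (Ok.s1 224 (Ok.lf S256_314_660_808_ok (bl c3))
  (Ok.s3 285 (Ok.lf S256_285_660_808_ok (bl c0))
  (Ok.lf S285_314_660_808_ok (br c0))))
  (Ok.s4 512 (Ok.s4 364 (Ok.s1 224 (Ok.lf S314_372_216_364_ok (bl c6))
  (Ok.s1 240 (Ok.lf S314_372_216_364_ok (bl c5))
  (Ok.s0 64 (Ok.lf S314_372_216_364_ok (bl (br (br c6))))
  (Ok.lf S314_372_216_364_ok (bl c4)))))
  (Ok.s1 224 (Ok.lf S314_372_364_512_ok (br (br c3)))
  (Ok.s1 240 (Ok.lf S314_372_364_512_ok (bl (br c5)))
  (Ok.s0 64 (Ok.lf S314_372_364_512_ok (br (br (br c6))))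
  (Ok.lf S314_372_364_512_ok (bl (br (br c5))))))))
  (Ok.s4 660 (Ok.s1 224 (Ok.lf S314_372_512_660_ok (bl (br c6)))
  (Ok.s1 240 (Ok.lf S314_372_512_660_ok (bl c2))
  (Ok.s0 64 (Ok.lf S314_372_512_660_ok (br c1))
  (Ok.lf S314_372_512_660_ok (bl (br c4))))))
  (Ok.s1 224 (Ok.lf S314_372_660_808_ok (bl (br c3)))
  (Ok.s1 240 (Ok.lf S314_372_660_808_ok (br c2))
  (Ok.s0 64 (Ok.lf S314_372_660_808_ok (bl c1))
  (Ok.s3 343 (Ok.lf S314_343_660_808_ok (br (br (br c5))))
  (Ok.lf S343_372_660_808_ok (br (br c4))))))))))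

end Vale.Agent.P098.Ck
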