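import Vale.Agent.P098.CkGd
import Vale.Agent.P098.CkOk
import Vale.Agent.P098.Sh.A54
import Vale.Agent.P098.Sh.A55
import Vale.Agent.P098.Sh.A56

namespace Vale.Agent.P098.Ck

theorem r103 :
    Ok Gd mult 0 128 192 224 128 256 372 430 216 364 ∧
    Ok Gd mult 0 128 224 256 128 256 372 430 216 364 ∧
    Ok Gd mult 0 128 192 256 128 256 372 430 364 512 ∧
    Ok Gd mult 0 128 192 224 128 256 372 430 512 660 ∧
    Ok Gd mult 0 64 224 240 128 256 372 430 512 660 :=
  have c0 : (band (go 16 Gd mult S372_430_216_364 (Tr.lf 13424166984 99695688 564568357760031824587784192) 0 128 224 240 128 256)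
  (band (go 16 Gd mult S401_430_364_512 (Tr.lf 13423953960 99703752 568195135218875712111902720) 0 128 224 240 128 256)
  (go 16 Gd mult S372_401_364_512 (Tr.lf 13422969892 107952968 654028868411514383516041216) 0 128 224 240 128 256))) = true := by decide +kernel
  have c1 : (band (go 16 Gd mult S372_430_216_364 (Tr.lf 18264393800 107956938 53192736063043683687071744) 64 128 240 256 128 256)
  (band (go 16 Gd mult S401_430_364_512 (Tr.lf 18264180772 103770698 42312403686512021114716160) 64 128 240 256 128 256)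
  (go 16 Gd mult S372_401_364_512 (Tr.lf 13422969892 108219080 0) 64 128 240 256 128 256))) = true := by decide +kernel
  have c2 : (band (go 16 Gd mult S372_430_364_512 (Tr.lf 9129068616 103767239 0) 0 128 192 224 128 256)
  (band (go 16 Gd mult S372_430_512_660 (Tr.lf 9129068616 99572935 0) 0 128 192 224 128 256)
  (go 16 Gd mult S372_430_512_660 (Tr.lf 8591148068 99834950 573030838497334228810727424) 0 64 224 240 128 256))) = true := by decide +kernel
  have c3 : (go 16 Gd mult S372_430_216_364 (Tr.lf 9129199684 103767239 0) 0 128 192 224 128 256) = true := by decide +kernel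
  have c4 : (band (go 16 Gd mult S401_430_216_364 (Tr.lf 9668036644 95378250 1430622589943424401440309277) 0 32 248 256 192 256)
  (go 16 Gd mult S372_401_216_364 (Tr.lf 9127993873 103902150 1842711286441560490614194176) 0 32 248 256 192 256)) = true := by decide +kernel
  have c5 : (band (go 16 Gd mult S372_430_364_512 (Tr.lf 8591147556 112422085 1126718863880834390826156032) 0 64 240 256 128 192)
  (band (go 16 Gd mult S372_430_364_512 (Tr.lf 9129067025 104033223 1207835893762707743611617309) 0 32 240 248 192 256)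
  (band (go 16 Gd mult S372_430_216_364 (Tr.lf 9129067025 104033223 1201776820842351185396498432) 0 32 240 248 192 256)
  (go 16 Gd mult S372_430_364_512 (Tr.lf 9129066769 103902151 1651665478499852317532094464) 0 32 248 256 192 224)))) = true := by decide +kernel
  have c6 : (band (go 16 Gd mult S372_430_216_364 (Tr.lf 8591131682 108227526 360259894245159494062440448) 32 64 240 256 128 256)
  (go 16 Gd mult S372_430_216_364 (Tr.lf 4834083361 91331399 1346745336895950011757428765) 0 32 240 256 128 192)) = true := by decide +kernel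
  have c7 : (band (go 16 Gd mult S372_430_364_512 (Tr.lf 9127936546 99711942 396527668833598369303625728) 32 64 240 256 192 256)
  (go 16 Gd mult S372_430_364_512 (Tr.sp 0 16 Tr.skip (Tr.lf 9128984849 107965638 939739530003221845022605312)) 0 32 248 256 224 256)) = true := by decide +kernel
  (And.intro (Ok.lf S372_430_216_364_ok c3)
  (And.intro (Ok.s1 240 (Ok.lf S372_430_216_364_ok (bl c0))
  (Ok.s0 64 (Ok.s0 32 (Ok.s2 192 (Ok.lf S372_430_216_364_ok (br c6))
  (Ok.s1 248 (Ok.lf S372_430_216_364_ok (bl (br (br c5))))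
  (Ok.s3 401 (Ok.lf S372_401_216_364_ok (br c4))
  (Ok.lf S401_430_216_364_ok (bl c4)))))
  (Ok.lf S372_430_216_364_ok (bl c6)))
  (Ok.lf S372_430_216_364_ok (bl c1))))
  (And.intro (Ok.s1 224 (Ok.lf S372_430_364_512_ok (bl c2))
  (Ok.s1 240 (Ok.s3 401 (Ok.lf S372_401_364_512_ok (br (br c0)))
  (Ok.lf S401_430_364_512_ok (bl (br c0))))
  (Ok.s0 64 (Ok.s2 192 (Ok.lf S372_430_364_512_ok (bl c5))
  (Ok.s0 32 (Ok.s1 248 (Ok.lf S372_430_364_512_ok (bl (br c5)))
  (Ok.s2 224 (Ok.lf S372_430_364_512_ok (br (br (br c5))))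
  (Ok.lf S372_430_364_512_ok (br c7))))
  (Ok.lf S372_430_364_512_ok (bl c7))))
  (Ok.s3 401 (Ok.lf S372_401_364_512_ok (br (br c1)))
  (Ok.lf S401_430_364_512_ok (bl (br c1)))))))
  (And.intro (Ok.lf S372_430_512_660_ok (bl (br c2)))
  (Ok.lf S372_430_512_660_ok (br (br c2)))))))

end Vale.Agent.P098.Ck
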