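import Vale.Agent.P098.CkGd
import Vale.Agent.P098.CkOk
import Vale.Agent.P098.Sh.A54
import Vale.Agent.P098.Sh.A55
import Vale.Agent.P098.Sh.A57
import Vale.Agent.P098.Sh.A58

namespace Vale.Agent.P098.Ck

theorem r104 :
    Ok Gd mult 0 64 240 256 128 192 372 430 512 660 ∧
    Ok Gd mult 0 64 240 256 192 256 372 430 512 660 ∧
    Ok Gd mult 64 128 224 256 128 256 372 430 512 660 ∧
    Ok Gd mult 0 128 192 256 128 256 372 430 660 808 ∧
    Ok Gd mult 0 128 192 224 128 256 430 488 216 364 ∧
    Ok Gd mult 0 128 224 240 128 256 430 488 216 364 :=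
  have c0 : (band (go 16 Gd mult S430_488_216_364 (Tr.lf 13424035912 99703752 304649306542886552025956352) 0 128 224 240 128 256)
  (band (go 16 Gd mult S430_488_216_364 (Tr.lf 9129068612 104033351 0) 0 128 192 224 128 256)
  (band (go 16 Gd mult S372_401_660_808 (Tr.lf 8591131716 103635911 0) 0 128 192 224 128 256)
  (go 16 Gd mult S401_430_660_808 (Tr.lf 9129051204 104033351 0) 0 128 192 224 128 256)))) = true := by decide +kernel
  have c1 : (band (go 16 Gd mult S372_401_512_660 (Tr.lf 13422970948 103897800 0) 64 128 224 256 128 256)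
  (band (go 16 Gd mult S372_401_660_808 (Tr.lf 13422970948 99703496 0) 64 128 224 256 128 256)
  (band (go 16 Gd mult S401_430_660_808 (Tr.lf 18264246340 103635658 0) 64 128 224 256 128 256)
  (go 16 Gd mult S401_430_512_660 (Tr.lf 18264180804 99441354 20551738933448695970004992) 64 128 224 256 128 256)))) = true := by decide +kernel
  have c2 : (band (go 16 Gd mult S372_430_660_808 (Tr.lf 8591148100 108227781 1138808122076980682573217792) 0 64 240 256 128 192)
  (band (go 16 Gd mult S372_430_660_808 (Tr.lf 8591148068 99834950 569404061038490341286608896) 0 64 224 240 128 256)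
  (band (go 16 Gd mult S372_430_660_808 (Tr.lf 9128018465 103906246 455765033994715198864228352) 32 64 240 256 192 256)
  (band (go 16 Gd mult S372_430_512_660 (Tr.lf 9127952929 103906246 426750814323964098671280128) 32 64 240 256 192 256)
  (band (go 16 Gd mult S372_430_660_808 (Tr.lf 9129067025 103902151 954065326791096903936245760) 16 32 248 256 192 256)
  (band (go 16 Gd mult S372_430_512_660 (Tr.lf 9129001489 103902151 928668070911342477785956352) 16 32 248 256 192 256)
  (band (go 16 Gd mult S372_430_660_808 (Tr.sp 2 224 (Tr.lf 9129066769 103902406 2107948441719762285152436224) Tr.skip) 0 16 248 256 192 256)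
  (go 16 Gd mult S372_430_512_660 (Tr.sp 2 224 (Tr.lf 9129001233 103902406 2068020390398470989746798592) Tr.skip) 0 16 248 256 192 256)))))))) = true := by decide +kernel
  have c3 : (band (go 16 Gd mult S372_430_512_660 (Tr.lf 8591147554 104033477 1408416768397839210978803741) 0 32 240 256 128 192)
  (band (go 16 Gd mult S372_430_512_660 (Tr.lf 9129067026 104033223 1198180037811044722810028032) 0 32 240 248 192 256)
  (band (go 16 Gd mult S401_430_660_808 (Tr.lf 4834017809 91327558 1227199422561692212376109056) 0 32 240 248 192 256)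
  (go 16 Gd mult S372_401_660_808 (Tr.lf 8591122961 103902150 1794125311102765715498729501) 0 32 240 248 192 256)))) = true := by decide +kernel
  have c4 : (go 16 Gd mult S372_430_512_660 (Tr.lf 8591065634 108235845 518629176614675915948949504) 32 64 240 256 128 192) = true := by decide +kernel
  (And.intro (Ok.s0 32 (Ok.lf S372_430_512_660_ok (bl c3))
  (Ok.lf S372_430_512_660_ok c4))
  (And.intro (Ok.s0 32 (Ok.s1 248 (Ok.lf S372_430_512_660_ok (bl (br c3)))
  (Ok.s0 16 (Ok.lf S372_430_512_660_ok (br (br (br (br (br (br (br c2))))))))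
  (Ok.lf S372_430_512_660_ok (bl (br (br (br (br (br c2)))))))))
  (Ok.lf S372_430_512_660_ok (bl (br (br (br c2))))))
  (And.intro (Ok.s3 401 (Ok.lf S372_401_512_660_ok (bl c1))
  (Ok.lf S401_430_512_660_ok (br (br (br c1)))))
  (And.intro (Ok.s1 224 (Ok.s3 401 (Ok.lf S372_401_660_808_ok (bl (br (br c0))))
  (Ok.lf S401_430_660_808_ok (br (br (br c0)))))
  (Ok.s0 64 (Ok.s1 240 (Ok.lf S372_430_660_808_ok (bl (br c2)))
  (Ok.s2 192 (Ok.lf S372_430_660_808_ok (bl c2))
  (Ok.s0 32 (Ok.s1 248 (Ok.s3 401 (Ok.lf S372_401_660_808_ok (br (br (br c3))))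
  (Ok.lf S401_430_660_808_ok (bl (br (br c3)))))
  (Ok.s0 16 (Ok.lf S372_430_660_808_ok (bl (br (br (br (br (br (br c2))))))))
  (Ok.lf S372_430_660_808_ok (bl (br (br (br (br c2))))))))
  (Ok.lf S372_430_660_808_ok (bl (br (br c2)))))))
  (Ok.s3 401 (Ok.lf S372_401_660_808_ok (bl (br c1)))
  (Ok.lf S401_430_660_808_ok (bl (br (br c1)))))))
  (And.intro (Ok.lf S430_488_216_364_ok (bl (br c0)))
  (Ok.lf S430_488_216_364_ok (bl c0)))))))

end Vale.Agent.P098.Ck
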