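import Vale.Agent.P098.CkGd
import Vale.Agent.P098.CkOk
import Vale.Agent.P098.Sh.A58
import Vale.Agent.P098.Sh.A59

namespace Vale.Agent.P098.Ck

theorem r105 :
    Ok Gd mult 0 64 240 256 128 256 430 488 216 364 ∧
    Ok Gd mult 64 128 240 256 128 256 430 488 216 364 ∧
    Ok Gd mult 0 128 192 256 128 256 430 488 364 512 ∧
    Ok Gd mult 0 128 192 256 128 256 430 488 512 660 :=
  have c0 : (band (go 16 Gd mult S430_488_364_512 (Tr.lf 13423970376 107969352 309485009821345068724781056) 0 128 224 240 128 256)
  (band (go 16 Gd mult S430_488_512_660 (Tr.lf 13423970376 107969352 313111787280188956248899584) 0 128 224 240 128 256)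
  (band (go 16 Gd mult S430_488_364_512 (Tr.lf 9129003076 99839047 0) 0 128 192 224 128 256)
  (go 16 Gd mult S430_488_364_512 (Tr.lf 18256857124 103762762 206726315154101588874756096) 64 128 240 256 128 256)))) = true := by decide +kernel
  have c1 : (band (go 16 Gd mult S430_488_512_660 (Tr.lf 9129003076 99839047 0) 0 128 192 224 128 256)
  (band (go 16 Gd mult S430_488_512_660 (Tr.lf 18265245732 103770954 206726315154101588874756096) 64 128 240 256 128 256)
  (band (go 16 Gd mult S430_488_216_364 (Tr.lf 18256857124 99568458 206726315154101588874756096) 64 128 240 256 128 256)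
  (band (go 16 Gd mult S430_488_512_660 (Tr.lf 5371953700 91188168 687874032378291467910448072) 0 32 248 256 224 256)
  (band (go 16 Gd mult S430_488_364_512 (Tr.lf 5371953700 91188168 649188055472205894644465944) 0 32 248 256 224 256)
  (go 16 Gd mult S430_488_216_364 (Tr.lf 13423969297 90913481 2152906182306649874712494080) 0 16 248 256 192 256)))))) = true := by decide +kernel
  have c2 : (band (go 16 Gd mult S430_488_216_364 (Tr.lf 13423952420 108100551 13298184015760920921767936) 0 64 240 256 128 192)
  (band (go 16 Gd mult S430_488_364_512 (Tr.lf 13423952420 108100551 55610587702272942036484096) 0 64 240 256 128 192)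
  (band (go 16 Gd mult S430_488_512_660 (Tr.lf 13423952420 108100551 96714065569170333976494080) 0 64 240 256 128 192)
  (band (go 16 Gd mult S430_488_216_364 (Tr.lf 9128985105 103906374 652911475344156275461062656) 0 16 240 248 192 256)
  (band (go 16 Gd mult S430_488_216_364 (Tr.lf 9128985105 104037446 175345968522666686239735808) 16 32 240 256 192 256)
  (band (go 16 Gd mult S430_488_216_364 (Tr.lf 9128985105 99847238 45939181145355908638834688) 32 64 240 256 192 256)
  (band (go 16 Gd mult S430_488_364_512 (Tr.lf 9128985105 99847238 45939181145355908638834688) 32 64 240 256 192 256)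
  (go 16 Gd mult S430_488_512_660 (Tr.lf 9128985105 99847238 45939181145355908638834688) 32 64 240 256 192 256)))))))) = true := by decide +kernel
  have c3 : (band (go 16 Gd mult S430_488_364_512 (Tr.lf 4834017809 95656902 446149096805390584412897280) 0 32 240 248 192 256)
  (band (go 16 Gd mult S430_488_512_660 (Tr.lf 4834017809 91462598 467925644196938599161987072) 0 32 240 248 192 256)
  (band (go 16 Gd mult S430_488_364_512 (Tr.lf 4834017553 91331526 428151180466805134034010141) 0 32 248 256 192 224)
  (go 16 Gd mult S430_488_512_660 (Tr.lf 9128984849 99720134 469287844021224455320633344) 0 32 248 256 192 224)))) = true := by decide +kernel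
  (And.intro (Ok.s2 192 (Ok.lf S430_488_216_364_ok (bl c2))
  (Ok.s0 32 (Ok.s0 16 (Ok.s1 248 (Ok.lf S430_488_216_364_ok (bl (br (br (br c2)))))
  (Ok.lf S430_488_216_364_ok (br (br (br (br (br c1)))))))
  (Ok.lf S430_488_216_364_ok (bl (br (br (br (br c2)))))))
  (Ok.lf S430_488_216_364_ok (bl (br (br (br (br (br c2)))))))))
  (And.intro (Ok.lf S430_488_216_364_ok (bl (br (br c1))))
  (And.intro (Ok.s1 224 (Ok.lf S430_488_364_512_ok (bl (br (br c0))))
  (Ok.s1 240 (Ok.lf S430_488_364_512_ok (bl c0))
  (Ok.s0 64 (Ok.s2 192 (Ok.lf S430_488_364_512_ok (bl (br c2)))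
  (Ok.s0 32 (Ok.s1 248 (Ok.lf S430_488_364_512_ok (bl c3))
  (Ok.s2 224 (Ok.lf S430_488_364_512_ok (bl (br (br c3))))
  (Ok.lf S430_488_364_512_ok (bl (br (br (br (br c1))))))))
  (Ok.lf S430_488_364_512_ok (bl (br (br (br (br (br (br c2))))))))))
  (Ok.lf S430_488_364_512_ok (br (br (br c0)))))))
  (Ok.s1 224 (Ok.lf S430_488_512_660_ok (bl c1))
  (Ok.s1 240 (Ok.lf S430_488_512_660_ok (bl (br c0)))
  (Ok.s0 64 (Ok.s2 192 (Ok.lf S430_488_512_660_ok (bl (br (br c2))))
  (Ok.s0 32 (Ok.s1 248 (Ok.lf S430_488_512_660_ok (bl (br c3)))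
  (Ok.s2 224 (Ok.lf S430_488_512_660_ok (br (br (br c3))))
  (Ok.lf S430_488_512_660_ok (bl (br (br (br c1)))))))
  (Ok.lf S430_488_512_660_ok (br (br (br (br (br (br (br c2))))))))))
  (Ok.lf S430_488_512_660_ok (bl (br c1)))))))))

end Vale.Agent.P098.Ck
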