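import Vale.Agent.P098.CkGd
import Vale.Agent.P098.CkOk
import Vale.Agent.P098.Sh.A0
import Vale.Agent.P098.Sh.A1
import Vale.Agent.P098.Sh.A59

namespace Vale.Agent.P098.Ck

theorem r106 :
    Ok Gd mult 0 128 192 224 128 256 430 488 660 808 ∧
    Ok Gd mult 0 128 224 256 128 256 430 488 660 808 ∧
    Ok Gd mult 0 128 192 256 256 384 24 82 216 512 ∧
    Ok Gd mult 0 128 192 256 256 384 24 82 512 660 :=
  have c0 : (band (go 16 Gd mult S24_82_216_364 (Tr.lf 13424035976 94989255 863173035204845230740209664) 0 128 192 224 320 384)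
  (go 16 Gd mult S24_82_512_660 (Tr.lf 13423969352 94989255 841412370451781905595498496) 0 128 192 224 320 384)) = true := by decide +kernel
  have c1 : (go 16 Gd mult S24_82_512_660 (Tr.lf 9129068680 112028742 1952415198677626117150474240) 0 128 224 256 256 384) = true := by decide +kernel
  have c2 : (band (go 16 Gd mult S430_488_660_808 (Tr.lf 13424035912 99711816 315529638919418214598311936) 0 128 224 240 128 256)
  (band (go 16 Gd mult S430_488_660_808 (Tr.lf 9129068612 104033351 0) 0 128 192 224 128 256)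
  (go 16 Gd mult S430_488_660_808 (Tr.lf 5372019236 91188168 703588629274783899788838131) 0 32 248 256 224 256))) = true := by decide +kernel
  have c3 : (band (go 16 Gd mult S24_82_216_364 (Tr.lf 13424034952 91052999 0) 0 128 192 224 256 320)
  (band (go 16 Gd mult S24_82_512_660 (Tr.lf 13423969352 91052999 0) 0 128 192 224 256 320)
  (go 16 Gd mult S24_82_364_512 (Tr.lf 13423969352 91052999 0) 0 128 192 224 256 320))) = true := by decide +kernel
  have c4 : (band (go 16 Gd mult S53_82_364_512 (Tr.lf 13432423560 90925896 1623587375742446981630394368) 0 128 192 256 320 384)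
  (go 16 Gd mult S24_53_364_512 (Tr.lf 9128985736 107834438 1294759552807267846110314496) 0 128 192 256 320 384)) = true := by decide +kernel
  have c5 : (band (go 16 Gd mult S24_82_216_364 (Tr.lf 9129002056 107842757 1858118984747685041523392512) 0 128 224 256 256 320)
  (band (go 16 Gd mult S24_82_364_512 (Tr.lf 9129002056 112028997 1848447578190768008125743104) 0 128 224 256 256 320)
  (go 16 Gd mult S24_82_216_364 (Tr.lf 9129002056 103640134 2367076754805443924074692608) 0 128 224 256 320 384))) = true := by decide +kernel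
  have c6 : (band (go 16 Gd mult S430_488_660_808 (Tr.lf 18265245732 103770954 206726315154101588874756096) 64 128 240 256 128 256)
  (go 16 Gd mult S430_488_660_808 (Tr.lf 9129001233 99720134 486226363857789989867749376) 0 32 248 256 192 224)) = true := by decide +kernel
  have c7 : (band (go 16 Gd mult S430_488_660_808 (Tr.lf 13423952420 108100551 114847952863389771597086720) 0 64 240 256 128 192)
  (band (go 16 Gd mult S430_488_660_808 (Tr.lf 4834017809 91462598 476394728876782165744287744) 0 32 240 248 192 256)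
  (go 16 Gd mult S430_488_660_808 (Tr.lf 9128985105 99847238 45939181145355908638834688) 32 64 240 256 192 256))) = true := by decide +kernel
  (And.intro (Ok.lf S430_488_660_808_ok (bl (br c2)))
  (And.intro (Ok.s1 240 (Ok.lf S430_488_660_808_ok (bl c2))
  (Ok.s0 64 (Ok.s2 192 (Ok.lf S430_488_660_808_ok (bl c7))
  (Ok.s0 32 (Ok.s1 248 (Ok.lf S430_488_660_808_ok (bl (br c7)))
  (Ok.s2 224 (Ok.lf S430_488_660_808_ok (br c6))
  (Ok.lf S430_488_660_808_ok (br (br c2)))))
  (Ok.lf S430_488_660_808_ok (br (br c7)))))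
  (Ok.lf S430_488_660_808_ok (bl c6))))
  (And.intro (Ok.s4 364 (Ok.s2 320 (Ok.s1 224 (Ok.lf S24_82_216_364_ok (bl c3))
  (Ok.lf S24_82_216_364_ok (bl c5)))
  (Ok.s1 224 (Ok.lf S24_82_216_364_ok (bl c0))
  (Ok.lf S24_82_216_364_ok (br (br c5)))))
  (Ok.s2 320 (Ok.s1 224 (Ok.lf S24_82_364_512_ok (br (br c3)))
  (Ok.lf S24_82_364_512_ok (bl (br c5))))
  (Ok.s3 53 (Ok.lf S24_53_364_512_ok (br c4))
  (Ok.lf S53_82_364_512_ok (bl c4)))))
  (Ok.s1 224 (Ok.s2 320 (Ok.lf S24_82_512_660_ok (bl (br c3)))
  (Ok.lf S24_82_512_660_ok (br c0)))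
  (Ok.lf S24_82_512_660_ok c1)))))

end Vale.Agent.P098.Ck
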