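import Vale.Agent.P098.CkGd
import Vale.Agent.P098.CkOk
import Vale.Agent.P098.Sh.A2
import Vale.Agent.P098.Sh.A3
import Vale.Agent.P098.Sh.A5
import Vale.Agent.P098.Sh.A6

namespace Vale.Agent.P098.Ck

theorem r108 :
    Ok Gd mult 0 128 192 224 256 384 82 111 364 512 ∧
    Ok Gd mult 0 128 192 224 256 384 111 140 364 512 ∧
    Ok Gd mult 0 128 224 256 256 384 82 140 364 512 ∧
    Ok Gd mult 0 128 192 256 256 384 82 140 512 808 :=
  have c0 : (band (go 16 Gd mult S82_111_364_512 (Tr.lf 13970344072 103640136 1155733083551585491019104256) 0 128 192 224 320 384)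
  (go 16 Gd mult S82_111_512_660 (Tr.lf 13432407112 95251527 1119465308963146615777918976) 0 128 192 224 320 384)) = true := by decide +kernel
  have c1 : (go 16 Gd mult S111_140_364_512 (Tr.lf 13970475080 107572424 2386419567919277990869991424) 0 128 224 240 256 384) = true := by decide +kernel
  have c2 : (go 16 Gd mult S111_140_512_660 (Tr.lf 13432554632 99449927 1269372110595360633441484800) 0 128 192 224 320 384) = true := by decide +kernel
  have c3 : (band (go 16 Gd mult S111_140_512_660 (Tr.lf 9137588296 107842758 2709202761756383980516540416) 0 128 224 256 256 384)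
  (go 16 Gd mult S82_111_660_808 (Tr.lf 9129052232 103636166 2374330309723131699122929664) 0 128 224 256 256 384)) = true := by decide +kernel
  have c4 : (go 16 Gd mult S82_111_660_808 (Tr.lf 13432539272 95251527 1079570756915863853012615168) 0 128 192 224 256 384) = true := by decide +kernel
  have c5 : (go 16 Gd mult S111_140_660_808 (Tr.lf 13432539272 99183815 1252447149120755824995598336) 0 128 192 224 256 384) = true := by decide +kernel
  have c6 : (band (go 16 Gd mult S82_111_364_512 (Tr.lf 13970343048 99446087 0) 0 128 192 224 256 320)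
  (go 16 Gd mult S111_140_364_512 (Tr.lf 13970474056 99314888 0) 0 128 192 224 256 320)) = true := by decide +kernel
  have c7 : (band (go 16 Gd mult S82_111_512_660 (Tr.lf 9137457224 103644358 2446865858900009449605300224) 0 128 224 256 256 384)
  (go 16 Gd mult S111_140_660_808 (Tr.lf 9137571912 108100806 2663263580611028071877705728) 0 128 224 256 256 384)) = true := by decide +kernel
  have c8 : (go 16 Gd mult S111_140_364_512 (Tr.lf 13970474116 107707464 0) 64 128 192 224 320 384) = true := by decide +kernel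
  have c9 : (band (go 16 Gd mult S111_140_512_660 (Tr.lf 13432554568 90926279 0) 0 128 192 224 256 320)
  (go 16 Gd mult S82_111_512_660 (Tr.lf 13432407112 91057223 0) 0 128 192 224 256 320)) = true := by decide +kernel
  have c10 : (band (go 16 Gd mult S111_140_364_512 (Tr.lf 9129068584 108092614 3221787309272986750591959040) 0 128 240 256 256 384)
  (go 16 Gd mult S111_140_364_512 (Tr.lf 13970343044 107830472 1254865000759985083345010688) 0 64 192 224 320 384)) = true := by decide +kernel
  have c11 : (band (go 16 Gd mult S82_111_364_512 (Tr.lf 13970342984 103640136 2251019876122439523302899712) 0 128 224 256 256 320)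
  (go 16 Gd mult S82_111_364_512 (Tr.lf 13970342984 103374024 2946152222400851298758950912) 0 128 224 256 320 384)) = true := by decide +kernel
  (And.intro (Ok.s2 320 (Ok.lf S82_111_364_512_ok (bl c6))
  (Ok.lf S82_111_364_512_ok (bl c0)))
  (And.intro (Ok.s2 320 (Ok.lf S111_140_364_512_ok (br c6))
  (Ok.s0 64 (Ok.lf S111_140_364_512_ok (br c10))
  (Ok.lf S111_140_364_512_ok c8)))
  (And.intro (Ok.s3 111 (Ok.s2 320 (Ok.lf S82_111_364_512_ok (bl c11))
  (Ok.lf S82_111_364_512_ok (br c11)))
  (Ok.s1 240 (Ok.lf S111_140_364_512_ok c1)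
  (Ok.lf S111_140_364_512_ok (bl c10))))
  (Ok.s4 660 (Ok.s1 224 (Ok.s3 111 (Ok.s2 320 (Ok.lf S82_111_512_660_ok (br c9))
  (Ok.lf S82_111_512_660_ok (br c0)))
  (Ok.s2 320 (Ok.lf S111_140_512_660_ok (bl c9))
  (Ok.lf S111_140_512_660_ok c2)))
  (Ok.s3 111 (Ok.lf S82_111_512_660_ok (bl c7))
  (Ok.lf S111_140_512_660_ok (bl c3))))
  (Ok.s3 111 (Ok.s1 224 (Ok.lf S82_111_660_808_ok c4)
  (Ok.lf S82_111_660_808_ok (br c3)))
  (Ok.s1 224 (Ok.lf S111_140_660_808_ok c5)
  (Ok.lf S111_140_660_808_ok (br c7))))))))

end Vale.Agent.P098.Ck
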