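import Vale.Agent.P098.CkGd
import Vale.Agent.P098.CkOk
import Vale.Agent.P098.Sh.A11
import Vale.Agent.P098.Sh.A17
import Vale.Agent.P098.Sh.A8

namespace Vale.Agent.P098.Ck

theorem r109 :
    Ok Gd mult 0 128 192 224 256 320 140 198 216 364 ∧
    Ok Gd mult 0 64 192 224 320 384 140 198 216 364 :=
  have c0 : (band (go 16 Gd mult S169_198_216_364 (Tr.lf 13441206340 99454279 0) 64 128 208 224 256 320)
  (band (go 16 Gd mult S169_198_216_364 (Tr.lf 8608318018 95394886 419497259406276323623043072) 0 32 192 208 352 384)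
  (go 16 Gd mult S140_169_216_364 (Tr.lf 9137570370 108104647 529509508991207578521305088) 0 32 192 208 352 384))) = true := by decide +kernel
  have c1 : (band (go 16 Gd mult S169_198_216_364 (Tr.lf 13441205378 99449928 0) 32 64 192 224 320 384)
  (band (go 16 Gd mult S140_169_216_364 (Tr.lf 9137570882 112298951 119683656141848288295911424) 32 64 192 224 320 384)
  (band (go 16 Gd mult S140_169_216_364 (Tr.lf 9136521505 112176197 984065617166308148210827264) 0 8 208 216 352 384)
  (go 16 Gd mult S169_198_216_364 (Tr.lf 8599912993 104037573 945506148229523013124292637) 0 8 208 216 352 384)))) = true := by decide +kernel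
  have c2 : (go 16 Gd mult S140_169_216_364 (Tr.lf 13432554568 99441736 0) 0 128 192 224 256 320) = true := by decide +kernel
  have c3 : (go 16 Gd mult S140_198_216_364 (Tr.lf 9137849410 103906375 0) 0 32 192 208 320 352) = true := by decide +kernel
  have c4 : (go 16 Gd mult S169_198_216_364 (Tr.lf 13439894596 99195720 0) 0 64 192 224 256 320) = true := by decide +kernel
  have c5 : (band (go 16 Gd mult S169_198_216_364 (Tr.lf 9144910882 108096583 0) 64 128 192 208 256 320)
  (band (go 16 Gd mult S169_198_216_364 (Tr.lf 8608039969 99839174 172876392204891971982983168) 16 32 208 224 320 384)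
  (band (go 16 Gd mult S140_169_216_364 (Tr.lf 9137439265 103910343 640730684395753462594273280) 16 32 208 224 320 384)
  (band (go 16 Gd mult S169_198_216_364 (Tr.lf 8599651361 103910597 489752698795152528883318813) 8 16 208 224 320 384)
  (go 16 Gd mult S140_169_216_364 (Tr.lf 9136390673 103910597 869219084715441376154615808) 8 16 208 224 320 384))))) = true := by decide +kernel
  have c6 : (band (go 16 Gd mult S140_198_216_364 (Tr.lf 8599667217 103910597 258710125397530643387121664) 0 8 208 216 320 352)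
  (band (go 16 Gd mult S140_198_216_364 (Tr.lf 8599666977 103779525 496920236559016298920542208) 0 8 216 224 320 336)
  (band (go 16 Gd mult S140_198_216_364 (Tr.lf 8599666977 99843269 907985563009155254804545536) 0 8 216 224 336 352)
  (go 16 Gd mult S140_198_216_364 (Tr.lf 8599667217 103906501 5268611320806379866472579072) 0 8 216 224 352 384)))) = true := by decide +kernel
  (And.intro (Ok.s3 169 (Ok.lf S140_169_216_364_ok c2)
  (Ok.s0 64 (Ok.lf S169_198_216_364_ok c4)
  (Ok.s1 208 (Ok.lf S169_198_216_364_ok (bl c5))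
  (Ok.lf S169_198_216_364_ok (bl c0)))))
  (Ok.s0 32 (Ok.s1 208 (Ok.s2 352 (Ok.lf S140_198_216_364_ok c3)
  (Ok.s3 169 (Ok.lf S140_169_216_364_ok (br (br c0)))
  (Ok.lf S169_198_216_364_ok (bl (br c0)))))
  (Ok.s0 16 (Ok.s0 8 (Ok.s2 352 (Ok.s1 216 (Ok.lf S140_198_216_364_ok (bl c6))
  (Ok.s2 336 (Ok.lf S140_198_216_364_ok (bl (br c6)))
  (Ok.lf S140_198_216_364_ok (bl (br (br c6))))))
  (Ok.s1 216 (Ok.s3 169 (Ok.lf S140_169_216_364_ok (bl (br (br c1))))
  (Ok.lf S169_198_216_364_ok (br (br (br c1)))))
  (Ok.lf S140_198_216_364_ok (br (br (br c6))))))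
  (Ok.s3 169 (Ok.lf S140_169_216_364_ok (br (br (br (br c5)))))
  (Ok.lf S169_198_216_364_ok (bl (br (br (br c5)))))))
  (Ok.s3 169 (Ok.lf S140_169_216_364_ok (bl (br (br c5))))
  (Ok.lf S169_198_216_364_ok (bl (br c5))))))
  (Ok.s3 169 (Ok.lf S140_169_216_364_ok (bl (br c1)))
  (Ok.lf S169_198_216_364_ok (bl c1)))))

end Vale.Agent.P098.Ck
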