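import Vale.Agent.P098.CkGd
import Vale.Agent.P098.CkOk
import Vale.Agent.P098.Sh.A0
import Vale.Agent.P098.Sh.A1
import Vale.Agent.P098.Sh.A2
import Vale.Agent.P098.Sh.A3
import Vale.Agent.P098.Sh.A4
import Vale.Agent.P098.Sh.A5
import Vale.Agent.P098.Sh.A6

namespace Vale.Agent.P098.Ck

theorem r11 :
    Ok Gd mult 0 128 0 64 480 512 24 82 660 808 ∧
    Ok Gd mult 0 128 0 64 384 512 82 140 216 364 ∧
    Ok Gd mult 0 128 0 64 384 448 82 140 364 512 ∧
    Ok Gd mult 0 128 0 64 448 512 82 111 364 512 :=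
  have c0 : (go 16 Gd mult S82_111_216_364 (Tr.lf 9683896452 99187912 271388498812414923374592) 0 128 32 64 480 512) = true := by decide +kernel
  have c1 : (go 16 Gd mult S125_140_216_364 (Tr.lf 9683880072 103382216 191975265575095303667712) 0 128 32 64 480 512) = true := by decide +kernel
  have c2 : (band (go 16 Gd mult S82_111_364_512 (Tr.lf 9675376772 94985416 279763320666993396285440) 0 128 32 64 480 512)
  (go 16 Gd mult S111_125_216_364 (Tr.lf 9683880068 99187912 230694981385811652509696) 0 128 32 64 480 512)) = true := by decide +kernel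
  have c3 : (band (go 16 Gd mult S111_140_216_364 (Tr.lf 9683895428 99187912 227835736054386672009216) 0 128 0 32 496 512)
  (go 16 Gd mult S24_82_660_808 (Tr.lf 1077052034 99568839 1069899350358946819614965760) 0 128 0 32 496 512)) = true := by decide +kernel
  have c4 : (band (go 16 Gd mult S82_140_216_364 (Tr.lf 1160938626 99720136 0) 0 128 0 64 384 448)
  (go 16 Gd mult S82_140_364_512 (Tr.lf 1160938626 99720136 0) 0 128 0 64 384 448)) = true := by decide +kernel
  have c5 : (band (go 16 Gd mult S82_111_216_364 (Tr.lf 5379343492 103636039 86180771788897369198690304) 0 128 0 32 480 512)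
  (go 16 Gd mult S82_111_364_512 (Tr.lf 5379343490 103636039 130930101048044807465730048) 0 128 0 32 480 512)) = true := by decide +kernel
  have c6 : (band (go 16 Gd mult S24_53_660_808 (Tr.lf 10203776132 107563849 462250558722894077084696576) 0 128 32 64 496 512)
  (go 16 Gd mult S53_82_660_808 (Tr.lf 9675293828 90926152 262761583798585526869491712) 0 128 32 64 496 512)) = true := by decide +kernel
  have c7 : (band (go 16 Gd mult S111_140_216_364 (Tr.lf 4842472578 103377991 0) 0 128 0 64 448 480)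
  (band (go 16 Gd mult S111_140_216_364 (Tr.lf 4842471746 99183687 0) 0 128 0 32 480 496)
  (go 16 Gd mult S24_82_660_808 (Tr.lf 1076986434 99576903 0) 0 128 0 32 480 496))) = true := by decide +kernel
  have c8 : (go 16 Gd mult S24_82_660_808 (Tr.lf 5371937348 103505095 0) 0 128 32 64 480 496) = true := by decide +kernel
  have c9 : (band (go 16 Gd mult S82_111_216_364 (Tr.lf 4842398274 95255750 0) 0 128 32 64 448 480)
  (band (go 16 Gd mult S82_111_364_512 (Tr.lf 4842398242 95255750 0) 0 128 32 64 448 480)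
  (band (go 16 Gd mult S82_111_364_512 (Tr.lf 1160847937 95525832 0) 0 128 0 32 448 480)
  (go 16 Gd mult S82_111_216_364 (Tr.lf 547430977 103648326 0) 0 128 0 32 448 480)))) = true := by decide +kernel
  (And.intro (Ok.s2 496 (Ok.s1 32 (Ok.lf S24_82_660_808_ok (br (br c7)))
  (Ok.lf S24_82_660_808_ok c8))
  (Ok.s1 32 (Ok.lf S24_82_660_808_ok (br c3))
  (Ok.s3 53 (Ok.lf S24_53_660_808_ok (bl c6))
  (Ok.lf S53_82_660_808_ok (br c6)))))
  (And.intro (Ok.s2 448 (Ok.lf S82_140_216_364_ok (bl c4))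
  (Ok.s3 111 (Ok.s1 32 (Ok.s2 480 (Ok.lf S82_111_216_364_ok (br (br (br c9))))
  (Ok.lf S82_111_216_364_ok (bl c5)))
  (Ok.s2 480 (Ok.lf S82_111_216_364_ok (bl c9))
  (Ok.lf S82_111_216_364_ok c0)))
  (Ok.s2 480 (Ok.lf S111_140_216_364_ok (bl c7))
  (Ok.s1 32 (Ok.s2 496 (Ok.lf S111_140_216_364_ok (bl (br c7)))
  (Ok.lf S111_140_216_364_ok (bl c3)))
  (Ok.s3 125 (Ok.lf S111_125_216_364_ok (br c2))
  (Ok.lf S125_140_216_364_ok c1))))))
  (And.intro (Ok.lf S82_140_364_512_ok (br c4))
  (Ok.s1 32 (Ok.s2 480 (Ok.lf S82_111_364_512_ok (bl (br (br c9))))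
  (Ok.lf S82_111_364_512_ok (br c5)))
  (Ok.s2 480 (Ok.lf S82_111_364_512_ok (bl (br c9)))
  (Ok.lf S82_111_364_512_ok (bl c2)))))))

end Vale.Agent.P098.Ck
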