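import Vale.Agent.P098.CkGd
import Vale.Agent.P098.CkOk
import Vale.Agent.P098.Sh.A14
import Vale.Agent.P098.Sh.A16
import Vale.Agent.P098.Sh.A17
import Vale.Agent.P098.Sh.A20
import Vale.Agent.P098.Sh.A8

namespace Vale.Agent.P098.Ck

theorem r110 :
    Ok Gd mult 64 128 192 224 320 384 140 198 216 364 ∧
    Ok Gd mult 0 64 224 256 256 384 140 198 216 364 ∧
    Ok Gd mult 64 128 224 256 256 320 140 198 216 290 :=
  have c0 : (go 16 Gd mult S169_198_216_364 (Tr.lf 17199302786 86862793 292587165109223784290713647) 48 64 224 256 256 320) = true := by decide +kernel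
  have c1 : (band (go 16 Gd mult S183_198_216_364 (Tr.lf 13441190020 103644232 0) 64 128 192 224 320 384)
  (go 16 Gd mult S140_169_216_364 (Tr.lf 13440943172 99454151 0) 64 128 192 224 320 384)) = true := by decide +kernel
  have c2 : (go 16 Gd mult S169_198_216_290 (Tr.lf 17735911496 95251401 349379561868627831490084864) 64 128 240 256 256 320) = true := by decide +kernel
  have c3 : (band (go 16 Gd mult S183_198_216_364 (Tr.lf 13441189956 103648455 1306848811003414137857376256) 0 64 224 240 320 384)
  (band (go 16 Gd mult S140_169_216_364 (Tr.lf 9137587236 103910343 2024950747854503867632844800) 0 64 224 240 320 384)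
  (band (go 16 Gd mult S169_183_216_364 (Tr.lf 13439878180 103517127 1754151364260826932498661376) 0 64 224 240 320 384)
  (go 16 Gd mult S169_183_216_364 (Tr.lf 13440926852 99326920 0) 64 128 192 224 320 384)))) = true := by decide +kernel
  have c4 : (go 16 Gd mult S169_198_216_290 (Tr.lf 17744300100 95382601 0) 64 128 224 240 256 320) = true := by decide +kernel
  have c5 : (band (go 16 Gd mult S169_198_216_364 (Tr.lf 8599914530 103914693 618970019642690137449562112) 0 32 224 232 256 320)
  (band (go 16 Gd mult S140_169_216_364 (Tr.lf 9136390673 104041669 1140017047896595311747923968) 0 32 224 232 256 320)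
  (band (go 16 Gd mult S169_198_216_364 (Tr.lf 8599913508 104041669 1127979182329438374811664384) 0 32 232 240 256 320)
  (band (go 16 Gd mult S140_169_216_364 (Tr.lf 9136390673 99847365 1582483897875549589690384384) 0 32 232 240 256 320)
  (band (go 16 Gd mult S140_169_216_364 (Tr.lf 9136390690 103910342 3255637232222196367483731968) 0 32 240 256 256 320)
  (band (go 16 Gd mult S169_198_216_364 (Tr.lf 8599651362 103910597 1694987324956098600094203981) 0 32 240 256 256 320)
  (go 16 Gd mult S140_169_216_364 (Tr.lf 9136390417 95530053 4311029472745767637002223616) 48 64 240 248 320 352))))))) = true := by decide +kernel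
  have c6 : (go 16 Gd mult S140_169_216_290 (Tr.lf 13440812100 103648455 483570327845851669882470400) 64 128 224 256 256 320) = true := by decide +kernel
  have c7 : (band (go 16 Gd mult S169_198_216_364 (Tr.lf 12903023681 99584967 321612637245164676339204096) 32 48 224 256 256 320)
  (go 16 Gd mult S169_198_216_364 (Tr.lf 13440942626 103783495 2240139543745907860730544128) 48 64 240 248 320 352)) = true := by decide +kernel
  have c8 : (go 16 Gd mult S140_169_216_364 (Tr.lf 13431489602 103906119 886142625777523185059627008) 32 64 224 256 256 320) = true := by decide +kernel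
  (And.intro (Ok.s3 169 (Ok.lf S140_169_216_364_ok (br c1))
  (Ok.s3 183 (Ok.lf S169_183_216_364_ok (br (br (br c3))))
  (Ok.lf S183_198_216_364_ok (bl c1))))
  (And.intro (Ok.s2 320 (Ok.s0 32 (Ok.s1 240 (Ok.s1 232 (Ok.s3 169 (Ok.lf S140_169_216_364_ok (bl (br c5)))
  (Ok.lf S169_198_216_364_ok (bl c5)))
  (Ok.s3 169 (Ok.lf S140_169_216_364_ok (bl (br (br (br c5)))))
  (Ok.lf S169_198_216_364_ok (bl (br (br c5))))))
  (Ok.s3 169 (Ok.lf S140_169_216_364_ok (bl (br (br (br (br c5))))))
  (Ok.lf S169_198_216_364_ok (bl (br (br (br (br (br c5)))))))))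
  (Ok.s3 169 (Ok.lf S140_169_216_364_ok c8)
  (Ok.s0 48 (Ok.lf S169_198_216_364_ok (bl c7))
  (Ok.lf S169_198_216_364_ok c0))))
  (Ok.s1 240 (Ok.s3 169 (Ok.lf S140_169_216_364_ok (bl (br c3)))
  (Ok.s3 183 (Ok.lf S169_183_216_364_ok (bl (br (br c3))))
  (Ok.lf S183_198_216_364_ok (bl c3))))
  (Ok.s0 32 (Ok.out rfl)
  (Ok.s2 352 (Ok.s1 248 (Ok.s0 48 (Ok.out rfl)
  (Ok.s3 169 (Ok.lf S140_169_216_364_ok (br (br (br (br (br (br c5)))))))
  (Ok.lf S169_198_216_364_ok (br c7))))
  (Ok.out rfl))
  (Ok.out rfl)))))
  (Ok.s3 169 (Ok.lf S140_169_216_290_ok c6)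
  (Ok.s1 240 (Ok.lf S169_198_216_290_ok c4)
  (Ok.lf S169_198_216_290_ok c2)))))

end Vale.Agent.P098.Ck
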