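import Vale.Agent.P098.CkGd
import Vale.Agent.P098.CkOk
import Vale.Agent.P098.Sh.A11
import Vale.Agent.P098.Sh.A14
import Vale.Agent.P098.Sh.A17
import Vale.Agent.P098.Sh.A18
import Vale.Agent.P098.Sh.A20
import Vale.Agent.P098.Sh.A8
import Vale.Agent.P098.Sh.A9

namespace Vale.Agent.P098.Ck

theorem r111 :
    Ok Gd mult 64 128 224 256 320 384 140 198 216 290 ∧
    Ok Gd mult 64 128 224 256 256 384 140 198 290 364 ∧
    Ok Gd mult 0 64 192 224 256 384 140 198 364 512 :=
  have c0 : (go 16 Gd mult S169_198_290_364 (Tr.lf 17735911556 95382473 286515419248667114405363712) 64 128 224 256 256 320) = true := by decide +kernel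
  have c1 : (band (go 16 Gd mult S169_198_290_364 (Tr.lf 13440944260 107973576 256292273758301385037709312) 64 128 224 256 320 384)
  (go 16 Gd mult S140_169_216_290 (Tr.lf 13432423492 99445704 634686055297680316720742400) 64 128 224 256 320 384)) = true := by decide +kernel
  have c2 : (go 16 Gd mult S140_169_290_364 (Tr.lf 13432424580 103640008 500495289320456478328356864) 64 128 224 256 256 384) = true := by decide +kernel
  have c3 : (go 16 Gd mult S140_198_364_512 (Tr.lf 9136800898 103910470 0) 0 32 192 224 256 320) = true := by decide +kernel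
  have c4 : (band (go 16 Gd mult S183_198_216_290 (Tr.lf 13440927876 107973576 197054908597184555477106688) 64 128 224 256 320 384)
  (go 16 Gd mult S169_183_216_290 (Tr.lf 13440926788 99584968 412243704488588548574806016) 64 128 224 256 320 384)) = true := by decide +kernel
  have c5 : (band (go 16 Gd mult S169_198_364_512 (Tr.lf 8599930945 99454022 356633116786315606538321920) 0 8 192 208 320 384)
  (band (go 16 Gd mult S140_169_364_512 (Tr.lf 9136522305 103783366 640730684395753462594273280) 0 8 192 208 320 384)
  (band (go 16 Gd mult S140_169_364_512 (Tr.lf 9137571906 99720135 227278054087550284844761088) 32 64 192 224 256 384)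
  (band (go 16 Gd mult S169_198_364_512 (Tr.lf 9136523329 103910470 0) 32 64 192 224 256 384)
  (go 16 Gd mult S169_198_364_512 (Tr.lf 4304683553 108239941 783383931110279705209602048) 0 8 216 224 320 352))))) = true := by decide +kernel
  have c6 : (go 16 Gd mult S140_169_364_512 (Tr.lf 9136539713 112299205 1260909629858058229218541568) 0 8 208 224 320 384) = true := by decide +kernel
  have c7 : (band (go 16 Gd mult S140_198_364_512 (Tr.lf 9136538657 103906374 130563988518379950868267008) 8 16 192 208 320 384)
  (go 16 Gd mult S140_198_364_512 (Tr.lf 9136538657 107977925 639521758576138833419567104) 8 16 208 224 320 384)) = true := by decide +kernel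
  have c8 : (go 16 Gd mult S169_198_364_512 (Tr.lf 8599650849 103652549 958682805095326335520014365) 0 8 208 216 352 384) = true := by decide +kernel
  have c9 : (band (go 16 Gd mult S140_169_364_512 (Tr.lf 9137439297 108104647 562150506120802566238371840) 16 32 192 224 320 384)
  (go 16 Gd mult S169_198_364_512 (Tr.lf 9136390689 103906374 234531609005238059892998144) 16 32 192 224 320 384)) = true := by decide +kernel
  have c10 : (band (go 16 Gd mult S169_198_364_512 (Tr.lf 4304544017 108239941 448511479077027423815991296) 0 8 208 216 320 352)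
  (go 16 Gd mult S169_198_364_512 (Tr.lf 4304544017 112430149 5212890993423612426313531392) 0 8 216 224 352 384)) = true := by decide +kernel
  (And.intro (Ok.s3 169 (Ok.lf S140_169_216_290_ok (br c1))
  (Ok.s3 183 (Ok.lf S169_183_216_290_ok (br c4))
  (Ok.lf S183_198_216_290_ok (bl c4))))
  (And.intro (Ok.s3 169 (Ok.lf S140_169_290_364_ok c2)
  (Ok.s2 320 (Ok.lf S169_198_290_364_ok c0)
  (Ok.lf S169_198_290_364_ok (bl c1))))
  (Ok.s0 32 (Ok.s2 320 (Ok.lf S140_198_364_512_ok c3)
  (Ok.s0 16 (Ok.s0 8 (Ok.s1 208 (Ok.s3 169 (Ok.lf S140_169_364_512_ok (bl (br c5)))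
  (Ok.lf S169_198_364_512_ok (bl c5)))
  (Ok.s3 169 (Ok.lf S140_169_364_512_ok c6)
  (Ok.s2 352 (Ok.s1 216 (Ok.lf S169_198_364_512_ok (bl c10))
  (Ok.lf S169_198_364_512_ok (br (br (br (br c5))))))
  (Ok.s1 216 (Ok.lf S169_198_364_512_ok c8)
  (Ok.lf S169_198_364_512_ok (br c10))))))
  (Ok.s1 208 (Ok.lf S140_198_364_512_ok (bl c7))
  (Ok.lf S140_198_364_512_ok (br c7))))
  (Ok.s3 169 (Ok.lf S140_169_364_512_ok (bl c9))
  (Ok.lf S169_198_364_512_ok (br c9)))))
  (Ok.s3 169 (Ok.lf S140_169_364_512_ok (bl (br (br c5))))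
  (Ok.lf S169_198_364_512_ok (bl (br (br (br c5)))))))))

end Vale.Agent.P098.Ck
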