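import Vale.Agent.P098.CkGd
import Vale.Agent.P098.CkOk
import Vale.Agent.P098.Sh.A11
import Vale.Agent.P098.Sh.A18
import Vale.Agent.P098.Sh.A9

namespace Vale.Agent.P098.Ck

theorem r112 :
    Ok Gd mult 0 32 224 256 256 384 140 198 364 512 ∧
    Ok Gd mult 32 64 224 256 256 384 140 198 364 512 ∧
    Ok Gd mult 64 128 192 256 256 384 140 198 364 512 ∧
    Ok Gd mult 0 32 192 256 256 384 140 198 512 660 :=
  have c0 : (go 16 Gd mult S169_198_438_512 (Tr.lf 13439764616 103910088 463018588912402973912465408) 64 128 224 256 256 384) = true := by decide +kernel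
  have c1 : (go 16 Gd mult S140_198_512_660 (Tr.lf 9136801860 104037701 1337071956493779867225030656) 0 32 208 224 256 384) = true := by decide +kernel
  have c2 : (go 16 Gd mult S169_198_364_512 (Tr.lf 8598882370 103914437 1069899350358946819614965760) 0 16 224 240 256 320) = true := by decide +kernel
  have c3 : (band (go 16 Gd mult S140_198_364_512 (Tr.lf 9136800898 108108997 999786817909638966156460032) 16 32 224 256 256 320)
  (go 16 Gd mult S140_198_364_512 (Tr.sp 1 240 (Tr.sp 2 352 (Tr.lf 9136800324 108104901 1596991007710925139786858496) Tr.skip) Tr.skip) 0 32 224 256 320 384)) = true := by decide +kernel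
  have c4 : (band (go 16 Gd mult S169_198_364_512 (Tr.lf 12894636162 95382216 916382188883498372758831151) 32 64 224 256 256 384)
  (go 16 Gd mult S140_169_364_512 (Tr.lf 9137571906 104041415 1268163184775746004266778624) 32 64 224 256 256 384)) = true := by decide +kernel
  have c5 : (band (go 16 Gd mult S169_198_364_438 (Tr.lf 13440813188 103779272 406199075390515402701275136) 64 128 224 256 320 384)
  (band (go 16 Gd mult S169_198_364_438 (Tr.lf 13440812164 99454024 0) 64 128 192 224 256 320)
  (go 16 Gd mult S169_198_364_438 (Tr.lf 13440812164 108096839 359050968425544864887734272) 64 128 224 256 256 320))) = true := by decide +kernel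
  have c6 : (go 16 Gd mult S140_169_438_512 (Tr.lf 9137457284 99720135 232113757366008801543585792) 64 128 192 256 256 384) = true := by decide +kernel
  have c7 : (go 16 Gd mult S169_198_438_512 (Tr.lf 13439764612 95259464 0) 64 128 192 224 256 384) = true := by decide +kernel
  have c8 : (go 16 Gd mult S140_198_512_660 (Tr.lf 9136801858 107973702 691505568819567887931932672) 0 32 192 208 256 384) = true := by decide +kernel
  have c9 : (go 16 Gd mult S140_169_364_438 (Tr.lf 13440812164 99453896 307067158182115810375368704) 64 128 192 256 320 384) = true := by decide +kernel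
  have c10 : (go 16 Gd mult S169_198_364_438 (Tr.lf 13440812164 99449928 0) 64 128 192 224 320 384) = true := by decide +kernel
  have c11 : (band (go 16 Gd mult S140_198_512_660 (Tr.lf 9136539714 103914438 2016488267117201463409901568) 0 32 224 240 256 384)
  (go 16 Gd mult S140_198_512_660 (Tr.lf 9128151106 104033222 3811743109244925787848572928) 0 32 240 256 256 384)) = true := by decide +kernel
  have c12 : (go 16 Gd mult S140_169_364_438 (Tr.lf 13432407172 99318983 172876392204891971982983168) 64 128 192 256 256 320) = true := by decide +kernel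
  have c13 : (go 16 Gd mult S140_169_364_512 (Tr.lf 9128002625 104033222 1876252872041904479143985152) 0 16 224 256 256 320) = true := by decide +kernel
  have c14 : (go 16 Gd mult S169_198_364_512 (Tr.lf 8598463009 99716037 2304240282301593771317395456) 0 16 240 256 256 320) = true := by decide +kernel
  (And.intro (Ok.s2 320 (Ok.s0 16 (Ok.s3 169 (Ok.lf S140_169_364_512_ok c13)
  (Ok.s1 240 (Ok.lf S169_198_364_512_ok c2)
  (Ok.lf S169_198_364_512_ok c14)))
  (Ok.lf S140_198_364_512_ok (bl c3)))
  (Ok.lf S140_198_364_512_ok (br c3)))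
  (And.intro (Ok.s3 169 (Ok.lf S140_169_364_512_ok (br c4))
  (Ok.lf S169_198_364_512_ok (bl c4)))
  (And.intro (Ok.s4 438 (Ok.s2 320 (Ok.s3 169 (Ok.lf S140_169_364_438_ok c12)
  (Ok.s1 224 (Ok.lf S169_198_364_438_ok (bl (br c5)))
  (Ok.lf S169_198_364_438_ok (br (br c5)))))
  (Ok.s3 169 (Ok.lf S140_169_364_438_ok c9)
  (Ok.s1 224 (Ok.lf S169_198_364_438_ok c10)
  (Ok.lf S169_198_364_438_ok (bl c5)))))
  (Ok.s3 169 (Ok.lf S140_169_438_512_ok c6)
  (Ok.s1 224 (Ok.lf S169_198_438_512_ok c7)
  (Ok.lf S169_198_438_512_ok c0))))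
  (Ok.s1 224 (Ok.s1 208 (Ok.lf S140_198_512_660_ok c8)
  (Ok.lf S140_198_512_660_ok c1))
  (Ok.s1 240 (Ok.lf S140_198_512_660_ok (bl c11))
  (Ok.lf S140_198_512_660_ok (br c11)))))))

end Vale.Agent.P098.Ck
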