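import Vale.Agent.P098.CkGd
import Vale.Agent.P098.CkOk
import Vale.Agent.P098.Sh.A10
import Vale.Agent.P098.Sh.A19
import Vale.Agent.P098.Sh.A25
import Vale.Agent.P098.Sh.A28
import Vale.Agent.P098.Sh.A36

namespace Vale.Agent.P098.Ck

theorem r113 :
    Ok Gd mult 32 64 192 256 256 384 140 198 512 660 ∧
    Ok Gd mult 64 128 192 256 256 384 140 198 512 660 ∧
    Ok Gd mult 0 128 192 256 256 384 140 198 660 808 ∧
    Ok Gd mult 0 128 192 224 256 320 198 256 216 290 ∧
    Ok Gd mult 0 32 224 256 256 320 198 256 216 290 :=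
  have c0 : (band (go 16 Gd mult S169_198_512_660 (Tr.lf 13439895684 95255368 349379561868627831490084864) 64 128 192 256 320 384)
  (go 16 Gd mult S140_169_512_660 (Tr.lf 9137570948 103910343 444884701618183536291872768) 64 128 192 256 320 384)) = true := by decide +kernel
  have c1 : (go 16 Gd mult S140_169_660_808 (Tr.lf 9137571976 107977671 1291132775348423958586195968) 0 128 192 224 256 384) = true := by decide +kernel
  have c2 : (band (go 16 Gd mult S198_227_216_290 (Tr.lf 13440944260 99450056 0) 64 128 192 224 256 320)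
  (go 16 Gd mult S198_227_216_290 (Tr.lf 13439894594 95255496 0) 0 64 192 224 256 320)) = true := by decide +kernel
  have c3 : (band (go 16 Gd mult S169_198_512_660 (Tr.lf 8598620290 103516998 897028676658087299427139613) 32 64 192 256 256 384)
  (go 16 Gd mult S140_169_512_660 (Tr.lf 9137571970 107977671 1023960169213590910976131072) 32 64 192 256 256 384)) = true := by decide +kernel
  have c4 : (band (go 16 Gd mult S169_198_512_660 (Tr.lf 13439894660 99322951 187383502040267522079457280) 64 128 192 256 256 320)
  (go 16 Gd mult S140_169_512_660 (Tr.lf 13431358596 103640007 235740534824852689067704320) 64 128 192 256 256 320)) = true := by decide +kernel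
  have c5 : (go 16 Gd mult S140_169_660_808 (Tr.lf 9136523336 99847110 2706784910117154722167128064) 0 128 224 256 256 384) = true := by decide +kernel
  have c6 : (go 16 Gd mult S227_256_216_290 (Tr.lf 13439894600 99191752 0) 0 128 192 224 256 320) = true := by decide +kernel
  have c7 : (band (go 16 Gd mult S169_198_660_808 (Tr.lf 13431490628 99449799 0) 64 128 192 224 256 384)
  (band (go 16 Gd mult S169_198_660_808 (Tr.lf 13431490628 99576775 799099966765269884480782336) 64 128 224 256 256 384)
  (go 16 Gd mult S169_198_660_808 (Tr.lf 9136522306 103906374 2807125753145168943667740672) 0 64 224 256 256 384))) = true := by decide +kernel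
  have c8 : (band (go 16 Gd mult S198_256_216_290 (Tr.lf 8599667330 99843397 145155123357172266008838144) 16 32 224 256 256 288)
  (go 16 Gd mult S198_256_216_290 (Tr.lf 8599667777 95518021 308365292486469625198870575) 0 16 224 240 256 320)) = true := by decide +kernel
  have c9 : (go 16 Gd mult S169_198_660_808 (Tr.lf 9136514114 103779398 1282670294611121554363252736) 0 64 192 224 256 384) = true := by decide +kernel
  have c10 : (band (go 16 Gd mult S198_227_216_290 (Tr.lf 8607908417 103902406 89548298714973020755066909) 16 32 224 256 288 320)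
  (go 16 Gd mult S227_256_216_290 (Tr.lf 8598470977 99720133 102900734596611043397468160) 16 32 224 256 288 320)) = true := by decide +kernel
  have c11 : (go 16 Gd mult S198_256_216_290 (Tr.sp 2 288 (Tr.lf 8598487329 103910341 828215532891590690896412701) Tr.skip) 0 16 240 256 256 320) = true := by decide +kernel
  (And.intro (Ok.s3 169 (Ok.lf S140_169_512_660_ok (br c3))
  (Ok.lf S169_198_512_660_ok (bl c3)))
  (And.intro (Ok.s3 169 (Ok.s2 320 (Ok.lf S140_169_512_660_ok (br c4))
  (Ok.lf S140_169_512_660_ok (br c0)))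
  (Ok.s2 320 (Ok.lf S169_198_512_660_ok (bl c4))
  (Ok.lf S169_198_512_660_ok (bl c0))))
  (And.intro (Ok.s1 224 (Ok.s3 169 (Ok.lf S140_169_660_808_ok c1)
  (Ok.s0 64 (Ok.lf S169_198_660_808_ok c9)
  (Ok.lf S169_198_660_808_ok (bl c7))))
  (Ok.s3 169 (Ok.lf S140_169_660_808_ok c5)
  (Ok.s0 64 (Ok.lf S169_198_660_808_ok (br (br c7)))
  (Ok.lf S169_198_660_808_ok (bl (br c7))))))
  (And.intro (Ok.s3 227 (Ok.s0 64 (Ok.lf S198_227_216_290_ok (br c2))
  (Ok.lf S198_227_216_290_ok (bl c2)))
  (Ok.lf S227_256_216_290_ok c6))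
  (Ok.s0 16 (Ok.s1 240 (Ok.lf S198_256_216_290_ok (br c8))
  (Ok.lf S198_256_216_290_ok c11))
  (Ok.s2 288 (Ok.lf S198_256_216_290_ok (bl c8))
  (Ok.s3 227 (Ok.lf S198_227_216_290_ok (bl c10))
  (Ok.lf S227_256_216_290_ok (br c10)))))))))

end Vale.Agent.P098.Ck
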