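import Vale.Agent.P098.CkGd
import Vale.Agent.P098.CkOk
import Vale.Agent.P098.Sh.A23
import Vale.Agent.P098.Sh.A25
import Vale.Agent.P098.Sh.A28
import Vale.Agent.P098.Sh.A30
import Vale.Agent.P098.Sh.A36

namespace Vale.Agent.P098.Ck

theorem r114 :
    Ok Gd mult 32 64 224 256 256 320 198 256 216 290 ∧
    Ok Gd mult 64 128 224 256 256 320 198 256 216 290 ∧
    Ok Gd mult 0 128 192 224 256 320 198 256 290 364 ∧
    Ok Gd mult 0 32 224 256 256 320 198 256 290 364 :=
  have c0 : (band (go 16 Gd mult S198_212_216_290 (Tr.lf 17744562306 95132617 165641025776860874552639488) 48 64 224 256 256 320)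
  (go 16 Gd mult S212_227_216_290 (Tr.lf 17744283778 91061321 99154735830818771041255424) 48 64 224 256 256 320)) = true := by decide +kernel
  have c1 : (go 16 Gd mult S212_227_216_290 (Tr.lf 17744545864 103771209 206733804532195514952712192) 64 128 240 256 256 320) = true := by decide +kernel
  have c2 : (go 16 Gd mult S198_227_290_364 (Tr.lf 13440944260 99450056 0) 64 128 192 224 256 320) = true := by decide +kernel
  have c3 : (go 16 Gd mult S198_212_216_290 (Tr.lf 17207674948 91315273 246625497342309751618076701) 64 96 240 256 256 320) = true := by decide +kernel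
  have c4 : (go 16 Gd mult S227_256_216_290 (Tr.lf 12903023748 95390791 174093139452156752888135709) 64 128 224 256 256 320) = true := by decide +kernel
  have c5 : (band (go 16 Gd mult S198_256_290_364 (Tr.lf 8599667842 99712325 424403429274117437345693791) 16 32 224 256 256 320)
  (go 16 Gd mult S198_256_290_364 (Tr.lf 8598620193 103914437 805239338340905602611412992) 0 16 232 240 256 320)) = true := by decide +kernel
  have c6 : (band (go 16 Gd mult S198_212_216_290 (Tr.lf 17744283716 95255625 0) 64 128 224 240 256 320)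
  (band (go 16 Gd mult S212_227_216_290 (Tr.lf 17744283716 95386697 0) 64 128 224 240 256 320)
  (go 16 Gd mult S198_212_216_290 (Tr.lf 17735895106 103640009 0) 96 128 240 256 256 320))) = true := by decide +kernel
  have c7 : (band (go 16 Gd mult S227_256_290_364 (Tr.lf 13438829640 99191496 0) 0 128 192 224 256 320)
  (band (go 16 Gd mult S227_256_290_364 (Tr.lf 8598602785 99585093 506696955550829113614794752) 0 16 224 232 256 320)
  (band (go 16 Gd mult S198_227_290_364 (Tr.lf 8599520273 103914693 429237915048608837002067968) 0 16 224 232 256 320)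
  (go 16 Gd mult S198_227_290_364 (Tr.lf 9136391236 103906502 0) 0 64 192 224 256 320)))) = true := by decide +kernel
  have c8 : (go 16 Gd mult S198_227_216_290 (Tr.lf 12903023681 95394759 2485661870444214661152768) 32 48 224 256 256 320) = true := by decide +kernel
  have c9 : (go 16 Gd mult S227_256_216_290 (Tr.lf 12903006786 91192391 42999360435816964816896) 32 64 224 256 288 320) = true := by decide +kernel
  have c10 : (go 16 Gd mult S227_256_216_290 (Tr.lf 12901827137 99580743 2475848202597001179693056) 32 64 224 256 256 288) = true := by decide +kernel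
  have c11 : (go 16 Gd mult S198_256_290_364 (Tr.sp 2 288 (Tr.lf 8598487329 99847109 1169113540076116606360420381) Tr.skip) 0 16 240 256 256 320) = true := by decide +kernel
  (And.intro (Ok.s3 227 (Ok.s0 48 (Ok.lf S198_227_216_290_ok c8)
  (Ok.s3 212 (Ok.lf S198_212_216_290_ok (bl c0))
  (Ok.lf S212_227_216_290_ok (br c0))))
  (Ok.s2 288 (Ok.lf S227_256_216_290_ok c10)
  (Ok.lf S227_256_216_290_ok c9)))
  (And.intro (Ok.s3 227 (Ok.s3 212 (Ok.s1 240 (Ok.lf S198_212_216_290_ok (bl c6))
  (Ok.s0 96 (Ok.lf S198_212_216_290_ok c3)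
  (Ok.lf S198_212_216_290_ok (br (br c6)))))
  (Ok.s1 240 (Ok.lf S212_227_216_290_ok (bl (br c6)))
  (Ok.lf S212_227_216_290_ok c1)))
  (Ok.lf S227_256_216_290_ok c4))
  (And.intro (Ok.s3 227 (Ok.s0 64 (Ok.lf S198_227_290_364_ok (br (br (br c7))))
  (Ok.lf S198_227_290_364_ok c2))
  (Ok.lf S227_256_290_364_ok (bl c7)))
  (Ok.s0 16 (Ok.s1 240 (Ok.s1 232 (Ok.s3 227 (Ok.lf S198_227_290_364_ok (bl (br (br c7))))
  (Ok.lf S227_256_290_364_ok (bl (br c7))))
  (Ok.lf S198_256_290_364_ok (br c5)))
  (Ok.lf S198_256_290_364_ok c11))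
  (Ok.lf S198_256_290_364_ok (bl c5))))))

end Vale.Agent.P098.Ck
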