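import Vale.Agent.P098.CkGd
import Vale.Agent.P098.CkOk
import Vale.Agent.P098.Sh.A23
import Vale.Agent.P098.Sh.A25
import Vale.Agent.P098.Sh.A30
import Vale.Agent.P098.Sh.A36

namespace Vale.Agent.P098.Ck

theorem r115 :
    Ok Gd mult 32 64 224 256 256 320 198 256 290 364 ∧
    Ok Gd mult 64 128 224 256 256 320 198 256 290 364 ∧
    Ok Gd mult 0 64 192 224 320 384 198 256 216 364 ∧
    Ok Gd mult 0 64 224 240 320 384 198 256 216 290 :=
  have c0 : (band (go 16 Gd mult S198_227_290_364 (Tr.lf 17735911556 99441737 210353092612945476398874624) 64 128 224 256 256 320)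
  (go 16 Gd mult S227_256_290_364 (Tr.lf 13439894596 103779399 210353092612945476398874624) 64 128 224 256 256 320)) = true := by decide +kernel
  have c1 : (go 16 Gd mult S198_212_216_290 (Tr.lf 17744562244 95255497 0) 32 64 224 240 320 384) = true := by decide +kernel
  have c2 : (band (go 16 Gd mult S198_227_216_290 (Tr.lf 13439895682 99322696 0) 32 64 192 224 320 384)
  (go 16 Gd mult S227_256_216_290 (Tr.lf 12903007298 86862792 15882659876912385294365) 32 64 192 224 320 384)) = true := by decide +kernel
  have c3 : (band (go 16 Gd mult S212_227_216_290 (Tr.lf 17744561220 99449801 18146006805075864796004352) 0 64 224 240 320 352)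
  (band (go 16 Gd mult S227_256_216_290 (Tr.lf 12903023140 99318855 343374740844265750828941312) 0 64 224 240 320 352)
  (band (go 16 Gd mult S227_256_216_290 (Tr.sp 0 32 Tr.skip (Tr.lf 12903023138 95259591 1791643596827390500357013504)) 0 64 224 240 352 384)
  (go 16 Gd mult S212_227_216_290 (Tr.sp 0 32 Tr.skip (Tr.lf 17744282690 99445705 1791633783159543286875553792)) 0 64 224 240 352 384)))) = true := by decide +kernel
  have c4 : (go 16 Gd mult S198_227_290_364 (Tr.lf 12903023746 99457991 126963239437259238877757517) 32 64 224 256 256 320) = true := by decide +kernel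
  have c5 : (band (go 16 Gd mult S227_256_290_364 (Tr.lf 8606991428 99584966 349379561868627831490084864) 0 64 208 224 320 352)
  (band (go 16 Gd mult S198_227_290_364 (Tr.lf 13439762980 103644231 255083347938686755863003136) 0 64 208 224 320 352)
  (band (go 16 Gd mult S198_227_290_364 (Tr.lf 13439763492 99322696 0) 0 64 192 208 320 384)
  (band (go 16 Gd mult S227_256_290_364 (Tr.lf 8598471714 95255494 41103477866897391940009984) 0 64 192 208 320 384)
  (band (go 16 Gd mult S198_227_290_364 (Tr.lf 13439762980 103648199 500495289320456478328356864) 0 64 208 224 352 384)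
  (band (go 16 Gd mult S227_256_290_364 (Tr.lf 8606859812 95517638 675789533164577708660752384) 0 64 208 224 352 384)
  (go 16 Gd mult S227_256_290_364 (Tr.lf 12901826882 99449671 54428778596446665902653440) 32 64 224 256 288 320))))))) = true := by decide +kernel
  have c6 : (band (go 16 Gd mult S198_227_216_290 (Tr.lf 12903007298 86739784 46209142599937953693743) 0 32 192 224 320 384)
  (go 16 Gd mult S227_256_216_290 (Tr.lf 8598471745 99584838 118114510466938450149405) 0 32 192 224 320 384)) = true := by decide +kernel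
  have c7 : (go 16 Gd mult S198_212_216_290 (Tr.lf 12902868002 99457863 316852049143758801579343919) 0 32 224 240 320 384) = true := by decide +kernel
  have c8 : (go 16 Gd mult S227_256_290_364 (Tr.lf 8598470977 108231749 125779124474751476574257181) 32 64 224 256 256 288) = true := by decide +kernel
  (And.intro (Ok.s3 227 (Ok.lf S198_227_290_364_ok c4)
  (Ok.s2 288 (Ok.lf S227_256_290_364_ok c8)
  (Ok.lf S227_256_290_364_ok (br (br (br (br (br (br c5)))))))))
  (And.intro (Ok.s3 227 (Ok.lf S198_227_290_364_ok (bl c0))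
  (Ok.lf S227_256_290_364_ok (br c0)))
  (And.intro (Ok.s4 290 (Ok.s3 227 (Ok.s0 32 (Ok.lf S198_227_216_290_ok (bl c6))
  (Ok.lf S198_227_216_290_ok (bl c2)))
  (Ok.s0 32 (Ok.lf S227_256_216_290_ok (br c6))
  (Ok.lf S227_256_216_290_ok (br c2))))
  (Ok.s1 208 (Ok.s3 227 (Ok.lf S198_227_290_364_ok (bl (br (br c5))))
  (Ok.lf S227_256_290_364_ok (bl (br (br (br c5))))))
  (Ok.s2 352 (Ok.s3 227 (Ok.lf S198_227_290_364_ok (bl (br c5)))
  (Ok.lf S227_256_290_364_ok (bl c5)))
  (Ok.s3 227 (Ok.lf S198_227_290_364_ok (bl (br (br (br (br c5))))))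
  (Ok.lf S227_256_290_364_ok (bl (br (br (br (br (br c5)))))))))))
  (Ok.s3 227 (Ok.s3 212 (Ok.s0 32 (Ok.lf S198_212_216_290_ok c7)
  (Ok.lf S198_212_216_290_ok c1))
  (Ok.s2 352 (Ok.lf S212_227_216_290_ok (bl c3))
  (Ok.lf S212_227_216_290_ok (br (br (br c3))))))
  (Ok.s2 352 (Ok.lf S227_256_216_290_ok (bl (br c3)))
  (Ok.lf S227_256_216_290_ok (bl (br (br c3)))))))))

end Vale.Agent.P098.Ck
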