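import Vale.Agent.P098.CkGd
import Vale.Agent.P098.CkOk
import Vale.Agent.P098.Sh.A23
import Vale.Agent.P098.Sh.A25
import Vale.Agent.P098.Sh.A30
import Vale.Agent.P098.Sh.A36

namespace Vale.Agent.P098.Ck

theorem r116 :
    Ok Gd mult 0 64 224 240 320 384 198 256 290 364 ∧
    Ok Gd mult 0 64 240 256 320 384 198 256 216 364 ∧
    Ok Gd mult 64 128 192 256 320 384 198 256 216 290 :=
  have c0 : (go 16 Gd mult S198_212_216_290 (Tr.lf 17744545924 90671946 0) 64 128 192 224 320 384) = true := by decide +kernel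
  have c1 : (go 16 Gd mult S212_227_216_290 (Tr.lf 17744562244 103513033 47155042948905151485509661) 64 96 240 256 320 384) = true := by decide +kernel
  have c2 : (go 16 Gd mult S227_256_216_290 (Tr.lf 13448284292 107838153 2423016727569897023864832) 64 128 224 256 320 384) = true := by decide +kernel
  have c3 : (go 16 Gd mult S198_227_216_364 (Tr.sp 2 352 (Tr.sp 0 48 Tr.skip (Tr.sp 0 56 Tr.skip (Tr.lf 17744562242 99318729 1170257496432902180674994176))) Tr.skip) 32 64 240 256 320 384) = true := by decide +kernel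
  have c4 : (band (go 16 Gd mult S212_227_216_290 (Tr.lf 18281416772 94997322 0) 64 128 192 208 320 384)
  (go 16 Gd mult S212_227_216_290 (Tr.lf 17744545860 95124553 0) 64 128 208 224 320 384)) = true := by decide +kernel
  have c5 : (go 16 Gd mult S227_256_216_290 (Tr.lf 13439895620 99445704 0) 64 128 192 224 320 384) = true := by decide +kernel
  have c6 : (go 16 Gd mult S198_212_216_290 (Tr.lf 17744544840 99322825 123318255020179428669915136) 64 128 240 256 320 352) = true := by decide +kernel
  have c7 : (band (go 16 Gd mult S198_212_216_290 (Tr.lf 17744282760 95128521 199472760236413813826519040) 64 128 224 256 352 384)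
  (go 16 Gd mult S198_212_216_290 (Tr.lf 17744282696 95386569 1752453916450868756509) 64 128 224 240 320 352)) = true := by decide +kernel
  have c8 : (band (go 16 Gd mult S212_227_216_290 (Tr.lf 17744283780 95251529 291351122527125631104188416) 96 128 224 256 320 384)
  (go 16 Gd mult S212_227_216_290 (Tr.lf 17744283716 99580873 0) 64 96 224 240 320 384)) = true := by decide +kernel
  have c9 : (go 16 Gd mult S227_256_216_364 (Tr.sp 2 352 (Tr.lf 12903285282 99453895 1137654333575402371248291840) Tr.skip) 32 64 240 256 320 384) = true := by decide +kernel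
  have c10 : (go 16 Gd mult S198_227_290_364 (Tr.lf 12903023650 95390663 0) 32 64 224 240 320 384) = true := by decide +kernel
  have c11 : (go 16 Gd mult S198_227_290_364 (Tr.lf 8599520290 103779525 765329438624507990456991821) 0 32 224 240 320 384) = true := by decide +kernel
  have c12 : (band (go 16 Gd mult S227_256_290_364 (Tr.lf 12901827108 95124295 921236431126367110726418432) 0 64 224 240 320 352)
  (go 16 Gd mult S227_256_290_364 (Tr.sp 0 32 Tr.skip (Tr.lf 12901827105 95259335 2317520609869091341393199104)) 0 64 224 240 352 384)) = true := by decide +kernel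
  (And.intro (Ok.s3 227 (Ok.s0 32 (Ok.lf S198_227_290_364_ok c11)
  (Ok.lf S198_227_290_364_ok c10))
  (Ok.s2 352 (Ok.lf S227_256_290_364_ok (bl c12))
  (Ok.lf S227_256_290_364_ok (br c12))))
  (And.intro (Ok.s0 32 (Ok.out rfl)
  (Ok.s3 227 (Ok.lf S198_227_216_364_ok c3)
  (Ok.lf S227_256_216_364_ok c9)))
  (Ok.s1 224 (Ok.s3 227 (Ok.s3 212 (Ok.lf S198_212_216_290_ok c0)
  (Ok.s1 208 (Ok.lf S212_227_216_290_ok (bl c4))
  (Ok.lf S212_227_216_290_ok (br c4))))
  (Ok.lf S227_256_216_290_ok c5))
  (Ok.s3 227 (Ok.s3 212 (Ok.s2 352 (Ok.s1 240 (Ok.lf S198_212_216_290_ok (br c7))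
  (Ok.lf S198_212_216_290_ok c6))
  (Ok.lf S198_212_216_290_ok (bl c7)))
  (Ok.s0 96 (Ok.s1 240 (Ok.lf S212_227_216_290_ok (br c8))
  (Ok.lf S212_227_216_290_ok c1))
  (Ok.lf S212_227_216_290_ok (bl c8))))
  (Ok.lf S227_256_216_290_ok c2)))))

end Vale.Agent.P098.Ck
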