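import Vale.Agent.P098.CkGd
import Vale.Agent.P098.CkOk
import Vale.Agent.P098.Sh.A26
import Vale.Agent.P098.Sh.A37

namespace Vale.Agent.P098.Ck

theorem r118 :
    Ok Gd mult 32 64 192 224 320 384 198 256 364 512 ∧
    Ok Gd mult 64 128 192 224 320 384 198 256 364 512 ∧
    Ok Gd mult 0 128 224 240 256 384 198 256 364 512 ∧
    Ok Gd mult 0 64 240 256 256 384 198 256 364 512 :=
  have c0 : (go 16 Gd mult S198_227_364_512 (Tr.lf 13440157764 107973575 0) 64 128 224 240 320 384) = true := by decide +kernel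
  have c1 : (band (go 16 Gd mult S198_227_364_512 (Tr.lf 13440944258 103517256 0) 96 128 192 224 320 384)
  (band (go 16 Gd mult S198_227_364_512 (Tr.lf 12894635044 103513031 1872637328650201480736800768) 0 64 240 256 256 320)
  (band (go 16 Gd mult S227_256_364_512 (Tr.lf 8598602788 103906118 1922227563169603021699023021) 0 64 240 256 256 320)
  (go 16 Gd mult S198_227_364_512 (Tr.lf 13439894594 99322696 0) 64 96 192 224 320 384)))) = true := by decide +kernel
  have c2 : (go 16 Gd mult S227_256_364_512 (Tr.lf 13439109186 108100423 0) 96 128 224 240 256 384) = true := by decide +kernel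
  have c3 : (go 16 Gd mult S227_256_364_512 (Tr.lf 13439894660 95251400 0) 64 128 192 224 320 384) = true := by decide +kernel
  have c4 : (go 16 Gd mult S198_227_364_512 (Tr.lf 13440156740 103906375 0) 64 128 224 240 256 320) = true := by decide +kernel
  have c5 : (band (go 16 Gd mult S198_227_364_512 (Tr.lf 8599913540 103775302 1901640314253811691812814848) 0 64 224 240 320 384)
  (band (go 16 Gd mult S198_227_364_512 (Tr.lf 9136784420 108105029 703594827015714179678994432) 0 64 224 232 256 320)
  (band (go 16 Gd mult S227_256_364_512 (Tr.lf 8598864932 99715910 702385901196099550504288256) 0 64 224 232 256 320)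
  (go 16 Gd mult S227_256_364_512 (Tr.lf 8598864420 99453766 1609080265907071431533920256) 0 64 224 240 320 352)))) = true := by decide +kernel
  have c6 : (band (go 16 Gd mult S227_256_364_512 (Tr.lf 12901959714 91323207 0) 64 96 224 240 256 384)
  (band (go 16 Gd mult S227_256_364_512 (Tr.lf 8598602788 103779397 1194418709779253624609701888) 0 64 232 240 256 320)
  (band (go 16 Gd mult S198_227_364_512 (Tr.lf 12894618660 99449799 1194418709779253624609701888) 0 64 232 240 256 320)
  (band (go 16 Gd mult S198_227_364_512 (Tr.lf 9136522305 107973702 0) 32 64 192 224 320 384)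
  (band (go 16 Gd mult S227_256_364_512 (Tr.lf 8598602273 99576774 0) 32 64 192 224 320 384)
  (band (go 16 Gd mult S227_256_364_512 (Tr.lf 8598602274 99322694 4274761698157328761761038336) 0 64 224 240 352 384)
  (go 16 Gd mult S198_227_364_512 (Tr.sp 2 352 (Tr.lf 8599650850 103910597 2776902607654803214300086272) Tr.skip) 32 64 240 256 320 384))))))) = true := by decide +kernel
  have c7 : (go 16 Gd mult S227_256_364_512 (Tr.sp 2 352 (Tr.lf 8598593826 103910341 2776919910700744353859502080) Tr.skip) 32 64 240 256 320 384) = true := by decide +kernel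
  (And.intro (Ok.s3 227 (Ok.lf S198_227_364_512_ok (bl (br (br (br c6)))))
  (Ok.lf S227_256_364_512_ok (bl (br (br (br (br c6)))))))
  (And.intro (Ok.s3 227 (Ok.s0 96 (Ok.lf S198_227_364_512_ok (br (br (br c1))))
  (Ok.lf S198_227_364_512_ok (bl c1)))
  (Ok.lf S227_256_364_512_ok c3))
  (And.intro (Ok.s0 64 (Ok.s2 320 (Ok.s1 232 (Ok.s3 227 (Ok.lf S198_227_364_512_ok (bl (br c5)))
  (Ok.lf S227_256_364_512_ok (bl (br (br c5)))))
  (Ok.s3 227 (Ok.lf S198_227_364_512_ok (bl (br (br c6))))
  (Ok.lf S227_256_364_512_ok (bl (br c6)))))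
  (Ok.s3 227 (Ok.lf S198_227_364_512_ok (bl c5))
  (Ok.s2 352 (Ok.lf S227_256_364_512_ok (br (br (br c5))))
  (Ok.lf S227_256_364_512_ok (bl (br (br (br (br (br c6))))))))))
  (Ok.s3 227 (Ok.s2 320 (Ok.lf S198_227_364_512_ok c4)
  (Ok.lf S198_227_364_512_ok c0))
  (Ok.s0 96 (Ok.lf S227_256_364_512_ok (bl c6))
  (Ok.lf S227_256_364_512_ok c2))))
  (Ok.s2 320 (Ok.s3 227 (Ok.lf S198_227_364_512_ok (bl (br c1)))
  (Ok.lf S227_256_364_512_ok (bl (br (br c1)))))
  (Ok.s0 32 (Ok.out rfl)
  (Ok.s3 227 (Ok.lf S198_227_364_512_ok (br (br (br (br (br (br c6)))))))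
  (Ok.lf S227_256_364_512_ok c7)))))))

end Vale.Agent.P098.Ck
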