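import Vale.Agent.P098.CkGd
import Vale.Agent.P098.CkOk
import Vale.Agent.P098.Sh.A3
import Vale.Agent.P098.Sh.A4
import Vale.Agent.P098.Sh.A5
import Vale.Agent.P098.Sh.A6

namespace Vale.Agent.P098.Ck

theorem r12 :
    Ok Gd mult 0 128 0 64 448 512 111 140 364 512 ∧
    Ok Gd mult 0 128 0 64 384 512 82 140 512 808 :=
  have c0 : (band (go 16 Gd mult S82_111_512_660 (Tr.lf 9675376776 99179720 308669368595728503406592) 0 128 32 64 480 512)
  (go 16 Gd mult S111_140_660_808 (Tr.lf 5379474564 99314759 233019271163361326268416) 0 128 32 64 480 512)) = true := by decide +kernel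
  have c1 : (band (go 16 Gd mult S111_140_364_512 (Tr.lf 9682847876 98921289 336339484711811863805952) 0 128 0 32 480 512)
  (go 16 Gd mult S111_140_660_808 (Tr.lf 4842603652 99191751 334365683090689376649216) 0 128 0 32 480 512)) = true := by decide +kernel
  have c2 : (go 16 Gd mult S111_140_364_512 (Tr.lf 9683896452 99187912 202342335800105538420736) 0 128 32 64 480 512) = true := by decide +kernel
  have c3 : (go 16 Gd mult S82_111_660_808 (Tr.lf 9675507844 99179720 338663774449233660018688) 0 128 32 64 480 512) = true := by decide +kernel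
  have c4 : (band (go 16 Gd mult S111_140_512_660 (Tr.lf 5387864196 99322951 316158746682005244608512) 0 128 0 32 480 512)
  (band (go 16 Gd mult S82_111_512_660 (Tr.lf 5379343490 103644103 176914624290309503063162880) 0 128 0 32 480 512)
  (go 16 Gd mult S82_111_660_808 (Tr.lf 5379343490 103644103 197515099521602893878657024) 0 128 0 32 480 512))) = true := by decide +kernel
  have c5 : (go 16 Gd mult S111_140_512_660 (Tr.lf 9683880068 99187912 215365737079585720238080) 0 128 32 64 480 512) = true := by decide +kernel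
  have c6 : (band (go 16 Gd mult S82_140_512_660 (Tr.lf 1160938114 99720136 0) 0 128 0 64 384 448)
  (band (go 16 Gd mult S82_140_660_808 (Tr.lf 1160938114 99720136 0) 0 128 0 64 384 448)
  (band (go 16 Gd mult S82_140_660_808 (Tr.lf 1160938050 99720136 0) 0 128 0 32 448 480)
  (band (go 16 Gd mult S111_140_364_512 (Tr.lf 1160913473 99720136 0) 0 128 0 32 448 480)
  (band (go 16 Gd mult S111_140_512_660 (Tr.lf 1160913473 99720136 0) 0 128 0 32 448 480)
  (band (go 16 Gd mult S82_111_512_660 (Tr.lf 1160847937 95525832 0) 0 128 0 32 448 480)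
  (band (go 16 Gd mult S111_140_512_660 (Tr.lf 4842463778 103378246 0) 0 128 32 64 448 480)
  (go 16 Gd mult S82_111_512_660 (Tr.lf 4842398242 95255750 0) 0 128 32 64 448 480)))))))) = true := by decide +kernel
  have c7 : (band (go 16 Gd mult S82_140_660_808 (Tr.lf 4842472002 99450054 0) 0 128 32 64 448 480)
  (go 16 Gd mult S111_140_364_512 (Tr.lf 4842471970 103378246 0) 0 128 32 64 448 480)) = true := by decide +kernel
  (And.intro (Ok.s1 32 (Ok.s2 480 (Ok.lf S111_140_364_512_ok (bl (br (br (br c6)))))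
  (Ok.lf S111_140_364_512_ok (bl c1)))
  (Ok.s2 480 (Ok.lf S111_140_364_512_ok (br c7))
  (Ok.lf S111_140_364_512_ok c2)))
  (Ok.s4 660 (Ok.s2 448 (Ok.lf S82_140_512_660_ok (bl c6))
  (Ok.s3 111 (Ok.s1 32 (Ok.s2 480 (Ok.lf S82_111_512_660_ok (bl (br (br (br (br (br c6)))))))
  (Ok.lf S82_111_512_660_ok (bl (br c4))))
  (Ok.s2 480 (Ok.lf S82_111_512_660_ok (br (br (br (br (br (br (br c6))))))))
  (Ok.lf S82_111_512_660_ok (bl c0))))
  (Ok.s1 32 (Ok.s2 480 (Ok.lf S111_140_512_660_ok (bl (br (br (br (br c6))))))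
  (Ok.lf S111_140_512_660_ok (bl c4)))
  (Ok.s2 480 (Ok.lf S111_140_512_660_ok (bl (br (br (br (br (br (br c6))))))))
  (Ok.lf S111_140_512_660_ok c5)))))
  (Ok.s2 448 (Ok.lf S82_140_660_808_ok (bl (br c6)))
  (Ok.s2 480 (Ok.s1 32 (Ok.lf S82_140_660_808_ok (bl (br (br c6))))
  (Ok.lf S82_140_660_808_ok (bl c7)))
  (Ok.s1 32 (Ok.s3 111 (Ok.lf S82_111_660_808_ok (br (br c4)))
  (Ok.lf S111_140_660_808_ok (br c1)))
  (Ok.s3 111 (Ok.lf S82_111_660_808_ok c3)
  (Ok.lf S111_140_660_808_ok (br c0))))))))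

end Vale.Agent.P098.Ck
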