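import Vale.Agent.P098.CkGd
import Vale.Agent.P098.CkOk
import Vale.Agent.P098.Sh.A27
import Vale.Agent.P098.Sh.A37
import Vale.Agent.P098.Sh.A38
import Vale.Agent.P098.Sh.A41
import Vale.Agent.P098.Sh.A43
import Vale.Agent.P098.Sh.A45

namespace Vale.Agent.P098.Ck

theorem r120 :
    Ok Gd mult 0 128 224 256 320 384 227 256 512 660 ∧
    Ok Gd mult 0 128 192 256 256 384 198 256 660 808 ∧
    Ok Gd mult 0 128 192 224 256 320 256 314 216 364 ∧
    Ok Gd mult 0 128 192 208 320 384 256 314 216 364 :=
  have c0 : (go 16 Gd mult S227_256_512_660 (Tr.lf 13439107720 99191368 2393673122836965765918228480) 0 128 224 256 320 352) = true := by decide +kernel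
  have c1 : (go 16 Gd mult S227_256_660_808 (Tr.lf 13430704200 99314248 1268163184775746004266778624) 0 128 192 224 256 384) = true := by decide +kernel
  have c2 : (band (go 16 Gd mult S227_256_660_808 (Tr.lf 13430719620 107965382 904276513071742622680219648) 64 128 224 256 256 320)
  (go 16 Gd mult S198_227_660_808 (Tr.lf 13430703172 107965382 805144595863343030354313216) 64 128 224 256 256 320)) = true := by decide +kernel
  have c3 : (band (go 16 Gd mult S198_227_660_808 (Tr.lf 13431752772 95120455 0) 64 128 192 224 256 384)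
  (go 16 Gd mult S198_227_660_808 (Tr.lf 13430703172 99576519 1072317201998176077964378112) 64 128 224 256 320 384)) = true := by decide +kernel
  have c4 : (go 16 Gd mult S227_256_660_808 (Tr.lf 13430703236 99576519 1162986638469273266067341312) 64 128 224 256 320 384) = true := by decide +kernel
  have c5 : (go 16 Gd mult S227_256_512_660 (Tr.lf 13430702664 90794568 5908020480456692776789082112) 0 128 224 256 352 384) = true := by decide +kernel
  have c6 : (band (go 16 Gd mult S256_285_216_364 (Tr.lf 8598864964 99453639 0) 0 128 192 224 256 320)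
  (band (go 16 Gd mult S285_314_216_364 (Tr.lf 8598602820 95128263 0) 0 128 192 224 256 320)
  (band (go 16 Gd mult S256_285_216_364 (Tr.lf 4303897668 103783365 417079407767047065273630720) 0 64 192 208 352 384)
  (go 16 Gd mult S285_314_216_364 (Tr.lf 4303897156 103783365 448511479077027423815991296) 0 64 192 208 352 384)))) = true := by decide +kernel
  have c7 : (band (go 16 Gd mult S198_227_660_808 (Tr.lf 8598602820 99711814 2815588233882471347890683904) 0 64 224 256 256 384)
  (go 16 Gd mult S227_256_660_808 (Tr.lf 8598602820 99711814 2818006085521700606240096256) 0 64 224 256 256 384)) = true := by decide +kernel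
  have c8 : (go 16 Gd mult S256_314_216_364 (Tr.lf 8598618658 99584838 0) 64 128 192 208 320 384) = true := by decide +kernel
  have c9 : (go 16 Gd mult S198_227_660_808 (Tr.lf 8598594626 95390534 1286297072069965441887371264) 0 64 192 224 256 384) = true := by decide +kernel
  have c10 : (go 16 Gd mult S256_314_216_364 (Tr.lf 4303634722 99847109 0) 0 64 192 208 320 352) = true := by decide +kernel
  (And.intro (Ok.s2 352 (Ok.lf S227_256_512_660_ok c0)
  (Ok.lf S227_256_512_660_ok c5))
  (And.intro (Ok.s1 224 (Ok.s3 227 (Ok.s0 64 (Ok.lf S198_227_660_808_ok c9)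
  (Ok.lf S198_227_660_808_ok (bl c3)))
  (Ok.lf S227_256_660_808_ok c1))
  (Ok.s0 64 (Ok.s3 227 (Ok.lf S198_227_660_808_ok (bl c7))
  (Ok.lf S227_256_660_808_ok (br c7)))
  (Ok.s2 320 (Ok.s3 227 (Ok.lf S198_227_660_808_ok (br c2))
  (Ok.lf S227_256_660_808_ok (bl c2)))
  (Ok.s3 227 (Ok.lf S198_227_660_808_ok (br c3))
  (Ok.lf S227_256_660_808_ok c4)))))
  (And.intro (Ok.s3 285 (Ok.lf S256_285_216_364_ok (bl c6))
  (Ok.lf S285_314_216_364_ok (bl (br c6))))
  (Ok.s0 64 (Ok.s2 352 (Ok.lf S256_314_216_364_ok c10)
  (Ok.s3 285 (Ok.lf S256_285_216_364_ok (bl (br (br c6))))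
  (Ok.lf S285_314_216_364_ok (br (br (br c6))))))
  (Ok.lf S256_314_216_364_ok c8)))))

end Vale.Agent.P098.Ck
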