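import Vale.Agent.P098.CkGd
import Vale.Agent.P098.CkOk
import Vale.Agent.P098.Sh.A41
import Vale.Agent.P098.Sh.A43
import Vale.Agent.P098.Sh.A45

namespace Vale.Agent.P098.Ck

theorem r121 :
    Ok Gd mult 0 64 208 224 320 352 256 314 216 364 ∧
    Ok Gd mult 0 64 208 224 352 384 256 314 216 364 ∧
    Ok Gd mult 64 128 208 224 320 384 256 314 216 364 ∧
    Ok Gd mult 0 128 224 256 256 384 256 314 216 364 :=
  have c0 : (band (go 16 Gd mult S256_314_216_364 (Tr.lf 8598881316 99584838 0) 64 128 208 224 320 384)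
  (band (go 16 Gd mult S256_314_216_364 (Tr.lf 4303913508 103910341 797891040945655255306076160) 0 32 208 216 352 368)
  (band (go 16 Gd mult S256_314_216_364 (Tr.sp 1 248 (Tr.lf 4303914018 103910596 1627320683148316541815095296) Tr.skip) 0 32 240 256 256 320)
  (go 16 Gd mult S256_314_216_364 (Tr.lf 4303913252 108104900 498077437681227219978944512) 0 32 216 224 320 336)))) = true := by decide +kernel
  have c1 : (band (go 16 Gd mult S256_285_216_364 (Tr.lf 4303898660 108367044 609298613085773104051912704) 0 32 224 232 256 320)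
  (band (go 16 Gd mult S285_314_216_364 (Tr.lf 4295246354 104172612 947797842577869272969641984) 0 32 224 232 256 320)
  (band (go 16 Gd mult S256_285_216_364 (Tr.lf 4303898660 108235972 1101405300878942384911548416) 0 32 232 240 256 320)
  (band (go 16 Gd mult S285_314_216_364 (Tr.lf 4295238162 108235844 1392682544196052809261514752) 0 32 232 240 256 320)
  (go 16 Gd mult S256_285_216_364 (Tr.lf 8598864420 91188166 1513595638936925691753580548) 0 64 224 240 320 352))))) = true := by decide +kernel
  have c2 : (go 16 Gd mult S256_285_216_364 (Tr.lf 18346427460 107842121 250247644660228239164178432) 64 128 224 256 256 320) = true := by decide +kernel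
  have c3 : (go 16 Gd mult S285_314_216_364 (Tr.lf 12893571140 91056712 413452630308203177749512192) 64 128 224 256 256 384) = true := by decide +kernel
  have c4 : (go 16 Gd mult S285_314_216_364 (Tr.lf 4303897636 108104900 1966922308513001667246948352) 0 64 224 240 320 384) = true := by decide +kernel
  have c5 : (go 16 Gd mult S256_285_216_364 (Tr.lf 12901958724 95255367 178921021302965117856514048) 64 128 224 256 320 384) = true := by decide +kernel
  have c6 : (band (go 16 Gd mult S256_314_216_364 (Tr.lf 4303913252 99847364 923718901824646317925793659) 0 32 216 224 336 352)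
  (go 16 Gd mult S256_314_216_364 (Tr.lf 4303913252 99847109 1120770065719273111481810811) 0 32 208 216 368 384)) = true := by decide +kernel
  have c7 : (band (go 16 Gd mult S256_314_216_364 (Tr.lf 4303651364 104041413 244203015562155093290647552) 0 64 208 216 320 352)
  (band (go 16 Gd mult S256_314_216_364 (Tr.lf 8598618690 108100422 293830512512747683398352925) 32 64 224 256 256 320)
  (go 16 Gd mult S256_314_216_364 (Tr.lf 4303651346 99589061 3999307352619861529398736605) 0 32 216 224 352 384))) = true := by decide +kernel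
  have c8 : (band (go 16 Gd mult S256_314_216_364 (Tr.sp 0 32 Tr.skip (Tr.sp 2 352 (Tr.sp 1 248 (Tr.lf 8598602002 103779014 2139870052723970747775582208) Tr.skip) Tr.skip)) 0 64 240 256 320 384)
  (go 16 Gd mult S256_314_216_364 (Tr.lf 8598602001 99449670 0) 32 64 208 224 352 384)) = true := by decide +kernel
  have c9 : (go 16 Gd mult S256_314_216_364 (Tr.lf 4303503633 108239940 0) 32 64 216 224 320 352) = true := by decide +kernel
  have c10 : (go 16 Gd mult S256_285_216_364 (Tr.sp 0 32 Tr.skip (Tr.lf 8598462737 99449670 2882139806855790309505236992)) 0 64 224 240 352 384) = true := by decide +kernel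
  (And.intro (Ok.s1 216 (Ok.lf S256_314_216_364_ok (bl c7))
  (Ok.s0 32 (Ok.s2 336 (Ok.lf S256_314_216_364_ok (br (br (br c0))))
  (Ok.lf S256_314_216_364_ok (bl c6)))
  (Ok.lf S256_314_216_364_ok c9)))
  (And.intro (Ok.s0 32 (Ok.s1 216 (Ok.s2 368 (Ok.lf S256_314_216_364_ok (bl (br c0)))
  (Ok.lf S256_314_216_364_ok (br c6)))
  (Ok.lf S256_314_216_364_ok (br (br c7))))
  (Ok.lf S256_314_216_364_ok (br c8)))
  (And.intro (Ok.lf S256_314_216_364_ok (bl c0))
  (Ok.s0 64 (Ok.s2 320 (Ok.s0 32 (Ok.s1 240 (Ok.s1 232 (Ok.s3 285 (Ok.lf S256_285_216_364_ok (bl c1))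
  (Ok.lf S285_314_216_364_ok (bl (br c1))))
  (Ok.s3 285 (Ok.lf S256_285_216_364_ok (bl (br (br c1))))
  (Ok.lf S285_314_216_364_ok (bl (br (br (br c1)))))))
  (Ok.lf S256_314_216_364_ok (bl (br (br c0)))))
  (Ok.lf S256_314_216_364_ok (bl (br c7))))
  (Ok.s1 240 (Ok.s3 285 (Ok.s2 352 (Ok.lf S256_285_216_364_ok (br (br (br (br c1)))))
  (Ok.lf S256_285_216_364_ok c10))
  (Ok.lf S285_314_216_364_ok c4))
  (Ok.lf S256_314_216_364_ok (bl c8))))
  (Ok.s3 285 (Ok.s2 320 (Ok.lf S256_285_216_364_ok c2)
  (Ok.lf S256_285_216_364_ok c5))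
  (Ok.lf S285_314_216_364_ok c3))))))

end Vale.Agent.P098.Ck
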