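import Vale.Agent.P098.CkGd
import Vale.Agent.P098.CkOk
import Vale.Agent.P098.Sh.A41
import Vale.Agent.P098.Sh.A43
import Vale.Agent.P098.Sh.A45

namespace Vale.Agent.P098.Ck

theorem r122 :
    Ok Gd mult 0 128 192 224 256 320 256 314 364 512 ∧
    Ok Gd mult 0 128 192 224 320 384 256 314 364 512 ∧
    Ok Gd mult 0 64 224 256 256 384 256 314 364 512 :=
  have c0 : (go 16 Gd mult S285_314_364_512 (Tr.lf 4303914056 103914437 647984239313441237642510336) 0 128 192 208 320 384) = true := by decide +kernel
  have c1 : (band (go 16 Gd mult S256_285_364_438 (Tr.lf 4303652932 103914437 421915111045505581972455424) 0 64 192 208 320 384)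
  (go 16 Gd mult S256_285_438_512 (Tr.lf 4303635492 103914437 651611016772285125166628864) 0 64 192 208 320 384)) = true := by decide +kernel
  have c2 : (band (go 16 Gd mult S256_314_364_512 (Tr.sp 1 240 (Tr.sp 2 352 (Tr.lf 4303913540 103918660 1604347347886591624456699904) Tr.skip) Tr.skip) 0 32 224 256 320 384)
  (band (go 16 Gd mult S256_314_364_512 (Tr.lf 4303913284 103910341 776130376192591930161364992) 0 32 208 216 352 368)
  (band (go 16 Gd mult S256_314_364_512 (Tr.lf 4303913508 103783365 1130374528998038459220295547) 0 32 208 216 368 384)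
  (go 16 Gd mult S256_314_364_512 (Tr.lf 4303913508 104041413 483570327845851669882470400) 0 64 208 216 320 352)))) = true := by decide +kernel
  have c3 : (band (go 16 Gd mult S256_285_364_512 (Tr.lf 8598602824 91065031 0) 0 128 192 224 256 320)
  (band (go 16 Gd mult S285_314_364_512 (Tr.lf 8598463044 95255239 0) 0 128 192 224 256 320)
  (band (go 16 Gd mult S285_314_364_512 (Tr.lf 8598463522 99711814 1275477060554717708429361181) 32 64 224 256 256 384)
  (go 16 Gd mult S256_285_364_512 (Tr.lf 8598594626 99711814 988940907184289376423067949) 32 64 224 256 256 384)))) = true := by decide +kernel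
  have c4 : (band (go 16 Gd mult S256_285_364_512 (Tr.lf 4295509058 104172612 1143643825355439199272042496) 0 32 224 240 256 320)
  (band (go 16 Gd mult S285_314_364_512 (Tr.lf 4295238177 108235844 1509948348698671839208013824) 0 32 224 240 256 320)
  (band (go 16 Gd mult S256_285_364_512 (Tr.lf 4303897124 104041668 841412370451781905595498496) 0 64 216 224 320 352)
  (go 16 Gd mult S285_314_364_512 (Tr.lf 4303626514 99847364 1318938069199560429604438016) 0 64 216 224 320 352)))) = true := by decide +kernel
  have c5 : (band (go 16 Gd mult S256_314_364_512 (Tr.lf 8598619170 103648070 0) 64 128 208 224 320 384)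
  (go 16 Gd mult S256_314_364_512 (Tr.lf 4303651090 103914437 4704089172189223854176010107) 0 32 216 224 352 384)) = true := by decide +kernel
  have c6 : (go 16 Gd mult S256_314_364_512 (Tr.lf 4303634978 107981892 2616183283890502016147881659) 0 32 240 256 256 320) = true := by decide +kernel
  have c7 : (go 16 Gd mult S256_314_364_512 (Tr.lf 4303503633 104045636 240576238103311205766529024) 32 64 208 224 352 384) = true := by decide +kernel
  have c8 : (go 16 Gd mult S256_285_364_512 (Tr.lf 8598462993 95390534 0) 64 128 192 208 320 384) = true := by decide +kernel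
  (And.intro (Ok.s3 285 (Ok.lf S256_285_364_512_ok (bl c3))
  (Ok.lf S285_314_364_512_ok (bl (br c3))))
  (And.intro (Ok.s1 208 (Ok.s3 285 (Ok.s0 64 (Ok.s4 438 (Ok.lf S256_285_364_438_ok (bl c1))
  (Ok.lf S256_285_438_512_ok (br c1)))
  (Ok.lf S256_285_364_512_ok c8))
  (Ok.lf S285_314_364_512_ok c0))
  (Ok.s0 64 (Ok.s2 352 (Ok.s1 216 (Ok.lf S256_314_364_512_ok (br (br (br c2))))
  (Ok.s3 285 (Ok.lf S256_285_364_512_ok (bl (br (br c4))))
  (Ok.lf S285_314_364_512_ok (br (br (br c4))))))
  (Ok.s0 32 (Ok.s1 216 (Ok.s2 368 (Ok.lf S256_314_364_512_ok (bl (br c2)))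
  (Ok.lf S256_314_364_512_ok (bl (br (br c2)))))
  (Ok.lf S256_314_364_512_ok (br c5)))
  (Ok.lf S256_314_364_512_ok c7)))
  (Ok.lf S256_314_364_512_ok (bl c5))))
  (Ok.s0 32 (Ok.s2 320 (Ok.s1 240 (Ok.s3 285 (Ok.lf S256_285_364_512_ok (bl c4))
  (Ok.lf S285_314_364_512_ok (bl (br c4))))
  (Ok.lf S256_314_364_512_ok c6))
  (Ok.lf S256_314_364_512_ok (bl c2)))
  (Ok.s3 285 (Ok.lf S256_285_364_512_ok (br (br (br c3))))
  (Ok.lf S285_314_364_512_ok (bl (br (br c3))))))))

end Vale.Agent.P098.Ck
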