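import Vale.Agent.P098.CkGd
import Vale.Agent.P098.CkOk
import Vale.Agent.P098.Sh.A41
import Vale.Agent.P098.Sh.A42
import Vale.Agent.P098.Sh.A44
import Vale.Agent.P098.Sh.A45
import Vale.Agent.P098.Sh.A46

namespace Vale.Agent.P098.Ck

theorem r123 :
    Ok Gd mult 64 128 224 256 256 384 256 314 364 512 ∧
    Ok Gd mult 0 128 192 256 256 384 256 314 512 808 :=
  have c0 : (go 16 Gd mult S256_285_364_512 (Tr.lf 17734059144 94988873 398945520472827627653038080) 64 128 224 256 256 320) = true := by decide +kernel
  have c1 : (go 16 Gd mult S256_285_512_660 (Tr.lf 17734059144 99187145 726564417588392133998411776) 64 128 224 256 256 320) = true := by decide +kernel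
  have c2 : (band (go 16 Gd mult S256_285_512_660 (Tr.lf 12893832264 90794568 2946152222400851298758950912) 0 128 224 256 320 384)
  (band (go 16 Gd mult S285_314_512_660 (Tr.lf 8598602312 95259462 3116610762966514012392521728) 0 128 224 256 320 384)
  (go 16 Gd mult S285_314_512_660 (Tr.lf 12893570120 86731336 2379166013001590215821754368) 0 128 224 256 256 320))) = true := by decide +kernel
  have c3 : (band (go 16 Gd mult S256_285_660_808 (Tr.lf 12893833284 99445447 1056601166343185898693197824) 64 128 224 256 256 384)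
  (band (go 16 Gd mult S285_314_364_512 (Tr.lf 12893571140 95377992 548852322105041645316603904) 64 128 224 256 256 384)
  (band (go 16 Gd mult S285_314_660_808 (Tr.lf 8598602820 103652293 1095286792570854032283795456) 64 128 224 256 256 384)
  (go 16 Gd mult S285_314_660_808 (Tr.lf 8598602788 91056839 1037258353229351831897899008) 0 128 192 224 256 384)))) = true := by decide +kernel
  have c4 : (band (go 16 Gd mult S256_314_512_660 (Tr.lf 8598619176 95259207 1651392669593583452648636416) 0 128 208 224 320 384)
  (band (go 16 Gd mult S256_314_512_660 (Tr.lf 8598619204 99576519 0) 0 128 192 224 256 320)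
  (go 16 Gd mult S256_314_512_660 (Tr.lf 4303651364 99847109 774921450372977300986658816) 0 128 192 208 320 384))) = true := by decide +kernel
  have c5 : (go 16 Gd mult S256_285_364_512 (Tr.lf 12893570116 95247175 481152476206622411533058048) 64 128 224 256 320 384) = true := by decide +kernel
  have c6 : (band (go 16 Gd mult S256_285_660_808 (Tr.lf 8598602820 95259462 1103749273308156436506738688) 0 128 192 224 256 384)
  (band (go 16 Gd mult S256_285_660_808 (Tr.lf 8598602818 99580742 2526668521359632050536907254) 0 64 224 256 256 384)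
  (go 16 Gd mult S285_314_660_808 (Tr.lf 8598602786 95386438 2398547195343097598484414464) 0 64 224 256 256 384))) = true := by decide +kernel
  have c7 : (go 16 Gd mult S256_285_512_660 (Tr.lf 8598594114 99453766 2236546505425604075096577195) 0 64 224 256 256 320) = true := by decide +kernel
  (And.intro (Ok.s3 285 (Ok.s2 320 (Ok.lf S256_285_364_512_ok c0)
  (Ok.lf S256_285_364_512_ok c5))
  (Ok.lf S285_314_364_512_ok (bl (br c3))))
  (Ok.s4 660 (Ok.s2 320 (Ok.s1 224 (Ok.lf S256_314_512_660_ok (bl (br c4)))
  (Ok.s3 285 (Ok.s0 64 (Ok.lf S256_285_512_660_ok c7)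
  (Ok.lf S256_285_512_660_ok c1))
  (Ok.lf S285_314_512_660_ok (br (br c2)))))
  (Ok.s1 224 (Ok.s1 208 (Ok.lf S256_314_512_660_ok (br (br c4)))
  (Ok.lf S256_314_512_660_ok (bl c4)))
  (Ok.s3 285 (Ok.lf S256_285_512_660_ok (bl c2))
  (Ok.lf S285_314_512_660_ok (bl (br c2))))))
  (Ok.s1 224 (Ok.s3 285 (Ok.lf S256_285_660_808_ok (bl c6))
  (Ok.lf S285_314_660_808_ok (br (br (br c3)))))
  (Ok.s0 64 (Ok.s3 285 (Ok.lf S256_285_660_808_ok (bl (br c6)))
  (Ok.lf S285_314_660_808_ok (br (br c6))))
  (Ok.s3 285 (Ok.lf S256_285_660_808_ok (bl c3))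
  (Ok.lf S285_314_660_808_ok (bl (br (br c3)))))))))

end Vale.Agent.P098.Ck
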