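import Vale.Agent.P098.CkGd
import Vale.Agent.P098.CkOk
import Vale.Agent.P098.Sh.A48
import Vale.Agent.P098.Sh.A49
import Vale.Agent.P098.Sh.A50
import Vale.Agent.P098.Sh.A51
import Vale.Agent.P098.Sh.A52

namespace Vale.Agent.P098.Ck

theorem r125 :
    Ok Gd mult 0 64 224 256 320 384 314 372 364 512 ∧
    Ok Gd mult 64 128 192 256 256 384 314 372 364 512 ∧
    Ok Gd mult 0 128 192 256 256 384 314 372 512 660 ∧
    Ok Gd mult 0 128 192 224 256 320 314 372 660 808 :=
  have c0 : (go 16 Gd mult S314_372_364_512 (Tr.lf 616073284 103914185 5048450705785768927328806123) 0 64 240 256 320 384) = true := by decide +kernel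
  have c1 : (go 16 Gd mult S314_372_512_660 (Tr.lf 4296574024 103902405 1371156872515800266014982144) 0 64 208 224 320 384) = true := by decide +kernel
  have c2 : (go 16 Gd mult S314_343_364_512 (Tr.lf 8598603906 91318983 251456570479842868338884608) 64 128 192 256 256 384) = true := by decide +kernel
  have c3 : (go 16 Gd mult S314_372_512_660 (Tr.lf 1344580 108239813 702385901196099550504288256) 0 64 192 208 320 384) = true := by decide +kernel
  have c4 : (band (go 16 Gd mult S343_372_364_512 (Tr.lf 9137439876 103648327 280588019209182392732352512) 64 128 192 256 320 384)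
  (band (go 16 Gd mult S314_343_512_660 (Tr.lf 8599651458 95259463 504195945989315572606697472) 64 128 192 256 320 384)
  (go 16 Gd mult S343_372_364_512 (Tr.lf 9136390788 103771079 164413911467589567760039936) 64 128 192 256 256 320))) = true := by decide +kernel
  have c5 : (go 16 Gd mult S314_372_364_512 (Tr.lf 614761506 99720135 2073300698072008584340770193) 0 32 224 240 320 384) = true := by decide +kernel
  have c6 : (band (go 16 Gd mult S314_372_512_660 (Tr.lf 4296180292 99839173 0) 0 128 192 224 256 320)
  (band (go 16 Gd mult S314_372_660_808 (Tr.lf 4296311332 95644869 0) 0 128 192 224 256 320)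
  (go 16 Gd mult S314_372_512_660 (Tr.sp 0 32 Tr.skip (Tr.lf 1212961 112430021 5100447759751658140479592109)) 0 64 240 256 320 384))) = true := by decide +kernel
  have c7 : (go 16 Gd mult S314_343_512_660 (Tr.lf 8598471240 99453766 2305421538005097836164677632) 0 128 224 256 256 320) = true := by decide +kernel
  have c8 : (band (go 16 Gd mult S343_372_512_660 (Tr.lf 9137439364 103648327 275708412693057771206082560) 64 128 192 256 320 352)
  (band (go 16 Gd mult S343_372_512_660 (Tr.lf 9137439364 103775303 531001075823519585445871616) 64 128 192 256 352 384)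
  (band (go 16 Gd mult S343_372_512_660 (Tr.lf 9137439300 104037447 592373651611168295606026240) 64 128 224 256 256 320)
  (band (go 16 Gd mult S343_372_512_660 (Tr.lf 547505186 91466567 3857367976339683457200095261) 0 32 240 256 256 320)
  (go 16 Gd mult S343_372_512_660 (Tr.lf 10633490 108235846 6173976524405341770854959136) 0 64 224 240 352 384))))) = true := by decide +kernel
  have c9 : (go 16 Gd mult S314_372_364_512 (Tr.lf 9601553 103914565 914375791870678673033003008) 32 64 224 240 320 384) = true := by decide +kernel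
  have c10 : (band (go 16 Gd mult S343_372_512_660 (Tr.lf 4296090146 108231749 1644139114675895677600399360) 0 64 224 240 256 320)
  (band (go 16 Gd mult S343_372_512_660 (Tr.lf 1122594 108235717 1889887727583755338812227584) 0 64 224 240 320 352)
  (go 16 Gd mult S343_372_512_660 (Tr.lf 8591057425 95513542 1355334860316076298605690909) 32 64 240 256 256 320))) = true := by decide +kernel
  have c11 : (go 16 Gd mult S314_343_512_660 (Tr.lf 4295106834 99842885 2559406234760242598552535040) 0 64 224 240 320 384) = true := by decide +kernel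
  (And.intro (Ok.s1 240 (Ok.s0 32 (Ok.lf S314_372_364_512_ok c5)
  (Ok.lf S314_372_364_512_ok c9))
  (Ok.lf S314_372_364_512_ok c0))
  (And.intro (Ok.s3 343 (Ok.lf S314_343_364_512_ok c2)
  (Ok.s2 320 (Ok.lf S343_372_364_512_ok (br (br c4)))
  (Ok.lf S343_372_364_512_ok (bl c4))))
  (And.intro (Ok.s2 320 (Ok.s1 224 (Ok.lf S314_372_512_660_ok (bl c6))
  (Ok.s3 343 (Ok.lf S314_343_512_660_ok c7)
  (Ok.s0 64 (Ok.s1 240 (Ok.lf S343_372_512_660_ok (bl c10))
  (Ok.s0 32 (Ok.lf S343_372_512_660_ok (bl (br (br (br c8)))))
  (Ok.lf S343_372_512_660_ok (br (br c10)))))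
  (Ok.lf S343_372_512_660_ok (bl (br (br c8)))))))
  (Ok.s0 64 (Ok.s1 224 (Ok.s1 208 (Ok.lf S314_372_512_660_ok c3)
  (Ok.lf S314_372_512_660_ok c1))
  (Ok.s1 240 (Ok.s3 343 (Ok.lf S314_343_512_660_ok c11)
  (Ok.s2 352 (Ok.lf S343_372_512_660_ok (bl (br c10)))
  (Ok.lf S343_372_512_660_ok (br (br (br (br c8)))))))
  (Ok.lf S314_372_512_660_ok (br (br c6)))))
  (Ok.s3 343 (Ok.lf S314_343_512_660_ok (bl (br c4)))
  (Ok.s2 352 (Ok.lf S343_372_512_660_ok (bl c8))
  (Ok.lf S343_372_512_660_ok (bl (br c8)))))))
  (Ok.lf S314_372_660_808_ok (bl (br c6))))))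

end Vale.Agent.P098.Ck
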