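import Vale.Agent.P098.CkGd
import Vale.Agent.P098.CkOk
import Vale.Agent.P098.Sh.A49
import Vale.Agent.P098.Sh.A50
import Vale.Agent.P098.Sh.A51
import Vale.Agent.P098.Sh.A52
import Vale.Agent.P098.Sh.A53
import Vale.Agent.P098.Sh.A54
import Vale.Agent.P098.Sh.A56

namespace Vale.Agent.P098.Ck

theorem r126 :
    Ok Gd mult 0 128 224 256 256 320 314 372 660 808 ∧
    Ok Gd mult 0 128 192 256 320 384 314 372 660 808 ∧
    Ok Gd mult 0 128 192 224 256 320 372 430 216 364 ∧
    Ok Gd mult 0 128 192 208 320 384 372 430 216 364 ∧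
    Ok Gd mult 0 64 208 224 320 352 372 430 216 364 :=
  have c0 : (go 16 Gd mult S372_430_216_364 (Tr.lf 4834231368 108231750 712200786550095470001127424) 0 64 216 224 320 352) = true := by decide +kernel
  have c1 : (band (go 16 Gd mult S314_372_660_808 (Tr.lf 4304700456 103910597 751951859800299346667241472) 0 128 192 208 320 384)
  (band (go 16 Gd mult S372_401_216_364 (Tr.lf 4834214984 104033223 373558078260920414984208384) 0 128 192 208 320 384)
  (band (go 16 Gd mult S401_430_216_364 (Tr.lf 4834017828 99716166 65281994259189975434133504) 0 128 192 208 320 384)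
  (go 16 Gd mult S314_372_660_808 (Tr.lf 4841571368 108104901 1538962568369422939400962048) 0 128 208 224 320 384)))) = true := by decide +kernel
  have c2 : (go 16 Gd mult S372_430_216_364 (Tr.lf 9129067592 103763143 0) 0 128 192 224 256 320) = true := by decide +kernel
  have c3 : (band (go 16 Gd mult S314_343_660_808 (Tr.lf 8599650888 95259718 2379166013001590215821754368) 0 128 224 256 256 320)
  (band (go 16 Gd mult S314_343_660_808 (Tr.lf 9136522306 103783366 1166715647783773651926515712) 64 128 224 256 320 384)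
  (band (go 16 Gd mult S314_343_660_808 (Tr.lf 4303634962 103779014 5864483692750453028225614385) 0 64 240 256 320 384)
  (band (go 16 Gd mult S343_372_660_808 (Tr.lf 615793186 99977929 5771385154827598314423068619) 0 64 240 256 320 384)
  (band (go 16 Gd mult S343_372_660_808 (Tr.lf 9137570372 112294983 660073497509587529389572096) 64 128 224 256 256 320)
  (go 16 Gd mult S343_372_660_808 (Tr.lf 13432537668 99318728 901949862135213784353996800) 64 128 224 256 320 352)))))) = true := by decide +kernel
  have c4 : (go 16 Gd mult S343_372_660_808 (Tr.lf 9137570372 107846599 1212839001221961476728684544) 64 128 224 256 352 384) = true := by decide +kernel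
  have c5 : (go 16 Gd mult S357_372_660_808 (Tr.lf 4842463780 95652807 3732227699540877186462187549) 0 64 240 256 256 320) = true := by decide +kernel
  have c6 : (go 16 Gd mult S372_430_216_364 (Tr.lf 4834083346 108231750 263545828675989160085946368) 0 64 208 216 320 352) = true := by decide +kernel
  have c7 : (go 16 Gd mult S343_357_660_808 (Tr.lf 8591118882 99572806 2330942091965869889065648175) 0 64 224 256 256 320) = true := by decide +kernel
  have c8 : (go 16 Gd mult S314_343_660_808 (Tr.lf 4303495698 108108868 2612559716151897428313767936) 0 64 224 240 320 384) = true := by decide +kernel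
  have c9 : (band (go 16 Gd mult S343_372_660_808 (Tr.lf 1188369 108235717 2328388676274627877718855512) 0 32 224 240 320 384)
  (go 16 Gd mult S343_372_660_808 (Tr.lf 4296155665 108100677 1272270075642596330290806784) 32 64 224 240 320 384)) = true := by decide +kernel
  have c10 : (go 16 Gd mult S357_372_660_808 (Tr.lf 4296085778 104037445 1824269061798475424631619584) 0 64 224 240 256 320) = true := by decide +kernel
  (And.intro (Ok.s3 343 (Ok.lf S314_343_660_808_ok (bl c3))
  (Ok.s0 64 (Ok.s3 357 (Ok.lf S343_357_660_808_ok c7)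
  (Ok.s1 240 (Ok.lf S357_372_660_808_ok c10)
  (Ok.lf S357_372_660_808_ok c5)))
  (Ok.lf S343_372_660_808_ok (bl (br (br (br (br c3))))))))
  (And.intro (Ok.s1 224 (Ok.s1 208 (Ok.lf S314_372_660_808_ok (bl c1))
  (Ok.lf S314_372_660_808_ok (br (br (br c1)))))
  (Ok.s0 64 (Ok.s1 240 (Ok.s3 343 (Ok.lf S314_343_660_808_ok c8)
  (Ok.s0 32 (Ok.lf S343_372_660_808_ok (bl c9))
  (Ok.lf S343_372_660_808_ok (br c9))))
  (Ok.s3 343 (Ok.lf S314_343_660_808_ok (bl (br (br c3))))
  (Ok.lf S343_372_660_808_ok (bl (br (br (br c3)))))))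
  (Ok.s3 343 (Ok.lf S314_343_660_808_ok (bl (br c3)))
  (Ok.s2 352 (Ok.lf S343_372_660_808_ok (br (br (br (br (br c3))))))
  (Ok.lf S343_372_660_808_ok c4)))))
  (And.intro (Ok.lf S372_430_216_364_ok c2)
  (And.intro (Ok.s3 401 (Ok.lf S372_401_216_364_ok (bl (br c1)))
  (Ok.lf S401_430_216_364_ok (bl (br (br c1)))))
  (Ok.s1 216 (Ok.lf S372_430_216_364_ok c6)
  (Ok.lf S372_430_216_364_ok c0))))))

end Vale.Agent.P098.Ck
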