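import Vale.Agent.P098.CkGd
import Vale.Agent.P098.CkOk
import Vale.Agent.P098.Sh.A54
import Vale.Agent.P098.Sh.A55
import Vale.Agent.P098.Sh.A56

namespace Vale.Agent.P098.Ck

theorem r128 :
    Ok Gd mult 0 128 192 208 320 384 372 430 364 512 ∧
    Ok Gd mult 0 128 208 224 320 384 372 430 364 512 ∧
    Ok Gd mult 0 64 224 256 256 384 372 430 364 512 :=
  have c0 : (band (go 16 Gd mult S372_401_364_512 (Tr.lf 4834232392 104033223 395318743013983740128919552) 0 128 192 208 320 384)
  (go 16 Gd mult S401_430_364_512 (Tr.lf 4834010148 99716166 113639027043775142422380544) 0 128 192 208 320 384)) = true := by decide +kernel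
  have c1 : (go 16 Gd mult S372_430_364_512 (Tr.lf 539264072 99585094 715864273007972466336399360) 0 64 216 224 320 352) = true := by decide +kernel
  have c2 : (band (go 16 Gd mult S372_430_364_512 (Tr.lf 539133988 95521607 603461288497601049153830912) 0 32 224 232 256 320)
  (band (go 16 Gd mult S372_430_364_512 (Tr.lf 539132964 103775302 949930267754211954555551744) 0 32 208 216 352 384)
  (band (go 16 Gd mult S372_430_364_512 (Tr.lf 9129067556 99703879 0) 64 128 208 224 320 384)
  (band (go 16 Gd mult S372_430_364_512 (Tr.lf 4834099490 99585094 1766589653301592342239576064) 32 64 240 256 288 320)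
  (band (go 16 Gd mult S372_430_364_512 (Tr.sp 0 32 Tr.skip (Tr.sp 2 352 (Tr.lf 539132194 95517766 2275194722374907229128231554) Tr.skip)) 0 64 240 256 320 384)
  (go 16 Gd mult S372_430_364_512 (Tr.lf 539132177 99580998 3057972142224542390498951168) 32 64 224 232 352 384)))))) = true := by decide +kernel
  have c3 : (band (go 16 Gd mult S401_430_364_512 (Tr.lf 540164642 91327176 978017650234112771095793185) 0 32 224 240 320 352)
  (go 16 Gd mult S372_401_364_512 (Tr.lf 539107618 99580998 1584896105978949791377592355) 0 32 224 240 320 352)) = true := by decide +kernel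
  have c4 : (band (go 16 Gd mult S401_430_364_512 (Tr.lf 4835066898 99719880 932534840523814650485080064) 0 32 232 240 256 320)
  (go 16 Gd mult S372_401_364_512 (Tr.lf 9127928337 107965127 1303647046558146340910530560) 0 32 232 240 256 320)) = true := by decide +kernel
  have c5 : (go 16 Gd mult S372_430_364_512 (Tr.lf 4834083346 108231750 242994089742540464115941376) 0 64 208 216 320 352) = true := by decide +kernel
  have c6 : (band (go 16 Gd mult S372_430_364_512 (Tr.lf 539066657 95517766 286717743142903127801856) 32 64 208 224 352 384)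
  (band (go 16 Gd mult S372_430_364_512 (Tr.lf 4834033953 99843142 116310945689134965393784832) 32 64 224 240 320 352)
  (band (go 16 Gd mult S372_430_364_512 (Tr.lf 9129001249 108096455 370021948102454736196730880) 32 64 240 256 256 288)
  (go 16 Gd mult S372_430_364_512 (Tr.lf 539066641 99716038 4000333084594773298443979896) 0 32 216 224 352 384)))) = true := by decide +kernel
  have c7 : (band (go 16 Gd mult S372_430_364_512 (Tr.lf 4834017825 99846983 0) 32 64 224 240 256 320)
  (band (go 16 Gd mult S372_430_364_512 (Tr.lf 539050257 99716038 2941313734355632222432463257) 32 64 232 240 352 384)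
  (band (go 16 Gd mult S372_430_364_512 (Tr.lf 4834017553 99843142 454953653956633084236398592) 16 32 240 248 256 288)
  (go 16 Gd mult S372_430_364_512 (Tr.lf 539050257 95517766 1499063793167027575981740019) 0 16 240 248 256 288)))) = true := by decide +kernel
  (And.intro (Ok.s3 401 (Ok.lf S372_401_364_512_ok (bl c0))
  (Ok.lf S401_430_364_512_ok (br c0)))
  (And.intro (Ok.s0 64 (Ok.s2 352 (Ok.s1 216 (Ok.lf S372_430_364_512_ok c5)
  (Ok.lf S372_430_364_512_ok c1))
  (Ok.s0 32 (Ok.s1 216 (Ok.lf S372_430_364_512_ok (bl (br c2)))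
  (Ok.lf S372_430_364_512_ok (br (br (br c6)))))
  (Ok.lf S372_430_364_512_ok (bl c6))))
  (Ok.lf S372_430_364_512_ok (bl (br (br c2)))))
  (Ok.s2 320 (Ok.s1 240 (Ok.s0 32 (Ok.s1 232 (Ok.lf S372_430_364_512_ok (bl c2))
  (Ok.s3 401 (Ok.lf S372_401_364_512_ok (br c4))
  (Ok.lf S401_430_364_512_ok (bl c4))))
  (Ok.lf S372_430_364_512_ok (bl c7)))
  (Ok.s0 32 (Ok.s1 248 (Ok.s2 288 (Ok.s0 16 (Ok.lf S372_430_364_512_ok (br (br (br c7))))
  (Ok.lf S372_430_364_512_ok (bl (br (br c7)))))
  (Ok.out rfl))
  (Ok.out rfl))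
  (Ok.s2 288 (Ok.lf S372_430_364_512_ok (bl (br (br c6))))
  (Ok.lf S372_430_364_512_ok (bl (br (br (br c2))))))))
  (Ok.s1 240 (Ok.s2 352 (Ok.s0 32 (Ok.s3 401 (Ok.lf S372_401_364_512_ok (br c3))
  (Ok.lf S401_430_364_512_ok (bl c3)))
  (Ok.lf S372_430_364_512_ok (bl (br c6))))
  (Ok.s0 32 (Ok.out rfl)
  (Ok.s1 232 (Ok.lf S372_430_364_512_ok (br (br (br (br (br c2))))))
  (Ok.lf S372_430_364_512_ok (bl (br c7))))))
  (Ok.lf S372_430_364_512_ok (bl (br (br (br (br c2))))))))))

end Vale.Agent.P098.Ck
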