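import Vale.Agent.P098.CkGd
import Vale.Agent.P098.CkOk
import Vale.Agent.P098.Sh.A54
import Vale.Agent.P098.Sh.A55
import Vale.Agent.P098.Sh.A56
import Vale.Agent.P098.Sh.A57

namespace Vale.Agent.P098.Ck

theorem r129 :
    Ok Gd mult 64 128 224 256 256 384 372 430 364 512 ∧
    Ok Gd mult 0 128 192 224 256 384 372 430 512 660 ∧
    Ok Gd mult 0 32 224 256 256 320 372 430 512 660 :=
  have c0 : (go 16 Gd mult S372_430_364_512 (Tr.lf 9129199748 107969479 303468936283098025237151744) 96 128 224 256 320 384) = true := by decide +kernel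
  have c1 : (band (go 16 Gd mult S401_430_364_512 (Tr.lf 13970344068 107703241 208139354205054588564602880) 64 96 224 256 320 384)
  (go 16 Gd mult S372_401_364_512 (Tr.lf 13970343042 103640009 452412504301688724450705408) 64 96 224 256 320 384)) = true := by decide +kernel
  have c2 : (band (go 16 Gd mult S372_430_512_660 (Tr.lf 9129067656 103505095 0) 0 128 192 224 256 320)
  (band (go 16 Gd mult S372_430_512_660 (Tr.lf 9129067652 99445831 0) 64 128 192 224 320 384)
  (go 16 Gd mult S372_430_512_660 (Tr.lf 539132964 95517766 953621442788453387075518464) 0 32 208 216 352 384))) = true := by decide +kernel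
  have c3 : (go 16 Gd mult S372_430_364_512 (Tr.lf 13424034948 103635912 263545828675989160085946368) 64 128 224 256 256 320) = true := by decide +kernel
  have c4 : (band (go 16 Gd mult S372_401_512_660 (Tr.lf 538085444 99716420 438840072520110390418341888) 0 64 192 208 320 384)
  (band (go 16 Gd mult S401_430_512_660 (Tr.lf 4834010146 104037446 159578208189131051061215232) 0 64 192 208 320 384)
  (band (go 16 Gd mult S401_430_512_660 (Tr.lf 4834009361 99720134 851361769472012671165202432) 0 32 232 240 256 288)
  (band (go 16 Gd mult S401_430_512_660 (Tr.lf 539042065 95525957 4075286485535575470061653567) 0 32 216 224 352 384)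
  (go 16 Gd mult S372_401_512_660 (Tr.lf 539042065 103910342 4841744035036264391630328297) 0 32 216 224 352 384))))) = true := by decide +kernel
  have c5 : (go 16 Gd mult S372_430_512_660 (Tr.lf 539265060 99715911 624031787777934940896559104) 0 32 224 232 256 320) = true := by decide +kernel
  have c6 : (go 16 Gd mult S372_430_512_660 (Tr.lf 4834083348 108231750 273217235232906193483595776) 0 64 208 216 320 352) = true := by decide +kernel
  have c7 : (band (go 16 Gd mult S372_401_512_660 (Tr.lf 539116052 99585094 869348451718404134135660544) 0 64 216 224 320 352)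
  (band (go 16 Gd mult S401_430_512_660 (Tr.lf 539050516 95525830 613135572746606217030270976) 0 64 216 224 320 352)
  (go 16 Gd mult S372_401_512_660 (Tr.lf 539116049 87132999 1376223233882100651027070976) 0 32 232 240 256 320))) = true := by decide +kernel
  have c8 : (go 16 Gd mult S401_430_512_660 (Tr.lf 1077035554 82799560 1828914044189956854710599680) 0 32 232 240 288 320) = true := by decide +kernel
  have c9 : (band (go 16 Gd mult S372_430_512_660 (Tr.lf 539066657 95517766 9984374016873668420763648) 32 64 208 224 352 384)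
  (go 16 Gd mult S372_430_512_660 (Tr.lf 539066897 99712070 1729967205323793937003322870) 0 16 240 248 256 320)) = true := by decide +kernel
  have c10 : (go 16 Gd mult S372_430_512_660 (Tr.sp 2 288 (Tr.lf 4834017553 99843142 475544094167313482095984640) Tr.skip) 16 32 240 248 256 320) = true := by decide +kernel
  (And.intro (Ok.s2 320 (Ok.lf S372_430_364_512_ok c3)
  (Ok.s0 96 (Ok.s3 401 (Ok.lf S372_401_364_512_ok (br c1))
  (Ok.lf S401_430_364_512_ok (bl c1)))
  (Ok.lf S372_430_364_512_ok c0)))
  (And.intro (Ok.s2 320 (Ok.lf S372_430_512_660_ok (bl c2))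
  (Ok.s0 64 (Ok.s1 208 (Ok.s3 401 (Ok.lf S372_401_512_660_ok (bl c4))
  (Ok.lf S401_430_512_660_ok (bl (br c4))))
  (Ok.s2 352 (Ok.s1 216 (Ok.lf S372_430_512_660_ok c6)
  (Ok.s3 401 (Ok.lf S372_401_512_660_ok (bl c7))
  (Ok.lf S401_430_512_660_ok (bl (br c7)))))
  (Ok.s0 32 (Ok.s1 216 (Ok.lf S372_430_512_660_ok (br (br c2)))
  (Ok.s3 401 (Ok.lf S372_401_512_660_ok (br (br (br (br c4)))))
  (Ok.lf S401_430_512_660_ok (bl (br (br (br c4)))))))
  (Ok.lf S372_430_512_660_ok (bl c9)))))
  (Ok.lf S372_430_512_660_ok (bl (br c2)))))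
  (Ok.s1 240 (Ok.s1 232 (Ok.lf S372_430_512_660_ok c5)
  (Ok.s3 401 (Ok.lf S372_401_512_660_ok (br (br c7)))
  (Ok.s2 288 (Ok.lf S401_430_512_660_ok (bl (br (br c4))))
  (Ok.lf S401_430_512_660_ok c8))))
  (Ok.s1 248 (Ok.s0 16 (Ok.lf S372_430_512_660_ok (br c9))
  (Ok.lf S372_430_512_660_ok c10))
  (Ok.out rfl)))))

end Vale.Agent.P098.Ck
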