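import Vale.Agent.P098.CkGd
import Vale.Agent.P098.CkOk
import Vale.Agent.P098.Sh.A11
import Vale.Agent.P098.Sh.A12
import Vale.Agent.P098.Sh.A14
import Vale.Agent.P098.Sh.A16
import Vale.Agent.P098.Sh.A17
import Vale.Agent.P098.Sh.A20
import Vale.Agent.P098.Sh.A7
import Vale.Agent.P098.Sh.A8

namespace Vale.Agent.P098.Ck

theorem r13 :
    Ok Gd mult 0 128 0 64 384 448 140 198 216 364 ∧
    Ok Gd mult 0 128 0 64 448 512 140 198 216 364 :=
  have c0 : (band (go 16 Gd mult S169_198_216_290 (Tr.lf 13987512968 90672201 16399216152869049817339265024) 0 128 32 64 508 512)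
  (go 16 Gd mult S169_198_290_364 (Tr.lf 13978861960 94858313 17540406063200595656088485888) 0 128 32 64 508 512)) = true := by decide +kernel
  have c1 : (go 16 Gd mult S140_169_216_364 (Tr.lf 9683108996 103115848 0) 0 128 0 64 480 496) = true := by decide +kernel
  have c2 : (go 16 Gd mult S140_169_216_364 (Tr.lf 10229417092 99060809 0) 0 128 0 16 496 512) = true := by decide +kernel
  have c3 : (go 16 Gd mult S140_154_216_364 (Tr.lf 13979108488 90528969 191661684155166146691072) 0 128 32 64 496 512) = true := by decide +kernel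
  have c4 : (go 16 Gd mult S154_169_216_364 (Tr.lf 14515979400 98917577 155948774399140549361664) 0 128 32 64 496 512) = true := by decide +kernel
  have c5 : (band (go 16 Gd mult S169_198_216_364 (Tr.lf 9146238084 94993352 0) 0 128 0 64 480 496)
  (go 16 Gd mult S169_198_216_364 (Tr.lf 9683108228 99314887 0) 0 128 0 32 504 508)) = true := by decide +kernel
  have c6 : (go 16 Gd mult S140_169_216_364 (Tr.lf 9684157000 90799304 265319520293068226953216) 0 128 16 32 504 512) = true := by decide +kernel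
  have c7 : (go 16 Gd mult S169_198_216_364 (Tr.lf 9683108484 99187911 0) 0 128 32 64 496 504) = true := by decide +kernel
  have c8 : (band (go 16 Gd mult S169_183_216_364 (Tr.lf 10229400200 99195849 172366376624742050299904) 0 128 0 32 508 512)
  (go 16 Gd mult S183_198_216_364 (Tr.lf 9683091844 103386183 368990221987315907035136) 0 128 0 32 508 512)) = true := by decide +kernel
  have c9 : (band (go 16 Gd mult S169_198_216_290 (Tr.lf 13987250568 94866505 0) 0 128 32 64 504 508)
  (go 16 Gd mult S169_198_290_364 (Tr.lf 13978861896 94858313 0) 0 128 32 64 504 508)) = true := by decide +kernel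
  have c10 : (go 16 Gd mult S140_198_216_364 (Tr.lf 1160021122 99585095 0) 0 128 0 64 384 448) = true := by decide +kernel
  have c11 : (go 16 Gd mult S169_198_216_364 (Tr.lf 5387878724 103652295 0) 0 128 0 32 496 504) = true := by decide +kernel
  have c12 : (band (go 16 Gd mult S140_169_216_364 (Tr.lf 4841554562 95120199 0) 0 128 0 64 448 480)
  (band (go 16 Gd mult S169_198_216_364 (Tr.lf 4841554498 103635783 0) 0 128 0 64 448 480)
  (go 16 Gd mult S140_169_216_364 (Tr.lf 9682829604 94993352 0) 0 128 16 32 496 504))) = true := by decide +kernel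
  (And.intro (Ok.lf S140_198_216_364_ok c10)
  (Ok.s3 169 (Ok.s2 480 (Ok.lf S140_169_216_364_ok (bl c12))
  (Ok.s2 496 (Ok.lf S140_169_216_364_ok c1)
  (Ok.s1 32 (Ok.s1 16 (Ok.lf S140_169_216_364_ok c2)
  (Ok.s2 504 (Ok.lf S140_169_216_364_ok (br (br c12)))
  (Ok.lf S140_169_216_364_ok c6)))
  (Ok.s3 154 (Ok.lf S140_154_216_364_ok c3)
  (Ok.lf S154_169_216_364_ok c4)))))
  (Ok.s2 480 (Ok.lf S169_198_216_364_ok (bl (br c12)))
  (Ok.s2 496 (Ok.lf S169_198_216_364_ok (bl c5))
  (Ok.s2 504 (Ok.s1 32 (Ok.lf S169_198_216_364_ok c11)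
  (Ok.lf S169_198_216_364_ok c7))
  (Ok.s2 508 (Ok.s1 32 (Ok.lf S169_198_216_364_ok (br c5))
  (Ok.s4 290 (Ok.lf S169_198_216_290_ok (bl c9))
  (Ok.lf S169_198_290_364_ok (br c9))))
  (Ok.s1 32 (Ok.s3 183 (Ok.lf S169_183_216_364_ok (bl c8))
  (Ok.lf S183_198_216_364_ok (br c8)))
  (Ok.s4 290 (Ok.lf S169_198_216_290_ok (bl c0))
  (Ok.lf S169_198_290_364_ok (br c0))))))))))

end Vale.Agent.P098.Ck
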