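import Vale.Agent.P098.CkGd
import Vale.Agent.P098.CkOk
import Vale.Agent.P098.Sh.A54
import Vale.Agent.P098.Sh.A55
import Vale.Agent.P098.Sh.A57

namespace Vale.Agent.P098.Ck

theorem r130 :
    Ok Gd mult 32 64 224 256 256 320 372 430 512 660 ∧
    Ok Gd mult 0 64 224 256 320 384 372 430 512 660 ∧
    Ok Gd mult 64 128 224 256 256 384 372 430 512 660 ∧
    Ok Gd mult 0 128 192 224 256 320 372 430 660 808 ∧
    Ok Gd mult 0 128 192 208 320 384 372 430 660 808 :=
  have c0 : (go 16 Gd mult S372_430_660_808 (Tr.lf 9129198728 103505095 0) 0 128 192 224 256 320) = true := by decide +kernel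
  have c1 : (band (go 16 Gd mult S372_401_660_808 (Tr.lf 4842603592 104041415 467854292190861490611290112) 0 128 192 208 320 384)
  (go 16 Gd mult S401_430_660_808 (Tr.lf 4834083876 103910470 181338872942194376205926400) 0 128 192 208 320 384)) = true := by decide +kernel
  have c2 : (band (go 16 Gd mult S372_401_512_660 (Tr.lf 13970342978 99576777 642031142959461838564098048) 96 128 240 256 320 384)
  (band (go 16 Gd mult S401_430_512_660 (Tr.lf 13970326594 103648328 548910318668409388146884608) 96 128 240 256 320 384)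
  (band (go 16 Gd mult S401_430_512_660 (Tr.lf 9666970242 99572808 244477263306302961876926464) 32 64 224 256 288 320)
  (band (go 16 Gd mult S372_401_512_660 (Tr.lf 9137439298 107846599 682165318225491412310294528) 32 64 224 256 288 320)
  (band (go 16 Gd mult S372_401_512_660 (Tr.lf 13432407108 95386568 408616927029744661050687488) 64 128 224 256 256 320)
  (band (go 16 Gd mult S401_430_512_660 (Tr.lf 13423952964 99441608 269590457774062305959477248) 64 128 224 256 256 320)
  (go 16 Gd mult S372_401_512_660 (Tr.lf 9138488356 103783113 65301500785651879837696) 64 128 224 240 320 384))))))) = true := by decide +kernel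
  have c3 : (band (go 16 Gd mult S401_430_512_660 (Tr.lf 540181058 91327176 1112206996024278764315021598) 0 32 224 240 320 352)
  (band (go 16 Gd mult S372_401_512_660 (Tr.lf 539050274 95517766 1617540294646067433116406626) 0 32 224 240 320 352)
  (band (go 16 Gd mult S372_401_512_660 (Tr.sp 0 32 Tr.skip (Tr.lf 2179617 103918406 3816563891331959564262317791)) 0 64 240 256 320 384)
  (band (go 16 Gd mult S401_430_512_660 (Tr.sp 0 32 Tr.skip (Tr.lf 539050529 99716038 2348930823769521260906617701)) 0 64 240 256 320 384)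
  (go 16 Gd mult S401_430_512_660 (Tr.lf 9138422820 99716040 22837104504974941814784) 64 128 224 240 320 384))))) = true := by decide +kernel
  have c4 : (band (go 16 Gd mult S372_430_512_660 (Tr.lf 9129067042 107965638 355553207494752501967618048) 64 96 240 256 320 352)
  (band (go 16 Gd mult S372_430_512_660 (Tr.lf 9129067042 107834311 2931206947053492925682941952) 64 96 240 256 352 384)
  (band (go 16 Gd mult S372_430_512_660 (Tr.lf 4834099521 99846983 338602346799630979635871744) 32 64 224 256 256 288)
  (band (go 16 Gd mult S372_430_512_660 (Tr.lf 4834099489 99843142 136888380937085988103979008) 32 64 224 240 320 352)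
  (go 16 Gd mult S372_430_512_660 (Tr.lf 4834099473 107969606 3137825330316182014295801856) 32 64 224 232 352 384))))) = true := by decide +kernel
  have c5 : (go 16 Gd mult S372_430_512_660 (Tr.lf 539066641 91450438 3015051255044170877277506352) 32 64 232 240 352 384) = true := by decide +kernel
  (And.intro (Ok.s2 288 (Ok.lf S372_430_512_660_ok (bl (br (br c4))))
  (Ok.s3 401 (Ok.lf S372_401_512_660_ok (bl (br (br (br c2)))))
  (Ok.lf S401_430_512_660_ok (bl (br (br c2))))))
  (And.intro (Ok.s1 240 (Ok.s0 32 (Ok.s2 352 (Ok.s3 401 (Ok.lf S372_401_512_660_ok (bl (br c3)))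
  (Ok.lf S401_430_512_660_ok (bl c3)))
  (Ok.out rfl))
  (Ok.s2 352 (Ok.lf S372_430_512_660_ok (bl (br (br (br c4)))))
  (Ok.s1 232 (Ok.lf S372_430_512_660_ok (br (br (br (br c4)))))
  (Ok.lf S372_430_512_660_ok c5))))
  (Ok.s3 401 (Ok.lf S372_401_512_660_ok (bl (br (br c3))))
  (Ok.lf S401_430_512_660_ok (bl (br (br (br c3)))))))
  (And.intro (Ok.s2 320 (Ok.s3 401 (Ok.lf S372_401_512_660_ok (bl (br (br (br (br c2))))))
  (Ok.lf S401_430_512_660_ok (bl (br (br (br (br (br c2))))))))
  (Ok.s1 240 (Ok.s3 401 (Ok.lf S372_401_512_660_ok (br (br (br (br (br (br c2)))))))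
  (Ok.lf S401_430_512_660_ok (br (br (br (br c3))))))
  (Ok.s0 96 (Ok.s2 352 (Ok.lf S372_430_512_660_ok (bl c4))
  (Ok.lf S372_430_512_660_ok (bl (br c4))))
  (Ok.s3 401 (Ok.lf S372_401_512_660_ok (bl c2))
  (Ok.lf S401_430_512_660_ok (bl (br c2)))))))
  (And.intro (Ok.lf S372_430_660_808_ok c0)
  (Ok.s3 401 (Ok.lf S372_401_660_808_ok (bl c1))
  (Ok.lf S401_430_660_808_ok (br c1)))))))

end Vale.Agent.P098.Ck
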