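import Vale.Agent.P098.CkGd
import Vale.Agent.P098.CkOk
import Vale.Agent.P098.Sh.A54
import Vale.Agent.P098.Sh.A55
import Vale.Agent.P098.Sh.A57

namespace Vale.Agent.P098.Ck

theorem r131 :
    Ok Gd mult 0 64 208 224 320 352 372 430 660 808 ∧
    Ok Gd mult 0 64 208 224 352 384 372 430 660 808 ∧
    Ok Gd mult 64 128 208 224 320 384 372 430 660 808 ∧
    Ok Gd mult 0 64 224 256 256 320 372 430 660 808 ∧
    Ok Gd mult 0 64 224 240 320 384 372 430 660 808 :=
  have c0 : (band (go 16 Gd mult S401_430_660_808 (Tr.lf 13970474116 107703496 269878282321844396093341696) 32 64 224 256 288 320)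
  (go 16 Gd mult S372_401_660_808 (Tr.lf 4843651650 95529545 758341756642547819618500608) 32 64 224 256 288 320)) = true := by decide +kernel
  have c1 : (band (go 16 Gd mult S372_430_660_808 (Tr.lf 9129198660 99703879 0) 64 128 208 224 320 384)
  (go 16 Gd mult S372_430_660_808 (Tr.lf 539264036 95390535 643381555350031345135910912) 0 32 224 232 256 320)) = true := by decide +kernel
  have c2 : (band (go 16 Gd mult S401_430_660_808 (Tr.lf 5373068356 99314378 3222990590530496166723322340) 32 64 224 240 352 384)
  (band (go 16 Gd mult S372_401_660_808 (Tr.lf 540164642 91323208 4897356042234001480050869587) 32 64 224 240 352 384)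
  (band (go 16 Gd mult S401_430_660_808 (Tr.lf 1077051972 90926279 1166610963842531419122176615) 0 32 224 240 320 352)
  (band (go 16 Gd mult S372_401_660_808 (Tr.lf 539115810 95517766 1629625476196193839073662153) 0 32 224 240 320 352)
  (band (go 16 Gd mult S372_401_660_808 (Tr.lf 539115796 99454022 923776363318157082634485760) 0 64 216 224 320 352)
  (go 16 Gd mult S401_430_660_808 (Tr.lf 539116052 91200454 637326227109996150237691904) 0 64 216 224 320 352)))))) = true := by decide +kernel
  have c3 : (band (go 16 Gd mult S372_430_660_808 (Tr.lf 9129066818 107969479 357949457996671446432088064) 32 64 224 256 256 288)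
  (band (go 16 Gd mult S372_430_660_808 (Tr.lf 4834099730 112168006 288933270887896372754776064) 0 64 208 216 320 352)
  (band (go 16 Gd mult S372_430_660_808 (Tr.lf 4834099730 103779143 864672091415532067495018496) 0 32 232 240 256 288)
  (band (go 16 Gd mult S372_430_660_808 (Tr.lf 4834099490 103906374 157450837437274175091769344) 32 64 224 240 320 352)
  (band (go 16 Gd mult S372_430_660_808 (Tr.lf 539132433 103902278 4120012664183213698558791434) 0 32 216 224 352 384)
  (band (go 16 Gd mult S372_430_660_808 (Tr.lf 539132193 95386694 22084866280439674268614656) 32 64 208 224 352 384)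
  (band (go 16 Gd mult S372_430_660_808 (Tr.lf 539132433 91454534 1733587028439217582539349775) 0 16 240 248 256 320)
  (go 16 Gd mult S372_430_660_808 (Tr.lf 539132177 99712070 1888336136227858196521357395) 0 16 232 240 288 320)))))))) = true := by decide +kernel
  have c4 : (band (go 16 Gd mult S372_401_660_808 (Tr.lf 539132450 95517766 953761158441294831045050368) 0 32 208 216 352 384)
  (go 16 Gd mult S401_430_660_808 (Tr.lf 539042065 95517893 717906050876051911797964800) 0 32 208 216 352 384)) = true := by decide +kernel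
  have c5 : (go 16 Gd mult S372_430_660_808 (Tr.lf 4834099473 108100678 306436482449260658267455488) 16 32 232 240 288 320) = true := by decide +kernel
  have c6 : (go 16 Gd mult S372_430_660_808 (Tr.sp 2 288 (Tr.lf 9129001233 107965638 496111715760918155946360832) Tr.skip) 16 32 240 248 256 320) = true := by decide +kernel
  (And.intro (Ok.s1 216 (Ok.lf S372_430_660_808_ok (bl (br c3)))
  (Ok.s3 401 (Ok.lf S372_401_660_808_ok (bl (br (br (br (br c2))))))
  (Ok.lf S401_430_660_808_ok (br (br (br (br (br c2))))))))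
  (And.intro (Ok.s0 32 (Ok.s1 216 (Ok.s3 401 (Ok.lf S372_401_660_808_ok (bl c4))
  (Ok.lf S401_430_660_808_ok (br c4)))
  (Ok.lf S372_430_660_808_ok (bl (br (br (br (br c3)))))))
  (Ok.lf S372_430_660_808_ok (bl (br (br (br (br (br c3))))))))
  (And.intro (Ok.lf S372_430_660_808_ok (bl c1))
  (And.intro (Ok.s0 32 (Ok.s1 240 (Ok.s1 232 (Ok.lf S372_430_660_808_ok (br c1))
  (Ok.s2 288 (Ok.lf S372_430_660_808_ok (bl (br (br c3))))
  (Ok.s0 16 (Ok.lf S372_430_660_808_ok (br (br (br (br (br (br (br c3))))))))
  (Ok.lf S372_430_660_808_ok c5))))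
  (Ok.s1 248 (Ok.s0 16 (Ok.lf S372_430_660_808_ok (bl (br (br (br (br (br (br c3))))))))
  (Ok.lf S372_430_660_808_ok c6))
  (Ok.out rfl)))
  (Ok.s2 288 (Ok.lf S372_430_660_808_ok (bl c3))
  (Ok.s3 401 (Ok.lf S372_401_660_808_ok (br c0))
  (Ok.lf S401_430_660_808_ok (bl c0)))))
  (Ok.s2 352 (Ok.s0 32 (Ok.s3 401 (Ok.lf S372_401_660_808_ok (bl (br (br (br c2)))))
  (Ok.lf S401_430_660_808_ok (bl (br (br c2)))))
  (Ok.lf S372_430_660_808_ok (bl (br (br (br c3))))))
  (Ok.s0 32 (Ok.out rfl)
  (Ok.s3 401 (Ok.lf S372_401_660_808_ok (bl (br c2)))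
  (Ok.lf S401_430_660_808_ok (bl c2)))))))))

end Vale.Agent.P098.Ck
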