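import Vale.Agent.P098.CkGd
import Vale.Agent.P098.CkOk
import Vale.Agent.P098.Sh.A54
import Vale.Agent.P098.Sh.A55
import Vale.Agent.P098.Sh.A57
import Vale.Agent.P098.Sh.A58

namespace Vale.Agent.P098.Ck

theorem r132 :
    Ok Gd mult 0 64 240 256 320 384 372 430 660 808 ∧
    Ok Gd mult 64 128 224 256 256 384 372 430 660 808 ∧
    Ok Gd mult 0 128 192 224 256 384 430 488 216 364 ∧
    Ok Gd mult 0 64 224 256 256 384 430 488 216 364 :=
  have c0 : (band (go 16 Gd mult S401_430_660_808 (Tr.lf 9675375236 99454024 234581562801418989264175104) 64 128 224 256 320 352)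
  (band (go 16 Gd mult S372_401_660_808 (Tr.lf 13432554052 99318728 547712091960357510512115741) 64 128 224 256 320 352)
  (band (go 16 Gd mult S372_401_660_808 (Tr.lf 13970473506 107711560 1042236649839500123432615936) 96 128 240 256 352 384)
  (band (go 16 Gd mult S401_430_660_808 (Tr.lf 13970326082 103775304 914049819442922827640995840) 96 128 240 256 352 384)
  (band (go 16 Gd mult S401_430_660_808 (Tr.lf 13432407108 91192264 276844012691750081007714304) 64 128 224 256 256 320)
  (go 16 Gd mult S372_401_660_808 (Tr.lf 13432538180 95386568 435213295061266502894223360) 64 128 224 256 256 320)))))) = true := by decide +kernel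
  have c1 : (band (go 16 Gd mult S430_488_216_364 (Tr.lf 540181572 91458248 274247744144042228842496) 0 64 192 224 320 384)
  (go 16 Gd mult S430_488_216_364 (Tr.sp 2 352 (Tr.lf 1077051970 78609479 203095664614226157371460118) Tr.skip) 0 32 224 240 320 384)) = true := by decide +kernel
  have c2 : (band (go 16 Gd mult S430_488_216_364 (Tr.lf 9129002052 95382599 0) 0 128 192 224 256 320)
  (band (go 16 Gd mult S430_488_216_364 (Tr.lf 9130050594 103775048 384522393445799508836352) 32 64 224 240 320 384)
  (band (go 16 Gd mult S430_488_216_364 (Tr.lf 4835083298 95525576 232358896148004327871348736) 0 32 224 240 256 320)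
  (go 16 Gd mult S430_488_216_364 (Tr.lf 9129001505 99843142 58168505469253877011316736) 32 64 240 256 256 320)))) = true := by decide +kernel
  have c3 : (go 16 Gd mult S372_430_660_808 (Tr.lf 9129198114 107834311 3000223134162267999360253952) 64 96 240 256 352 384) = true := by decide +kernel
  have c4 : (band (go 16 Gd mult S372_401_660_808 (Tr.lf 9138618916 103910344 498181643351728929141424128) 64 128 224 240 352 384)
  (go 16 Gd mult S401_430_660_808 (Tr.lf 9138487844 103779272 255141694998354673499373568) 64 128 224 240 352 384)) = true := by decide +kernel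
  have c5 : (band (go 16 Gd mult S430_488_216_364 (Tr.lf 9128985666 95378503 0) 64 128 192 224 320 384)
  (band (go 16 Gd mult S430_488_216_364 (Tr.sp 0 32 Tr.skip (Tr.lf 614548002 95525958 1142416232756870696351175241)) 0 64 240 256 320 384)
  (band (go 16 Gd mult S401_430_660_808 (Tr.sp 0 32 Tr.skip (Tr.lf 539050530 95652806 2420244202479350557694893337)) 0 64 240 256 320 384)
  (band (go 16 Gd mult S372_401_660_808 (Tr.sp 0 32 Tr.skip (Tr.lf 2245137 112298950 4042628721628399665153450101)) 0 64 240 256 320 384)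
  (go 16 Gd mult S430_488_216_364 (Tr.sp 1 248 (Tr.sp 2 288 (Tr.lf 4835066386 99715784 521735552984619157671903232) Tr.skip) Tr.skip) 0 32 240 256 256 320))))) = true := by decide +kernel
  have c6 : (go 16 Gd mult S430_488_216_364 (Tr.lf 9128976913 103779143 0) 32 64 224 240 256 320) = true := by decide +kernel
  (And.intro (Ok.s3 401 (Ok.lf S372_401_660_808_ok (bl (br (br (br c5)))))
  (Ok.lf S401_430_660_808_ok (bl (br (br c5)))))
  (And.intro (Ok.s2 320 (Ok.s3 401 (Ok.lf S372_401_660_808_ok (br (br (br (br (br c0))))))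
  (Ok.lf S401_430_660_808_ok (bl (br (br (br (br c0)))))))
  (Ok.s2 352 (Ok.s3 401 (Ok.lf S372_401_660_808_ok (bl (br c0)))
  (Ok.lf S401_430_660_808_ok (bl c0)))
  (Ok.s1 240 (Ok.s3 401 (Ok.lf S372_401_660_808_ok (bl c4))
  (Ok.lf S401_430_660_808_ok (br c4)))
  (Ok.s0 96 (Ok.lf S372_430_660_808_ok c3)
  (Ok.s3 401 (Ok.lf S372_401_660_808_ok (bl (br (br c0))))
  (Ok.lf S401_430_660_808_ok (bl (br (br (br c0))))))))))
  (And.intro (Ok.s2 320 (Ok.lf S430_488_216_364_ok (bl c2))
  (Ok.s0 64 (Ok.lf S430_488_216_364_ok (bl c1))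
  (Ok.lf S430_488_216_364_ok (bl c5))))
  (Ok.s2 320 (Ok.s1 240 (Ok.s0 32 (Ok.lf S430_488_216_364_ok (bl (br (br c2))))
  (Ok.lf S430_488_216_364_ok c6))
  (Ok.s0 32 (Ok.lf S430_488_216_364_ok (br (br (br (br c5)))))
  (Ok.lf S430_488_216_364_ok (br (br (br c2))))))
  (Ok.s1 240 (Ok.s0 32 (Ok.lf S430_488_216_364_ok (br c1))
  (Ok.lf S430_488_216_364_ok (bl (br c2))))
  (Ok.lf S430_488_216_364_ok (bl (br c5))))))))

end Vale.Agent.P098.Ck
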