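import Vale.Agent.P098.CkGd
import Vale.Agent.P098.CkOk
import Vale.Agent.P098.Sh.A58
import Vale.Agent.P098.Sh.A59

namespace Vale.Agent.P098.Ck

theorem r133 :
    Ok Gd mult 64 128 224 256 256 384 430 488 216 364 ∧
    Ok Gd mult 0 128 192 256 256 384 430 488 364 512 ∧
    Ok Gd mult 0 64 192 224 256 384 430 488 512 660 :=
  have c0 : (band (go 16 Gd mult S430_488_364_512 (Tr.lf 1077053576 74410952 321895684088517809668096) 0 64 208 224 320 384)
  (go 16 Gd mult S430_488_364_512 (Tr.sp 2 352 (Tr.lf 1077051972 86867015 234527736100975090603986070) Tr.skip) 0 32 224 240 320 384)) = true := by decide +kernel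
  have c1 : (go 16 Gd mult S430_459_512_660 (Tr.lf 5373068420 91184073 104853285576554375922319360) 0 32 192 224 352 384) = true := by decide +kernel
  have c2 : (band (go 16 Gd mult S430_488_364_512 (Tr.lf 5371955268 86989896 252788794350075698419924992) 0 64 224 240 256 320)
  (band (go 16 Gd mult S430_488_364_512 (Tr.lf 9130050692 103910216 3664261250964439659511808) 64 128 224 256 320 384)
  (band (go 16 Gd mult S430_488_216_364 (Tr.lf 9129067588 103910215 3649264048032513792147456) 64 128 224 256 320 384)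
  (band (go 16 Gd mult S430_488_364_512 (Tr.lf 5371955266 86993864 432170320159198097899520) 32 64 224 240 320 384)
  (go 16 Gd mult S430_488_364_512 (Tr.lf 13423969348 95255113 174085318024506601157689344) 64 128 224 256 256 320))))) = true := by decide +kernel
  have c3 : (go 16 Gd mult S430_488_216_364 (Tr.lf 13423969348 95255113 174085318024506601157689344) 64 128 224 256 256 320) = true := by decide +kernel
  have c4 : (band (go 16 Gd mult S430_488_364_512 (Tr.lf 9129002020 103906247 0) 0 128 208 224 256 320)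
  (band (go 16 Gd mult S430_488_364_512 (Tr.lf 4835083298 91462344 58194736747489466318323712) 32 64 240 256 256 320)
  (go 16 Gd mult S430_488_364_512 (Tr.sp 1 248 (Tr.sp 2 288 (Tr.lf 4835082770 91458248 541170433789962334763876352) Tr.skip) Tr.skip) 0 32 240 256 256 320))) = true := by decide +kernel
  have c5 : (band (go 16 Gd mult S430_488_364_512 (Tr.lf 4834018340 95521862 0) 0 128 192 208 320 384)
  (band (go 16 Gd mult S430_488_364_512 (Tr.lf 9128985634 95386567 0) 64 128 208 224 320 384)
  (band (go 16 Gd mult S430_488_364_512 (Tr.lf 9128985108 99703879 0) 0 128 192 208 256 320)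
  (go 16 Gd mult S430_488_364_512 (Tr.sp 0 32 Tr.skip (Tr.lf 614548002 99720262 1142408743520360766658974795)) 0 64 240 256 320 384)))) = true := by decide +kernel
  have c6 : (band (go 16 Gd mult S430_488_512_660 (Tr.lf 4834018338 103910470 0) 0 64 192 224 256 320)
  (go 16 Gd mult S430_488_512_660 (Tr.lf 539050530 95652806 150968153499239255703552) 0 64 192 224 320 352)) = true := by decide +kernel
  have c7 : (go 16 Gd mult S459_488_512_660 (Tr.lf 539042082 91196613 330620994033096351940608) 0 64 192 224 352 384) = true := by decide +kernel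
  have c8 : (go 16 Gd mult S430_459_512_660 (Tr.lf 539042081 91327430 262995230260827002699776) 32 64 192 224 352 384) = true := by decide +kernel
  (And.intro (Ok.s2 320 (Ok.lf S430_488_216_364_ok c3)
  (Ok.lf S430_488_216_364_ok (bl (br (br c2)))))
  (And.intro (Ok.s1 224 (Ok.s1 208 (Ok.s2 320 (Ok.lf S430_488_364_512_ok (bl (br (br c5))))
  (Ok.lf S430_488_364_512_ok (bl c5)))
  (Ok.s2 320 (Ok.lf S430_488_364_512_ok (bl c4))
  (Ok.s0 64 (Ok.lf S430_488_364_512_ok (bl c0))
  (Ok.lf S430_488_364_512_ok (bl (br c5))))))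
  (Ok.s0 64 (Ok.s2 320 (Ok.s1 240 (Ok.lf S430_488_364_512_ok (bl c2))
  (Ok.s0 32 (Ok.lf S430_488_364_512_ok (br (br c4)))
  (Ok.lf S430_488_364_512_ok (bl (br c4)))))
  (Ok.s1 240 (Ok.s0 32 (Ok.lf S430_488_364_512_ok (br c0))
  (Ok.lf S430_488_364_512_ok (bl (br (br (br c2))))))
  (Ok.lf S430_488_364_512_ok (br (br (br c5))))))
  (Ok.s2 320 (Ok.lf S430_488_364_512_ok (br (br (br (br c2)))))
  (Ok.lf S430_488_364_512_ok (bl (br c2))))))
  (Ok.s2 320 (Ok.lf S430_488_512_660_ok (bl c6))
  (Ok.s2 352 (Ok.lf S430_488_512_660_ok (br c6))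
  (Ok.s3 459 (Ok.s0 32 (Ok.lf S430_459_512_660_ok c1)
  (Ok.lf S430_459_512_660_ok c8))
  (Ok.lf S459_488_512_660_ok c7))))))

end Vale.Agent.P098.Ck
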