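import Vale.Agent.P098.CkGd
import Vale.Agent.P098.CkOk
import Vale.Agent.P098.Sh.A59

namespace Vale.Agent.P098.Ck

theorem r134 :
    Ok Gd mult 0 64 224 256 256 320 430 488 512 660 ∧
    Ok Gd mult 0 64 224 256 320 384 430 488 512 660 ∧
    Ok Gd mult 64 128 192 256 256 384 430 488 512 660 ∧
    Ok Gd mult 0 64 192 224 256 384 430 488 660 808 ∧
    Ok Gd mult 0 64 224 256 256 320 430 488 660 808 :=
  have c0 : (go 16 Gd mult S430_488_512_660 (Tr.sp 2 352 (Tr.lf 1085572232 91069511 267164638225088401296199434) Tr.skip) 0 32 224 240 320 384) = true := by decide +kernel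
  have c1 : (band (go 16 Gd mult S430_488_512_660 (Tr.lf 9666922628 91057224 2550077913978932320796672) 32 64 224 256 256 320)
  (band (go 16 Gd mult S430_488_512_660 (Tr.lf 13423969412 86723401 83415881553409413054726144) 64 128 192 256 256 320)
  (band (go 16 Gd mult S430_488_512_660 (Tr.lf 9130050690 95255496 129901979929836987088896) 64 96 192 256 320 384)
  (band (go 16 Gd mult S430_488_512_660 (Tr.lf 9129002113 95386567 12089258196146291747061760) 96 128 192 256 320 384)
  (go 16 Gd mult S430_488_512_660 (Tr.lf 5371953732 91057096 273768331720271040662732800) 0 32 224 240 288 320))))) = true := by decide +kernel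
  have c2 : (band (go 16 Gd mult S430_488_660_808 (Tr.lf 5372019780 91057096 282250458231849172035567616) 0 32 224 240 288 320)
  (band (go 16 Gd mult S430_488_660_808 (Tr.sp 1 248 (Tr.sp 2 288 (Tr.lf 13961953828 99310409 567892405701882064660332544) Tr.skip) Tr.skip) 0 32 240 256 256 320)
  (band (go 16 Gd mult S430_488_512_660 (Tr.sp 1 248 (Tr.sp 2 288 (Tr.lf 13425017378 90921801 559391555750135668475428864) Tr.skip) Tr.skip) 0 32 240 256 256 320)
  (band (go 16 Gd mult S430_488_660_808 (Tr.lf 1077051970 82672711 205512630387520815503115352) 0 32 208 224 352 384)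
  (go 16 Gd mult S430_488_512_660 (Tr.lf 9666920994 99572935 1792717308026174162423775232) 32 64 224 240 352 384))))) = true := by decide +kernel
  have c3 : (go 16 Gd mult S430_488_660_808 (Tr.lf 9666921090 95255496 219663836592507738128384) 32 64 224 256 288 320) = true := by decide +kernel
  have c4 : (band (go 16 Gd mult S430_488_660_808 (Tr.lf 4834018338 103910470 0) 0 64 192 224 256 320)
  (band (go 16 Gd mult S430_488_660_808 (Tr.lf 539051026 99584966 28002157707485445423104) 0 64 192 208 320 384)
  (band (go 16 Gd mult S430_488_660_808 (Tr.lf 4834017826 99720134 281834779309054974618370048) 0 32 224 240 256 288)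
  (band (go 16 Gd mult S430_488_512_660 (Tr.lf 4834017825 99720134 273363905303199032536137728) 0 32 224 240 256 288)
  (band (go 16 Gd mult S430_488_512_660 (Tr.sp 0 32 Tr.skip (Tr.lf 614548002 99720262 1143639602646470879271458322)) 0 64 240 256 320 384)
  (band (go 16 Gd mult S430_488_660_808 (Tr.lf 539050514 91327430 163106111099740811362304) 0 64 208 224 320 352)
  (band (go 16 Gd mult S430_488_660_808 (Tr.lf 9128984865 104037446 2483688076991102063738880) 32 64 224 256 256 288)
  (go 16 Gd mult S430_488_512_660 (Tr.lf 9128984849 99580743 241394106177887097847808) 32 64 224 240 320 352)))))))) = true := by decide +kernel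
  have c5 : (go 16 Gd mult S430_488_660_808 (Tr.lf 4834017553 99712197 284393453665283946381312) 32 64 208 224 352 384) = true := by decide +kernel
  (And.intro (Ok.s0 32 (Ok.s1 240 (Ok.s2 288 (Ok.lf S430_488_512_660_ok (bl (br (br (br c4)))))
  (Ok.lf S430_488_512_660_ok (br (br (br (br c1))))))
  (Ok.lf S430_488_512_660_ok (bl (br (br c2)))))
  (Ok.lf S430_488_512_660_ok (bl c1)))
  (And.intro (Ok.s1 240 (Ok.s0 32 (Ok.lf S430_488_512_660_ok c0)
  (Ok.s2 352 (Ok.lf S430_488_512_660_ok (br (br (br (br (br (br (br c4))))))))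
  (Ok.lf S430_488_512_660_ok (br (br (br (br c2)))))))
  (Ok.lf S430_488_512_660_ok (bl (br (br (br (br c4)))))))
  (And.intro (Ok.s2 320 (Ok.lf S430_488_512_660_ok (bl (br c1)))
  (Ok.s0 96 (Ok.lf S430_488_512_660_ok (bl (br (br c1))))
  (Ok.lf S430_488_512_660_ok (bl (br (br (br c1)))))))
  (And.intro (Ok.s2 320 (Ok.lf S430_488_660_808_ok (bl c4))
  (Ok.s1 208 (Ok.lf S430_488_660_808_ok (bl (br c4)))
  (Ok.s2 352 (Ok.lf S430_488_660_808_ok (bl (br (br (br (br (br c4)))))))
  (Ok.s0 32 (Ok.lf S430_488_660_808_ok (bl (br (br (br c2)))))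
  (Ok.lf S430_488_660_808_ok c5)))))
  (Ok.s0 32 (Ok.s1 240 (Ok.s2 288 (Ok.lf S430_488_660_808_ok (bl (br (br c4))))
  (Ok.lf S430_488_660_808_ok (bl c2)))
  (Ok.lf S430_488_660_808_ok (bl (br c2))))
  (Ok.s2 288 (Ok.lf S430_488_660_808_ok (bl (br (br (br (br (br (br c4))))))))
  (Ok.lf S430_488_660_808_ok c3)))))))

end Vale.Agent.P098.Ck
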