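import Vale.Agent.P098.CkGd
import Vale.Agent.P098.CkOk
import Vale.Agent.P098.Sh.A0
import Vale.Agent.P098.Sh.A1
import Vale.Agent.P098.Sh.A59

namespace Vale.Agent.P098.Ck

theorem r135 :
    Ok Gd mult 0 64 224 256 320 384 430 488 660 808 ∧
    Ok Gd mult 64 128 192 256 256 384 430 488 660 808 ∧
    Ok Gd mult 0 128 192 256 384 512 24 82 216 808 :=
  have c0 : (band (go 16 Gd mult S24_82_512_660 (Tr.sp 1 224 (Tr.lf 13423970440 86313674 8601239083154648907464376349) Tr.skip) 0 128 192 256 448 512)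
  (go 16 Gd mult S24_82_660_808 (Tr.sp 1 224 (Tr.lf 13424035912 86313674 8528702980575448945695457309) Tr.skip) 0 128 192 256 448 512)) = true := by decide +kernel
  have c1 : (band (go 16 Gd mult S53_82_364_512 (Tr.lf 9129052296 99568583 2382792790460434103345872896) 0 128 192 256 384 448)
  (go 16 Gd mult S24_53_364_512 (Tr.lf 9128985732 99445830 1959669620619025479335149568) 0 128 192 256 384 448)) = true := by decide +kernel
  have c2 : (band (go 16 Gd mult S430_488_660_808 (Tr.lf 9130117250 99318728 138627281910331893153792) 64 96 192 256 320 384)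
  (go 16 Gd mult S430_488_660_808 (Tr.sp 0 32 Tr.skip (Tr.lf 5372019266 95378631 1792757983083908271832760320)) 0 64 224 240 352 384)) = true := by decide +kernel
  have c3 : (band (go 16 Gd mult S24_82_216_364 (Tr.lf 9129067592 107834693 1361250472886072450719154176) 0 128 192 224 384 448)
  (band (go 16 Gd mult S24_82_660_808 (Tr.lf 9129002056 103640389 1328609475756477463002087424) 0 128 192 224 384 448)
  (band (go 16 Gd mult S24_82_512_660 (Tr.lf 9129002056 107834693 1341907659772238383923855360) 0 128 192 224 384 448)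
  (go 16 Gd mult S24_82_660_808 (Tr.lf 9129002056 99310535 5720841091669718797962248221) 0 128 224 256 384 448)))) = true := by decide +kernel
  have c4 : (band (go 16 Gd mult S24_82_216_364 (Tr.lf 9129002056 99302471 5885233051494972028197273600) 0 128 224 256 384 448)
  (band (go 16 Gd mult S24_82_512_660 (Tr.lf 9129002052 99310535 5788535754016164696203198464) 0 128 224 256 384 448)
  (go 16 Gd mult S24_82_216_364 (Tr.sp 1 224 (Tr.sp 2 480 (Tr.lf 9127952932 91044679 8706174014007244197956747293) Tr.skip) Tr.skip) 0 128 192 256 448 512))) = true := by decide +kernel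
  have c5 : (band (go 16 Gd mult S430_488_660_808 (Tr.lf 13423970370 91060809 0) 96 128 224 256 256 384)
  (band (go 16 Gd mult S430_488_660_808 (Tr.lf 9129003073 95390663 0) 96 128 192 224 256 384)
  (go 16 Gd mult S430_488_660_808 (Tr.lf 9130049825 103505095 113635153385429410275721748) 16 32 224 240 320 352))) = true := by decide +kernel
  have c6 : (go 16 Gd mult S24_82_364_512 (Tr.sp 1 224 (Tr.sp 1 208 (Tr.lf 9127953444 94980935 8673547460678258924818595869) Tr.skip) Tr.skip) 0 128 192 256 448 512) = true := by decide +kernel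
  have c7 : (band (go 16 Gd mult S430_488_660_808 (Tr.lf 9128985218 99703879 82206955733794783880019968) 64 96 192 256 256 320)
  (band (go 16 Gd mult S430_488_660_808 (Tr.sp 0 32 Tr.skip (Tr.lf 4834017825 103902278 1143609276259731696948811515)) 0 64 240 256 320 384)
  (band (go 16 Gd mult S430_488_660_808 (Tr.lf 539050257 99716165 280456754182486290379840464) 0 16 224 240 320 352)
  (go 16 Gd mult S430_488_660_808 (Tr.lf 4834017553 103779270 256040808023992340840448) 32 64 224 240 320 352)))) = true := by decide +kernel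
  (And.intro (Ok.s1 240 (Ok.s2 352 (Ok.s0 32 (Ok.s0 16 (Ok.lf S430_488_660_808_ok (bl (br (br c7))))
  (Ok.lf S430_488_660_808_ok (br (br c5))))
  (Ok.lf S430_488_660_808_ok (br (br (br c7)))))
  (Ok.lf S430_488_660_808_ok (br c2)))
  (Ok.lf S430_488_660_808_ok (bl (br c7))))
  (And.intro (Ok.s0 96 (Ok.s2 320 (Ok.lf S430_488_660_808_ok (bl c7))
  (Ok.lf S430_488_660_808_ok (bl c2)))
  (Ok.s1 224 (Ok.lf S430_488_660_808_ok (bl (br c5)))
  (Ok.lf S430_488_660_808_ok (bl c5))))
  (Ok.s4 512 (Ok.s4 364 (Ok.s2 448 (Ok.s1 224 (Ok.lf S24_82_216_364_ok (bl c3))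
  (Ok.lf S24_82_216_364_ok (bl c4)))
  (Ok.lf S24_82_216_364_ok (br (br c4))))
  (Ok.s2 448 (Ok.s3 53 (Ok.lf S24_53_364_512_ok (br c1))
  (Ok.lf S53_82_364_512_ok (bl c1)))
  (Ok.lf S24_82_364_512_ok c6)))
  (Ok.s4 660 (Ok.s2 448 (Ok.s1 224 (Ok.lf S24_82_512_660_ok (bl (br (br c3))))
  (Ok.lf S24_82_512_660_ok (bl (br c4))))
  (Ok.lf S24_82_512_660_ok (bl c0)))
  (Ok.s2 448 (Ok.s1 224 (Ok.lf S24_82_660_808_ok (bl (br c3)))
  (Ok.lf S24_82_660_808_ok (br (br (br c3)))))
  (Ok.lf S24_82_660_808_ok (br c0)))))))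

end Vale.Agent.P098.Ck
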