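import Vale.Agent.P098.CkGd
import Vale.Agent.P098.CkOk
import Vale.Agent.P098.Sh.A2
import Vale.Agent.P098.Sh.A3
import Vale.Agent.P098.Sh.A4
import Vale.Agent.P098.Sh.A5

namespace Vale.Agent.P098.Ck

theorem r136 :
    Ok Gd mult 0 128 192 224 384 448 82 111 216 364 ∧
    Ok Gd mult 0 128 192 224 384 448 111 140 216 364 ∧
    Ok Gd mult 0 128 224 256 384 448 82 140 216 364 ∧
    Ok Gd mult 0 128 192 256 448 512 82 140 216 364 ∧
    Ok Gd mult 0 128 192 256 384 512 82 140 364 512 ∧
    Ok Gd mult 0 128 192 256 384 512 82 140 512 660 :=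
  have c0 : (band (go 16 Gd mult S111_140_216_364 (Tr.lf 13970474120 107699400 9748777809372369664830603264) 0 128 192 224 416 448)
  (go 16 Gd mult S111_140_216_364 (Tr.lf 13970474024 103636168 7780646575039753368408948736) 0 128 208 224 384 416)) = true := by decide +kernel
  have c1 : (go 16 Gd mult S82_140_364_512 (Tr.sp 0 64 Tr.skip (Tr.lf 9137588356 99581126 7358731463994247786436493312)) 0 128 224 256 384 448) = true := by decide +kernel
  have c2 : (band (go 16 Gd mult S82_111_216_364 (Tr.lf 13970344068 103374024 1627214153201290869154512896) 0 64 192 224 384 448)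
  (go 16 Gd mult S111_140_364_512 (Tr.lf 13432555588 95247304 1721510367131231944781594624) 0 64 192 224 384 448)) = true := by decide +kernel
  have c3 : (band (go 16 Gd mult S82_111_216_364 (Tr.lf 13970475076 99315015 0) 64 128 192 224 384 448)
  (go 16 Gd mult S111_140_364_512 (Tr.lf 13970475076 99310792 0) 64 128 192 224 384 448)) = true := by decide +kernel
  have c4 : (go 16 Gd mult S111_140_216_364 (Tr.lf 13970474056 103644232 1069899350358946819614965760) 0 128 192 208 384 416) = true := by decide +kernel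
  have c5 : (go 16 Gd mult S82_140_216_364 (Tr.sp 0 64 Tr.skip (Tr.sp 2 416 (Tr.lf 9137587332 99581126 7339388650880413719641194496) Tr.skip)) 0 128 224 256 384 448) = true := by decide +kernel
  have c6 : (band (go 16 Gd mult S82_140_216_364 (Tr.sp 1 224 (Tr.sp 2 480 (Tr.lf 4841440328 103910469 12208061223172805215073075200) Tr.skip) Tr.skip) 0 128 192 256 448 512)
  (band (go 16 Gd mult S82_140_364_512 (Tr.sp 1 224 (Tr.sp 2 480 (Tr.lf 4834100292 108096582 12220132846281682847977701376) Tr.skip) Tr.skip) 0 128 192 256 448 512)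
  (go 16 Gd mult S82_140_512_660 (Tr.sp 1 224 (Tr.sp 2 480 (Tr.lf 4834099780 103902278 11707516533471741118049681408) Tr.skip) Tr.skip) 0 128 192 256 448 512))) = true := by decide +kernel
  have c7 : (band (go 16 Gd mult S82_111_364_512 (Tr.lf 13970327624 103640136 1101331421668927178157326336) 0 128 192 208 384 448)
  (go 16 Gd mult S82_111_364_512 (Tr.lf 13969279016 103373768 7079469599663268447079366656) 0 128 208 224 384 448)) = true := by decide +kernel
  have c8 : (band (go 16 Gd mult S82_111_512_660 (Tr.lf 13432408136 94993224 1582483897875549589690384384) 0 128 192 224 384 448)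
  (band (go 16 Gd mult S82_111_512_660 (Tr.lf 9129051208 103627847 7003356691854920276961656832) 0 128 224 256 384 448)
  (band (go 16 Gd mult S111_140_512_660 (Tr.lf 9137439816 99445831 7780757200177192728495390720) 0 128 224 256 384 448)
  (go 16 Gd mult S111_140_512_660 (Tr.lf 9137440836 99712198 1721510367131231944781594624) 0 64 192 224 384 448)))) = true := by decide +kernel
  have c9 : (go 16 Gd mult S111_140_512_660 (Tr.lf 13969410116 107576136 0) 64 128 192 224 384 448) = true := by decide +kernel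
  (And.intro (Ok.s0 64 (Ok.lf S82_111_216_364_ok (bl c2))
  (Ok.lf S82_111_216_364_ok (bl c3)))
  (And.intro (Ok.s2 416 (Ok.s1 208 (Ok.lf S111_140_216_364_ok c4)
  (Ok.lf S111_140_216_364_ok (br c0)))
  (Ok.lf S111_140_216_364_ok (bl c0)))
  (And.intro (Ok.lf S82_140_216_364_ok c5)
  (And.intro (Ok.lf S82_140_216_364_ok (bl c6))
  (And.intro (Ok.s2 448 (Ok.s1 224 (Ok.s3 111 (Ok.s1 208 (Ok.lf S82_111_364_512_ok (bl c7))
  (Ok.lf S82_111_364_512_ok (br c7)))
  (Ok.s0 64 (Ok.lf S111_140_364_512_ok (br c2))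
  (Ok.lf S111_140_364_512_ok (br c3))))
  (Ok.lf S82_140_364_512_ok c1))
  (Ok.lf S82_140_364_512_ok (bl (br c6))))
  (Ok.s2 448 (Ok.s1 224 (Ok.s3 111 (Ok.lf S82_111_512_660_ok (bl c8))
  (Ok.s0 64 (Ok.lf S111_140_512_660_ok (br (br (br c8))))
  (Ok.lf S111_140_512_660_ok c9)))
  (Ok.s3 111 (Ok.lf S82_111_512_660_ok (bl (br c8)))
  (Ok.lf S111_140_512_660_ok (bl (br (br c8))))))
  (Ok.lf S82_140_512_660_ok (br (br c6)))))))))

end Vale.Agent.P098.Ck
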