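import Vale.Agent.P098.CkGd
import Vale.Agent.P098.CkOk
import Vale.Agent.P098.Sh.A10
import Vale.Agent.P098.Sh.A11
import Vale.Agent.P098.Sh.A15
import Vale.Agent.P098.Sh.A18
import Vale.Agent.P098.Sh.A19
import Vale.Agent.P098.Sh.A21
import Vale.Agent.P098.Sh.A9

namespace Vale.Agent.P098.Ck

theorem r138 :
    Ok Gd mult 0 64 192 208 384 448 140 198 364 512 ∧
    Ok Gd mult 0 64 208 224 384 448 140 198 364 512 ∧
    Ok Gd mult 64 128 192 256 384 448 140 198 364 512 ∧
    Ok Gd mult 0 128 192 256 448 512 140 198 364 512 ∧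
    Ok Gd mult 0 128 192 256 384 512 140 198 512 660 :=
  have c0 : (band (go 16 Gd mult S140_169_364_512 (Tr.lf 13440944260 95128520 1310475588462258025381494784) 64 128 192 256 384 448)
  (band (go 16 Gd mult S140_169_364_512 (Tr.lf 9137587236 103779271 7081887451302497705428779008) 0 64 208 224 384 448)
  (go 16 Gd mult S169_198_364_512 (Tr.lf 9136522276 107973574 5930990071029370731108499456) 0 64 208 224 384 448))) = true := by decide +kernel
  have c1 : (band (go 16 Gd mult S140_198_364_512 (Tr.sp 1 224 (Tr.sp 2 480 (Tr.sp 0 64 Tr.skip (Tr.lf 9136800900 99580870 9266419598632858578466111488)) Tr.skip) Tr.skip) 0 128 192 256 448 512)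
  (go 16 Gd mult S140_198_512_660 (Tr.sp 1 224 (Tr.sp 2 480 (Tr.sp 0 64 Tr.skip (Tr.lf 9136538692 103775174 11730207227720746882174025728)) Tr.skip) Tr.skip) 0 128 192 256 448 512)) = true := by decide +kernel
  have c2 : (band (go 16 Gd mult S169_198_512_660 (Tr.lf 9136800840 103775557 871635515942147634963152896) 0 64 192 208 384 416)
  (band (go 16 Gd mult S140_169_512_660 (Tr.lf 9137439268 107973830 1002199504460527585831419904) 0 64 192 208 384 416)
  (band (go 16 Gd mult S140_169_512_660 (Tr.lf 9137439266 103779526 7733498468074782830595407872) 0 64 208 224 384 416)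
  (go 16 Gd mult S169_198_512_660 (Tr.lf 9136390690 103910342 7306747653750818731924127744) 0 64 208 224 384 416)))) = true := by decide +kernel
  have c3 : (go 16 Gd mult S140_169_512_660 (Tr.lf 9137588356 99843270 1310475588462258025381494784) 64 128 192 256 384 448) = true := by decide +kernel
  have c4 : (go 16 Gd mult S169_198_512_660 (Tr.lf 13439895684 103516872 1314102365921101912905613312) 64 128 192 256 384 448) = true := by decide +kernel
  have c5 : (go 16 Gd mult S169_183_364_512 (Tr.lf 13440927876 99322824 1281461368791506925188546560) 64 128 192 256 384 448) = true := by decide +kernel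
  have c6 : (go 16 Gd mult S183_198_364_512 (Tr.lf 13440927876 103517128 147488949992984759314153472) 64 128 192 224 384 448) = true := by decide +kernel
  have c7 : (band (go 16 Gd mult S169_198_364_512 (Tr.lf 9136523300 103910597 993737023723225181608476672) 0 64 200 208 384 448)
  (band (go 16 Gd mult S140_169_364_512 (Tr.lf 9137570852 108231623 996154875362454439957889024) 0 64 200 208 384 448)
  (band (go 16 Gd mult S140_169_364_512 (Tr.lf 13432539156 99314887 616552168003460879100149760) 0 64 192 200 384 448)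
  (go 16 Gd mult S169_198_364_512 (Tr.lf 9136522276 108104901 604462909807314587353088000) 0 64 192 200 384 448)))) = true := by decide +kernel
  have c8 : (band (go 16 Gd mult S140_169_512_660 (Tr.lf 9137570372 107842758 9517872977825975492461723648) 0 64 192 224 416 448)
  (go 16 Gd mult S169_198_512_660 (Tr.lf 9136521794 112167878 9025840169242821418356310016) 0 64 192 224 416 448)) = true := by decide +kernel
  have c9 : (go 16 Gd mult S183_198_364_512 (Tr.sp 2 416 (Tr.lf 9136513602 103910342 5061772406726452354494758912) Tr.skip) 64 128 224 256 384 448) = true := by decide +kernel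
  (And.intro (Ok.s1 200 (Ok.s3 169 (Ok.lf S140_169_364_512_ok (bl (br (br c7))))
  (Ok.lf S169_198_364_512_ok (br (br (br c7)))))
  (Ok.s3 169 (Ok.lf S140_169_364_512_ok (bl (br c7)))
  (Ok.lf S169_198_364_512_ok (bl c7))))
  (And.intro (Ok.s3 169 (Ok.lf S140_169_364_512_ok (bl (br c0)))
  (Ok.lf S169_198_364_512_ok (br (br c0))))
  (And.intro (Ok.s3 169 (Ok.lf S140_169_364_512_ok (bl c0))
  (Ok.s3 183 (Ok.lf S169_183_364_512_ok c5)
  (Ok.s1 224 (Ok.lf S183_198_364_512_ok c6)
  (Ok.lf S183_198_364_512_ok c9))))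
  (And.intro (Ok.lf S140_198_364_512_ok (bl c1))
  (Ok.s2 448 (Ok.s0 64 (Ok.s1 224 (Ok.s2 416 (Ok.s1 208 (Ok.s3 169 (Ok.lf S140_169_512_660_ok (bl (br c2)))
  (Ok.lf S169_198_512_660_ok (bl c2)))
  (Ok.s3 169 (Ok.lf S140_169_512_660_ok (bl (br (br c2))))
  (Ok.lf S169_198_512_660_ok (br (br (br c2))))))
  (Ok.s3 169 (Ok.lf S140_169_512_660_ok (bl c8))
  (Ok.lf S169_198_512_660_ok (br c8))))
  (Ok.out rfl))
  (Ok.s3 169 (Ok.lf S140_169_512_660_ok c3)
  (Ok.lf S169_198_512_660_ok c4)))
  (Ok.lf S140_198_512_660_ok (br c1)))))))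

end Vale.Agent.P098.Ck
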