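import Vale.Agent.P098.CkGd
import Vale.Agent.P098.CkOk
import Vale.Agent.P098.Sh.A10
import Vale.Agent.P098.Sh.A11
import Vale.Agent.P098.Sh.A19
import Vale.Agent.P098.Sh.A23
import Vale.Agent.P098.Sh.A25
import Vale.Agent.P098.Sh.A30
import Vale.Agent.P098.Sh.A36

namespace Vale.Agent.P098.Ck

theorem r139 :
    Ok Gd mult 0 128 192 256 384 512 140 198 660 808 ∧
    Ok Gd mult 0 128 192 224 384 448 198 256 216 290 ∧
    Ok Gd mult 0 128 192 224 384 416 198 256 290 364 :=
  have c0 : (band (go 16 Gd mult S198_227_216_290 (Tr.lf 13449332868 103644232 1037258353229351831897899008) 64 128 192 224 416 448)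
  (go 16 Gd mult S198_227_216_290 (Tr.sp 2 416 (Tr.lf 13439894596 107965383 3808116331786081900324454400) Tr.skip) 0 64 208 224 384 448)) = true := by decide +kernel
  have c1 : (band (go 16 Gd mult S198_227_290_364 (Tr.lf 13449331848 103640264 70117697537648492132958208) 64 128 192 224 384 416)
  (go 16 Gd mult S227_256_290_364 (Tr.lf 13439763524 99318600 70117697537648492132958208) 64 128 192 224 384 416)) = true := by decide +kernel
  have c2 : (band (go 16 Gd mult S140_169_660_808 (Tr.lf 9137571912 107973830 1725137144590075832305713152) 0 128 192 224 384 448)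
  (band (go 16 Gd mult S169_198_660_808 (Tr.lf 9136523336 103775302 1722719292950846573956300800) 0 128 192 224 384 448)
  (go 16 Gd mult S169_198_660_808 (Tr.lf 9136522306 103779270 7363567167272706303135318016) 64 128 224 256 384 448))) = true := by decide +kernel
  have c3 : (go 16 Gd mult S198_227_216_290 (Tr.lf 13440944196 103517383 396527668833598369303625728) 0 64 192 208 384 448) = true := by decide +kernel
  have c4 : (band (go 16 Gd mult S198_212_216_290 (Tr.lf 18281154692 103513033 72535549176877750482370560) 64 128 192 224 384 416)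
  (go 16 Gd mult S212_227_216_290 (Tr.lf 18281170052 99183689 77371252455336267181195264) 64 128 192 224 384 416)) = true := by decide +kernel
  have c5 : (go 16 Gd mult S227_256_216_290 (Tr.lf 13439895620 99318855 307067158182115810375368704) 64 128 192 224 384 448) = true := by decide +kernel
  have c6 : (go 16 Gd mult S140_198_660_808 (Tr.sp 1 224 (Tr.sp 2 480 (Tr.sp 0 64 Tr.skip (Tr.lf 8599667778 107838406 12439846683834534207726551040)) Tr.skip) Tr.skip) 0 128 192 256 448 512) = true := by decide +kernel
  have c7 : (go 16 Gd mult S198_227_290_364 (Tr.lf 13439763524 99453895 709639456113787325552525312) 0 64 192 224 384 416) = true := by decide +kernel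
  have c8 : (band (go 16 Gd mult S227_256_216_290 (Tr.lf 8608039970 95394886 220024499169862509796524032) 0 64 192 208 384 416)
  (band (go 16 Gd mult S227_256_290_364 (Tr.lf 8606859810 95394630 447302553257412794641285120) 0 64 192 208 384 416)
  (go 16 Gd mult S227_256_290_364 (Tr.lf 8606859812 99457862 4755919339452291811968548864) 0 64 208 224 384 416))) = true := by decide +kernel
  have c9 : (go 16 Gd mult S140_169_660_808 (Tr.lf 9136521762 99711942 7361154480721817683460358144) 64 128 224 256 384 448) = true := by decide +kernel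
  have c10 : (band (go 16 Gd mult S227_256_216_290 (Tr.lf 12902876194 95128519 319164237819422928179036207) 32 64 208 224 384 416)
  (band (go 16 Gd mult S227_256_216_290 (Tr.sp 1 208 (Tr.lf 8607908898 103648326 5435330484987372769478967296) Tr.skip) 0 64 192 224 416 448)
  (go 16 Gd mult S227_256_216_290 (Tr.lf 8598471201 95390406 4399389893375833227434917888) 0 32 208 224 384 416))) = true := by decide +kernel
  (And.intro (Ok.s2 448 (Ok.s1 224 (Ok.s3 169 (Ok.lf S140_169_660_808_ok (bl c2))
  (Ok.lf S169_198_660_808_ok (bl (br c2))))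
  (Ok.s0 64 (Ok.out rfl)
  (Ok.s3 169 (Ok.lf S140_169_660_808_ok c9)
  (Ok.lf S169_198_660_808_ok (br (br c2))))))
  (Ok.lf S140_198_660_808_ok c6))
  (And.intro (Ok.s0 64 (Ok.s3 227 (Ok.s1 208 (Ok.lf S198_227_216_290_ok c3)
  (Ok.lf S198_227_216_290_ok (br c0)))
  (Ok.s2 416 (Ok.s1 208 (Ok.lf S227_256_216_290_ok (bl c8))
  (Ok.s0 32 (Ok.lf S227_256_216_290_ok (br (br c10)))
  (Ok.lf S227_256_216_290_ok (bl c10))))
  (Ok.lf S227_256_216_290_ok (bl (br c10)))))
  (Ok.s3 227 (Ok.s2 416 (Ok.s3 212 (Ok.lf S198_212_216_290_ok (bl c4))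
  (Ok.lf S212_227_216_290_ok (br c4)))
  (Ok.lf S198_227_216_290_ok (bl c0)))
  (Ok.lf S227_256_216_290_ok c5)))
  (Ok.s3 227 (Ok.s0 64 (Ok.lf S198_227_290_364_ok c7)
  (Ok.lf S198_227_290_364_ok (bl c1)))
  (Ok.s0 64 (Ok.s1 208 (Ok.lf S227_256_290_364_ok (bl (br c8)))
  (Ok.lf S227_256_290_364_ok (br (br c8))))
  (Ok.lf S227_256_290_364_ok (br c1))))))

end Vale.Agent.P098.Ck
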