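import Vale.Agent.P098.CkGd
import Vale.Agent.P098.CkOk
import Vale.Agent.P098.Sh.A10
import Vale.Agent.P098.Sh.A11
import Vale.Agent.P098.Sh.A18
import Vale.Agent.P098.Sh.A19
import Vale.Agent.P098.Sh.A9

namespace Vale.Agent.P098.Ck

theorem r14 :
    Ok Gd mult 0 128 0 64 384 448 140 198 364 512 ∧
    Ok Gd mult 0 128 0 64 448 512 140 198 364 512 ∧
    Ok Gd mult 0 128 0 64 384 448 140 198 512 660 ∧
    Ok Gd mult 0 128 0 64 448 480 140 198 512 660 ∧
    Ok Gd mult 0 128 0 64 480 512 140 169 512 660 :=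
  have c0 : (band (go 16 Gd mult S169_198_438_512 (Tr.lf 9682716808 107576264 174690666378029453803520) 0 128 32 64 480 512)
  (go 16 Gd mult S140_169_512_660 (Tr.lf 9682831428 107576264 139180684052339183583232) 0 128 32 64 480 512)) = true := by decide +kernel
  have c1 : (band (go 16 Gd mult S169_198_364_438 (Tr.lf 5387880580 103517255 298837253994094736179200) 0 64 0 64 480 512)
  (go 16 Gd mult S169_198_364_438 (Tr.lf 9682846850 99191879 323666571679687621214208) 64 128 0 32 496 512)) = true := by decide +kernel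
  have c2 : (go 16 Gd mult S169_198_438_512 (Tr.lf 9682847876 103381960 415199315613751827234816) 0 128 0 32 480 512) = true := by decide +kernel
  have c3 : (go 16 Gd mult S140_169_512_660 (Tr.lf 5387880580 103517255 325086970823026516426752) 0 128 0 32 480 512) = true := by decide +kernel
  have c4 : (band (go 16 Gd mult S140_169_364_438 (Tr.lf 9682716804 99056584 372181508470218051026944) 64 128 0 32 480 512)
  (band (go 16 Gd mult S140_169_364_438 (Tr.lf 9682716802 94993352 694003405556017172316160) 0 64 0 32 480 512)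
  (go 16 Gd mult S140_169_364_438 (Tr.lf 9682716738 99187911 165430400853027258892288) 64 128 32 64 480 512))) = true := by decide +kernel
  have c5 : (band (go 16 Gd mult S140_169_438_512 (Tr.lf 9682716804 99187656 343847309543751452459008) 0 128 0 32 480 512)
  (go 16 Gd mult S140_169_438_512 (Tr.lf 9682715716 103381960 153624484673894987333632) 0 128 32 64 480 512)) = true := by decide +kernel
  have c6 : (band (go 16 Gd mult S140_198_364_512 (Tr.lf 1160021122 103779399 0) 0 128 0 64 384 448)
  (go 16 Gd mult S140_198_512_660 (Tr.lf 1160021122 95521863 0) 0 128 0 64 384 448)) = true := by decide +kernel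
  have c7 : (go 16 Gd mult S169_198_364_438 (Tr.lf 9682715716 99322951 134882592666964241416192) 64 128 32 64 496 512) = true := by decide +kernel
  have c8 : (go 16 Gd mult S140_169_364_438 (Tr.lf 9682715714 99187656 421471208679536985112576) 0 64 32 64 480 512) = true := by decide +kernel
  have c9 : (band (go 16 Gd mult S140_169_364_512 (Tr.lf 4841423490 99314503 0) 0 128 0 64 448 480)
  (band (go 16 Gd mult S140_169_512_660 (Tr.lf 4841423490 99314503 0) 0 128 0 64 448 480)
  (band (go 16 Gd mult S169_198_364_512 (Tr.lf 4841423490 99314503 0) 0 128 0 64 448 480)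
  (go 16 Gd mult S169_198_512_660 (Tr.lf 4841423490 103508807 0) 0 128 0 64 448 480)))) = true := by decide +kernel
  have c10 : (go 16 Gd mult S169_198_364_438 (Tr.lf 9145827970 99056584 0) 64 128 0 64 480 496) = true := by decide +kernel
  (And.intro (Ok.lf S140_198_364_512_ok (bl c6))
  (And.intro (Ok.s2 480 (Ok.s3 169 (Ok.lf S140_169_364_512_ok (bl c9))
  (Ok.lf S169_198_364_512_ok (bl (br (br c9)))))
  (Ok.s4 438 (Ok.s0 64 (Ok.s3 169 (Ok.s1 32 (Ok.lf S140_169_364_438_ok (bl (br c4)))
  (Ok.lf S140_169_364_438_ok c8))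
  (Ok.lf S169_198_364_438_ok (bl c1)))
  (Ok.s3 169 (Ok.s1 32 (Ok.lf S140_169_364_438_ok (bl c4))
  (Ok.lf S140_169_364_438_ok (br (br c4))))
  (Ok.s2 496 (Ok.lf S169_198_364_438_ok c10)
  (Ok.s1 32 (Ok.lf S169_198_364_438_ok (br c1))
  (Ok.lf S169_198_364_438_ok c7)))))
  (Ok.s1 32 (Ok.s3 169 (Ok.lf S140_169_438_512_ok (bl c5))
  (Ok.lf S169_198_438_512_ok c2))
  (Ok.s3 169 (Ok.lf S140_169_438_512_ok (br c5))
  (Ok.lf S169_198_438_512_ok (bl c0))))))
  (And.intro (Ok.lf S140_198_512_660_ok (br c6))
  (And.intro (Ok.s3 169 (Ok.lf S140_169_512_660_ok (bl (br c9)))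
  (Ok.lf S169_198_512_660_ok (br (br (br c9)))))
  (Ok.s1 32 (Ok.lf S140_169_512_660_ok c3)
  (Ok.lf S140_169_512_660_ok (br c0)))))))

end Vale.Agent.P098.Ck
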