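import Vale.Agent.P098.CkGd
import Vale.Agent.P098.CkOk
import Vale.Agent.P098.Sh.A25
import Vale.Agent.P098.Sh.A26
import Vale.Agent.P098.Sh.A28
import Vale.Agent.P098.Sh.A36
import Vale.Agent.P098.Sh.A37

namespace Vale.Agent.P098.Ck

theorem r140 :
    Ok Gd mult 0 128 192 224 416 448 198 256 290 364 ∧
    Ok Gd mult 0 128 224 256 384 448 198 256 216 364 ∧
    Ok Gd mult 0 128 192 256 448 512 198 256 216 364 ∧
    Ok Gd mult 0 128 192 256 384 512 198 256 364 512 :=
  have c0 : (go 16 Gd mult S198_227_364_512 (Tr.lf 9136800392 99454022 772503598733748042637246464) 0 64 192 208 384 400) = true := by decide +kernel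
  have c1 : (go 16 Gd mult S227_256_364_512 (Tr.lf 8598880840 91188166 755578637259143234191360000) 0 64 192 208 384 400) = true := by decide +kernel
  have c2 : (band (go 16 Gd mult S198_227_364_438 (Tr.lf 13439764612 103647944 186174576220652892904751104) 64 128 192 224 384 448)
  (band (go 16 Gd mult S198_227_438_512 (Tr.lf 13439764548 95132615 95505139749555704801787904) 64 128 192 224 384 448)
  (go 16 Gd mult S227_256_364_512 (Tr.lf 13439879236 99318600 186174576220652892904751104) 64 128 192 224 384 448))) = true := by decide +kernel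
  have c3 : (band (go 16 Gd mult S198_227_290_364 (Tr.lf 13449331844 103644232 967140655691703339764940800) 64 128 192 224 416 448)
  (band (go 16 Gd mult S227_256_290_364 (Tr.lf 13439747140 103517127 967140655691703339764940800) 64 128 192 224 416 448)
  (band (go 16 Gd mult S227_256_290_364 (Tr.sp 1 208 (Tr.lf 8606859810 99584838 6610406381652792327293370368) Tr.skip) 0 64 192 224 416 448)
  (band (go 16 Gd mult S198_227_290_364 (Tr.sp 1 208 (Tr.lf 13439763492 103513031 6281578558717613191773290496) Tr.skip) 0 64 192 224 416 448)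
  (go 16 Gd mult S198_227_364_512 (Tr.sp 1 208 (Tr.lf 9136521764 103644230 7718991358239407280498933760) Tr.skip) 0 64 192 224 416 448))))) = true := by decide +kernel
  have c4 : (go 16 Gd mult S198_256_216_364 (Tr.sp 1 224 (Tr.sp 2 480 (Tr.sp 1 208 (Tr.sp 0 64 Tr.skip (Tr.sp 2 464 (Tr.lf 9135752260 103774918 5843947412017117430529654784) Tr.skip)) Tr.skip) Tr.skip) Tr.skip) 0 128 192 256 448 512) = true := by decide +kernel
  have c5 : (go 16 Gd mult S198_256_364_512 (Tr.sp 1 224 (Tr.sp 0 64 Tr.skip (Tr.sp 1 208 (Tr.sp 2 480 (Tr.sp 0 96 Tr.skip (Tr.lf 9135752258 103905990 8267843680344448925815537664)) Tr.skip) Tr.skip)) Tr.skip) 0 128 192 256 448 512) = true := by decide +kernel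
  have c6 : (band (go 16 Gd mult S198_227_216_364 (Tr.sp 2 416 (Tr.sp 1 240 (Tr.lf 13439894564 103516872 2567780041998782680960860160) Tr.skip) Tr.skip) 64 128 224 256 384 448)
  (go 16 Gd mult S227_256_216_364 (Tr.sp 2 416 (Tr.sp 1 240 (Tr.lf 13439894564 99453895 2565340589222243108726505472) Tr.skip) Tr.skip) 64 128 224 256 384 448)) = true := by decide +kernel
  have c7 : (band (go 16 Gd mult S198_227_364_512 (Tr.sp 2 416 (Tr.lf 9143861828 103910214 4458518422738752396316377088) Tr.skip) 64 128 224 256 384 448)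
  (band (go 16 Gd mult S227_256_364_512 (Tr.sp 2 416 (Tr.lf 9143861828 99846982 4458518422738752396316377088) Tr.skip) 64 128 224 256 384 448)
  (band (go 16 Gd mult S198_227_364_512 (Tr.lf 9136521764 107838534 5628758616125713437431955456) 0 64 208 224 384 416)
  (band (go 16 Gd mult S227_256_364_512 (Tr.lf 8598594082 95386438 5642056800141474358353723392) 0 64 208 224 384 416)
  (go 16 Gd mult S227_256_364_512 (Tr.sp 1 208 (Tr.lf 8598594082 91192134 7717782432419792651324227584) Tr.skip) 0 64 192 224 416 448))))) = true := by decide +kernel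
  have c8 : (band (go 16 Gd mult S198_227_364_512 (Tr.lf 9136783652 103775302 981647765527078889861414912) 0 64 192 208 400 416)
  (go 16 Gd mult S227_256_364_512 (Tr.lf 8598864164 95259462 980438839707464260686708736) 0 64 192 208 400 416)) = true := by decide +kernel
  (And.intro (Ok.s3 227 (Ok.s0 64 (Ok.lf S198_227_290_364_ok (bl (br (br (br c3)))))
  (Ok.lf S198_227_290_364_ok (bl c3)))
  (Ok.s0 64 (Ok.lf S227_256_290_364_ok (bl (br (br c3))))
  (Ok.lf S227_256_290_364_ok (bl (br c3)))))
  (And.intro (Ok.s0 64 (Ok.out rfl)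
  (Ok.s3 227 (Ok.lf S198_227_216_364_ok (bl c6))
  (Ok.lf S227_256_216_364_ok (br c6))))
  (And.intro (Ok.lf S198_256_216_364_ok c4)
  (Ok.s2 448 (Ok.s1 224 (Ok.s0 64 (Ok.s2 416 (Ok.s1 208 (Ok.s2 400 (Ok.s3 227 (Ok.lf S198_227_364_512_ok c0)
  (Ok.lf S227_256_364_512_ok c1))
  (Ok.s3 227 (Ok.lf S198_227_364_512_ok (bl c8))
  (Ok.lf S227_256_364_512_ok (br c8))))
  (Ok.s3 227 (Ok.lf S198_227_364_512_ok (bl (br (br c7))))
  (Ok.lf S227_256_364_512_ok (bl (br (br (br c7)))))))
  (Ok.s3 227 (Ok.lf S198_227_364_512_ok (br (br (br (br c3)))))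
  (Ok.lf S227_256_364_512_ok (br (br (br (br c7)))))))
  (Ok.s3 227 (Ok.s4 438 (Ok.lf S198_227_364_438_ok (bl c2))
  (Ok.lf S198_227_438_512_ok (bl (br c2))))
  (Ok.lf S227_256_364_512_ok (br (br c2)))))
  (Ok.s0 64 (Ok.out rfl)
  (Ok.s3 227 (Ok.lf S198_227_364_512_ok (bl c7))
  (Ok.lf S227_256_364_512_ok (bl (br c7))))))
  (Ok.lf S198_256_364_512_ok c5)))))

end Vale.Agent.P098.Ck
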