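import Vale.Agent.P098.CkGd
import Vale.Agent.P098.CkOk
import Vale.Agent.P098.Sh.A27
import Vale.Agent.P098.Sh.A29
import Vale.Agent.P098.Sh.A37
import Vale.Agent.P098.Sh.A38
import Vale.Agent.P098.Sh.A41
import Vale.Agent.P098.Sh.A43
import Vale.Agent.P098.Sh.A45

namespace Vale.Agent.P098.Ck

theorem r141 :
    Ok Gd mult 0 64 192 256 384 448 198 256 512 660 ∧
    Ok Gd mult 64 128 192 256 384 448 198 256 512 660 ∧
    Ok Gd mult 0 128 192 256 448 512 198 256 512 660 ∧
    Ok Gd mult 0 128 192 256 384 512 198 256 660 808 ∧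
    Ok Gd mult 0 32 192 224 384 448 256 314 216 364 :=
  have c0 : (go 16 Gd mult S198_227_660_808 (Tr.lf 9136800840 103648326 1723928218770461203131006976) 0 128 192 224 384 448) = true := by decide +kernel
  have c1 : (band (go 16 Gd mult S198_256_512_660 (Tr.lf 8599929896 91065414 997363801182069069132595200) 0 64 200 208 384 416)
  (go 16 Gd mult S198_256_512_660 (Tr.lf 8599929924 95128646 9033093724160509193404547072) 0 64 192 224 416 448)) = true := by decide +kernel
  have c2 : (go 16 Gd mult S198_227_512_660 (Tr.lf 13439895620 95132615 22969590572677954319417344) 64 128 192 224 384 448) = true := by decide +kernel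
  have c3 : (go 16 Gd mult S227_256_660_808 (Tr.lf 8598864968 95259462 1708221111339602699282808832) 0 128 192 224 384 448) = true := by decide +kernel
  have c4 : (go 16 Gd mult S198_256_512_660 (Tr.lf 8599929892 95251654 652819942591899754341335040) 0 64 192 200 384 416) = true := by decide +kernel
  have c5 : (go 16 Gd mult S256_314_216_364 (Tr.lf 4303914020 99716037 609404257589083238654017536) 0 32 192 200 384 416) = true := by decide +kernel
  have c6 : (band (go 16 Gd mult S227_256_512_660 (Tr.lf 9135473284 107969350 1026378020852820169325543424) 64 128 192 256 384 416)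
  (band (go 16 Gd mult S227_256_512_660 (Tr.sp 1 208 (Tr.lf 9135473192 103775046 11644522488879991562818289664) Tr.skip) 0 128 192 224 448 480)
  (go 16 Gd mult S227_256_512_660 (Tr.sp 1 224 (Tr.lf 8598602274 99449925 531927360630436836870717440) Tr.skip) 64 128 192 256 416 448))) = true := by decide +kernel
  have c7 : (band (go 16 Gd mult S227_256_660_808 (Tr.sp 2 416 (Tr.lf 8598602312 95386183 7685141435290197663607160832) Tr.skip) 0 128 224 256 384 448)
  (band (go 16 Gd mult S227_256_660_808 (Tr.lf 12893570116 90917448 11285593582559982434033598464) 64 128 192 224 448 480)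
  (band (go 16 Gd mult S198_227_660_808 (Tr.lf 8598602308 103905990 12443550550236862127466872832) 64 128 192 224 448 480)
  (band (go 16 Gd mult S198_227_512_660 (Tr.sp 0 64 Tr.skip (Tr.lf 8598602306 99711686 11699996755143559791268331520)) 0 128 192 224 448 480)
  (band (go 16 Gd mult S198_227_660_808 (Tr.sp 0 64 Tr.skip (Tr.lf 8598602820 103779014 7364776093092320932310024192)) 0 128 224 256 384 448)
  (go 16 Gd mult S198_227_512_660 (Tr.sp 2 416 (Tr.lf 9136521794 103910342 6785700625496913557625765888) Tr.skip) 64 128 224 256 384 448)))))) = true := by decide +kernel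
  have c8 : (go 16 Gd mult S198_256_512_660 (Tr.lf 8599667236 95128646 7312792282848891877797658624) 0 64 208 224 384 416) = true := by decide +kernel
  have c9 : (go 16 Gd mult S256_314_216_364 (Tr.sp 2 432 (Tr.lf 9732418 108235845 8632927010862351816960180379) Tr.skip) 0 32 192 224 416 448) = true := by decide +kernel
  have c10 : (band (go 16 Gd mult S256_285_216_364 (Tr.lf 4303897106 99716292 917668554121350577800642969) 0 32 200 208 384 416)
  (go 16 Gd mult S285_314_216_364 (Tr.lf 4303634978 99716037 968573893919254277087297536) 0 32 200 208 384 416)) = true := by decide +kernel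
  have c11 : (go 16 Gd mult S256_314_216_364 (Tr.sp 0 16 Tr.skip (Tr.lf 4303503633 103783492 5971070566256916486154092544)) 0 32 208 224 384 416) = true := by decide +kernel
  (And.intro (Ok.s1 224 (Ok.s2 416 (Ok.s1 208 (Ok.s1 200 (Ok.lf S198_256_512_660_ok c4)
  (Ok.lf S198_256_512_660_ok (bl c1)))
  (Ok.lf S198_256_512_660_ok c8))
  (Ok.lf S198_256_512_660_ok (br c1)))
  (Ok.out rfl))
  (And.intro (Ok.s3 227 (Ok.s1 224 (Ok.lf S198_227_512_660_ok c2)
  (Ok.lf S198_227_512_660_ok (br (br (br (br (br c7)))))))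
  (Ok.s2 416 (Ok.lf S227_256_512_660_ok (bl c6))
  (Ok.lf S227_256_512_660_ok (br (br c6)))))
  (And.intro (Ok.s1 224 (Ok.s2 480 (Ok.s3 227 (Ok.lf S198_227_512_660_ok (bl (br (br (br c7)))))
  (Ok.lf S227_256_512_660_ok (bl (br c6))))
  (Ok.out rfl))
  (Ok.out rfl))
  (And.intro (Ok.s2 448 (Ok.s3 227 (Ok.s1 224 (Ok.lf S198_227_660_808_ok c0)
  (Ok.lf S198_227_660_808_ok (bl (br (br (br (br c7)))))))
  (Ok.s1 224 (Ok.lf S227_256_660_808_ok c3)
  (Ok.lf S227_256_660_808_ok (bl c7))))
  (Ok.s2 480 (Ok.s1 224 (Ok.s0 64 (Ok.out rfl)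
  (Ok.s3 227 (Ok.lf S198_227_660_808_ok (bl (br (br c7))))
  (Ok.lf S227_256_660_808_ok (bl (br c7)))))
  (Ok.out rfl))
  (Ok.out rfl)))
  (Ok.s2 416 (Ok.s1 208 (Ok.s1 200 (Ok.lf S256_314_216_364_ok c5)
  (Ok.s3 285 (Ok.lf S256_285_216_364_ok (bl c10))
  (Ok.lf S285_314_216_364_ok (br c10))))
  (Ok.lf S256_314_216_364_ok c11))
  (Ok.lf S256_314_216_364_ok c9))))))

end Vale.Agent.P098.Ck
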