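import Vale.Agent.P098.CkGd
import Vale.Agent.P098.CkOk
import Vale.Agent.P098.Sh.A42
import Vale.Agent.P098.Sh.A46
import Vale.Agent.P098.Sh.A47
import Vale.Agent.P098.Sh.A48
import Vale.Agent.P098.Sh.A49
import Vale.Agent.P098.Sh.A51

namespace Vale.Agent.P098.Ck

theorem r143 :
    Ok Gd mult 0 128 192 256 384 512 256 314 660 808 ∧
    Ok Gd mult 0 128 192 256 384 512 314 372 216 512 :=
  have c0 : (go 16 Gd mult S314_372_216_364 (Tr.lf 4841834532 103910342 997141001407148007759020032) 0 64 200 208 384 448) = true := by decide +kernel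
  have c1 : (band (go 16 Gd mult S256_285_660_808 (Tr.lf 8598602884 99449670 1098993518226676275885178909) 64 128 192 256 384 448)
  (band (go 16 Gd mult S256_285_660_808 (Tr.lf 8598602312 95120071 9906369229437785902344568832) 0 128 192 224 448 480)
  (band (go 16 Gd mult S285_314_660_808 (Tr.lf 8598602276 90925767 9547486532211681415986675712) 0 128 192 224 448 480)
  (go 16 Gd mult S285_314_660_808 (Tr.lf 8598602884 95128135 2721460641640108051274924127) 0 128 192 256 384 448)))) = true := by decide +kernel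
  have c2 : (go 16 Gd mult S314_372_216_364 (Tr.lf 9733156 104172613 601601192612213850378338304) 0 64 192 200 384 448) = true := by decide +kernel
  have c3 : (band (go 16 Gd mult S314_372_364_512 (Tr.lf 9733156 108366917 964169733771662847557763072) 0 64 200 208 384 416)
  (band (go 16 Gd mult S314_372_364_512 (Tr.lf 1344036 108366789 602045058168085329003675648) 0 64 192 200 384 416)
  (band (go 16 Gd mult S314_372_364_512 (Tr.sp 0 64 Tr.skip (Tr.sp 1 240 (Tr.sp 2 416 (Tr.lf 4842619426 95529799 6480153368354172237451886592) Tr.skip) Tr.skip)) 0 128 224 256 384 448)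
  (band (go 16 Gd mult S314_372_216_364 (Tr.sp 1 240 (Tr.sp 2 416 (Tr.lf 4841439778 103787589 6274585139811609604542955520) Tr.skip) Tr.skip) 64 128 224 256 384 448)
  (band (go 16 Gd mult S314_372_216_364 (Tr.sp 2 448 (Tr.sp 2 416 (Tr.lf 623018274 99847239 6738549179851130804176486980) Tr.skip) Tr.skip) 0 64 208 224 384 512)
  (band (go 16 Gd mult S314_372_364_512 (Tr.lf 623018274 104041543 6945276048557300911183496280) 0 64 208 224 384 416)
  (go 16 Gd mult S314_372_364_512 (Tr.sp 1 224 (Tr.sp 1 208 (Tr.sp 0 64 Tr.skip (Tr.sp 2 480 (Tr.lf 547521042 103783494 11259921396885912640505185959) Tr.skip)) Tr.skip) Tr.skip) 0 128 192 256 448 512))))))) = true := by decide +kernel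
  have c4 : (go 16 Gd mult S256_285_660_808 (Tr.lf 4303626818 99851077 2846105604989507915577557021) 0 64 192 256 384 448) = true := by decide +kernel
  have c5 : (band (go 16 Gd mult S343_372_364_512 (Tr.lf 4842472482 104045638 47521727319439451071971328) 64 128 192 224 384 448)
  (band (go 16 Gd mult S343_372_216_364 (Tr.lf 547496994 95657030 63138740852242829348438016) 64 128 192 224 384 448)
  (band (go 16 Gd mult S314_343_216_364 (Tr.lf 4304544289 99851333 37674744652428850162040832) 64 128 192 224 384 448)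
  (band (go 16 Gd mult S314_343_364_512 (Tr.lf 4304544289 99851333 3891211535140513946533888) 64 128 192 224 384 448)
  (band (go 16 Gd mult S314_343_364_512 (Tr.lf 622993698 99847239 9315978142293904824351983851) 0 64 192 224 416 448)
  (go 16 Gd mult S343_372_364_512 (Tr.lf 614539553 108108870 8764693525691416807904253458) 0 64 192 224 416 448)))))) = true := by decide +kernel
  have c6 : (go 16 Gd mult S314_372_216_364 (Tr.sp 1 224 (Tr.sp 0 96 Tr.skip (Tr.sp 2 480 (Tr.lf 547504673 95652934 10811414197573139213954582608) Tr.skip)) Tr.skip) 64 128 192 256 448 512) = true := by decide +kernel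
  (And.intro (Ok.s2 448 (Ok.s3 285 (Ok.s0 64 (Ok.lf S256_285_660_808_ok c4)
  (Ok.lf S256_285_660_808_ok (bl c1)))
  (Ok.lf S285_314_660_808_ok (br (br (br c1)))))
  (Ok.s1 224 (Ok.s2 480 (Ok.s3 285 (Ok.lf S256_285_660_808_ok (bl (br c1)))
  (Ok.lf S285_314_660_808_ok (bl (br (br c1)))))
  (Ok.out rfl))
  (Ok.out rfl)))
  (Ok.s4 364 (Ok.s0 64 (Ok.s1 224 (Ok.s1 208 (Ok.s2 448 (Ok.s1 200 (Ok.lf S314_372_216_364_ok c2)
  (Ok.lf S314_372_216_364_ok c0))
  (Ok.out rfl))
  (Ok.lf S314_372_216_364_ok (bl (br (br (br (br c3)))))))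
  (Ok.out rfl))
  (Ok.s2 448 (Ok.s1 224 (Ok.s3 343 (Ok.lf S314_343_216_364_ok (bl (br (br c5))))
  (Ok.lf S343_372_216_364_ok (bl (br c5))))
  (Ok.lf S314_372_216_364_ok (bl (br (br (br c3))))))
  (Ok.lf S314_372_216_364_ok c6)))
  (Ok.s2 448 (Ok.s1 224 (Ok.s0 64 (Ok.s2 416 (Ok.s1 208 (Ok.s1 200 (Ok.lf S314_372_364_512_ok (bl (br c3)))
  (Ok.lf S314_372_364_512_ok (bl c3)))
  (Ok.lf S314_372_364_512_ok (bl (br (br (br (br (br c3))))))))
  (Ok.s3 343 (Ok.lf S314_343_364_512_ok (bl (br (br (br (br c5))))))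
  (Ok.lf S343_372_364_512_ok (br (br (br (br (br c5))))))))
  (Ok.s3 343 (Ok.lf S314_343_364_512_ok (bl (br (br (br c5)))))
  (Ok.lf S343_372_364_512_ok (bl c5))))
  (Ok.lf S314_372_364_512_ok (bl (br (br c3)))))
  (Ok.lf S314_372_364_512_ok (br (br (br (br (br (br c3))))))))))

end Vale.Agent.P098.Ck
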