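import Vale.Agent.P098.CkGd
import Vale.Agent.P098.CkOk
import Vale.Agent.P098.Sh.A48
import Vale.Agent.P098.Sh.A49
import Vale.Agent.P098.Sh.A50
import Vale.Agent.P098.Sh.A52
import Vale.Agent.P098.Sh.A54
import Vale.Agent.P098.Sh.A56

namespace Vale.Agent.P098.Ck

theorem r144 :
    Ok Gd mult 0 128 192 224 384 448 314 372 512 660 ∧
    Ok Gd mult 0 128 224 256 384 448 314 372 512 660 ∧
    Ok Gd mult 0 128 192 256 448 512 314 372 512 660 ∧
    Ok Gd mult 0 128 192 256 384 512 314 372 660 808 ∧
    Ok Gd mult 0 64 192 208 384 448 372 430 216 364 :=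
  have c0 : (band (go 16 Gd mult S314_343_512_660 (Tr.lf 4304684168 99716293 1715784774471914013625155584) 0 128 192 224 384 448)
  (band (go 16 Gd mult S314_343_660_808 (Tr.lf 8598602788 95120071 1706098370712064646340149248) 0 128 192 224 384 448)
  (go 16 Gd mult S314_343_512_660 (Tr.sp 1 224 (Tr.lf 9716772 104045637 12222230631151987575568999756) Tr.skip) 0 128 192 256 448 512))) = true := by decide +kernel
  have c1 : (go 16 Gd mult S343_372_512_660 (Tr.lf 1344584 104172740 881995410328138076531982336) 0 64 192 208 384 416) = true := by decide +kernel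
  have c2 : (band (go 16 Gd mult S314_372_512_660 (Tr.sp 0 64 Tr.skip (Tr.sp 2 416 (Tr.sp 1 240 (Tr.lf 9137587268 103644231 6858626212630485822867505152) Tr.skip) Tr.skip)) 0 128 224 256 384 448)
  (band (go 16 Gd mult S343_372_660_808 (Tr.lf 9137439250 103779271 7130661103801987602640273408) 64 128 224 240 384 416)
  (band (go 16 Gd mult S314_343_660_808 (Tr.lf 4304552210 108235845 7246646980980281619253297199) 64 128 224 240 384 416)
  (band (go 16 Gd mult S314_343_660_808 (Tr.lf 4304552484 99584966 11361479744016731264229772815) 0 128 192 224 448 480)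
  (band (go 16 Gd mult S343_372_660_808 (Tr.sp 0 64 Tr.skip (Tr.lf 10633762 108239814 12181123960980228736744560426)) 0 128 192 224 448 480)
  (band (go 16 Gd mult S343_372_512_660 (Tr.sp 1 224 (Tr.sp 2 480 (Tr.sp 0 64 Tr.skip (Tr.lf 10625570 112561094 11801530513728594872043640057)) Tr.skip) Tr.skip) 0 128 192 256 448 512)
  (band (go 16 Gd mult S343_372_512_660 (Tr.lf 615653666 108239688 9091112222487311439643220131) 0 64 192 224 416 448)
  (go 16 Gd mult S343_372_512_660 (Tr.lf 614605074 104176710 7363564382206452258090059091) 0 64 208 224 384 416)))))))) = true := by decide +kernel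
  have c3 : (band (go 16 Gd mult S343_372_660_808 (Tr.lf 10765380 112430150 999631090504333769368928256) 0 64 192 208 384 448)
  (band (go 16 Gd mult S343_372_660_808 (Tr.lf 9137570882 103644231 487584339356290868314112) 64 128 192 224 384 448)
  (go 16 Gd mult S343_372_512_660 (Tr.lf 4842472514 103787590 18589761688675796094287872) 64 128 192 224 384 448))) = true := by decide +kernel
  have c4 : (band (go 16 Gd mult S372_430_216_364 (Tr.lf 539132484 99847110 703821777308054978210758656) 0 64 192 208 384 400)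
  (go 16 Gd mult S372_430_216_364 (Tr.lf 539132194 99716038 885694665044440044103598080) 0 64 192 208 400 416)) = true := by decide +kernel
  have c5 : (band (go 16 Gd mult S401_430_216_364 (Tr.lf 1229079074 87268297 6674470928366245142238529867) 0 64 192 208 416 448)
  (go 16 Gd mult S372_401_216_364 (Tr.lf 1152524562 95517640 7908789927222794927513995906) 0 64 192 208 416 448)) = true := by decide +kernel
  have c6 : (go 16 Gd mult S343_372_660_808 (Tr.sp 2 416 (Tr.lf 1188114 112299204 7664587243367073699500787182) Tr.skip) 0 64 208 224 384 448) = true := by decide +kernel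
  (And.intro (Ok.s3 343 (Ok.lf S314_343_512_660_ok (bl c0))
  (Ok.s0 64 (Ok.s2 416 (Ok.s1 208 (Ok.lf S343_372_512_660_ok c1)
  (Ok.lf S343_372_512_660_ok (br (br (br (br (br (br (br c2)))))))))
  (Ok.lf S343_372_512_660_ok (bl (br (br (br (br (br (br c2)))))))))
  (Ok.lf S343_372_512_660_ok (br (br c3)))))
  (And.intro (Ok.lf S314_372_512_660_ok (bl c2))
  (And.intro (Ok.s3 343 (Ok.lf S314_343_512_660_ok (br (br c0)))
  (Ok.lf S343_372_512_660_ok (bl (br (br (br (br (br c2))))))))
  (And.intro (Ok.s2 448 (Ok.s1 224 (Ok.s3 343 (Ok.lf S314_343_660_808_ok (bl (br c0)))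
  (Ok.s0 64 (Ok.s1 208 (Ok.lf S343_372_660_808_ok (bl c3))
  (Ok.lf S343_372_660_808_ok c6))
  (Ok.lf S343_372_660_808_ok (bl (br c3)))))
  (Ok.s0 64 (Ok.out rfl)
  (Ok.s2 416 (Ok.s1 240 (Ok.s3 343 (Ok.lf S314_343_660_808_ok (bl (br (br c2))))
  (Ok.lf S343_372_660_808_ok (bl (br c2))))
  (Ok.out rfl))
  (Ok.out rfl))))
  (Ok.s1 224 (Ok.s2 480 (Ok.s3 343 (Ok.lf S314_343_660_808_ok (bl (br (br (br c2)))))
  (Ok.lf S343_372_660_808_ok (bl (br (br (br (br c2)))))))
  (Ok.out rfl))
  (Ok.out rfl)))
  (Ok.s2 416 (Ok.s2 400 (Ok.lf S372_430_216_364_ok (bl c4))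
  (Ok.lf S372_430_216_364_ok (br c4)))
  (Ok.s3 401 (Ok.lf S372_401_216_364_ok (br c5))
  (Ok.lf S401_430_216_364_ok (bl c5))))))))

end Vale.Agent.P098.Ck
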