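import Vale.Agent.P098.CkGd
import Vale.Agent.P098.CkOk
import Vale.Agent.P098.Sh.A53
import Vale.Agent.P098.Sh.A54
import Vale.Agent.P098.Sh.A55
import Vale.Agent.P098.Sh.A56

namespace Vale.Agent.P098.Ck

theorem r145 :
    Ok Gd mult 0 64 208 224 384 448 372 430 216 364 ∧
    Ok Gd mult 64 128 192 256 384 448 372 430 216 364 ∧
    Ok Gd mult 0 128 192 256 448 512 372 430 216 364 ∧
    Ok Gd mult 0 64 192 224 384 448 372 430 364 512 :=
  have c0 : (band (go 16 Gd mult S372_401_216_364 (Tr.lf 4842472002 108104774 696815869929554803974733824) 64 128 192 224 416 448)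
  (band (go 16 Gd mult S401_430_216_364 (Tr.lf 9675358786 103517128 876756737925379028104970240) 64 128 192 224 416 448)
  (band (go 16 Gd mult S372_401_216_364 (Tr.sp 2 480 (Tr.sp 2 464 (Tr.lf 615661890 99723976 9444126049627851539273810655) Tr.skip) Tr.skip) 64 128 192 224 448 512)
  (go 16 Gd mult S401_430_216_364 (Tr.sp 2 480 (Tr.sp 0 96 Tr.skip (Tr.lf 5380391489 95390791 7425978479219145598148870144)) Tr.skip) 64 128 192 224 448 512)))) = true := by decide +kernel
  have c1 : (band (go 16 Gd mult S372_430_216_364 (Tr.lf 9129067041 99576775 848715879152515131153121280) 96 128 224 240 384 416)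
  (band (go 16 Gd mult S372_430_216_364 (Tr.sp 2 416 (Tr.lf 539132193 99716038 601745519937817635897278464) Tr.skip) 32 64 208 224 384 448)
  (go 16 Gd mult S372_430_216_364 (Tr.lf 4834099489 99847110 3779497665648503354046808064) 64 96 224 240 384 416))) = true := by decide +kernel
  have c2 : (go 16 Gd mult S372_430_364_512 (Tr.lf 539132434 99716038 959882342033937969426859813) 0 32 200 208 384 416) = true := by decide +kernel
  have c3 : (band (go 16 Gd mult S401_430_216_364 (Tr.lf 9128985154 91180103 59294273374813883379548160) 64 128 192 224 384 416)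
  (go 16 Gd mult S372_401_216_364 (Tr.lf 4842463810 103914566 40032293885296686887010304) 64 128 192 224 384 416)) = true := by decide +kernel
  have c4 : (go 16 Gd mult S372_430_364_512 (Tr.lf 539066898 103910342 601806707787909924330995712) 0 32 192 200 384 416) = true := by decide +kernel
  have c5 : (band (go 16 Gd mult S401_430_364_512 (Tr.lf 540099137 95648456 339253590644247113052782592) 32 64 192 224 384 416)
  (go 16 Gd mult S372_401_364_512 (Tr.lf 4842471713 104041542 416812169785651235004416000) 32 64 192 224 384 416)) = true := by decide +kernel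
  have c6 : (band (go 16 Gd mult S372_401_216_364 (Tr.lf 615588369 108112584 6438736464154179541046271944) 0 32 208 224 384 448)
  (go 16 Gd mult S401_430_216_364 (Tr.lf 1227956753 91331783 5582763820113595489164270766) 0 32 208 224 384 448)) = true := by decide +kernel
  have c7 : (band (go 16 Gd mult S386_401_364_512 (Tr.lf 1152459026 91192519 7888236749636966423025749316) 0 64 192 208 416 448)
  (go 16 Gd mult S372_386_364_512 (Tr.lf 615584017 103918280 8412911994081190968726326159) 0 64 192 208 416 448)) = true := by decide +kernel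
  have c8 : (band (go 16 Gd mult S372_401_364_512 (Tr.lf 615588113 99855048 6470156065293745397322489239) 0 32 208 224 384 416)
  (band (go 16 Gd mult S401_430_364_512 (Tr.lf 1152459025 91327559 5823348451308691868601489978) 0 32 208 224 384 416)
  (band (go 16 Gd mult S401_430_364_512 (Tr.lf 1152459025 95648839 7338115181308429782611596160) 0 32 192 208 416 448)
  (go 16 Gd mult S401_430_364_512 (Tr.lf 539042065 99716165 615334387926556076743262865) 32 64 192 208 416 448)))) = true := by decide +kernel
  (And.intro (Ok.s0 32 (Ok.s3 401 (Ok.lf S372_401_216_364_ok (bl c6))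
  (Ok.lf S401_430_216_364_ok (br c6)))
  (Ok.lf S372_430_216_364_ok (bl (br c1))))
  (And.intro (Ok.s1 224 (Ok.s3 401 (Ok.s2 416 (Ok.lf S372_401_216_364_ok (br c3))
  (Ok.lf S372_401_216_364_ok (bl c0)))
  (Ok.s2 416 (Ok.lf S401_430_216_364_ok (bl c3))
  (Ok.lf S401_430_216_364_ok (bl (br c0)))))
  (Ok.s2 416 (Ok.s1 240 (Ok.s0 96 (Ok.lf S372_430_216_364_ok (br (br c1)))
  (Ok.lf S372_430_216_364_ok (bl c1)))
  (Ok.out rfl))
  (Ok.out rfl)))
  (And.intro (Ok.s1 224 (Ok.s0 64 (Ok.out rfl)
  (Ok.s3 401 (Ok.lf S372_401_216_364_ok (bl (br (br c0))))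
  (Ok.lf S401_430_216_364_ok (br (br (br c0))))))
  (Ok.out rfl))
  (Ok.s2 416 (Ok.s0 32 (Ok.s1 208 (Ok.s1 200 (Ok.lf S372_430_364_512_ok c4)
  (Ok.lf S372_430_364_512_ok c2))
  (Ok.s3 401 (Ok.lf S372_401_364_512_ok (bl c8))
  (Ok.lf S401_430_364_512_ok (bl (br c8)))))
  (Ok.s3 401 (Ok.lf S372_401_364_512_ok (br c5))
  (Ok.lf S401_430_364_512_ok (bl c5))))
  (Ok.s1 208 (Ok.s3 401 (Ok.s3 386 (Ok.lf S372_386_364_512_ok (br c7))
  (Ok.lf S386_401_364_512_ok (bl c7)))
  (Ok.s0 32 (Ok.lf S401_430_364_512_ok (bl (br (br c8))))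
  (Ok.lf S401_430_364_512_ok (br (br (br c8))))))
  (Ok.out rfl))))))

end Vale.Agent.P098.Ck
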