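import Vale.Agent.P098.CkGd
import Vale.Agent.P098.CkOk
import Vale.Agent.P098.Sh.A53
import Vale.Agent.P098.Sh.A54
import Vale.Agent.P098.Sh.A55
import Vale.Agent.P098.Sh.A56
import Vale.Agent.P098.Sh.A57

namespace Vale.Agent.P098.Ck

theorem r146 :
    Ok Gd mult 64 128 192 224 384 448 372 430 364 512 ∧
    Ok Gd mult 0 128 224 256 384 448 372 430 364 512 ∧
    Ok Gd mult 0 128 192 256 448 512 372 430 364 512 ∧
    Ok Gd mult 0 64 192 224 384 448 372 430 512 660 ∧
    Ok Gd mult 64 128 192 224 384 416 372 430 512 660 :=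
  have c0 : (band (go 16 Gd mult S372_430_364_512 (Tr.lf 9130116164 95247432 59300010304010710778970112) 64 128 192 224 384 416)
  (band (go 16 Gd mult S372_401_512_660 (Tr.lf 9138487876 95255624 32834429687963743007080448) 64 128 192 224 384 416)
  (band (go 16 Gd mult S401_430_512_660 (Tr.lf 9675293252 99318856 58135301338127134274420736) 64 128 192 224 384 416)
  (band (go 16 Gd mult S372_430_364_512 (Tr.lf 9130115650 99576776 847555689630649397570174976) 96 128 224 240 384 416)
  (band (go 16 Gd mult S372_430_364_512 (Tr.sp 1 224 (Tr.sp 0 64 Tr.skip (Tr.sp 2 480 (Tr.sp 0 96 Tr.skip (Tr.sp 2 464 (Tr.lf 5380407874 99449800 7477738844051609808860610560) Tr.skip)) Tr.skip)) Tr.skip) 0 128 192 256 448 512)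
  (band (go 16 Gd mult S372_430_364_512 (Tr.lf 9129067042 99445703 3818365139879250116399136768) 64 96 224 240 384 416)
  (go 16 Gd mult S372_401_512_660 (Tr.lf 539116052 99839046 966822928971777766449807360) 0 64 200 208 384 416))))))) = true := by decide +kernel
  have c1 : (band (go 16 Gd mult S401_430_364_512 (Tr.lf 9675375684 103517128 872018064520748223646466048) 64 128 192 224 416 448)
  (go 16 Gd mult S372_401_364_512 (Tr.lf 4843521092 108104520 679976021732109707762466816) 64 128 192 224 416 448)) = true := by decide +kernel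
  have c2 : (go 16 Gd mult S372_430_512_660 (Tr.lf 539132452 104033350 653104336045284134498598912) 0 64 192 200 384 416) = true := by decide +kernel
  have c3 : (band (go 16 Gd mult S401_430_512_660 (Tr.lf 540099106 95517639 545217907694151907758047261) 32 64 208 224 384 416)
  (band (go 16 Gd mult S372_401_512_660 (Tr.lf 539050273 99716038 618967234497337925968462936) 32 64 208 224 384 416)
  (band (go 16 Gd mult S401_430_512_660 (Tr.lf 540099090 91454407 630635021171891831836573696) 0 64 200 208 384 416)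
  (go 16 Gd mult S401_430_512_660 (Tr.lf 540099089 103910215 626218815608344961024001094) 32 64 192 208 416 448)))) = true := by decide +kernel
  have c4 : (band (go 16 Gd mult S386_401_512_660 (Tr.lf 1152459282 91192519 8130017615653455175629606869) 0 64 192 208 416 448)
  (go 16 Gd mult S372_386_512_660 (Tr.lf 615584017 103918280 8647442164417161262658555425) 0 64 192 208 416 448)) = true := by decide +kernel
  have c5 : (band (go 16 Gd mult S372_401_512_660 (Tr.lf 615588113 104049352 6517306828823771746818990293) 0 32 208 224 384 416)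
  (band (go 16 Gd mult S401_430_512_660 (Tr.lf 1152459025 91327559 6027667614142014009234758937) 0 32 208 224 384 416)
  (go 16 Gd mult S401_430_512_660 (Tr.lf 1152459025 91454535 7646438913421804892374308322) 0 32 192 208 416 448))) = true := by decide +kernel
  (And.intro (Ok.s2 416 (Ok.lf S372_430_364_512_ok (bl c0))
  (Ok.s3 401 (Ok.lf S372_401_364_512_ok (br c1))
  (Ok.lf S401_430_364_512_ok (bl c1))))
  (And.intro (Ok.s0 64 (Ok.out rfl)
  (Ok.s2 416 (Ok.s1 240 (Ok.s0 96 (Ok.lf S372_430_364_512_ok (bl (br (br (br (br (br c0)))))))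
  (Ok.lf S372_430_364_512_ok (bl (br (br (br c0))))))
  (Ok.out rfl))
  (Ok.out rfl)))
  (And.intro (Ok.lf S372_430_364_512_ok (bl (br (br (br (br c0))))))
  (And.intro (Ok.s2 416 (Ok.s1 208 (Ok.s1 200 (Ok.lf S372_430_512_660_ok c2)
  (Ok.s3 401 (Ok.lf S372_401_512_660_ok (br (br (br (br (br (br c0)))))))
  (Ok.lf S401_430_512_660_ok (bl (br (br c3))))))
  (Ok.s0 32 (Ok.s3 401 (Ok.lf S372_401_512_660_ok (bl c5))
  (Ok.lf S401_430_512_660_ok (bl (br c5))))
  (Ok.s3 401 (Ok.lf S372_401_512_660_ok (bl (br c3)))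
  (Ok.lf S401_430_512_660_ok (bl c3)))))
  (Ok.s1 208 (Ok.s3 401 (Ok.s3 386 (Ok.lf S372_386_512_660_ok (br c4))
  (Ok.lf S386_401_512_660_ok (bl c4)))
  (Ok.s0 32 (Ok.lf S401_430_512_660_ok (br (br c5)))
  (Ok.lf S401_430_512_660_ok (br (br (br c3))))))
  (Ok.out rfl)))
  (Ok.s3 401 (Ok.lf S372_401_512_660_ok (bl (br c0)))
  (Ok.lf S401_430_512_660_ok (bl (br (br c0)))))))))

end Vale.Agent.P098.Ck
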