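import Vale.Agent.P098.CkGd
import Vale.Agent.P098.CkOk
import Vale.Agent.P098.Sh.A53
import Vale.Agent.P098.Sh.A54
import Vale.Agent.P098.Sh.A55
import Vale.Agent.P098.Sh.A56
import Vale.Agent.P098.Sh.A57

namespace Vale.Agent.P098.Ck

theorem r147 :
    Ok Gd mult 64 128 192 224 416 448 372 430 512 660 ∧
    Ok Gd mult 0 128 224 256 384 448 372 430 512 660 ∧
    Ok Gd mult 0 128 192 256 448 512 372 430 512 660 ∧
    Ok Gd mult 0 64 192 224 384 448 372 430 660 808 ∧
    Ok Gd mult 64 128 192 224 384 416 372 430 660 808 :=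
  have c0 : (go 16 Gd mult S372_430_512_660 (Tr.lf 548702276 99592904 5263650419563150450401607990) 64 96 208 224 416 448) = true := by decide +kernel
  have c1 : (band (go 16 Gd mult S401_430_660_808 (Tr.lf 5373068418 94989257 374424134448717908479246336) 32 64 192 224 384 416)
  (go 16 Gd mult S372_401_660_808 (Tr.lf 548700738 103652168 445941626280141026414624768) 32 64 192 224 384 416)) = true := by decide +kernel
  have c2 : (band (go 16 Gd mult S372_430_512_660 (Tr.lf 9130116162 99445704 3904388505600966521991987200) 64 96 224 240 384 416)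
  (band (go 16 Gd mult S372_430_512_660 (Tr.sp 1 224 (Tr.sp 2 480 (Tr.sp 0 64 Tr.skip (Tr.sp 1 208 (Tr.sp 2 464 (Tr.sp 0 96 Tr.skip (Tr.lf 5380407874 99449800 7591262376030739455782223872)) Tr.skip) Tr.skip)) Tr.skip) Tr.skip) 0 128 192 256 448 512)
  (go 16 Gd mult S372_430_512_660 (Tr.lf 4834099745 103902278 457387388242524469531181056) 64 96 192 208 416 448))) = true := by decide +kernel
  have c3 : (band (go 16 Gd mult S372_401_660_808 (Tr.lf 9138618948 99449928 29220638745098684400140288) 64 128 192 224 384 416)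
  (band (go 16 Gd mult S401_430_660_808 (Tr.lf 9675358788 103521224 56941372721401270838820864) 64 128 192 224 384 416)
  (band (go 16 Gd mult S401_430_660_808 (Tr.lf 540164644 103910215 7172546613977476780250631791) 0 64 192 208 416 448)
  (band (go 16 Gd mult S386_401_660_808 (Tr.lf 1152459282 91192519 8285968161019384224660066542) 0 64 192 208 416 448)
  (go 16 Gd mult S372_386_660_808 (Tr.lf 615584017 103918280 8838447813857557988641476392) 0 64 192 208 416 448))))) = true := by decide +kernel
  have c4 : (band (go 16 Gd mult S372_430_660_808 (Tr.lf 539132962 99716038 1002193860405077331004819710) 0 32 200 208 384 416)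
  (go 16 Gd mult S372_430_660_808 (Tr.lf 539132450 103902278 593440057886350348532908032) 0 32 192 200 384 416)) = true := by decide +kernel
  have c5 : (band (go 16 Gd mult S372_401_512_660 (Tr.lf 9675358786 107834440 448958093197796005772066816) 96 128 192 224 416 448)
  (band (go 16 Gd mult S401_430_512_660 (Tr.lf 9675358786 103517128 753478383212631033194020864) 96 128 192 224 416 448)
  (band (go 16 Gd mult S372_401_512_660 (Tr.lf 9138487842 99584968 782388950628431959414538240) 96 128 224 240 384 416)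
  (go 16 Gd mult S401_430_512_660 (Tr.lf 9675358754 99326920 843986705829151216395878400) 96 128 224 240 384 416)))) = true := by decide +kernel
  have c6 : (band (go 16 Gd mult S372_401_660_808 (Tr.lf 615588113 104041288 6586199717995927600584663612) 0 32 208 224 384 416)
  (go 16 Gd mult S401_430_660_808 (Tr.lf 1152459025 87133255 6107490457437608034968018500) 0 32 208 224 384 416)) = true := by decide +kernel
  (And.intro (Ok.s0 96 (Ok.s1 208 (Ok.lf S372_430_512_660_ok (br (br c2)))
  (Ok.lf S372_430_512_660_ok c0))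
  (Ok.s3 401 (Ok.lf S372_401_512_660_ok (bl c5))
  (Ok.lf S401_430_512_660_ok (bl (br c5)))))
  (And.intro (Ok.s0 64 (Ok.out rfl)
  (Ok.s2 416 (Ok.s1 240 (Ok.s0 96 (Ok.lf S372_430_512_660_ok (bl c2))
  (Ok.s3 401 (Ok.lf S372_401_512_660_ok (bl (br (br c5))))
  (Ok.lf S401_430_512_660_ok (br (br (br c5))))))
  (Ok.out rfl))
  (Ok.out rfl)))
  (And.intro (Ok.lf S372_430_512_660_ok (bl (br c2)))
  (And.intro (Ok.s2 416 (Ok.s0 32 (Ok.s1 208 (Ok.s1 200 (Ok.lf S372_430_660_808_ok (br c4))
  (Ok.lf S372_430_660_808_ok (bl c4)))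
  (Ok.s3 401 (Ok.lf S372_401_660_808_ok (bl c6))
  (Ok.lf S401_430_660_808_ok (br c6))))
  (Ok.s3 401 (Ok.lf S372_401_660_808_ok (br c1))
  (Ok.lf S401_430_660_808_ok (bl c1))))
  (Ok.s1 208 (Ok.s3 401 (Ok.s3 386 (Ok.lf S372_386_660_808_ok (br (br (br (br c3)))))
  (Ok.lf S386_401_660_808_ok (bl (br (br (br c3))))))
  (Ok.lf S401_430_660_808_ok (bl (br (br c3)))))
  (Ok.out rfl)))
  (Ok.s3 401 (Ok.lf S372_401_660_808_ok (bl c3))
  (Ok.lf S401_430_660_808_ok (bl (br c3))))))))

end Vale.Agent.P098.Ck
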