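import Vale.Agent.P098.CkGd
import Vale.Agent.P098.CkOk
import Vale.Agent.P098.Sh.A0
import Vale.Agent.P098.Sh.A59

namespace Vale.Agent.P098.Ck

theorem r149 :
    Ok Gd mult 0 64 192 256 384 448 430 488 512 660 ∧
    Ok Gd mult 64 128 192 256 384 448 430 488 512 660 ∧
    Ok Gd mult 0 128 192 256 448 512 430 488 512 660 ∧
    Ok Gd mult 0 128 192 256 384 512 430 488 660 808 ∧
    Ok Gd mult 0 128 256 320 0 128 24 82 216 512 :=
  have c0 : (band (go 16 Gd mult S430_488_512_660 (Tr.lf 9675310148 99322824 1037524226151686207665340416) 64 128 192 224 416 448)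
  (band (go 16 Gd mult S430_488_512_660 (Tr.sp 1 240 (Tr.sp 2 416 (Tr.lf 5371954212 91188168 2570310843051976465488740352) Tr.skip) Tr.skip) 64 128 224 256 384 448)
  (band (go 16 Gd mult S430_488_660_808 (Tr.sp 1 240 (Tr.sp 2 416 (Tr.lf 9666986564 99576776 2570322427607534456249450496) Tr.skip) Tr.skip) 64 128 224 256 384 448)
  (band (go 16 Gd mult S430_488_660_808 (Tr.lf 539132994 91196358 307466142809686074269171712) 64 96 192 224 384 448)
  (band (go 16 Gd mult S430_488_660_808 (Tr.lf 9675375682 95390664 282997477588020887560388608) 96 128 192 224 384 448)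
  (go 16 Gd mult S430_488_660_808 (Tr.sp 1 224 (Tr.sp 0 64 Tr.skip (Tr.sp 1 208 (Tr.sp 2 480 (Tr.lf 9675375652 103513032 5849554207644601080195579904) Tr.skip) Tr.skip)) Tr.skip) 0 128 192 256 448 512)))))) = true := by decide +kernel
  have c1 : (go 16 Gd mult S430_488_512_660 (Tr.lf 1229095970 87137225 374762780590461032100531010) 0 32 192 208 384 448) = true := by decide +kernel
  have c2 : (go 16 Gd mult S430_488_660_808 (Tr.sp 1 208 (Tr.lf 1161986596 99593033 5293869267760127868820720712) Tr.skip) 0 64 192 224 416 448) = true := by decide +kernel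
  have c3 : (band (go 16 Gd mult S430_488_512_660 (Tr.lf 9130050114 95251400 77441719017697837681672192) 64 128 192 224 384 416)
  (band (go 16 Gd mult S430_488_512_660 (Tr.lf 540115521 91331399 147026877500683740213936128) 32 64 192 224 384 416)
  (band (go 16 Gd mult S430_488_660_808 (Tr.lf 540115522 99588935 151889144090887971004284928) 32 64 192 224 384 416)
  (band (go 16 Gd mult S430_488_512_660 (Tr.lf 615612993 104049479 1042090183418616159221844502) 32 64 192 224 416 448)
  (go 16 Gd mult S430_488_512_660 (Tr.sp 1 224 (Tr.sp 0 64 Tr.skip (Tr.sp 0 96 Tr.skip (Tr.sp 2 480 (Tr.lf 5380342337 99454023 5660559345616006881365262336) Tr.skip))) Tr.skip) 0 128 192 256 448 512))))) = true := by decide +kernel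
  have c4 : (band (go 16 Gd mult S24_82_216_364 (Tr.lf 9127937060 99716037 1329818401576092092176793600) 0 128 256 288 0 128)
  (band (go 16 Gd mult S24_82_364_512 (Tr.lf 8591066148 108108868 1322564846658404317128556544) 0 128 256 288 0 128)
  (band (go 16 Gd mult S24_82_216_364 (Tr.sp 0 64 Tr.skip (Tr.lf 8591066178 104045636 1696161294146998047980126208)) 0 128 288 320 0 128)
  (go 16 Gd mult S24_82_364_512 (Tr.sp 0 64 Tr.skip (Tr.lf 8591066178 104045636 1697369685019197438458396701)) 0 128 288 320 0 128)))) = true := by decide +kernel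
  have c5 : (go 16 Gd mult S430_488_512_660 (Tr.lf 1227964945 95661127 4188902676725044453740191533) 0 32 208 224 384 448) = true := by decide +kernel
  have c6 : (band (go 16 Gd mult S430_488_660_808 (Tr.lf 539050273 99585093 193425345979755816849769482) 0 32 192 208 384 416)
  (go 16 Gd mult S430_488_660_808 (Tr.lf 1152467217 91454535 4229988851290142696715328416) 0 32 208 224 384 416)) = true := by decide +kernel
  (And.intro (Ok.s1 224 (Ok.s0 32 (Ok.s1 208 (Ok.lf S430_488_512_660_ok c1)
  (Ok.lf S430_488_512_660_ok c5))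
  (Ok.s2 416 (Ok.lf S430_488_512_660_ok (bl (br c3)))
  (Ok.lf S430_488_512_660_ok (bl (br (br (br c3)))))))
  (Ok.out rfl))
  (And.intro (Ok.s1 224 (Ok.s2 416 (Ok.lf S430_488_512_660_ok (bl c3))
  (Ok.lf S430_488_512_660_ok (bl c0)))
  (Ok.lf S430_488_512_660_ok (bl (br c0))))
  (And.intro (Ok.lf S430_488_512_660_ok (br (br (br (br c3)))))
  (And.intro (Ok.s2 448 (Ok.s0 64 (Ok.s1 224 (Ok.s2 416 (Ok.s0 32 (Ok.s1 208 (Ok.lf S430_488_660_808_ok (bl c6))
  (Ok.lf S430_488_660_808_ok (br c6)))
  (Ok.lf S430_488_660_808_ok (bl (br (br c3)))))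
  (Ok.lf S430_488_660_808_ok c2))
  (Ok.out rfl))
  (Ok.s1 224 (Ok.s0 96 (Ok.lf S430_488_660_808_ok (bl (br (br (br c0)))))
  (Ok.lf S430_488_660_808_ok (bl (br (br (br (br c0)))))))
  (Ok.lf S430_488_660_808_ok (bl (br (br c0))))))
  (Ok.lf S430_488_660_808_ok (br (br (br (br (br c0)))))))
  (Ok.s4 364 (Ok.s1 288 (Ok.lf S24_82_216_364_ok (bl c4))
  (Ok.lf S24_82_216_364_ok (bl (br (br c4)))))
  (Ok.s1 288 (Ok.lf S24_82_364_512_ok (bl (br c4)))
  (Ok.lf S24_82_364_512_ok (br (br (br c4))))))))))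

end Vale.Agent.P098.Ck
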