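import Vale.Agent.P098.CkGd
import Vale.Agent.P098.CkOk
import Vale.Agent.P098.Sh.A10
import Vale.Agent.P098.Sh.A11
import Vale.Agent.P098.Sh.A19
import Vale.Agent.P098.Sh.A23
import Vale.Agent.P098.Sh.A25
import Vale.Agent.P098.Sh.A28
import Vale.Agent.P098.Sh.A30
import Vale.Agent.P098.Sh.A36

namespace Vale.Agent.P098.Ck

theorem r15 :
    Ok Gd mult 0 128 0 64 480 512 169 198 512 660 ∧
    Ok Gd mult 0 128 0 64 384 512 140 198 660 808 ∧
    Ok Gd mult 0 128 0 64 384 448 198 256 216 364 ∧
    Ok Gd mult 0 128 0 64 448 512 198 227 216 364 ∧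
    Ok Gd mult 0 128 0 64 448 480 227 256 216 364 :=
  have c0 : (go 16 Gd mult S169_198_660_808 (Tr.lf 9145190530 99187400 163438160655840951926784) 64 128 0 64 480 512) = true := by decide +kernel
  have c1 : (band (go 16 Gd mult S169_198_512_660 (Tr.lf 9145976962 99056839 359711509441158777405440) 64 128 0 32 480 512)
  (go 16 Gd mult S169_198_512_660 (Tr.lf 9145976900 99195975 163106111100276726300672) 64 128 32 64 480 512)) = true := by decide +kernel
  have c2 : (band (go 16 Gd mult S169_198_660_808 (Tr.lf 4841833602 103775174 395239938527741849108480) 0 64 0 64 480 512)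
  (go 16 Gd mult S169_198_512_660 (Tr.lf 4851008642 103652550 462478320764739167191040) 0 64 0 64 480 512)) = true := by decide +kernel
  have c3 : (band (go 16 Gd mult S140_198_660_808 (Tr.lf 4841571460 103508807 0) 0 128 0 64 448 480)
  (band (go 16 Gd mult S198_227_216_364 (Tr.lf 4304675394 95247175 0) 0 128 0 64 448 480)
  (band (go 16 Gd mult S227_256_216_364 (Tr.lf 75768386 99855300 0) 0 128 0 64 448 480)
  (go 16 Gd mult S140_198_660_808 (Tr.lf 1160020610 95521863 0) 0 128 0 64 384 448)))) = true := by decide +kernel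
  have c4 : (band (go 16 Gd mult S212_227_216_364 (Tr.lf 8598864968 86735558 0) 0 128 0 16 504 512)
  (band (go 16 Gd mult S212_227_216_364 (Tr.lf 8598864452 90929862 411454670193378669035819) 0 128 16 32 504 512)
  (go 16 Gd mult S212_227_216_364 (Tr.lf 4303897156 103783364 205017113635207956660224) 0 128 32 64 504 512))) = true := by decide +kernel
  have c5 : (band (go 16 Gd mult S198_212_216_364 (Tr.lf 4304945796 95518020 385758312070286021754880) 0 128 0 32 504 512)
  (go 16 Gd mult S198_212_216_364 (Tr.lf 9136783944 99441734 157037132299489412907008) 0 128 32 64 504 512)) = true := by decide +kernel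
  have c6 : (band (go 16 Gd mult S140_169_660_808 (Tr.lf 4842603652 103644358 315273302978432965017600) 0 128 0 32 480 512)
  (go 16 Gd mult S140_169_660_808 (Tr.lf 5379474500 99445831 124718436696807138394112) 0 128 32 64 480 512)) = true := by decide +kernel
  have c7 : (go 16 Gd mult S198_256_216_364 (Tr.lf 690259010 108105030 0) 0 128 0 64 384 448) = true := by decide +kernel
  have c8 : (band (go 16 Gd mult S198_227_216_364 (Tr.lf 4841554564 107707334 0) 0 128 0 64 480 496)
  (go 16 Gd mult S198_227_216_364 (Tr.lf 278850 103910467 0) 0 128 0 32 496 504)) = true := by decide +kernel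
  have c9 : (go 16 Gd mult S198_227_216_364 (Tr.lf 4304699972 95390789 0) 0 128 32 64 496 504) = true := by decide +kernel
  (And.intro (Ok.s0 64 (Ok.lf S169_198_512_660_ok (br c2))
  (Ok.s1 32 (Ok.lf S169_198_512_660_ok (bl c1))
  (Ok.lf S169_198_512_660_ok (br c1))))
  (And.intro (Ok.s2 448 (Ok.lf S140_198_660_808_ok (br (br (br c3))))
  (Ok.s2 480 (Ok.lf S140_198_660_808_ok (bl c3))
  (Ok.s3 169 (Ok.s1 32 (Ok.lf S140_169_660_808_ok (bl c6))
  (Ok.lf S140_169_660_808_ok (br c6)))
  (Ok.s0 64 (Ok.lf S169_198_660_808_ok (bl c2))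
  (Ok.lf S169_198_660_808_ok c0)))))
  (And.intro (Ok.lf S198_256_216_364_ok c7)
  (And.intro (Ok.s2 480 (Ok.lf S198_227_216_364_ok (bl (br c3)))
  (Ok.s2 496 (Ok.lf S198_227_216_364_ok (bl c8))
  (Ok.s2 504 (Ok.s1 32 (Ok.lf S198_227_216_364_ok (br c8))
  (Ok.lf S198_227_216_364_ok c9))
  (Ok.s1 32 (Ok.s3 212 (Ok.lf S198_212_216_364_ok (bl c5))
  (Ok.s1 16 (Ok.lf S212_227_216_364_ok (bl c4))
  (Ok.lf S212_227_216_364_ok (bl (br c4)))))
  (Ok.s3 212 (Ok.lf S198_212_216_364_ok (br c5))
  (Ok.lf S212_227_216_364_ok (br (br c4))))))))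
  (Ok.lf S227_256_216_364_ok (bl (br (br c3))))))))

end Vale.Agent.P098.Ck
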