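import Vale.Agent.P098.CkGd
import Vale.Agent.P098.CkOk
import Vale.Agent.P098.Sh.A11
import Vale.Agent.P098.Sh.A17
import Vale.Agent.P098.Sh.A18
import Vale.Agent.P098.Sh.A8
import Vale.Agent.P098.Sh.A9

namespace Vale.Agent.P098.Ck

theorem r151 :
    Ok Gd mult 0 64 256 288 0 128 140 198 216 364 ∧
    Ok Gd mult 64 128 256 288 0 128 140 198 216 364 ∧
    Ok Gd mult 0 128 288 320 0 128 140 198 216 364 ∧
    Ok Gd mult 0 128 256 320 0 128 140 198 364 512 :=
  have c0 : (go 16 Gd mult S169_198_216_364 (Tr.lf 17189865540 104037319 303440380723271922851250176) 64 128 256 272 0 128) = true := by decide +kernel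
  have c1 : (band (go 16 Gd mult S140_198_216_364 (Tr.sp 0 32 Tr.skip (Tr.lf 12885198916 103779014 2218402805961288628941624676)) 0 64 272 288 0 128)
  (band (go 16 Gd mult S140_198_364_512 (Tr.sp 0 32 Tr.skip (Tr.lf 12885198882 103905990 2327182202758161161309388800)) 0 64 272 288 0 128)
  (go 16 Gd mult S140_198_364_512 (Tr.lf 12885198916 99843013 1530500087632120535178018816) 32 64 256 272 0 128))) = true := by decide +kernel
  have c2 : (band (go 16 Gd mult S169_198_364_512 (Tr.lf 12894636100 108235846 727773343408006763173117952) 64 128 256 288 0 128)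
  (go 16 Gd mult S140_169_364_512 (Tr.lf 12885051464 104172357 728982269227621392347824128) 64 128 256 288 0 128)) = true := by decide +kernel
  have c3 : (go 16 Gd mult S169_198_216_364 (Tr.lf 12894636068 108108870 1189583006500795107910877184) 64 128 272 288 0 128) = true := by decide +kernel
  have c4 : (band (go 16 Gd mult S140_169_216_364 (Tr.lf 17726473284 108104519 756787563078757863366066176) 64 128 256 288 64 128)
  (band (go 16 Gd mult S140_169_216_364 (Tr.lf 12885197860 95509318 2393673122836965765918228480) 0 32 256 272 0 128)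
  (band (go 16 Gd mult S169_198_364_512 (Tr.lf 12885181508 103770950 2353778570789683003152924672) 0 32 256 272 0 128)
  (band (go 16 Gd mult S140_169_364_512 (Tr.lf 12885181476 95509318 2380374938821204844996460544) 0 32 256 272 0 128)
  (go 16 Gd mult S169_198_216_364 (Tr.lf 12885173282 103905990 1971758011791460183945773056) 0 32 256 272 0 128))))) = true := by decide +kernel
  have c5 : (band (go 16 Gd mult S140_198_216_364 (Tr.sp 0 64 Tr.skip (Tr.sp 0 96 Tr.skip (Tr.lf 12885197890 99711814 1843625765310596994719285248))) 0 128 288 320 0 128)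
  (go 16 Gd mult S140_198_364_512 (Tr.sp 0 64 Tr.skip (Tr.sp 0 96 Tr.skip (Tr.lf 12885066818 103775046 1360053666577314248719859712))) 0 128 288 320 0 128)) = true := by decide +kernel
  have c6 : (band (go 16 Gd mult S140_169_216_364 (Tr.lf 12886230084 108108869 728982269227621392347824128) 64 128 256 288 0 64)
  (band (go 16 Gd mult S140_169_216_364 (Tr.lf 12894618658 104041669 1532917939271349793527431168) 32 64 256 272 0 128)
  (go 16 Gd mult S169_198_216_364 (Tr.lf 12885182498 107973573 1374548656901833371640922112) 32 64 256 272 0 128))) = true := by decide +kernel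
  (And.intro (Ok.s1 272 (Ok.s0 32 (Ok.s3 169 (Ok.lf S140_169_216_364_ok (bl (br c4)))
  (Ok.lf S169_198_216_364_ok (br (br (br (br c4))))))
  (Ok.s3 169 (Ok.lf S140_169_216_364_ok (bl (br c6)))
  (Ok.lf S169_198_216_364_ok (br (br c6)))))
  (Ok.lf S140_198_216_364_ok (bl c1)))
  (And.intro (Ok.s3 169 (Ok.s2 64 (Ok.lf S140_169_216_364_ok (bl c6))
  (Ok.lf S140_169_216_364_ok (bl c4)))
  (Ok.s1 272 (Ok.lf S169_198_216_364_ok c0)
  (Ok.lf S169_198_216_364_ok c3)))
  (And.intro (Ok.lf S140_198_216_364_ok (bl c5))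
  (Ok.s1 288 (Ok.s0 64 (Ok.s1 272 (Ok.s0 32 (Ok.s3 169 (Ok.lf S140_169_364_512_ok (bl (br (br (br c4)))))
  (Ok.lf S169_198_364_512_ok (bl (br (br c4)))))
  (Ok.lf S140_198_364_512_ok (br (br c1))))
  (Ok.lf S140_198_364_512_ok (bl (br c1))))
  (Ok.s3 169 (Ok.lf S140_169_364_512_ok (br c2))
  (Ok.lf S169_198_364_512_ok (bl c2))))
  (Ok.lf S140_198_364_512_ok (br c5))))))

end Vale.Agent.P098.Ck
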