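import Vale.Agent.P098.CkGd
import Vale.Agent.P098.CkOk
import Vale.Agent.P098.Sh.A11
import Vale.Agent.P098.Sh.A23
import Vale.Agent.P098.Sh.A25
import Vale.Agent.P098.Sh.A26
import Vale.Agent.P098.Sh.A28
import Vale.Agent.P098.Sh.A30
import Vale.Agent.P098.Sh.A36
import Vale.Agent.P098.Sh.A37

namespace Vale.Agent.P098.Ck

theorem r152 :
    Ok Gd mult 0 128 256 320 0 128 140 198 512 660 ∧
    Ok Gd mult 0 128 256 320 0 128 140 198 660 808 ∧
    Ok Gd mult 0 128 256 320 0 128 198 256 216 364 ∧
    Ok Gd mult 0 64 256 288 0 128 198 256 364 512 :=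
  have c0 : (band (go 16 Gd mult S140_198_512_660 (Tr.sp 1 272 (Tr.lf 8590493764 108235844 2382792790460434103345872896) Tr.skip) 0 32 256 288 0 128)
  (band (go 16 Gd mult S198_227_364_512 (Tr.sp 1 272 (Tr.lf 12885181474 107965254 2159141513831727706025230336) Tr.skip) 0 32 256 288 0 128)
  (go 16 Gd mult S198_227_364_512 (Tr.lf 17792518210 108096327 1474889499929847593141534720) 32 64 256 288 0 128))) = true := by decide +kernel
  have c1 : (band (go 16 Gd mult S140_198_512_660 (Tr.lf 12885198920 107973573 736235824145309167396061184) 64 128 256 288 0 128)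
  (go 16 Gd mult S198_212_216_364 (Tr.lf 22031116356 91061321 1074735053637405336313790464) 64 128 256 288 0 128)) = true := by decide +kernel
  have c2 : (band (go 16 Gd mult S198_256_216_364 (Tr.sp 0 64 Tr.skip (Tr.sp 0 96 Tr.skip (Tr.lf 17792796740 99707592 3543361577290478111063801856))) 0 128 288 320 0 128)
  (go 16 Gd mult S140_198_512_660 (Tr.sp 0 64 Tr.skip (Tr.sp 0 96 Tr.skip (Tr.lf 12885050434 104037317 1143656830310011164505931776))) 0 128 288 320 0 128)) = true := by decide +kernel
  have c3 : (go 16 Gd mult S198_256_216_364 (Tr.sp 0 32 Tr.skip (Tr.lf 17792796708 112425671 1455549546061344951326736384)) 0 64 272 288 0 128) = true := by decide +kernel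
  have c4 : (band (go 16 Gd mult S227_256_216_364 (Tr.lf 22087747652 95509065 1092868940931624773934383104) 64 128 256 288 0 128)
  (band (go 16 Gd mult S212_227_216_364 (Tr.lf 22087477320 95509065 1136390270437751424223805440) 64 128 256 288 0 128)
  (band (go 16 Gd mult S140_198_660_808 (Tr.lf 12885050436 112429893 764041117996445638414303232) 64 128 256 288 0 128)
  (go 16 Gd mult S140_198_660_808 (Tr.lf 12885050402 99838917 1664690853609344373570404352) 32 64 256 288 0 128)))) = true := by decide +kernel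
  have c5 : (go 16 Gd mult S227_256_364_512 (Tr.sp 1 272 (Tr.lf 12885444676 103902022 2390046345378121878394109952) Tr.skip) 0 32 256 288 0 128) = true := by decide +kernel
  have c6 : (go 16 Gd mult S140_198_660_808 (Tr.lf 8590230658 112299076 2402135603574268170141171712) 0 32 256 288 0 128) = true := by decide +kernel
  have c7 : (band (go 16 Gd mult S198_227_216_364 (Tr.lf 12885182532 104033349 912738993809045026903162880) 0 64 256 272 0 128)
  (go 16 Gd mult S227_256_216_364 (Tr.lf 17792518212 108227144 1159359861010429378543222784) 0 64 256 272 0 128)) = true := by decide +kernel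
  have c8 : (band (go 16 Gd mult S227_256_364_512 (Tr.lf 17792517188 108096327 1525664384353662018479194112) 32 64 256 288 0 128)
  (go 16 Gd mult S140_198_512_660 (Tr.lf 12885066818 107969477 1529291161812505906003312640) 32 64 256 288 0 128)) = true := by decide +kernel
  have c9 : (go 16 Gd mult S140_198_660_808 (Tr.sp 0 64 Tr.skip (Tr.sp 1 304 (Tr.lf 12885050402 108235589 1836362396725062006189588480) Tr.skip)) 0 128 288 320 0 128) = true := by decide +kernel
  (And.intro (Ok.s1 288 (Ok.s0 64 (Ok.s0 32 (Ok.lf S140_198_512_660_ok (bl c0))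
  (Ok.lf S140_198_512_660_ok (br c8)))
  (Ok.lf S140_198_512_660_ok (bl c1)))
  (Ok.lf S140_198_512_660_ok (br c2)))
  (And.intro (Ok.s1 288 (Ok.s0 64 (Ok.s0 32 (Ok.lf S140_198_660_808_ok c6)
  (Ok.lf S140_198_660_808_ok (br (br (br c4)))))
  (Ok.lf S140_198_660_808_ok (bl (br (br c4)))))
  (Ok.lf S140_198_660_808_ok c9))
  (And.intro (Ok.s1 288 (Ok.s0 64 (Ok.s1 272 (Ok.s3 227 (Ok.lf S198_227_216_364_ok (bl c7))
  (Ok.lf S227_256_216_364_ok (br c7)))
  (Ok.lf S198_256_216_364_ok c3))
  (Ok.s3 227 (Ok.s3 212 (Ok.lf S198_212_216_364_ok (br c1))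
  (Ok.lf S212_227_216_364_ok (bl (br c4))))
  (Ok.lf S227_256_216_364_ok (bl c4))))
  (Ok.lf S198_256_216_364_ok (bl c2)))
  (Ok.s0 32 (Ok.s3 227 (Ok.lf S198_227_364_512_ok (bl (br c0)))
  (Ok.lf S227_256_364_512_ok c5))
  (Ok.s3 227 (Ok.lf S198_227_364_512_ok (br (br c0)))
  (Ok.lf S227_256_364_512_ok (bl c8)))))))

end Vale.Agent.P098.Ck
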