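import Vale.Agent.P098.CkGd
import Vale.Agent.P098.CkOk
import Vale.Agent.P098.Sh.A26
import Vale.Agent.P098.Sh.A27
import Vale.Agent.P098.Sh.A28
import Vale.Agent.P098.Sh.A29
import Vale.Agent.P098.Sh.A37
import Vale.Agent.P098.Sh.A38
import Vale.Agent.P098.Sh.A41
import Vale.Agent.P098.Sh.A45

namespace Vale.Agent.P098.Ck

theorem r153 :
    Ok Gd mult 64 128 256 288 0 128 198 256 364 512 ∧
    Ok Gd mult 0 128 288 320 0 128 198 256 364 512 ∧
    Ok Gd mult 0 128 256 320 0 128 198 256 512 808 ∧
    Ok Gd mult 0 64 256 288 0 128 256 314 216 364 :=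
  have c0 : (band (go 16 Gd mult S227_256_512_660 (Tr.lf 17188800584 103905991 739862601604153054920179712) 64 128 256 288 0 128)
  (go 16 Gd mult S198_256_660_808 (Tr.lf 12885197892 108100549 764041117996445638414303232) 64 128 256 288 0 128)) = true := by decide +kernel
  have c1 : (band (go 16 Gd mult S198_256_512_660 (Tr.lf 12885198888 107961158 3018687771577729049241321472) 0 64 272 288 0 128)
  (band (go 16 Gd mult S198_256_512_660 (Tr.lf 12885198882 99843013 1524455458534047389304487936) 32 64 256 272 0 128)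
  (go 16 Gd mult S198_256_512_660 (Tr.sp 0 64 Tr.skip (Tr.sp 0 96 Tr.skip (Tr.lf 12885197890 103902277 1143656498268617837734002688))) 0 128 288 320 0 128))) = true := by decide +kernel
  have c2 : (band (go 16 Gd mult S198_227_364_512 (Tr.lf 12894636100 104037574 742280453243382313269592064) 64 128 256 288 0 128)
  (go 16 Gd mult S198_227_512_660 (Tr.lf 12885182536 112299204 735026898325694538221355008) 64 128 256 288 0 128)) = true := by decide +kernel
  have c3 : (go 16 Gd mult S198_256_660_808 (Tr.sp 0 64 Tr.skip (Tr.lf 12885197956 99711941 1843628292514535092927856640)) 0 128 288 320 0 128) = true := by decide +kernel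
  have c4 : (band (go 16 Gd mult S227_256_512_660 (Tr.lf 8590477348 108108868 2390046345378121878394109952) 0 32 256 272 0 128)
  (band (go 16 Gd mult S198_227_512_660 (Tr.lf 8590476324 108108868 2384001716280048732520579072) 0 32 256 272 0 128)
  (band (go 16 Gd mult S285_314_216_364 (Tr.lf 12885443618 99707718 2283660873252034511019966464) 0 32 256 272 0 128)
  (go 16 Gd mult S256_285_216_364 (Tr.lf 17792509986 99707464 1983847269987606475692834816) 0 32 256 272 0 128)))) = true := by decide +kernel
  have c5 : (band (go 16 Gd mult S227_256_364_512 (Tr.lf 22095874116 108231113 375975929900149673333620736) 64 128 256 272 0 128)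
  (go 16 Gd mult S227_256_364_512 (Tr.lf 22095874084 95386185 921201474546347431126106112) 64 128 272 288 0 128)) = true := by decide +kernel
  have c6 : (go 16 Gd mult S198_256_364_512 (Tr.sp 0 64 Tr.skip (Tr.sp 0 96 Tr.skip (Tr.lf 12885197890 99842886 1611511122500872655117221888))) 0 128 288 320 0 128) = true := by decide +kernel
  have c7 : (go 16 Gd mult S198_227_660_808 (Tr.lf 8590214274 108235844 2403344529393882799315877888) 0 32 256 288 0 128) = true := by decide +kernel
  have c8 : (band (go 16 Gd mult S256_285_216_364 (Tr.lf 17792518210 104033095 1380593285999906517514452992) 32 64 256 288 0 128)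
  (band (go 16 Gd mult S285_314_216_364 (Tr.lf 12885181506 103902277 1519619755255588872605663232) 32 64 256 288 0 128)
  (go 16 Gd mult S198_227_660_808 (Tr.lf 12885042210 99711941 1665899779428959002745110528) 32 64 256 288 0 128))) = true := by decide +kernel
  have c9 : (go 16 Gd mult S227_256_660_808 (Tr.lf 12885173316 95382342 2265526985957815073399373824) 0 64 256 288 0 128) = true := by decide +kernel
  (And.intro (Ok.s3 227 (Ok.lf S198_227_364_512_ok (bl c2))
  (Ok.s1 272 (Ok.lf S227_256_364_512_ok (bl c5))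
  (Ok.lf S227_256_364_512_ok (br c5))))
  (And.intro (Ok.lf S198_256_364_512_ok c6)
  (And.intro (Ok.s4 660 (Ok.s1 288 (Ok.s0 64 (Ok.s1 272 (Ok.s0 32 (Ok.s3 227 (Ok.lf S198_227_512_660_ok (bl (br c4)))
  (Ok.lf S227_256_512_660_ok (bl c4)))
  (Ok.lf S198_256_512_660_ok (bl (br c1))))
  (Ok.lf S198_256_512_660_ok (bl c1)))
  (Ok.s3 227 (Ok.lf S198_227_512_660_ok (br c2))
  (Ok.lf S227_256_512_660_ok (bl c0))))
  (Ok.lf S198_256_512_660_ok (br (br c1))))
  (Ok.s1 288 (Ok.s0 64 (Ok.s3 227 (Ok.s0 32 (Ok.lf S198_227_660_808_ok c7)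
  (Ok.lf S198_227_660_808_ok (br (br c8))))
  (Ok.lf S227_256_660_808_ok c9))
  (Ok.lf S198_256_660_808_ok (br c0)))
  (Ok.lf S198_256_660_808_ok c3)))
  (Ok.s0 32 (Ok.s1 272 (Ok.s3 285 (Ok.lf S256_285_216_364_ok (br (br (br c4))))
  (Ok.lf S285_314_216_364_ok (bl (br (br c4)))))
  (Ok.out rfl))
  (Ok.s3 285 (Ok.lf S256_285_216_364_ok (bl c8))
  (Ok.lf S285_314_216_364_ok (bl (br c8))))))))

end Vale.Agent.P098.Ck
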