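import Vale.Agent.P098.CkGd
import Vale.Agent.P098.CkOk
import Vale.Agent.P098.Sh.A41
import Vale.Agent.P098.Sh.A42
import Vale.Agent.P098.Sh.A43
import Vale.Agent.P098.Sh.A44
import Vale.Agent.P098.Sh.A45
import Vale.Agent.P098.Sh.A46

namespace Vale.Agent.P098.Ck

theorem r154 :
    Ok Gd mult 64 128 256 288 0 128 256 314 216 364 ∧
    Ok Gd mult 0 128 288 320 0 128 256 314 216 364 ∧
    Ok Gd mult 0 128 256 320 0 128 256 314 364 512 ∧
    Ok Gd mult 0 128 256 320 0 128 256 314 512 808 :=
  have c0 : (go 16 Gd mult S285_314_364_512 (Tr.lf 12885444740 99707718 2367076754805443924074692608) 0 32 256 288 0 128) = true := by decide +kernel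
  have c1 : (band (go 16 Gd mult S256_285_364_512 (Tr.lf 22096136264 95521225 730191195047236021522530304) 64 128 256 288 0 128)
  (go 16 Gd mult S256_285_216_364 (Tr.lf 22087485508 99572297 829323112255635613848436736) 64 128 256 288 0 128)) = true := by decide +kernel
  have c2 : (go 16 Gd mult S256_314_660_808 (Tr.lf 12885460040 95378246 1572812491318632556292734976) 0 128 256 288 0 128) = true := by decide +kernel
  have c3 : (band (go 16 Gd mult S285_314_216_364 (Tr.lf 17792518276 107977415 727773343408006763173117952) 64 128 256 288 0 128)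
  (band (go 16 Gd mult S256_285_512_660 (Tr.lf 17188799556 95517383 755578637259143234191360000) 64 128 256 288 0 128)
  (band (go 16 Gd mult S285_314_364_512 (Tr.lf 12885181508 108104900 730191195047236021522530304) 64 128 256 288 0 128)
  (go 16 Gd mult S285_314_512_660 (Tr.lf 12893561924 108108741 767667895455289525938421760) 64 128 256 288 0 128)))) = true := by decide +kernel
  have c4 : (band (go 16 Gd mult S256_285_364_512 (Tr.sp 1 272 (Tr.lf 17792780324 103901768 2390046345378121878394109952) Tr.skip) 0 32 256 288 0 128)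
  (band (go 16 Gd mult S256_285_512_660 (Tr.lf 8590477348 108108868 2390046345378121878394109952) 0 32 256 272 0 128)
  (go 16 Gd mult S285_314_512_660 (Tr.lf 8590213666 108235844 2431149823245019270334119936) 0 32 256 272 0 128))) = true := by decide +kernel
  have c5 : (band (go 16 Gd mult S256_314_512_660 (Tr.lf 12885197864 95247302 3185542911370304526153105583) 0 64 272 288 0 128)
  (band (go 16 Gd mult S256_314_512_660 (Tr.sp 0 64 Tr.skip (Tr.sp 0 96 Tr.skip (Tr.lf 12885197890 108100549 1268177075174033507559145472))) 0 128 288 320 0 128)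
  (band (go 16 Gd mult S256_314_216_364 (Tr.sp 0 64 Tr.skip (Tr.sp 0 96 Tr.skip (Tr.lf 12885197890 103771078 1882308735207118514134450176))) 0 128 288 320 0 128)
  (go 16 Gd mult S256_314_364_512 (Tr.sp 0 64 Tr.skip (Tr.sp 0 96 Tr.skip (Tr.lf 12885197890 99712069 1178714793635119872513933312))) 0 128 288 320 0 128)))) = true := by decide +kernel
  have c6 : (go 16 Gd mult S256_314_660_808 (Tr.sp 0 64 Tr.skip (Tr.lf 12885197890 103902149 1812204061070786060944932864)) 0 128 288 320 0 128) = true := by decide +kernel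
  have c7 : (go 16 Gd mult S256_314_512_660 (Tr.lf 12893586466 108108741 1619960598283603094106275840) 32 64 256 272 0 128) = true := by decide +kernel
  have c8 : (band (go 16 Gd mult S256_285_364_512 (Tr.lf 17792517186 103902023 1536544716730193681051549696) 32 64 256 288 0 128)
  (go 16 Gd mult S285_314_364_512 (Tr.lf 12885173314 104037317 1531709013451735164352724992) 32 64 256 288 0 128)) = true := by decide +kernel
  (And.intro (Ok.s3 285 (Ok.lf S256_285_216_364_ok (br c1))
  (Ok.lf S285_314_216_364_ok (bl c3)))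
  (And.intro (Ok.lf S256_314_216_364_ok (bl (br (br c5))))
  (And.intro (Ok.s1 288 (Ok.s0 64 (Ok.s0 32 (Ok.s3 285 (Ok.lf S256_285_364_512_ok (bl c4))
  (Ok.lf S285_314_364_512_ok c0))
  (Ok.s3 285 (Ok.lf S256_285_364_512_ok (bl c8))
  (Ok.lf S285_314_364_512_ok (br c8))))
  (Ok.s3 285 (Ok.lf S256_285_364_512_ok (bl c1))
  (Ok.lf S285_314_364_512_ok (bl (br (br c3))))))
  (Ok.lf S256_314_364_512_ok (br (br (br c5)))))
  (Ok.s4 660 (Ok.s1 288 (Ok.s0 64 (Ok.s1 272 (Ok.s0 32 (Ok.s3 285 (Ok.lf S256_285_512_660_ok (bl (br c4)))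
  (Ok.lf S285_314_512_660_ok (br (br c4))))
  (Ok.lf S256_314_512_660_ok c7))
  (Ok.lf S256_314_512_660_ok (bl c5)))
  (Ok.s3 285 (Ok.lf S256_285_512_660_ok (bl (br c3)))
  (Ok.lf S285_314_512_660_ok (br (br (br c3))))))
  (Ok.lf S256_314_512_660_ok (bl (br c5))))
  (Ok.s1 288 (Ok.lf S256_314_660_808_ok c2)
  (Ok.lf S256_314_660_808_ok c6))))))

end Vale.Agent.P098.Ck
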