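import Vale.Agent.P098.CkGd
import Vale.Agent.P098.CkOk
import Vale.Agent.P098.Sh.A47
import Vale.Agent.P098.Sh.A48
import Vale.Agent.P098.Sh.A49
import Vale.Agent.P098.Sh.A50
import Vale.Agent.P098.Sh.A51
import Vale.Agent.P098.Sh.A52

namespace Vale.Agent.P098.Ck

theorem r155 :
    Ok Gd mult 0 128 256 320 0 128 314 372 216 364 ∧
    Ok Gd mult 0 128 256 320 0 128 314 372 364 512 ∧
    Ok Gd mult 0 128 256 320 0 128 314 372 512 660 :=
  have c0 : (band (go 16 Gd mult S314_372_364_512 (Tr.lf 12885461060 95382342 2399717751935038911791759360) 0 32 256 272 0 128)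
  (band (go 16 Gd mult S314_343_512_660 (Tr.lf 8590214180 104041540 2414224861770414461888233472) 0 32 256 272 0 128)
  (go 16 Gd mult S343_372_512_660 (Tr.lf 8590214180 112299076 2398508826115424282617053184) 0 32 256 272 0 128))) = true := by decide +kernel
  have c1 : (go 16 Gd mult S314_372_216_364 (Tr.sp 1 272 (Tr.lf 12885198916 99576646 2282451947432419881845260288) Tr.skip) 0 32 256 288 0 128) = true := by decide +kernel
  have c2 : (go 16 Gd mult S314_372_216_364 (Tr.lf 12885182530 103905990 1517201903616359614256250880) 32 64 256 288 0 128) = true := by decide +kernel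
  have c3 : (band (go 16 Gd mult S314_372_512_660 (Tr.sp 0 32 Tr.skip (Tr.lf 12885197860 99580614 2327182202758161161309388800)) 0 64 272 288 0 128)
  (go 16 Gd mult S314_372_364_512 (Tr.sp 0 32 Tr.skip (Tr.lf 12885197858 103774918 2319928647840473386261151744)) 0 64 272 288 0 128)) = true := by decide +kernel
  have c4 : (band (go 16 Gd mult S314_372_364_512 (Tr.lf 12885067810 103906245 1529291161812505906003312640) 32 64 256 272 0 128)
  (band (go 16 Gd mult S314_372_512_660 (Tr.lf 12885067810 107969477 1528082235992891276828606464) 32 64 256 272 0 128)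
  (band (go 16 Gd mult S314_372_512_660 (Tr.sp 0 64 Tr.skip (Tr.sp 0 96 Tr.skip (Tr.lf 12885066818 103779269 1153328790269250409190129664))) 0 128 288 320 0 128)
  (go 16 Gd mult S314_372_216_364 (Tr.sp 0 64 Tr.skip (Tr.sp 0 96 Tr.skip (Tr.lf 12885050434 99707718 1055402939635134021058428928))) 0 128 288 320 0 128)))) = true := by decide +kernel
  have c5 : (band (go 16 Gd mult S343_372_216_364 (Tr.lf 12885043268 112167877 727773343408006763173117952) 64 128 256 288 0 128)
  (band (go 16 Gd mult S314_343_216_364 (Tr.lf 12885173316 107973573 728982269227621392347824128) 64 128 256 288 0 128)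
  (band (go 16 Gd mult S314_343_364_512 (Tr.lf 12885173316 108231621 743489379062996942444298240) 64 128 256 288 0 128)
  (band (go 16 Gd mult S343_372_364_512 (Tr.lf 12885050436 112167877 727773343408006763173117952) 64 128 256 288 0 128)
  (band (go 16 Gd mult S343_372_512_660 (Tr.lf 12885050436 107981637 737444749964923796570767360) 64 128 256 288 0 128)
  (go 16 Gd mult S314_343_512_660 (Tr.lf 12885042244 112294853 760414340537601750890184704) 64 128 256 288 0 128)))))) = true := by decide +kernel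
  have c6 : (go 16 Gd mult S314_372_364_512 (Tr.sp 0 64 Tr.skip (Tr.sp 1 304 (Tr.sp 0 96 Tr.skip (Tr.lf 12885050386 104037317 1086836984746730266522812416)) Tr.skip)) 0 128 288 320 0 128) = true := by decide +kernel
  (And.intro (Ok.s1 288 (Ok.s0 64 (Ok.s0 32 (Ok.lf S314_372_216_364_ok c1)
  (Ok.lf S314_372_216_364_ok c2))
  (Ok.s3 343 (Ok.lf S314_343_216_364_ok (bl (br c5)))
  (Ok.lf S343_372_216_364_ok (bl c5))))
  (Ok.lf S314_372_216_364_ok (br (br (br c4)))))
  (And.intro (Ok.s1 288 (Ok.s0 64 (Ok.s1 272 (Ok.s0 32 (Ok.lf S314_372_364_512_ok (bl c0))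
  (Ok.lf S314_372_364_512_ok (bl c4)))
  (Ok.lf S314_372_364_512_ok (br c3)))
  (Ok.s3 343 (Ok.lf S314_343_364_512_ok (bl (br (br c5))))
  (Ok.lf S343_372_364_512_ok (bl (br (br (br c5)))))))
  (Ok.lf S314_372_364_512_ok c6))
  (Ok.s1 288 (Ok.s0 64 (Ok.s1 272 (Ok.s0 32 (Ok.s3 343 (Ok.lf S314_343_512_660_ok (bl (br c0)))
  (Ok.lf S343_372_512_660_ok (br (br c0))))
  (Ok.lf S314_372_512_660_ok (bl (br c4))))
  (Ok.lf S314_372_512_660_ok (bl c3)))
  (Ok.s3 343 (Ok.lf S314_343_512_660_ok (br (br (br (br (br c5))))))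
  (Ok.lf S343_372_512_660_ok (bl (br (br (br (br c5))))))))
  (Ok.lf S314_372_512_660_ok (bl (br (br c4)))))))

end Vale.Agent.P098.Ck
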