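import Vale.Agent.P098.CkGd
import Vale.Agent.P098.CkOk
import Vale.Agent.P098.Sh.A49
import Vale.Agent.P098.Sh.A50
import Vale.Agent.P098.Sh.A52
import Vale.Agent.P098.Sh.A54
import Vale.Agent.P098.Sh.A55
import Vale.Agent.P098.Sh.A56

namespace Vale.Agent.P098.Ck

theorem r156 :
    Ok Gd mult 0 64 256 288 0 128 314 372 660 808 ∧
    Ok Gd mult 64 128 256 288 0 128 314 372 660 808 ∧
    Ok Gd mult 0 128 288 320 0 128 314 372 660 808 ∧
    Ok Gd mult 0 128 256 320 0 128 372 430 216 512 :=
  have c0 : (band (go 16 Gd mult S372_430_364_512 (Tr.lf 12885067912 104041158 805144595863343030354313216) 64 128 256 288 0 128)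
  (band (go 16 Gd mult S343_372_660_808 (Tr.lf 12885050436 108239685 748325082341455459143122944) 64 128 256 288 0 128)
  (go 16 Gd mult S314_343_660_808 (Tr.lf 12885050404 108100549 771294672914133413462540288) 64 128 256 288 0 128))) = true := by decide +kernel
  have c1 : (band (go 16 Gd mult S372_430_216_364 (Tr.lf 17180035204 95381960 809980299141801547053137920) 64 128 256 288 0 128)
  (go 16 Gd mult S372_430_216_364 (Tr.sp 0 32 Tr.skip (Tr.lf 12885067844 104032966 1743271031884295269926305792)) 0 64 272 288 0 128)) = true := by decide +kernel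
  have c2 : (band (go 16 Gd mult S314_372_660_808 (Tr.sp 0 32 Tr.skip (Tr.lf 12885198916 103774918 2457746191276541112177655808)) 0 64 272 288 0 128)
  (band (go 16 Gd mult S314_372_660_808 (Tr.sp 0 64 Tr.skip (Tr.sp 0 96 Tr.skip (Tr.lf 12885197890 104037317 1214984007069596497100144640))) 0 128 288 320 0 128)
  (band (go 16 Gd mult S372_401_216_364 (Tr.sp 0 96 Tr.skip (Tr.lf 12884976673 95386438 1304431826361156343856889856)) 64 128 288 320 0 128)
  (band (go 16 Gd mult S401_430_216_364 (Tr.sp 0 96 Tr.skip (Tr.lf 12884972578 99580742 1836358319994621716378681344)) 64 128 288 320 0 128)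
  (go 16 Gd mult S314_372_660_808 (Tr.lf 12885197858 107969477 1563141084761715522895085568) 32 64 256 272 0 128))))) = true := by decide +kernel
  have c3 : (band (go 16 Gd mult S343_372_660_808 (Tr.lf 8590231588 104041540 2361032125707370778201161728) 0 32 256 272 0 128)
  (go 16 Gd mult S314_343_660_808 (Tr.lf 8590205457 108231748 2420269490868487607761764352) 0 32 256 272 0 128)) = true := by decide +kernel
  have c4 : (band (go 16 Gd mult S372_430_216_364 (Tr.lf 12885198884 95517382 1867790391304602074921041920) 0 32 256 264 0 128)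
  (band (go 16 Gd mult S372_430_364_512 (Tr.lf 12885067794 103774918 2114411258505986426561101824) 0 32 256 264 0 128)
  (go 16 Gd mult S372_430_364_512 (Tr.sp 2 64 (Tr.lf 12885066770 99838662 2572594144139930883774742528) Tr.skip) 0 32 264 272 0 128))) = true := by decide +kernel
  have c5 : (band (go 16 Gd mult S372_430_216_364 (Tr.lf 12885051426 99711686 1331027327395706721351499776) 32 64 256 272 0 128)
  (band (go 16 Gd mult S372_430_364_512 (Tr.lf 12885051426 99711686 1455546686816013526346235904) 32 64 256 272 0 128)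
  (go 16 Gd mult S372_430_216_364 (Tr.sp 0 16 Tr.skip (Tr.lf 12885051409 103901894 1898013536794967804288696320)) 0 32 264 272 0 128))) = true := by decide +kernel
  have c6 : (band (go 16 Gd mult S372_430_364_512 (Tr.sp 0 32 Tr.skip (Tr.sp 0 48 Tr.skip (Tr.lf 12884984849 107973190 1896804610975353175113990144))) 0 64 272 288 0 128)
  (go 16 Gd mult S372_430_364_512 (Tr.sp 0 64 Tr.skip (Tr.sp 1 304 (Tr.sp 0 96 Tr.skip (Tr.lf 12884984849 103775046 1669533492863574605060636672)) Tr.skip)) 0 128 288 320 0 128)) = true := by decide +kernel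
  (And.intro (Ok.s1 272 (Ok.s0 32 (Ok.s3 343 (Ok.lf S314_343_660_808_ok (br c3))
  (Ok.lf S343_372_660_808_ok (bl c3)))
  (Ok.lf S314_372_660_808_ok (br (br (br (br c2))))))
  (Ok.lf S314_372_660_808_ok (bl c2)))
  (And.intro (Ok.s3 343 (Ok.lf S314_343_660_808_ok (br (br c0)))
  (Ok.lf S343_372_660_808_ok (bl (br c0))))
  (And.intro (Ok.lf S314_372_660_808_ok (bl (br c2)))
  (Ok.s4 364 (Ok.s1 288 (Ok.s0 64 (Ok.s1 272 (Ok.s0 32 (Ok.s1 264 (Ok.lf S372_430_216_364_ok (bl c4))
  (Ok.lf S372_430_216_364_ok (br (br c5))))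
  (Ok.lf S372_430_216_364_ok (bl c5)))
  (Ok.lf S372_430_216_364_ok (br c1)))
  (Ok.lf S372_430_216_364_ok (bl c1)))
  (Ok.s0 64 (Ok.out rfl)
  (Ok.s3 401 (Ok.lf S372_401_216_364_ok (bl (br (br c2))))
  (Ok.lf S401_430_216_364_ok (bl (br (br (br c2))))))))
  (Ok.s1 288 (Ok.s0 64 (Ok.s1 272 (Ok.s0 32 (Ok.s1 264 (Ok.lf S372_430_364_512_ok (bl (br c4)))
  (Ok.lf S372_430_364_512_ok (br (br c4))))
  (Ok.lf S372_430_364_512_ok (bl (br c5))))
  (Ok.lf S372_430_364_512_ok (bl c6)))
  (Ok.lf S372_430_364_512_ok (bl c0)))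
  (Ok.lf S372_430_364_512_ok (br c6)))))))

end Vale.Agent.P098.Ck
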