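import Vale.Agent.P098.CkGd
import Vale.Agent.P098.CkOk
import Vale.Agent.P098.Sh.A54
import Vale.Agent.P098.Sh.A55
import Vale.Agent.P098.Sh.A57
import Vale.Agent.P098.Sh.A58

namespace Vale.Agent.P098.Ck

theorem r157 :
    Ok Gd mult 0 64 256 320 0 128 372 430 512 660 ∧
    Ok Gd mult 64 128 256 320 0 128 372 430 512 660 ∧
    Ok Gd mult 0 128 256 320 0 128 372 430 660 808 ∧
    Ok Gd mult 0 128 256 320 0 128 430 488 216 364 :=
  have c0 : (band (go 16 Gd mult S372_430_512_660 (Tr.lf 17726343304 103779016 809980299141801547053137920) 64 128 256 288 0 128)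
  (go 16 Gd mult S430_488_216_364 (Tr.lf 17726261384 107973320 1136390270437751424223805440) 64 128 256 288 0 128)) = true := by decide +kernel
  have c1 : (band (go 16 Gd mult S372_430_660_808 (Tr.lf 17726343304 103779016 802726744224113772004900864) 64 128 256 288 0 128)
  (band (go 16 Gd mult S372_430_660_808 (Tr.lf 12885067810 99711686 1557096455663642377021554688) 32 64 256 272 0 128)
  (go 16 Gd mult S372_430_512_660 (Tr.lf 12885051426 107969222 1520828681075203501780369408) 32 64 256 272 0 128))) = true := by decide +kernel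
  have c2 : (band (go 16 Gd mult S372_430_512_660 (Tr.lf 12885198916 99711686 2312675092922785611212914688) 0 32 256 264 0 128)
  (band (go 16 Gd mult S430_488_216_364 (Tr.lf 12885002274 99715654 971976358970161856463765504) 0 32 256 264 0 128)
  (band (go 16 Gd mult S401_430_660_808 (Tr.lf 12885043234 95644358 1677989037625105294492172288) 0 32 256 264 0 128)
  (go 16 Gd mult S372_401_660_808 (Tr.lf 12885050386 107969222 2361032125707370778201161728) 0 32 256 264 0 128)))) = true := by decide +kernel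
  have c3 : (band (go 16 Gd mult S372_430_512_660 (Tr.sp 0 16 Tr.skip (Tr.lf 12885067793 99838662 2671726061348330476100648960)) 0 32 264 272 0 128)
  (band (go 16 Gd mult S430_488_216_364 (Tr.sp 0 16 Tr.skip (Tr.lf 12884985873 99842630 5865708076770180755674365952)) 0 32 264 272 0 128)
  (band (go 16 Gd mult S430_488_216_364 (Tr.sp 0 32 Tr.skip (Tr.lf 12884985890 99838662 4180465484227387686133956608)) 0 64 272 288 0 128)
  (band (go 16 Gd mult S430_488_216_364 (Tr.sp 0 96 Tr.skip (Tr.lf 13431292994 103779271 3539734799831634223539683328)) 64 128 288 320 0 128)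
  (band (go 16 Gd mult S372_430_512_660 (Tr.sp 0 96 Tr.skip (Tr.lf 12884984898 95517510 1794057150375250584380899328)) 64 128 288 320 0 128)
  (band (go 16 Gd mult S430_488_216_364 (Tr.lf 12884984866 99846726 911530067989430397728456704) 32 64 256 272 0 128)
  (band (go 16 Gd mult S372_430_512_660 (Tr.sp 0 32 Tr.skip (Tr.sp 0 48 Tr.skip (Tr.lf 12884984849 108231238 1971758011791460183945773056))) 0 64 272 288 0 128)
  (go 16 Gd mult S372_430_660_808 (Tr.sp 0 32 Tr.skip (Tr.sp 0 48 Tr.skip (Tr.lf 12885051425 108104262 2179693252765176401995235328))) 0 64 272 288 0 128)))))))) = true := by decide +kernel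
  have c4 : (band (go 16 Gd mult S372_430_660_808 (Tr.sp 1 304 (Tr.sp 0 96 Tr.skip (Tr.lf 12884984866 99580742 1600629904680625454486388736)) Tr.skip) 64 128 288 320 0 128)
  (go 16 Gd mult S372_430_660_808 (Tr.sp 2 64 (Tr.sp 0 16 Tr.skip (Tr.lf 12884984337 103910213 2764813349458656922553024512)) Tr.skip) 0 32 264 272 0 128)) = true := by decide +kernel
  (And.intro (Ok.s1 288 (Ok.s1 272 (Ok.s0 32 (Ok.s1 264 (Ok.lf S372_430_512_660_ok (bl c2))
  (Ok.lf S372_430_512_660_ok (bl c3)))
  (Ok.lf S372_430_512_660_ok (br (br c1))))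
  (Ok.lf S372_430_512_660_ok (bl (br (br (br (br (br (br c3)))))))))
  (Ok.out rfl))
  (And.intro (Ok.s1 288 (Ok.lf S372_430_512_660_ok (bl c0))
  (Ok.lf S372_430_512_660_ok (bl (br (br (br (br c3)))))))
  (And.intro (Ok.s0 64 (Ok.s1 288 (Ok.s1 272 (Ok.s0 32 (Ok.s1 264 (Ok.s3 401 (Ok.lf S372_401_660_808_ok (br (br (br c2))))
  (Ok.lf S401_430_660_808_ok (bl (br (br c2)))))
  (Ok.lf S372_430_660_808_ok (br c4)))
  (Ok.lf S372_430_660_808_ok (bl (br c1))))
  (Ok.lf S372_430_660_808_ok (br (br (br (br (br (br (br c3)))))))))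
  (Ok.out rfl))
  (Ok.s1 288 (Ok.lf S372_430_660_808_ok (bl c1))
  (Ok.lf S372_430_660_808_ok (bl c4))))
  (Ok.s0 64 (Ok.s1 288 (Ok.s1 272 (Ok.s0 32 (Ok.s1 264 (Ok.lf S430_488_216_364_ok (bl (br c2)))
  (Ok.lf S430_488_216_364_ok (bl (br c3))))
  (Ok.lf S430_488_216_364_ok (bl (br (br (br (br (br c3))))))))
  (Ok.lf S430_488_216_364_ok (bl (br (br c3)))))
  (Ok.out rfl))
  (Ok.s1 288 (Ok.lf S430_488_216_364_ok (br c0))
  (Ok.lf S430_488_216_364_ok (bl (br (br (br c3))))))))))

end Vale.Agent.P098.Ck
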