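import Vale.Agent.P098.CkGd
import Vale.Agent.P098.CkOk
import Vale.Agent.P098.Sh.A0
import Vale.Agent.P098.Sh.A1
import Vale.Agent.P098.Sh.A58
import Vale.Agent.P098.Sh.A59

namespace Vale.Agent.P098.Ck

theorem r158 :
    Ok Gd mult 0 128 256 288 0 128 430 488 364 512 ∧
    Ok Gd mult 0 128 288 320 0 128 430 488 364 512 ∧
    Ok Gd mult 0 128 256 320 0 128 430 488 512 808 ∧
    Ok Gd mult 0 128 256 320 128 256 24 82 216 808 :=
  have c0 : (band (go 16 Gd mult S430_488_364_512 (Tr.lf 17726261384 107973320 1136390270437751424223805440) 64 128 256 288 0 128)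
  (band (go 16 Gd mult S430_488_512_660 (Tr.lf 17726261384 107973320 1136390270437751424223805440) 64 128 256 288 0 128)
  (band (go 16 Gd mult S430_488_660_808 (Tr.lf 17726261380 103779016 1136390270437751424223805440) 64 128 256 288 0 128)
  (go 16 Gd mult S430_488_660_808 (Tr.sp 0 96 Tr.skip (Tr.lf 13431292996 103779271 3538525874012019594364977152)) 64 128 288 320 0 128)))) = true := by decide +kernel
  have c1 : (band (go 16 Gd mult S24_82_364_512 (Tr.sp 1 288 (Tr.lf 4834034756 91327430 1708213935599786772213334045) (Tr.sp 0 64 Tr.skip (Tr.sp 0 96 Tr.skip Tr.skip))) 0 128 256 320 128 256)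
  (band (go 16 Gd mult S24_82_660_808 (Tr.sp 1 288 (Tr.lf 4834034756 91327430 1663483680274045492749205533) (Tr.sp 0 64 Tr.skip (Tr.sp 0 96 Tr.skip Tr.skip))) 0 128 256 320 128 256)
  (band (go 16 Gd mult S24_82_216_364 (Tr.sp 1 288 (Tr.lf 8591082532 108100549 1717885342156703805610983453) (Tr.sp 0 64 Tr.skip (Tr.sp 0 96 Tr.skip Tr.skip))) 0 128 256 320 128 256)
  (go 16 Gd mult S24_82_512_660 (Tr.sp 1 288 (Tr.lf 8591082532 108100549 1686453270851789996649414685) (Tr.sp 0 64 Tr.skip (Tr.sp 0 96 Tr.skip Tr.skip))) 0 128 256 320 128 256)))) = true := by decide +kernel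
  have c2 : (band (go 16 Gd mult S430_488_364_512 (Tr.lf 12885002274 99715654 987692394625152035734945792) 0 32 256 264 0 128)
  (band (go 16 Gd mult S430_488_660_808 (Tr.lf 12885002274 99715654 1008244133558600731704950784) 0 32 256 264 0 128)
  (band (go 16 Gd mult S430_488_512_660 (Tr.lf 12885002274 99715654 1002199504460527585831419904) 0 32 256 264 0 128)
  (band (go 16 Gd mult S430_488_512_660 (Tr.sp 0 32 Tr.skip (Tr.lf 12885002274 103774918 3886696510061032796680355840)) 0 64 272 288 0 128)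
  (band (go 16 Gd mult S430_488_660_808 (Tr.sp 0 32 Tr.skip (Tr.lf 12885002274 99580614 3822626632908182202173358080)) 0 64 272 288 0 128)
  (band (go 16 Gd mult S430_488_364_512 (Tr.sp 0 32 Tr.skip (Tr.lf 12884985890 99580614 4032976534234402926819803136)) 0 64 272 288 0 128)
  (go 16 Gd mult S430_488_364_512 (Tr.lf 5371955218 82926664 5711697114389239321000411136) 0 32 264 272 0 128))))))) = true := by decide +kernel
  have c3 : (band (go 16 Gd mult S430_488_512_660 (Tr.lf 12884985890 104041030 907903290530586510204338176) 32 64 256 272 0 128)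
  (band (go 16 Gd mult S430_488_660_808 (Tr.lf 12884985890 99846726 905485438891357251854925824) 32 64 256 272 0 128)
  (band (go 16 Gd mult S430_488_364_512 (Tr.lf 12884984866 99846726 910321142169815768553750528) 32 64 256 272 0 128)
  (band (go 16 Gd mult S430_488_364_512 (Tr.sp 0 64 Tr.skip (Tr.sp 0 96 Tr.skip (Tr.lf 13431292994 103779271 3538525874012019594364977152))) 0 128 288 320 0 128)
  (band (go 16 Gd mult S430_488_512_660 (Tr.sp 0 96 Tr.skip (Tr.lf 13431292994 103779271 3538525874012019594364977152)) 64 128 288 320 0 128)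
  (band (go 16 Gd mult S430_488_512_660 (Tr.sp 2 64 (Tr.lf 12884984850 99850949 5779874343577542084270227456) Tr.skip) 0 32 264 272 0 128)
  (go 16 Gd mult S430_488_660_808 (Tr.sp 2 64 (Tr.lf 12884984850 99850949 5708547720220278962962563072) Tr.skip) 0 32 264 272 0 128))))))) = true := by decide +kernel
  (And.intro (Ok.s0 64 (Ok.s1 272 (Ok.s0 32 (Ok.s1 264 (Ok.lf S430_488_364_512_ok (bl c2))
  (Ok.lf S430_488_364_512_ok (br (br (br (br (br (br c2))))))))
  (Ok.lf S430_488_364_512_ok (bl (br (br c3)))))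
  (Ok.lf S430_488_364_512_ok (bl (br (br (br (br (br c2))))))))
  (Ok.lf S430_488_364_512_ok (bl c0)))
  (And.intro (Ok.lf S430_488_364_512_ok (bl (br (br (br c3)))))
  (And.intro (Ok.s4 660 (Ok.s0 64 (Ok.s1 288 (Ok.s1 272 (Ok.s0 32 (Ok.s1 264 (Ok.lf S430_488_512_660_ok (bl (br (br c2))))
  (Ok.lf S430_488_512_660_ok (bl (br (br (br (br (br c3))))))))
  (Ok.lf S430_488_512_660_ok (bl c3)))
  (Ok.lf S430_488_512_660_ok (bl (br (br (br c2))))))
  (Ok.out rfl))
  (Ok.s1 288 (Ok.lf S430_488_512_660_ok (bl (br c0)))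
  (Ok.lf S430_488_512_660_ok (bl (br (br (br (br c3))))))))
  (Ok.s0 64 (Ok.s1 288 (Ok.s1 272 (Ok.s0 32 (Ok.s1 264 (Ok.lf S430_488_660_808_ok (bl (br c2)))
  (Ok.lf S430_488_660_808_ok (br (br (br (br (br (br c3))))))))
  (Ok.lf S430_488_660_808_ok (bl (br c3))))
  (Ok.lf S430_488_660_808_ok (bl (br (br (br (br c2)))))))
  (Ok.out rfl))
  (Ok.s1 288 (Ok.lf S430_488_660_808_ok (bl (br (br c0))))
  (Ok.lf S430_488_660_808_ok (br (br (br c0)))))))
  (Ok.s4 512 (Ok.s4 364 (Ok.lf S24_82_216_364_ok (bl (br (br c1))))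
  (Ok.lf S24_82_364_512_ok (bl c1)))
  (Ok.s4 660 (Ok.lf S24_82_512_660_ok (br (br (br c1))))
  (Ok.lf S24_82_660_808_ok (bl (br c1))))))))

end Vale.Agent.P098.Ck
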