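import Vale.Agent.P098.CkGd
import Vale.Agent.P098.CkOk
import Vale.Agent.P098.Sh.A26
import Vale.Agent.P098.Sh.A34
import Vale.Agent.P098.Sh.A36
import Vale.Agent.P098.Sh.A37
import Vale.Agent.P098.Sh.A39

namespace Vale.Agent.P098.Ck

theorem r16 :
    Ok Gd mult 0 128 0 64 480 496 227 256 216 364 ∧
    Ok Gd mult 0 128 0 64 496 512 227 256 216 364 ∧
    Ok Gd mult 0 128 0 64 384 512 198 227 364 512 ∧
    Ok Gd mult 0 64 0 64 384 512 227 256 364 512 :=
  have c0 : (go 16 Gd mult S227_256_364_512 (Tr.lf 4303915138 99314502 0) 0 64 0 32 448 512) = true := by decide +kernel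
  have c1 : (band (go 16 Gd mult S227_241_216_364 (Tr.lf 8598864520 90929862 0) 0 128 0 32 508 512)
  (go 16 Gd mult S241_256_216_364 (Tr.lf 9202573636 99580614 0) 0 128 0 32 508 512)) = true := by decide +kernel
  have c2 : (go 16 Gd mult S198_227_364_512 (Tr.lf 4841833540 103910469 185924733518918570737664) 64 128 32 64 496 512) = true := by decide +kernel
  have c3 : (go 16 Gd mult S227_256_216_364 (Tr.lf 4303913348 95390788 0) 0 128 0 64 504 508) = true := by decide +kernel
  have c4 : (band (go 16 Gd mult S198_227_364_512 (Tr.lf 4304700036 99585093 210717157566409548496991) 0 128 0 32 504 512)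
  (band (go 16 Gd mult S198_227_364_512 (Tr.lf 4841572418 103775174 743625147099379444744192) 0 64 32 64 448 512)
  (go 16 Gd mult S227_256_364_512 (Tr.lf 4840507458 103775173 557718860324534583561540) 0 64 32 64 448 512))) = true := by decide +kernel
  have c5 : (band (go 16 Gd mult S227_256_216_364 (Tr.lf 279172 108235843 0) 0 128 0 64 496 504)
  (band (go 16 Gd mult S227_256_216_364 (Tr.lf 4907614850 103906245 0) 0 128 0 64 480 496)
  (go 16 Gd mult S227_256_216_364 (Tr.lf 8666759492 91057222 12539364359355003214195851264) 0 128 32 64 508 512))) = true := by decide +kernel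
  have c6 : (go 16 Gd mult S198_227_364_512 (Tr.lf 4849942852 107973829 0) 0 128 0 32 496 504) = true := by decide +kernel
  have c7 : (band (go 16 Gd mult S198_227_364_512 (Tr.lf 4841423426 103644102 0) 0 128 0 32 480 496)
  (band (go 16 Gd mult S198_227_364_512 (Tr.lf 690111041 108105030 0) 0 128 0 64 384 448)
  (go 16 Gd mult S198_227_364_512 (Tr.lf 4841423394 103910469 0) 64 128 32 64 480 496))) = true := by decide +kernel
  have c8 : (go 16 Gd mult S227_256_364_512 (Tr.lf 8528449 99715909 0) 0 64 0 64 384 448) = true := by decide +kernel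
  have c9 : (band (go 16 Gd mult S198_227_364_512 (Tr.lf 8528417 99720132 0) 0 128 0 32 448 480)
  (go 16 Gd mult S198_227_364_512 (Tr.lf 4304544033 99449798 0) 64 128 32 64 448 480)) = true := by decide +kernel
  (And.intro (Ok.lf S227_256_216_364_ok (bl (br c5)))
  (And.intro (Ok.s2 504 (Ok.lf S227_256_216_364_ok (bl c5))
  (Ok.s2 508 (Ok.lf S227_256_216_364_ok c3)
  (Ok.s1 32 (Ok.s3 241 (Ok.lf S227_241_216_364_ok (bl c1))
  (Ok.lf S241_256_216_364_ok (br c1)))
  (Ok.lf S227_256_216_364_ok (br (br c5))))))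
  (And.intro (Ok.s2 448 (Ok.lf S198_227_364_512_ok (bl (br c7)))
  (Ok.s1 32 (Ok.s2 480 (Ok.lf S198_227_364_512_ok (bl c9))
  (Ok.s2 496 (Ok.lf S198_227_364_512_ok (bl c7))
  (Ok.s2 504 (Ok.lf S198_227_364_512_ok c6)
  (Ok.lf S198_227_364_512_ok (bl c4)))))
  (Ok.s0 64 (Ok.lf S198_227_364_512_ok (bl (br c4)))
  (Ok.s2 480 (Ok.lf S198_227_364_512_ok (br c9))
  (Ok.s2 496 (Ok.lf S198_227_364_512_ok (br (br c7)))
  (Ok.lf S198_227_364_512_ok c2))))))
  (Ok.s2 448 (Ok.lf S227_256_364_512_ok c8)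
  (Ok.s1 32 (Ok.lf S227_256_364_512_ok c0)
  (Ok.lf S227_256_364_512_ok (br (br c4))))))))

end Vale.Agent.P098.Ck
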