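import Vale.Agent.P098.CkGd
import Vale.Agent.P098.CkOk
import Vale.Agent.P098.Sh.A10
import Vale.Agent.P098.Sh.A17
import Vale.Agent.P098.Sh.A18
import Vale.Agent.P098.Sh.A19
import Vale.Agent.P098.Sh.A25
import Vale.Agent.P098.Sh.A36
import Vale.Agent.P098.Sh.A9

namespace Vale.Agent.P098.Ck

theorem r160 :
    Ok Gd mult 64 128 256 288 128 256 140 198 290 364 ∧
    Ok Gd mult 0 128 288 320 128 256 140 198 216 364 ∧
    Ok Gd mult 0 128 256 320 128 256 140 198 364 512 ∧
    Ok Gd mult 0 128 256 320 128 256 140 198 512 808 ∧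
    Ok Gd mult 0 64 256 288 128 256 198 256 216 364 :=
  have c0 : (band (go 16 Gd mult S140_169_290_364 (Tr.lf 13431376004 107973447 887351551597137814234333184) 64 128 256 288 128 256)
  (band (go 16 Gd mult S169_198_512_660 (Tr.lf 12893571140 107973446 940544287660181497921404928) 64 128 256 288 128 256)
  (go 16 Gd mult S140_169_364_512 (Tr.lf 13431490628 103779143 917574697087503543601987584) 64 128 256 288 128 256))) = true := by decide +kernel
  have c1 : (band (go 16 Gd mult S169_198_290_364 (Tr.lf 17735910472 107834568 709639456113787325552525312) 64 128 256 272 192 256)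
  (go 16 Gd mult S169_198_290_364 (Tr.lf 17735910468 104037448 652819942591899754341335040) 64 128 256 272 128 192)) = true := by decide +kernel
  have c2 : (go 16 Gd mult S169_198_364_512 (Tr.lf 17189603396 99437512 760414340537601750890184704) 64 128 256 272 128 256) = true := by decide +kernel
  have c3 : (band (go 16 Gd mult S169_198_660_808 (Tr.lf 12893571144 107834055 2178484326945561772820529152) 0 128 256 288 128 256)
  (go 16 Gd mult S140_169_660_808 (Tr.lf 8590083144 103910213 2197827140059395839615827968) 0 128 256 288 128 256)) = true := by decide +kernel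
  have c4 : (band (go 16 Gd mult S169_198_364_512 (Tr.lf 12894619688 107834311 2093859519572537730591096832) 0 64 256 272 128 256)
  (band (go 16 Gd mult S140_169_364_512 (Tr.lf 12894619684 103516999 2255855579400898040001724416) 0 64 256 272 128 256)
  (band (go 16 Gd mult S169_198_512_660 (Tr.lf 12893570084 103639751 2298167983087410061116440576) 0 64 256 272 128 256)
  (band (go 16 Gd mult S140_169_512_660 (Tr.lf 12886098980 99306439 2536326369551492008533557248) 0 64 256 272 128 256)
  (go 16 Gd mult S169_198_364_512 (Tr.lf 12894619684 104033478 956260323315171677192585216) 64 128 272 288 128 256))))) = true := by decide +kernel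
  have c5 : (go 16 Gd mult S198_227_216_364 (Tr.sp 1 264 (Tr.lf 17199301668 95251656 368751815986003538729762816) Tr.skip) 32 64 256 272 192 256) = true := by decide +kernel
  have c6 : (go 16 Gd mult S169_198_290_364 (Tr.lf 12894504996 108227527 1125509938061219761651449856) 64 128 272 288 128 256) = true := by decide +kernel
  have c7 : (band (go 16 Gd mult S198_227_216_364 (Tr.lf 12903023650 104033351 565791174154702192374055396) 32 64 256 272 128 192)
  (band (go 16 Gd mult S227_256_216_364 (Tr.lf 12893430306 108104518 565777283579646453762490368) 32 64 256 272 128 192)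
  (band (go 16 Gd mult S227_256_216_364 (Tr.sp 1 264 (Tr.lf 8598462993 112430276 1959678567271324004561911837) Tr.skip) 0 32 256 272 128 192)
  (go 16 Gd mult S198_227_216_364 (Tr.sp 1 264 (Tr.lf 12893569553 104037190 2026178415566097385711992832) Tr.skip) 0 32 256 272 128 192)))) = true := by decide +kernel
  have c8 : (go 16 Gd mult S140_169_512_660 (Tr.lf 12886099012 99703623 994945949542839810783182848) 64 128 256 288 128 256) = true := by decide +kernel
  have c9 : (go 16 Gd mult S227_256_216_364 (Tr.lf 12893569570 99707591 348221143234287019067703296) 32 64 256 272 192 256) = true := by decide +kernel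
  (And.intro (Ok.s3 169 (Ok.lf S140_169_290_364_ok (bl c0))
  (Ok.s1 272 (Ok.s2 192 (Ok.lf S169_198_290_364_ok (br c1))
  (Ok.lf S169_198_290_364_ok (bl c1)))
  (Ok.lf S169_198_290_364_ok c6)))
  (And.intro (Ok.s1 304 (Ok.s0 64 (Ok.out rfl)
  (Ok.s0 96 (Ok.out rfl)
  (Ok.out rfl)))
  (Ok.out rfl))
  (And.intro (Ok.s1 288 (Ok.s0 64 (Ok.s1 272 (Ok.s3 169 (Ok.lf S140_169_364_512_ok (bl (br c4)))
  (Ok.lf S169_198_364_512_ok (bl c4)))
  (Ok.out rfl))
  (Ok.s3 169 (Ok.lf S140_169_364_512_ok (br (br c0)))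
  (Ok.s1 272 (Ok.lf S169_198_364_512_ok c2)
  (Ok.lf S169_198_364_512_ok (br (br (br (br c4))))))))
  (Ok.s0 64 (Ok.out rfl)
  (Ok.s0 96 (Ok.out rfl)
  (Ok.out rfl))))
  (And.intro (Ok.s4 660 (Ok.s1 288 (Ok.s0 64 (Ok.s1 272 (Ok.s3 169 (Ok.lf S140_169_512_660_ok (bl (br (br (br c4)))))
  (Ok.lf S169_198_512_660_ok (bl (br (br c4)))))
  (Ok.out rfl))
  (Ok.s3 169 (Ok.lf S140_169_512_660_ok c8)
  (Ok.lf S169_198_512_660_ok (bl (br c0)))))
  (Ok.s0 64 (Ok.out rfl)
  (Ok.s0 96 (Ok.out rfl)
  (Ok.out rfl))))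
  (Ok.s1 288 (Ok.s3 169 (Ok.lf S140_169_660_808_ok (br c3))
  (Ok.lf S169_198_660_808_ok (bl c3)))
  (Ok.s0 64 (Ok.out rfl)
  (Ok.s0 96 (Ok.out rfl)
  (Ok.out rfl)))))
  (Ok.s1 272 (Ok.s2 192 (Ok.s3 227 (Ok.s0 32 (Ok.lf S198_227_216_364_ok (br (br (br c7))))
  (Ok.lf S198_227_216_364_ok (bl c7)))
  (Ok.s0 32 (Ok.lf S227_256_216_364_ok (bl (br (br c7))))
  (Ok.lf S227_256_216_364_ok (bl (br c7)))))
  (Ok.s0 32 (Ok.out rfl)
  (Ok.s3 227 (Ok.lf S198_227_216_364_ok c5)
  (Ok.lf S227_256_216_364_ok c9))))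
  (Ok.out rfl))))))

end Vale.Agent.P098.Ck
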