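import Vale.Agent.P098.CkGd
import Vale.Agent.P098.CkOk
import Vale.Agent.P098.Sh.A23
import Vale.Agent.P098.Sh.A25
import Vale.Agent.P098.Sh.A26
import Vale.Agent.P098.Sh.A28
import Vale.Agent.P098.Sh.A30
import Vale.Agent.P098.Sh.A31
import Vale.Agent.P098.Sh.A36
import Vale.Agent.P098.Sh.A37

namespace Vale.Agent.P098.Ck

theorem r161 :
    Ok Gd mult 64 128 256 272 128 256 198 227 216 364 ∧
    Ok Gd mult 64 128 256 272 128 256 227 256 216 364 ∧
    Ok Gd mult 64 128 272 288 128 256 198 256 216 364 ∧
    Ok Gd mult 0 128 288 320 128 256 198 256 216 364 ∧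
    Ok Gd mult 0 64 256 288 128 256 198 256 364 512 ∧
    Ok Gd mult 64 128 256 288 128 256 198 227 364 512 :=
  have c0 : (go 16 Gd mult S227_256_216_364 (Tr.lf 17801185320 108231368 903069561053743880427536384) 64 128 272 280 128 256) = true := by decide +kernel
  have c1 : (band (go 16 Gd mult S198_212_216_364 (Tr.lf 17736157256 107965640 151118033303000759412785181) 64 128 256 272 192 256)
  (go 16 Gd mult S198_212_216_364 (Tr.lf 17735107652 108096456 151115727451828646838272000) 64 128 256 272 128 192)) = true := by decide +kernel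
  have c2 : (go 16 Gd mult S227_256_216_364 (Tr.sp 0 96 Tr.skip (Tr.lf 17792796708 99965640 1601826710989383656485683200)) 64 128 280 288 128 256) = true := by decide +kernel
  have c3 : (go 16 Gd mult S198_227_364_512 (Tr.lf 17734076452 104159944 737444749964923796570767360) 64 128 256 264 128 256) = true := by decide +kernel
  have c4 : (band (go 16 Gd mult S198_227_216_364 (Tr.lf 12894897220 95648711 1362459398705687079893860352) 96 128 272 288 192 256)
  (go 16 Gd mult S198_227_216_364 (Tr.lf 12894897188 108231878 903069561102439510966993003) 64 128 272 280 128 192)) = true := by decide +kernel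
  have c5 : (go 16 Gd mult S198_256_216_364 (Tr.sp 0 64 Tr.skip (Tr.lf 13497567300 95119818 79104849645656272424192966523)) 0 128 288 320 128 256) = true := by decide +kernel
  have c6 : (go 16 Gd mult S198_227_216_364 (Tr.lf 12885443624 104029126 1553479491872645702978895872) 64 128 280 288 128 192) = true := by decide +kernel
  have c7 : (go 16 Gd mult S198_227_364_512 (Tr.lf 17725425700 112409288 691505568819567887931932672) 64 128 264 272 128 256) = true := by decide +kernel
  have c8 : (band (go 16 Gd mult S212_227_216_290 (Tr.lf 17197975620 95644616 6050580751807272386667) 64 128 256 272 128 256)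
  (go 16 Gd mult S212_227_290_364 (Tr.lf 13439748132 103902407 259919051217145272561827840) 64 128 256 272 128 256)) = true := by decide +kernel
  have c9 : (band (go 16 Gd mult S198_227_364_512 (Tr.lf 12893571140 103906246 1075943979457019965488496640) 64 128 272 288 128 256)
  (band (go 16 Gd mult S198_227_364_512 (Tr.lf 12893571108 108104518 1259700704038443600043835392) 32 64 256 272 128 256)
  (go 16 Gd mult S227_256_364_512 (Tr.lf 12893570082 103902150 1260909629858058229218541568) 32 64 256 272 128 256))) = true := by decide +kernel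
  have c10 : (band (go 16 Gd mult S227_256_216_364 (Tr.lf 12903270434 108100679 257502952018603016619819037) 64 96 256 272 128 256)
  (go 16 Gd mult S227_256_216_364 (Tr.lf 17801168930 104037064 0) 96 128 256 272 128 256)) = true := by decide +kernel
  have c11 : (go 16 Gd mult S198_227_216_364 (Tr.lf 12894635044 108096710 906712221159235231875596288) 64 96 272 288 192 256) = true := by decide +kernel
  have c12 : (band (go 16 Gd mult S227_256_364_512 (Tr.sp 2 192 (Tr.lf 8590205473 104172612 2699531355199466947118891008) Tr.skip) 0 32 256 272 128 256)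
  (go 16 Gd mult S198_227_364_512 (Tr.sp 2 192 (Tr.lf 8590074402 108235844 2641502915857964746732994560) Tr.skip) 0 32 256 272 128 256)) = true := by decide +kernel
  (And.intro (Ok.s3 212 (Ok.s2 192 (Ok.lf S198_212_216_364_ok (br c1))
  (Ok.lf S198_212_216_364_ok (bl c1)))
  (Ok.s4 290 (Ok.lf S212_227_216_290_ok (bl c8))
  (Ok.lf S212_227_290_364_ok (br c8))))
  (And.intro (Ok.s0 96 (Ok.lf S227_256_216_364_ok (bl c10))
  (Ok.lf S227_256_216_364_ok (br c10)))
  (And.intro (Ok.s3 227 (Ok.s2 192 (Ok.s1 280 (Ok.lf S198_227_216_364_ok (br c4))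
  (Ok.lf S198_227_216_364_ok c6))
  (Ok.s0 96 (Ok.lf S198_227_216_364_ok c11)
  (Ok.lf S198_227_216_364_ok (bl c4))))
  (Ok.s1 280 (Ok.lf S227_256_216_364_ok c0)
  (Ok.lf S227_256_216_364_ok c2)))
  (And.intro (Ok.lf S198_256_216_364_ok c5)
  (And.intro (Ok.s1 272 (Ok.s3 227 (Ok.s0 32 (Ok.lf S198_227_364_512_ok (br c12))
  (Ok.lf S198_227_364_512_ok (bl (br c9))))
  (Ok.s0 32 (Ok.lf S227_256_364_512_ok (bl c12))
  (Ok.lf S227_256_364_512_ok (br (br c9)))))
  (Ok.out rfl))
  (Ok.s1 272 (Ok.s1 264 (Ok.lf S198_227_364_512_ok c3)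
  (Ok.lf S198_227_364_512_ok c7))
  (Ok.lf S198_227_364_512_ok (bl c9))))))))

end Vale.Agent.P098.Ck
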