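import Vale.Agent.P098.CkGd
import Vale.Agent.P098.CkOk
import Vale.Agent.P098.Sh.A27
import Vale.Agent.P098.Sh.A37
import Vale.Agent.P098.Sh.A38
import Vale.Agent.P098.Sh.A41
import Vale.Agent.P098.Sh.A45

namespace Vale.Agent.P098.Ck

theorem r162 :
    Ok Gd mult 64 128 256 288 128 256 227 256 364 512 ∧
    Ok Gd mult 0 128 288 320 128 256 198 256 364 512 ∧
    Ok Gd mult 0 128 256 320 128 256 198 256 512 808 ∧
    Ok Gd mult 0 128 256 320 128 256 256 314 216 364 :=
  have c0 : (go 16 Gd mult S227_256_364_512 (Tr.lf 22641412164 103901642 0) 96 128 256 272 128 256) = true := by decide +kernel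
  have c1 : (go 16 Gd mult S198_227_512_660 (Tr.lf 17734060104 103905864 903067587252127993505513472) 64 128 256 272 128 256) = true := by decide +kernel
  have c2 : (go 16 Gd mult S227_256_512_586 (Tr.lf 17733813384 103647816 1155733083551585491019104256) 64 128 256 288 192 256) = true := by decide +kernel
  have c3 : (band (go 16 Gd mult S256_285_216_364 (Tr.lf 12893833348 104037318 942962139299410756270817280) 64 128 256 288 128 256)
  (go 16 Gd mult S198_227_660_808 (Tr.lf 13430442052 99715910 1043302982327424977771429888) 64 128 256 288 128 256)) = true := by decide +kernel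
  have c4 : (go 16 Gd mult S227_256_364_512 (Tr.lf 22096136260 95504842 1066272572900102932090847232) 96 128 272 288 128 256) = true := by decide +kernel
  have c5 : (go 16 Gd mult S227_256_512_586 (Tr.lf 17733797000 108100423 955051397495557048017879040) 64 128 256 288 128 192) = true := by decide +kernel
  have c6 : (band (go 16 Gd mult S227_256_586_660 (Tr.lf 17733797960 107969096 1028795872492049427674955776) 64 128 256 288 128 256)
  (go 16 Gd mult S227_256_660_808 (Tr.lf 13430704196 99715910 1066272572900102932090847232) 64 128 256 288 128 256)) = true := by decide +kernel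
  have c7 : (go 16 Gd mult S285_314_216_364 (Tr.lf 12893833284 104033222 820860631518333209625493504) 64 128 256 288 128 256) = true := by decide +kernel
  have c8 : (band (go 16 Gd mult S198_227_512_660 (Tr.lf 12893571112 103910214 1410816431490272246882107392) 64 128 272 288 128 256)
  (band (go 16 Gd mult S198_227_512_660 (Tr.lf 12893571108 99576519 2293332279808951544417615872) 0 64 256 272 128 256)
  (band (go 16 Gd mult S227_256_512_660 (Tr.lf 12893571108 99318471 2328391128577775790484094976) 0 64 256 272 128 256)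
  (go 16 Gd mult S285_314_216_364 (Tr.lf 12893570084 107965127 2092650593752923101416390656) 0 64 256 272 128 256)))) = true := by decide +kernel
  have c9 : (band (go 16 Gd mult S227_256_364_512 (Tr.lf 17188538436 99568328 691505568819567887931932672) 64 96 256 272 128 256)
  (go 16 Gd mult S227_256_364_512 (Tr.lf 17188538404 99445320 1002199504460527585831419904) 64 96 272 288 128 256)) = true := by decide +kernel
  have c10 : (band (go 16 Gd mult S198_227_660_808 (Tr.lf 12885181508 95374023 2712829539215227868040658944) 0 64 256 288 128 256)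
  (go 16 Gd mult S227_256_660_808 (Tr.lf 12885181508 99437255 2646338619136423263431819264) 0 64 256 288 128 256)) = true := by decide +kernel
  have c11 : (go 16 Gd mult S256_285_216_364 (Tr.lf 12893561890 108096199 985274542985922777385533440) 32 64 256 272 128 256) = true := by decide +kernel
  have c12 : (go 16 Gd mult S256_285_216_364 (Tr.sp 2 192 (Tr.lf 8590074401 108227780 2382792790460434103345872896) Tr.skip) 0 32 256 272 128 256) = true := by decide +kernel
  (And.intro (Ok.s0 96 (Ok.s1 272 (Ok.lf S227_256_364_512_ok (bl c9))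
  (Ok.lf S227_256_364_512_ok (br c9)))
  (Ok.s1 272 (Ok.lf S227_256_364_512_ok c0)
  (Ok.lf S227_256_364_512_ok c4)))
  (And.intro (Ok.s0 64 (Ok.out rfl)
  (Ok.s0 96 (Ok.out rfl)
  (Ok.out rfl)))
  (And.intro (Ok.s4 660 (Ok.s1 288 (Ok.s0 64 (Ok.s1 272 (Ok.s3 227 (Ok.lf S198_227_512_660_ok (bl (br c8)))
  (Ok.lf S227_256_512_660_ok (bl (br (br c8)))))
  (Ok.out rfl))
  (Ok.s3 227 (Ok.s1 272 (Ok.lf S198_227_512_660_ok c1)
  (Ok.lf S198_227_512_660_ok (bl c8)))
  (Ok.s4 586 (Ok.s2 192 (Ok.lf S227_256_512_586_ok c5)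
  (Ok.lf S227_256_512_586_ok c2))
  (Ok.lf S227_256_586_660_ok (bl c6)))))
  (Ok.s0 64 (Ok.out rfl)
  (Ok.s0 96 (Ok.out rfl)
  (Ok.out rfl))))
  (Ok.s1 288 (Ok.s3 227 (Ok.s0 64 (Ok.lf S198_227_660_808_ok (bl c10))
  (Ok.lf S198_227_660_808_ok (br c3)))
  (Ok.s0 64 (Ok.lf S227_256_660_808_ok (br c10))
  (Ok.lf S227_256_660_808_ok (br c6))))
  (Ok.s0 64 (Ok.out rfl)
  (Ok.s0 96 (Ok.out rfl)
  (Ok.out rfl)))))
  (Ok.s1 288 (Ok.s0 64 (Ok.s1 272 (Ok.s3 285 (Ok.s0 32 (Ok.lf S256_285_216_364_ok c12)
  (Ok.lf S256_285_216_364_ok c11))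
  (Ok.lf S285_314_216_364_ok (br (br (br c8)))))
  (Ok.out rfl))
  (Ok.s3 285 (Ok.lf S256_285_216_364_ok (bl c3))
  (Ok.lf S285_314_216_364_ok c7)))
  (Ok.s0 64 (Ok.out rfl)
  (Ok.s0 96 (Ok.out rfl)
  (Ok.out rfl)))))))

end Vale.Agent.P098.Ck
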