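import Vale.Agent.P098.CkGd
import Vale.Agent.P098.CkOk
import Vale.Agent.P098.Sh.A41
import Vale.Agent.P098.Sh.A42
import Vale.Agent.P098.Sh.A45
import Vale.Agent.P098.Sh.A46

namespace Vale.Agent.P098.Ck

theorem r163 :
    Ok Gd mult 0 64 256 288 128 256 256 314 364 512 ∧
    Ok Gd mult 64 128 256 288 128 256 256 314 364 512 ∧
    Ok Gd mult 0 128 288 320 128 256 256 314 364 512 ∧
    Ok Gd mult 0 128 256 320 128 256 256 314 512 808 :=
  have c0 : (go 16 Gd mult S256_285_364_512 (Tr.lf 22641411204 103770570 851083777008698938993147904) 96 128 256 288 192 256) = true := by decide +kernel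
  have c1 : (go 16 Gd mult S285_314_512_660 (Tr.lf 12893833256 95124167 2092650593752923101416390656) 0 128 256 272 128 256) = true := by decide +kernel
  have c2 : (band (go 16 Gd mult S256_285_512_660 (Tr.lf 12893833256 104037190 1586110675334393477214502912) 64 128 272 288 128 256)
  (go 16 Gd mult S285_314_512_660 (Tr.lf 12893570084 112163654 1650183743773968823473930240) 64 128 272 288 128 256)) = true := by decide +kernel
  have c3 : (band (go 16 Gd mult S256_285_364_512 (Tr.lf 22641394760 107973193 788219634388738221908426752) 64 128 256 272 128 192)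
  (go 16 Gd mult S256_285_364_512 (Tr.lf 13430703236 108227526 863173035204845230740209664) 64 96 256 288 192 256)) = true := by decide +kernel
  have c4 : (band (go 16 Gd mult S256_285_512_586 (Tr.lf 17733797960 107711048 979229913887849631512002560) 64 128 256 272 128 256)
  (go 16 Gd mult S256_285_586_660 (Tr.lf 13430309924 99715910 1046929759786268865295548416) 64 128 256 272 128 256)) = true := by decide +kernel
  have c5 : (go 16 Gd mult S285_314_660_808 (Tr.lf 8590214216 99707845 1958459827775699263024005120) 0 128 256 288 128 256) = true := by decide +kernel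
  have c6 : (band (go 16 Gd mult S256_285_364_512 (Tr.lf 12893571108 103643847 2130127294160976605832282112) 0 64 256 272 128 256)
  (band (go 16 Gd mult S256_285_512_660 (Tr.lf 12893571108 99318471 2633040435120662342510051328) 0 64 256 272 128 256)
  (band (go 16 Gd mult S285_314_364_512 (Tr.lf 12893570084 103512775 2259482356859741927525842944) 0 64 256 272 128 256)
  (go 16 Gd mult S256_285_364_512 (Tr.lf 17188537384 99576647 1050556537245112752819666944) 64 128 272 288 128 192)))) = true := by decide +kernel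
  have c7 : (band (go 16 Gd mult S285_314_364_438 (Tr.lf 12893440068 103910214 919992548726732801951399936) 64 128 256 288 128 256)
  (band (go 16 Gd mult S285_314_438_512 (Tr.lf 12893440068 103779142 997363801182069069132595200) 64 128 256 288 128 256)
  (band (go 16 Gd mult S256_285_660_808 (Tr.lf 12893570116 107969350 1088033237653166257235558400) 64 128 256 288 128 256)
  (go 16 Gd mult S256_285_660_808 (Tr.lf 8590214180 103902149 2312675092922785611212914688) 0 64 256 288 128 256)))) = true := by decide +kernel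
  (And.intro (Ok.s1 272 (Ok.s3 285 (Ok.lf S256_285_364_512_ok (bl c6))
  (Ok.lf S285_314_364_512_ok (bl (br (br c6)))))
  (Ok.out rfl))
  (And.intro (Ok.s3 285 (Ok.s2 192 (Ok.s1 272 (Ok.lf S256_285_364_512_ok (bl c3))
  (Ok.lf S256_285_364_512_ok (br (br (br c6)))))
  (Ok.s0 96 (Ok.lf S256_285_364_512_ok (br c3))
  (Ok.lf S256_285_364_512_ok c0)))
  (Ok.s4 438 (Ok.lf S285_314_364_438_ok (bl c7))
  (Ok.lf S285_314_438_512_ok (bl (br c7)))))
  (And.intro (Ok.s0 64 (Ok.out rfl)
  (Ok.s0 96 (Ok.out rfl)
  (Ok.out rfl)))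
  (Ok.s4 660 (Ok.s1 288 (Ok.s1 272 (Ok.s3 285 (Ok.s0 64 (Ok.lf S256_285_512_660_ok (bl (br c6)))
  (Ok.s4 586 (Ok.lf S256_285_512_586_ok (bl c4))
  (Ok.lf S256_285_586_660_ok (br c4))))
  (Ok.lf S285_314_512_660_ok c1))
  (Ok.s0 64 (Ok.out rfl)
  (Ok.s3 285 (Ok.lf S256_285_512_660_ok (bl c2))
  (Ok.lf S285_314_512_660_ok (br c2)))))
  (Ok.s0 64 (Ok.out rfl)
  (Ok.s0 96 (Ok.out rfl)
  (Ok.out rfl))))
  (Ok.s1 288 (Ok.s3 285 (Ok.s0 64 (Ok.lf S256_285_660_808_ok (br (br (br c7))))
  (Ok.lf S256_285_660_808_ok (bl (br (br c7)))))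
  (Ok.lf S285_314_660_808_ok c5))
  (Ok.s0 64 (Ok.out rfl)
  (Ok.s0 96 (Ok.out rfl)
  (Ok.out rfl))))))))

end Vale.Agent.P098.Ck
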