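import Vale.Agent.P098.CkGd
import Vale.Agent.P098.CkOk
import Vale.Agent.P098.Sh.A47
import Vale.Agent.P098.Sh.A48
import Vale.Agent.P098.Sh.A49
import Vale.Agent.P098.Sh.A50
import Vale.Agent.P098.Sh.A51
import Vale.Agent.P098.Sh.A52

namespace Vale.Agent.P098.Ck

theorem r164 :
    Ok Gd mult 0 128 256 288 128 256 314 372 216 364 ∧
    Ok Gd mult 0 128 288 320 128 256 314 372 216 364 ∧
    Ok Gd mult 0 128 256 320 128 256 314 372 364 512 ∧
    Ok Gd mult 0 128 256 320 128 256 314 372 512 660 ∧
    Ok Gd mult 0 64 256 288 128 256 314 372 660 808 :=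
  have c0 : (band (go 16 Gd mult S343_372_512_660 (Tr.lf 13432554628 103910471 1137623453725822981458886656) 64 128 256 288 192 256)
  (go 16 Gd mult S314_343_512_660 (Tr.lf 12894618180 103648326 1345541041173623558348013597) 64 128 256 288 192 256)) = true := by decide +kernel
  have c1 : (band (go 16 Gd mult S314_372_660_808 (Tr.sp 0 32 Tr.skip (Tr.lf 8591541314 107973701 2819262659281257627186626589)) 0 64 256 272 192 256)
  (go 16 Gd mult S314_372_216_364 (Tr.sp 0 32 Tr.skip (Tr.lf 8598487586 108104645 2163997729951809347387064541)) 0 64 256 272 192 256)) = true := by decide +kernel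
  have c2 : (go 16 Gd mult S343_372_364_512 (Tr.lf 12886231106 99576647 999781652821298327482007552) 64 96 256 288 128 256) = true := by decide +kernel
  have c3 : (band (go 16 Gd mult S314_343_216_364 (Tr.lf 12893570116 107965127 918783622907118172776693760) 64 128 256 288 128 256)
  (band (go 16 Gd mult S314_343_364_512 (Tr.lf 12893570116 103778887 969558507330932598114353152) 64 128 256 288 128 256)
  (go 16 Gd mult S343_372_216_364 (Tr.lf 12885050436 107964999 881306922499064668360802304) 64 128 256 288 128 256))) = true := by decide +kernel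
  have c4 : (band (go 16 Gd mult S314_372_512_660 (Tr.sp 2 192 (Tr.lf 8591279138 103910469 2755145134223657740377194603) Tr.skip) 0 32 256 272 128 256)
  (go 16 Gd mult S314_372_216_364 (Tr.lf 8590230049 112290757 2692277800281779172070653952) 0 32 256 272 128 192)) = true := by decide +kernel
  have c5 : (band (go 16 Gd mult S343_372_364_512 (Tr.lf 12886099010 108223303 697550197917641033805463552) 96 128 256 288 128 256)
  (band (go 16 Gd mult S343_372_364_512 (Tr.lf 12885050402 99437255 1525664384353662018479194112) 32 64 256 272 128 256)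
  (band (go 16 Gd mult S343_372_512_660 (Tr.lf 12886098978 99445575 1561933579349557468239560781) 32 64 256 272 128 256)
  (band (go 16 Gd mult S314_343_364_512 (Tr.lf 12885042210 99437255 1607871340087456802359214080) 32 64 256 272 128 256)
  (band (go 16 Gd mult S314_343_512_660 (Tr.lf 12885042210 99314247 1742062106064680640751599616) 32 64 256 272 128 256)
  (band (go 16 Gd mult S343_372_512_660 (Tr.lf 12886098500 104037318 946588916758254643794935808) 64 128 256 288 128 192)
  (go 16 Gd mult S314_343_512_660 (Tr.lf 12885049924 108100294 1031213724131278686024368128) 64 128 256 288 128 192))))))) = true := by decide +kernel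
  have c6 : (band (go 16 Gd mult S343_372_660_808 (Tr.lf 12886229540 99445575 2472257377869097074872549376) 0 64 256 272 128 192)
  (go 16 Gd mult S314_343_660_808 (Tr.lf 8590074404 108231493 2640295963932290874894647528) 0 64 256 272 128 192)) = true := by decide +kernel
  have c7 : (band (go 16 Gd mult S314_372_216_364 (Tr.sp 1 304 (Tr.sp 0 64 Tr.skip (Tr.lf 8590083092 95247048 79104849645656272424192966523)) Tr.skip) 0 128 288 320 128 256)
  (go 16 Gd mult S314_372_216_364 (Tr.lf 12885049890 99703622 1484560906486764626539184128) 32 64 256 272 128 192)) = true := by decide +kernel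
  have c8 : (go 16 Gd mult S314_372_364_512 (Tr.sp 2 192 (Tr.sp 1 264 (Tr.lf 8590082321 108231493 2671726061348330476100648960) Tr.skip) Tr.skip) 0 32 256 272 128 256) = true := by decide +kernel
  (And.intro (Ok.s0 64 (Ok.s1 272 (Ok.s2 192 (Ok.s0 32 (Ok.lf S314_372_216_364_ok (br c4))
  (Ok.lf S314_372_216_364_ok (br c7)))
  (Ok.lf S314_372_216_364_ok (br c1)))
  (Ok.out rfl))
  (Ok.s3 343 (Ok.lf S314_343_216_364_ok (bl c3))
  (Ok.lf S343_372_216_364_ok (br (br c3)))))
  (And.intro (Ok.lf S314_372_216_364_ok (bl c7))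
  (And.intro (Ok.s1 288 (Ok.s0 64 (Ok.s1 272 (Ok.s0 32 (Ok.lf S314_372_364_512_ok c8)
  (Ok.s3 343 (Ok.lf S314_343_364_512_ok (bl (br (br (br c5)))))
  (Ok.lf S343_372_364_512_ok (bl (br c5)))))
  (Ok.out rfl))
  (Ok.s3 343 (Ok.lf S314_343_364_512_ok (bl (br c3)))
  (Ok.s0 96 (Ok.lf S343_372_364_512_ok c2)
  (Ok.lf S343_372_364_512_ok (bl c5)))))
  (Ok.s0 64 (Ok.out rfl)
  (Ok.s0 96 (Ok.out rfl)
  (Ok.out rfl))))
  (And.intro (Ok.s1 288 (Ok.s0 64 (Ok.s1 272 (Ok.s0 32 (Ok.lf S314_372_512_660_ok (bl c4))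
  (Ok.s3 343 (Ok.lf S314_343_512_660_ok (bl (br (br (br (br c5))))))
  (Ok.lf S343_372_512_660_ok (bl (br (br c5))))))
  (Ok.out rfl))
  (Ok.s2 192 (Ok.s3 343 (Ok.lf S314_343_512_660_ok (br (br (br (br (br (br c5)))))))
  (Ok.lf S343_372_512_660_ok (bl (br (br (br (br (br c5))))))))
  (Ok.s3 343 (Ok.lf S314_343_512_660_ok (br c0))
  (Ok.lf S343_372_512_660_ok (bl c0)))))
  (Ok.s1 304 (Ok.s0 64 (Ok.out rfl)
  (Ok.s0 96 (Ok.out rfl)
  (Ok.out rfl)))
  (Ok.out rfl)))
  (Ok.s1 272 (Ok.s2 192 (Ok.s3 343 (Ok.lf S314_343_660_808_ok (br c6))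
  (Ok.lf S343_372_660_808_ok (bl c6)))
  (Ok.lf S314_372_660_808_ok (bl c1)))
  (Ok.out rfl))))))

end Vale.Agent.P098.Ck
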