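import Vale.Agent.P098.CkGd
import Vale.Agent.P098.CkOk
import Vale.Agent.P098.Sh.A49
import Vale.Agent.P098.Sh.A52
import Vale.Agent.P098.Sh.A54
import Vale.Agent.P098.Sh.A55
import Vale.Agent.P098.Sh.A56

namespace Vale.Agent.P098.Ck

theorem r165 :
    Ok Gd mult 64 128 256 288 128 256 314 372 660 808 ∧
    Ok Gd mult 0 128 288 320 128 256 314 372 660 808 ∧
    Ok Gd mult 0 128 256 320 128 256 372 430 216 512 ∧
    Ok Gd mult 0 64 256 288 128 256 372 430 512 660 :=
  have c0 : (band (go 16 Gd mult S343_372_660_808 (Tr.lf 13432555556 99847239 947797842577869272969641984) 64 128 256 272 128 256)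
  (go 16 Gd mult S343_372_660_808 (Tr.lf 13423117346 103897927 2531549548280116772723490816) 64 96 272 288 192 256)) = true := by decide +kernel
  have c1 : (band (go 16 Gd mult S372_430_216_364 (Tr.lf 8590099528 94984777 79104849645656272424192966523) 0 128 288 320 128 256)
  (go 16 Gd mult S372_430_216_364 (Tr.sp 1 272 (Tr.sp 0 16 Tr.skip (Tr.sp 2 192 (Tr.lf 8591148065 108231749 2028742383873297396300316701) Tr.skip)) Tr.skip) 0 32 256 288 128 256)) = true := by decide +kernel
  have c2 : (band (go 16 Gd mult S372_430_364_512 (Tr.lf 18264261764 107973321 930872881103264464523755520) 64 128 256 288 128 192)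
  (band (go 16 Gd mult S372_430_364_512 (Tr.sp 1 264 (Tr.lf 4834099730 91458375 758043251394599346256019456) Tr.skip) 32 64 256 272 192 256)
  (go 16 Gd mult S372_430_512_660 (Tr.sp 1 264 (Tr.lf 9129067025 95652679 788280840685574790200688640) Tr.skip) 32 64 256 272 192 256))) = true := by decide +kernel
  have c3 : (band (go 16 Gd mult S314_343_660_808 (Tr.lf 12894619716 103906374 1067495942520327275844468736) 64 128 256 288 128 256)
  (band (go 16 Gd mult S401_430_216_364 (Tr.lf 18264246340 107965257 936917510201337610397286400) 64 128 256 288 128 256)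
  (go 16 Gd mult S372_401_216_364 (Tr.lf 13422969924 104033095 805144595863343030354313216) 64 128 256 288 128 256))) = true := by decide +kernel
  have c4 : (band (go 16 Gd mult S343_372_660_808 (Tr.lf 12886230052 112294854 1520830101474497177415843840) 64 128 272 288 128 192)
  (go 16 Gd mult S343_372_660_808 (Tr.lf 13431489570 104045510 1062663651889522395412692992) 96 128 272 288 192 256)) = true := by decide +kernel
  have c5 : (band (go 16 Gd mult S372_401_364_512 (Tr.lf 9137439812 99716167 841412905456055338699391005) 64 128 256 288 192 256)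
  (go 16 Gd mult S401_430_364_512 (Tr.lf 13423952452 112290887 865590886844074489089622016) 64 128 256 288 192 256)) = true := by decide +kernel
  have c6 : (band (go 16 Gd mult S372_430_364_512 (Tr.sp 0 64 Tr.skip (Tr.lf 8590017604 95120072 79104849645656272424192966523)) 0 128 288 320 128 256)
  (band (go 16 Gd mult S372_430_364_512 (Tr.lf 8591065634 103910469 1072317201998176077964378112) 32 64 256 272 128 192)
  (band (go 16 Gd mult S372_430_512_660 (Tr.lf 12886049314 103766855 1103750693737571297619804315) 32 64 256 272 128 192)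
  (band (go 16 Gd mult S372_430_512_660 (Tr.sp 0 16 Tr.skip (Tr.sp 2 192 (Tr.sp 1 264 (Tr.lf 8591082001 108231749 2400966264475598620544794653) Tr.skip) Tr.skip)) 0 32 256 272 128 256)
  (go 16 Gd mult S372_430_364_512 (Tr.sp 0 16 Tr.skip (Tr.sp 2 192 (Tr.sp 1 264 (Tr.lf 8591082001 108231749 2284897469187759704522096640) Tr.skip) Tr.skip)) 0 32 256 272 128 256))))) = true := by decide +kernel
  have c7 : (band (go 16 Gd mult S372_430_216_364 (Tr.lf 8591131681 108104518 678207384803806967010164736) 48 64 256 272 128 256)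
  (go 16 Gd mult S372_430_216_364 (Tr.lf 9129050657 103902151 925106262885126195302629376) 32 48 256 272 192 256)) = true := by decide +kernel
  have c8 : (go 16 Gd mult S372_430_216_364 (Tr.lf 8591065617 108231749 1114629605684688099079094272) 32 48 256 272 128 192) = true := by decide +kernel
  (And.intro (Ok.s3 343 (Ok.lf S314_343_660_808_ok (bl c3))
  (Ok.s1 272 (Ok.lf S343_372_660_808_ok (bl c0))
  (Ok.s2 192 (Ok.lf S343_372_660_808_ok (bl c4))
  (Ok.s0 96 (Ok.lf S343_372_660_808_ok (br c0))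
  (Ok.lf S343_372_660_808_ok (br c4))))))
  (And.intro (Ok.s2 192 (Ok.s0 64 (Ok.out rfl)
  (Ok.s0 96 (Ok.out rfl)
  (Ok.out rfl)))
  (Ok.out rfl))
  (And.intro (Ok.s4 364 (Ok.s1 288 (Ok.s0 64 (Ok.s0 32 (Ok.lf S372_430_216_364_ok (br c1))
  (Ok.s1 272 (Ok.s0 48 (Ok.s2 192 (Ok.lf S372_430_216_364_ok c8)
  (Ok.lf S372_430_216_364_ok (br c7)))
  (Ok.lf S372_430_216_364_ok (bl c7)))
  (Ok.out rfl)))
  (Ok.s3 401 (Ok.lf S372_401_216_364_ok (br (br c3)))
  (Ok.lf S401_430_216_364_ok (bl (br c3)))))
  (Ok.lf S372_430_216_364_ok (bl c1)))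
  (Ok.s1 288 (Ok.s0 64 (Ok.s1 272 (Ok.s0 32 (Ok.lf S372_430_364_512_ok (br (br (br (br c6)))))
  (Ok.s2 192 (Ok.lf S372_430_364_512_ok (bl (br c6)))
  (Ok.lf S372_430_364_512_ok (bl (br c2)))))
  (Ok.out rfl))
  (Ok.s2 192 (Ok.lf S372_430_364_512_ok (bl c2))
  (Ok.s3 401 (Ok.lf S372_401_364_512_ok (bl c5))
  (Ok.lf S401_430_364_512_ok (br c5)))))
  (Ok.lf S372_430_364_512_ok (bl c6))))
  (Ok.s1 272 (Ok.s0 32 (Ok.lf S372_430_512_660_ok (bl (br (br (br c6)))))
  (Ok.s2 192 (Ok.lf S372_430_512_660_ok (bl (br (br c6))))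
  (Ok.lf S372_430_512_660_ok (br (br c2)))))
  (Ok.out rfl)))))

end Vale.Agent.P098.Ck
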