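import Vale.Agent.P098.CkGd
import Vale.Agent.P098.CkOk
import Vale.Agent.P098.Sh.A54
import Vale.Agent.P098.Sh.A55
import Vale.Agent.P098.Sh.A57
import Vale.Agent.P098.Sh.A58

namespace Vale.Agent.P098.Ck

theorem r166 :
    Ok Gd mult 64 128 256 288 128 256 372 430 512 660 ∧
    Ok Gd mult 0 128 288 320 128 256 372 430 512 660 ∧
    Ok Gd mult 0 128 256 320 128 256 372 430 660 808 ∧
    Ok Gd mult 0 128 256 288 128 256 430 488 216 364 :=
  have c0 : (go 16 Gd mult S430_488_216_364 (Tr.lf 18256922760 107965130 0) 64 128 256 272 128 256) = true := by decide +kernel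
  have c1 : (band (go 16 Gd mult S372_430_660_808 (Tr.lf 13432555592 103910471 697550197917641033805463552) 64 128 256 272 192 256)
  (go 16 Gd mult S372_430_660_808 (Tr.lf 13432554564 104041543 1121896165587346565621547103) 96 128 272 288 192 256)) = true := by decide +kernel
  have c2 : (band (go 16 Gd mult S372_430_660_808 (Tr.lf 18264392836 107973321 905485438891357251854925824) 64 128 256 288 128 192)
  (go 16 Gd mult S372_430_660_808 (Tr.sp 1 280 (Tr.lf 13423117346 108100295 915174148494215424811991040) Tr.skip) 64 96 272 288 192 256)) = true := by decide +kernel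
  have c3 : (band (go 16 Gd mult S372_430_660_808 (Tr.sp 1 304 (Tr.lf 8590100520 95120072 79104849645656272424192966523) Tr.skip) 0 128 288 320 128 256)
  (band (go 16 Gd mult S372_430_512_660 (Tr.sp 1 304 (Tr.lf 8590099496 95120072 79104849645656272424192966523) Tr.skip) 0 128 288 320 128 256)
  (band (go 16 Gd mult S372_430_660_808 (Tr.lf 12886114834 99703623 728982269227621392347824128) 32 64 256 264 128 192)
  (band (go 16 Gd mult S372_430_660_808 (Tr.lf 4834099730 87264071 818508616321932469127151645) 32 64 256 264 192 256)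
  (band (go 16 Gd mult S372_430_660_808 (Tr.sp 2 192 (Tr.lf 12886114834 99838663 1335863897671136702399250432) Tr.skip) 32 64 264 272 128 256)
  (go 16 Gd mult S372_430_660_808 (Tr.sp 0 16 Tr.skip (Tr.sp 2 192 (Tr.sp 1 264 (Tr.lf 8591147537 108231749 2399763407626621342932008960) Tr.skip) Tr.skip)) 0 32 256 272 128 256)))))) = true := by decide +kernel
  have c4 : (band (go 16 Gd mult S430_488_216_364 (Tr.lf 8591083560 112433990 1601826710989383656485683200) 64 128 280 288 128 256)
  (band (go 16 Gd mult S430_488_216_364 (Tr.lf 12886050852 99838536 903067587252127993505513472) 64 128 272 280 128 256)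
  (band (go 16 Gd mult S430_488_216_364 (Tr.lf 4835083298 91327304 349497676384161242210435101) 32 64 256 272 192 256)
  (go 16 Gd mult S430_488_216_364 (Tr.sp 1 272 (Tr.sp 0 16 Tr.skip (Tr.sp 2 192 (Tr.lf 13423968801 107965383 2512268494865441485507002368) Tr.skip)) Tr.skip) 0 32 256 288 128 256)))) = true := by decide +kernel
  have c5 : (band (go 16 Gd mult S372_401_512_660 (Tr.lf 12886100098 103902023 773712524553362671811952640) 96 128 256 288 128 256)
  (go 16 Gd mult S401_430_512_660 (Tr.lf 18264180802 107965257 951424620036713160493760512) 96 128 256 288 128 256)) = true := by decide +kernel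
  have c6 : (go 16 Gd mult S401_430_512_660 (Tr.lf 13424019586 99707975 936928744268478499514220544) 64 96 256 288 128 256) = true := by decide +kernel
  have c7 : (go 16 Gd mult S372_401_512_660 (Tr.lf 13432423490 99843143 877719731753002961534451712) 64 96 256 288 192 256) = true := by decide +kernel
  have c8 : (go 16 Gd mult S372_401_512_660 (Tr.lf 12886090306 103906246 877680145040220780836683776) 64 96 256 288 128 192) = true := by decide +kernel
  have c9 : (go 16 Gd mult S430_488_216_364 (Tr.lf 12886032929 99838663 565777283579646453762490368) 32 64 256 272 128 192) = true := by decide +kernel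
  (And.intro (Ok.s3 401 (Ok.s0 96 (Ok.s2 192 (Ok.lf S372_401_512_660_ok c8)
  (Ok.lf S372_401_512_660_ok c7))
  (Ok.lf S372_401_512_660_ok (bl c5)))
  (Ok.s0 96 (Ok.lf S401_430_512_660_ok c6)
  (Ok.lf S401_430_512_660_ok (br c5))))
  (And.intro (Ok.lf S372_430_512_660_ok (bl (br c3)))
  (And.intro (Ok.s1 288 (Ok.s0 64 (Ok.s1 272 (Ok.s0 32 (Ok.lf S372_430_660_808_ok (br (br (br (br (br c3))))))
  (Ok.s1 264 (Ok.s2 192 (Ok.lf S372_430_660_808_ok (bl (br (br c3))))
  (Ok.lf S372_430_660_808_ok (bl (br (br (br c3))))))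
  (Ok.lf S372_430_660_808_ok (bl (br (br (br (br c3))))))))
  (Ok.out rfl))
  (Ok.s2 192 (Ok.lf S372_430_660_808_ok (bl c2))
  (Ok.s1 272 (Ok.lf S372_430_660_808_ok (bl c1))
  (Ok.s0 96 (Ok.lf S372_430_660_808_ok (br c2))
  (Ok.lf S372_430_660_808_ok (br c1))))))
  (Ok.lf S372_430_660_808_ok (bl c3)))
  (Ok.s0 64 (Ok.s0 32 (Ok.lf S430_488_216_364_ok (br (br (br c4))))
  (Ok.s1 272 (Ok.s2 192 (Ok.lf S430_488_216_364_ok c9)
  (Ok.lf S430_488_216_364_ok (bl (br (br c4)))))
  (Ok.out rfl)))
  (Ok.s1 272 (Ok.lf S430_488_216_364_ok c0)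
  (Ok.s1 280 (Ok.lf S430_488_216_364_ok (bl (br c4)))
  (Ok.lf S430_488_216_364_ok (bl c4))))))))

end Vale.Agent.P098.Ck
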