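import Vale.Agent.P098.CkGd
import Vale.Agent.P098.CkOk
import Vale.Agent.P098.Sh.A58
import Vale.Agent.P098.Sh.A59

namespace Vale.Agent.P098.Ck

theorem r167 :
    Ok Gd mult 0 128 288 320 128 256 430 488 216 364 ∧
    Ok Gd mult 0 128 256 320 128 256 430 488 364 512 ∧
    Ok Gd mult 0 128 256 320 128 256 430 488 512 808 :=
  have c0 : (band (go 16 Gd mult S430_488_660_808 (Tr.lf 12886116392 99838536 903067587252127993505513472) 64 128 272 280 128 256)
  (band (go 16 Gd mult S430_488_512_660 (Tr.lf 12886050852 99838536 903067587252127993505513472) 64 128 272 280 128 256)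
  (band (go 16 Gd mult S430_488_364_512 (Tr.lf 12886050852 99838536 903067587252127993505513472) 64 128 272 280 128 256)
  (band (go 16 Gd mult S430_488_660_808 (Tr.lf 18265311300 103779018 0) 64 128 256 272 128 256)
  (go 16 Gd mult S430_488_512_660 (Tr.sp 0 16 Tr.skip (Tr.sp 2 192 (Tr.lf 13423969313 107965128 2419245936380069685871247360) Tr.skip)) 0 32 256 272 128 256))))) = true := by decide +kernel
  have c1 : (band (go 16 Gd mult S430_488_512_660 (Tr.lf 8591083560 112433990 1601826710989383656485683200) 64 128 280 288 128 256)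
  (band (go 16 Gd mult S430_488_660_808 (Tr.lf 8591083560 112433990 1601826710989383656485683200) 64 128 280 288 128 256)
  (band (go 16 Gd mult S430_488_364_512 (Tr.lf 8591083556 112433990 1601826710989383656485683200) 64 128 280 288 128 256)
  (band (go 16 Gd mult S430_488_364_512 (Tr.lf 18256857156 103770826 0) 64 128 256 272 128 256)
  (go 16 Gd mult S430_488_660_808 (Tr.lf 12886050834 103774664 547643396293589915022458909) 32 64 256 264 128 256))))) = true := by decide +kernel
  have c2 : (band (go 16 Gd mult S430_488_512_660 (Tr.lf 18265245764 103779018 0) 64 128 256 272 128 256)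
  (band (go 16 Gd mult S430_488_512_660 (Tr.lf 13423969314 99572552 349557111788500060248997888) 32 64 256 272 192 256)
  (band (go 16 Gd mult S430_488_364_512 (Tr.lf 13423968802 99572552 349528002826351746576547840) 32 64 256 272 192 256)
  (go 16 Gd mult S430_488_364_512 (Tr.sp 1 272 (Tr.sp 0 16 Tr.skip (Tr.sp 2 192 (Tr.lf 13423968801 107965128 2463943227374151246366638080) Tr.skip)) Tr.skip) 0 32 256 288 128 256)))) = true := by decide +kernel
  have c3 : (band (go 16 Gd mult S430_488_660_808 (Tr.lf 8590017608 90790473 79104849645656272424192966523) 0 128 288 320 128 256)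
  (band (go 16 Gd mult S430_488_216_364 (Tr.lf 8590017604 90790473 79104849645656272424192966523) 0 128 288 320 128 256)
  (band (go 16 Gd mult S430_488_364_512 (Tr.lf 8590017604 90790473 79104849645656272424192966523) 0 128 288 320 128 256)
  (band (go 16 Gd mult S430_488_512_660 (Tr.lf 8590017604 90790473 79104849645656272424192966523) 0 128 288 320 128 256)
  (band (go 16 Gd mult S430_488_364_512 (Tr.lf 12886032929 99838663 565777283579646453762490368) 32 64 256 272 128 192)
  (band (go 16 Gd mult S430_488_512_660 (Tr.lf 12886032929 95644359 565777283579646453762490368) 32 64 256 272 128 192)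
  (band (go 16 Gd mult S430_488_660_808 (Tr.sp 1 264 (Tr.sp 2 192 (Tr.sp 0 16 Tr.skip (Tr.lf 8591065617 108235717 2399721828665479201602666525)) Tr.skip) Tr.skip) 0 32 256 272 128 256)
  (go 16 Gd mult S430_488_660_808 (Tr.sp 2 192 (Tr.lf 8591065617 104045509 2188155733502478806218178560) Tr.skip) 32 64 264 272 128 256)))))))) = true := by decide +kernel
  (And.intro (Ok.lf S430_488_216_364_ok (bl (br c3)))
  (And.intro (Ok.s1 288 (Ok.s0 64 (Ok.s0 32 (Ok.lf S430_488_364_512_ok (br (br (br c2))))
  (Ok.s1 272 (Ok.s2 192 (Ok.lf S430_488_364_512_ok (bl (br (br (br (br c3))))))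
  (Ok.lf S430_488_364_512_ok (bl (br (br c2)))))
  (Ok.out rfl)))
  (Ok.s1 272 (Ok.lf S430_488_364_512_ok (bl (br (br (br c1)))))
  (Ok.s1 280 (Ok.lf S430_488_364_512_ok (bl (br (br c0))))
  (Ok.lf S430_488_364_512_ok (bl (br (br c1)))))))
  (Ok.lf S430_488_364_512_ok (bl (br (br c3)))))
  (Ok.s4 660 (Ok.s1 288 (Ok.s0 64 (Ok.s1 272 (Ok.s0 32 (Ok.lf S430_488_512_660_ok (br (br (br (br c0)))))
  (Ok.s2 192 (Ok.lf S430_488_512_660_ok (bl (br (br (br (br (br c3)))))))
  (Ok.lf S430_488_512_660_ok (bl (br c2)))))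
  (Ok.out rfl))
  (Ok.s1 272 (Ok.lf S430_488_512_660_ok (bl c2))
  (Ok.s1 280 (Ok.lf S430_488_512_660_ok (bl (br c0)))
  (Ok.lf S430_488_512_660_ok (bl c1)))))
  (Ok.lf S430_488_512_660_ok (bl (br (br (br c3))))))
  (Ok.s1 288 (Ok.s0 64 (Ok.s1 272 (Ok.s0 32 (Ok.lf S430_488_660_808_ok (bl (br (br (br (br (br (br c3))))))))
  (Ok.s1 264 (Ok.lf S430_488_660_808_ok (br (br (br (br c1)))))
  (Ok.lf S430_488_660_808_ok (br (br (br (br (br (br (br c3))))))))))
  (Ok.out rfl))
  (Ok.s1 272 (Ok.lf S430_488_660_808_ok (bl (br (br (br c0)))))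
  (Ok.s1 280 (Ok.lf S430_488_660_808_ok (bl c0))
  (Ok.lf S430_488_660_808_ok (bl (br c1))))))
  (Ok.lf S430_488_660_808_ok (bl c3))))))

end Vale.Agent.P098.Ck
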