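import Vale.Agent.P098.CkGd
import Vale.Agent.P098.CkOk
import Vale.Agent.P098.Sh.A0
import Vale.Agent.P098.Sh.A1
import Vale.Agent.P098.Sh.A11
import Vale.Agent.P098.Sh.A14
import Vale.Agent.P098.Sh.A18
import Vale.Agent.P098.Sh.A2
import Vale.Agent.P098.Sh.A20
import Vale.Agent.P098.Sh.A4
import Vale.Agent.P098.Sh.A5
import Vale.Agent.P098.Sh.A8
import Vale.Agent.P098.Sh.A9

namespace Vale.Agent.P098.Ck

theorem r168 :
    Ok Gd mult 0 128 256 320 256 384 24 82 216 808 ∧
    Ok Gd mult 0 128 256 320 256 384 82 140 216 808 ∧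
    Ok Gd mult 0 128 256 320 256 384 140 198 216 512 :=
  have c0 : (band (go 16 Gd mult S183_198_216_364 (Tr.lf 17199286344 95251401 1408399446905154075020427311) 64 128 256 272 256 320)
  (band (go 16 Gd mult S169_183_216_364 (Tr.lf 13441188900 112168135 2061218522442942742874030080) 64 128 256 272 256 320)
  (go 16 Gd mult S140_169_216_364 (Tr.lf 13431489572 107834311 2466208672013843516400599040) 64 128 256 272 256 320))) = true := by decide +kernel
  have c1 : (band (go 16 Gd mult S24_82_512_660 (Tr.sp 1 288 (Tr.sp 0 64 Tr.skip (Tr.lf 539134084 91454661 2357539013364247888973725725)) Tr.skip) 0 128 256 320 256 384)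
  (band (go 16 Gd mult S24_82_660_808 (Tr.sp 1 288 (Tr.sp 0 64 Tr.skip (Tr.lf 539134084 91454661 2336991019119846031487860736)) Tr.skip) 0 128 256 320 256 384)
  (go 16 Gd mult S24_82_216_364 (Tr.sp 1 288 (Tr.sp 0 64 Tr.skip (Tr.lf 9129002052 103771206 2388967321560392258945875997)) Tr.skip) 0 128 256 320 256 384))) = true := by decide +kernel
  have c2 : (band (go 16 Gd mult S111_140_216_364 (Tr.lf 13432555588 103635912 2902713146926549319360184320) 64 128 256 288 256 384)
  (band (go 16 Gd mult S82_111_216_364 (Tr.lf 9129052228 108096582 2770966500765345025626013696) 64 128 256 288 256 384)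
  (go 16 Gd mult S24_82_364_512 (Tr.sp 1 288 (Tr.sp 0 64 Tr.skip (Tr.lf 9129002052 107965510 2379297353841068725591932957)) Tr.skip) 0 128 256 320 256 384))) = true := by decide +kernel
  have c3 : (band (go 16 Gd mult S169_198_364_512 (Tr.lf 13439894660 108096583 2044293560968337934428143616) 64 128 256 288 256 320)
  (band (go 16 Gd mult S82_140_364_512 (Tr.sp 0 64 Tr.skip (Tr.lf 9136407620 108108869 2913511225271256311041884160)) 0 128 256 288 256 320)
  (band (go 16 Gd mult S140_169_364_512 (Tr.lf 13431358532 107834311 2617324399465672163238871040) 64 128 256 288 256 320)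
  (go 16 Gd mult S82_140_512_660 (Tr.lf 9128018466 103906373 2909884447812412423517765632) 64 128 256 288 256 320)))) = true := by decide +kernel
  have c4 : (band (go 16 Gd mult S140_198_216_364 (Tr.sp 0 96 Tr.skip (Tr.lf 8599668772 104041414 2353875619118528601218088960)) 64 128 256 272 320 384)
  (band (go 16 Gd mult S140_198_364_512 (Tr.sp 1 272 (Tr.sp 0 96 Tr.skip (Tr.lf 8599667746 104041414 2913568686892396371165118511)) Tr.skip) 64 128 256 288 320 384)
  (go 16 Gd mult S140_198_216_364 (Tr.sp 2 320 (Tr.sp 0 96 Tr.skip (Tr.lf 8599667746 108108997 1663554386600451275514445824)) Tr.skip) 64 128 272 288 256 384))) = true := by decide +kernel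
  have c5 : (band (go 16 Gd mult S82_140_364_512 (Tr.sp 0 64 Tr.skip (Tr.lf 9136538692 103647943 4834750743934782558707908608)) 0 128 256 288 320 384)
  (go 16 Gd mult S82_140_512_660 (Tr.lf 9136407620 103647943 4855351016251889184508215296) 64 128 256 288 320 384)) = true := by decide +kernel
  have c6 : (band (go 16 Gd mult S82_140_660_808 (Tr.lf 9128018978 103906118 2866385604887311625171763200) 64 128 256 272 256 384)
  (go 16 Gd mult S82_140_660_808 (Tr.lf 8591148066 95115848 3321987957067714477262962717) 64 128 272 288 256 384)) = true := by decide +kernel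
  (And.intro (Ok.s4 512 (Ok.s4 364 (Ok.lf S24_82_216_364_ok (br (br c1)))
  (Ok.lf S24_82_364_512_ok (br (br c2))))
  (Ok.s4 660 (Ok.lf S24_82_512_660_ok (bl c1))
  (Ok.lf S24_82_660_808_ok (bl (br c1)))))
  (And.intro (Ok.s4 512 (Ok.s4 364 (Ok.s1 288 (Ok.s0 64 (Ok.out rfl)
  (Ok.s3 111 (Ok.lf S82_111_216_364_ok (bl (br c2)))
  (Ok.lf S111_140_216_364_ok (bl c2))))
  (Ok.out rfl))
  (Ok.s1 288 (Ok.s2 320 (Ok.lf S82_140_364_512_ok (bl (br c3)))
  (Ok.lf S82_140_364_512_ok (bl c5)))
  (Ok.out rfl)))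
  (Ok.s4 660 (Ok.s1 288 (Ok.s0 64 (Ok.out rfl)
  (Ok.s2 320 (Ok.lf S82_140_512_660_ok (br (br (br c3))))
  (Ok.lf S82_140_512_660_ok (br c5))))
  (Ok.out rfl))
  (Ok.s1 288 (Ok.s0 64 (Ok.out rfl)
  (Ok.s1 272 (Ok.lf S82_140_660_808_ok (bl c6))
  (Ok.lf S82_140_660_808_ok (br c6))))
  (Ok.out rfl))))
  (Ok.s4 364 (Ok.s1 288 (Ok.s0 64 (Ok.out rfl)
  (Ok.s1 272 (Ok.s2 320 (Ok.s3 169 (Ok.lf S140_169_216_364_ok (br (br c0)))
  (Ok.s3 183 (Ok.lf S169_183_216_364_ok (bl (br c0)))
  (Ok.lf S183_198_216_364_ok (bl c0))))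
  (Ok.lf S140_198_216_364_ok (bl c4)))
  (Ok.lf S140_198_216_364_ok (br (br c4)))))
  (Ok.out rfl))
  (Ok.s1 288 (Ok.s0 64 (Ok.out rfl)
  (Ok.s2 320 (Ok.s3 169 (Ok.lf S140_169_364_512_ok (bl (br (br c3))))
  (Ok.lf S169_198_364_512_ok (bl c3)))
  (Ok.lf S140_198_364_512_ok (bl (br c4)))))
  (Ok.out rfl)))))

end Vale.Agent.P098.Ck
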