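import Vale.Agent.P098.CkGd
import Vale.Agent.P098.CkOk
import Vale.Agent.P098.Sh.A10
import Vale.Agent.P098.Sh.A11
import Vale.Agent.P098.Sh.A19
import Vale.Agent.P098.Sh.A25
import Vale.Agent.P098.Sh.A26
import Vale.Agent.P098.Sh.A36
import Vale.Agent.P098.Sh.A37

namespace Vale.Agent.P098.Ck

theorem r169 :
    Ok Gd mult 0 128 256 320 256 384 140 198 512 660 ∧
    Ok Gd mult 0 128 256 320 256 384 140 198 660 808 ∧
    Ok Gd mult 0 128 256 320 256 384 198 256 216 512 :=
  have c0 : (go 16 Gd mult S198_227_216_290 (Tr.lf 17744561224 103771209 772511088111841968715202560) 64 128 256 272 256 288) = true := by decide +kernel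
  have c1 : (go 16 Gd mult S227_256_364_512 (Tr.lf 17734075524 95381961 958678174954400935541997568) 96 128 256 288 256 320) = true := by decide +kernel
  have c2 : (go 16 Gd mult S140_169_660_808 (Tr.lf 13431507012 103639752 2914771875761253621799321600) 64 128 256 288 256 384) = true := by decide +kernel
  have c3 : (band (go 16 Gd mult S198_227_290_364 (Tr.lf 17735911492 99576777 1059019017982415157042610176) 64 128 256 272 256 320)
  (band (go 16 Gd mult S227_256_216_290 (Tr.lf 12901975076 99838791 772517489132035545929613312) 64 128 256 272 256 320)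
  (go 16 Gd mult S227_256_290_364 (Tr.lf 13438829604 108227399 1059019017982415157042610176) 64 128 256 272 256 320))) = true := by decide +kernel
  have c4 : (go 16 Gd mult S198_227_364_512 (Tr.lf 13440156740 99716039 1694913999099710102938058752) 64 96 256 288 256 320) = true := by decide +kernel
  have c5 : (go 16 Gd mult S198_227_364_512 (Tr.lf 17733813380 103639497 958678174954400935541997568) 96 128 256 288 256 320) = true := by decide +kernel
  have c6 : (go 16 Gd mult S140_198_512_660 (Tr.sp 1 272 (Tr.lf 8599667780 104168390 4291686659631933570206924800) Tr.skip) 64 128 256 288 320 384) = true := by decide +kernel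
  have c7 : (go 16 Gd mult S198_227_216_290 (Tr.lf 13439894084 112290887 791881036386208462260928512) 64 128 256 272 288 320) = true := by decide +kernel
  have c8 : (band (go 16 Gd mult S169_198_512_660 (Tr.lf 13431489092 107965383 2692277800281779172070653952) 64 128 256 288 256 320)
  (band (go 16 Gd mult S169_198_660_808 (Tr.lf 13430432324 103905863 2915929076910485569391296512) 64 128 256 288 256 320)
  (go 16 Gd mult S140_169_512_660 (Tr.lf 9136390722 104041669 2843393527733607818908925952) 64 128 256 288 256 320))) = true := by decide +kernel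
  have c9 : (go 16 Gd mult S169_198_660_808 (Tr.lf 8598602818 99715782 4841824996508236775794999325) 64 128 256 288 320 384) = true := by decide +kernel
  have c10 : (band (go 16 Gd mult S227_256_364_512 (Tr.lf 12893570114 95381960 2636667212579506230034169856) 96 128 256 288 320 384)
  (band (go 16 Gd mult S198_227_364_512 (Tr.lf 8598602786 104041158 2636667212579506230034169856) 96 128 256 288 320 384)
  (go 16 Gd mult S227_256_364_512 (Tr.sp 1 272 (Tr.lf 12893570082 99576519 1694913999099710102938058752) Tr.skip) 64 96 256 288 256 320))) = true := by decide +kernel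
  have c11 : (band (go 16 Gd mult S227_256_216_364 (Tr.sp 0 96 Tr.skip (Tr.lf 12893570082 99576264 1788037682636093978335772672)) 64 128 256 272 320 384)
  (band (go 16 Gd mult S198_227_216_364 (Tr.sp 0 96 Tr.skip (Tr.lf 8598602785 108235462 1789270533882772208798924800)) 64 128 256 272 320 384)
  (band (go 16 Gd mult S198_227_216_364 (Tr.sp 2 320 (Tr.lf 8598602258 108231749 1732445836825799925203730432) Tr.skip) 96 128 272 288 256 384)
  (go 16 Gd mult S227_256_216_364 (Tr.sp 2 320 (Tr.lf 12893569554 95644359 1732390699507763607353950208) Tr.skip) 96 128 272 288 256 384)))) = true := by decide +kernel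
  (And.intro (Ok.s1 288 (Ok.s0 64 (Ok.out rfl)
  (Ok.s2 320 (Ok.s3 169 (Ok.lf S140_169_512_660_ok (br (br c8)))
  (Ok.lf S169_198_512_660_ok (bl c8)))
  (Ok.lf S140_198_512_660_ok c6)))
  (Ok.out rfl))
  (And.intro (Ok.s1 288 (Ok.s0 64 (Ok.out rfl)
  (Ok.s3 169 (Ok.lf S140_169_660_808_ok c2)
  (Ok.s2 320 (Ok.lf S169_198_660_808_ok (bl (br c8)))
  (Ok.lf S169_198_660_808_ok c9))))
  (Ok.out rfl))
  (Ok.s4 364 (Ok.s1 288 (Ok.s0 64 (Ok.out rfl)
  (Ok.s1 272 (Ok.s2 320 (Ok.s4 290 (Ok.s3 227 (Ok.s2 288 (Ok.lf S198_227_216_290_ok c0)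
  (Ok.lf S198_227_216_290_ok c7))
  (Ok.lf S227_256_216_290_ok (bl (br c3))))
  (Ok.s3 227 (Ok.lf S198_227_290_364_ok (bl c3))
  (Ok.lf S227_256_290_364_ok (br (br c3)))))
  (Ok.s3 227 (Ok.lf S198_227_216_364_ok (bl (br c11)))
  (Ok.lf S227_256_216_364_ok (bl c11))))
  (Ok.s0 96 (Ok.out rfl)
  (Ok.s3 227 (Ok.lf S198_227_216_364_ok (bl (br (br c11))))
  (Ok.lf S227_256_216_364_ok (br (br (br c11))))))))
  (Ok.out rfl))
  (Ok.s1 288 (Ok.s0 64 (Ok.out rfl)
  (Ok.s2 320 (Ok.s3 227 (Ok.s0 96 (Ok.lf S198_227_364_512_ok c4)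
  (Ok.lf S198_227_364_512_ok c5))
  (Ok.s0 96 (Ok.lf S227_256_364_512_ok (br (br c10)))
  (Ok.lf S227_256_364_512_ok c1)))
  (Ok.s0 96 (Ok.out rfl)
  (Ok.s3 227 (Ok.lf S198_227_364_512_ok (bl (br c10)))
  (Ok.lf S227_256_364_512_ok (bl c10))))))
  (Ok.out rfl)))))

end Vale.Agent.P098.Ck
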