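import Vale.Agent.P098.CkGd
import Vale.Agent.P098.CkOk
import Vale.Agent.P098.Sh.A27
import Vale.Agent.P098.Sh.A37

namespace Vale.Agent.P098.Ck

theorem r17 :
    Ok Gd mult 64 128 0 64 384 512 227 256 364 512 ∧
    Ok Gd mult 0 128 0 64 384 512 198 227 512 660 ∧
    Ok Gd mult 0 128 0 64 384 512 227 256 512 586 :=
  have c0 : (go 16 Gd mult S227_256_364_512 (Tr.lf 4303915138 103652165 0) 64 128 0 32 480 512) = true := by decide +kernel
  have c1 : (band (go 16 Gd mult S198_227_512_586 (Tr.lf 9144928328 99318727 251742716384131978100783) 0 128 32 64 480 512)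
  (go 16 Gd mult S227_256_512_586 (Tr.lf 9144779844 99191751 418058560943682159116288) 0 128 32 64 480 512)) = true := by decide +kernel
  have c2 : (go 16 Gd mult S198_227_586_660 (Tr.lf 9144928324 94997447 243699935967870059544576) 0 128 32 64 480 512) = true := by decide +kernel
  have c3 : (band (go 16 Gd mult S198_227_512_586 (Tr.lf 9144780932 90930119 200368534130711913824303) 0 128 0 32 480 512)
  (go 16 Gd mult S198_227_586_660 (Tr.lf 9144779908 95124423 180741198436568418746368) 0 128 0 32 480 512)) = true := by decide +kernel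
  have c4 : (go 16 Gd mult S227_256_512_586 (Tr.lf 9144780932 94997192 0) 0 128 0 32 448 512) = true := by decide +kernel
  have c5 : (band (go 16 Gd mult S227_256_364_512 (Tr.lf 4303635522 103652420 430749920878235555463215) 64 128 32 64 480 512)
  (go 16 Gd mult S227_256_364_512 (Tr.lf 4840505921 107838150 0) 64 128 0 32 448 480)) = true := by decide +kernel
  have c6 : (band (go 16 Gd mult S227_256_364_512 (Tr.lf 8528449 103779141 0) 64 128 0 64 384 448)
  (go 16 Gd mult S227_256_364_512 (Tr.lf 8528145 104045508 0) 64 128 32 64 448 480)) = true := by decide +kernel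
  have c7 : (band (go 16 Gd mult S198_227_512_586 (Tr.lf 690037313 108105030 0) 0 128 0 64 384 448)
  (band (go 16 Gd mult S198_227_512_586 (Tr.lf 4304478498 91065286 0) 0 128 32 64 448 480)
  (band (go 16 Gd mult S198_227_586_660 (Tr.lf 4304478498 95259590 0) 0 128 32 64 448 480)
  (band (go 16 Gd mult S227_256_512_586 (Tr.lf 8462625 103918532 0) 0 128 32 64 448 480)
  (band (go 16 Gd mult S198_227_586_660 (Tr.lf 4840301090 99580614 0) 0 128 0 32 448 480)
  (band (go 16 Gd mult S198_227_512_586 (Tr.lf 4840300834 103643846 0) 0 128 0 32 448 480)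
  (band (go 16 Gd mult S227_256_512_586 (Tr.lf 8462882 103779141 0) 0 128 0 32 384 448)
  (go 16 Gd mult S198_227_586_660 (Tr.lf 622928417 104172742 0) 0 128 0 32 384 448)))))))) = true := by decide +kernel
  have c8 : (band (go 16 Gd mult S227_256_512_586 (Tr.lf 621879825 104045765 0) 0 128 32 64 384 448)
  (go 16 Gd mult S198_227_586_660 (Tr.lf 8458513 103656388 0) 0 128 32 64 384 448)) = true := by decide +kernel
  (And.intro (Ok.s2 448 (Ok.lf S227_256_364_512_ok (bl c6))
  (Ok.s1 32 (Ok.s2 480 (Ok.lf S227_256_364_512_ok (br c5))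
  (Ok.lf S227_256_364_512_ok c0))
  (Ok.s2 480 (Ok.lf S227_256_364_512_ok (br c6))
  (Ok.lf S227_256_364_512_ok (bl c5)))))
  (And.intro (Ok.s4 586 (Ok.s2 448 (Ok.lf S198_227_512_586_ok (bl c7))
  (Ok.s1 32 (Ok.s2 480 (Ok.lf S198_227_512_586_ok (bl (br (br (br (br (br c7)))))))
  (Ok.lf S198_227_512_586_ok (bl c3)))
  (Ok.s2 480 (Ok.lf S198_227_512_586_ok (bl (br c7)))
  (Ok.lf S198_227_512_586_ok (bl c1)))))
  (Ok.s1 32 (Ok.s2 448 (Ok.lf S198_227_586_660_ok (br (br (br (br (br (br (br c7))))))))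
  (Ok.s2 480 (Ok.lf S198_227_586_660_ok (bl (br (br (br (br c7))))))
  (Ok.lf S198_227_586_660_ok (br c3))))
  (Ok.s2 448 (Ok.lf S198_227_586_660_ok (br c8))
  (Ok.s2 480 (Ok.lf S198_227_586_660_ok (bl (br (br c7))))
  (Ok.lf S198_227_586_660_ok c2)))))
  (Ok.s1 32 (Ok.s2 448 (Ok.lf S227_256_512_586_ok (bl (br (br (br (br (br (br c7))))))))
  (Ok.lf S227_256_512_586_ok c4))
  (Ok.s2 448 (Ok.lf S227_256_512_586_ok (bl c8))
  (Ok.s2 480 (Ok.lf S227_256_512_586_ok (bl (br (br (br c7)))))
  (Ok.lf S227_256_512_586_ok (br c1)))))))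

end Vale.Agent.P098.Ck
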