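import Vale.Agent.P098.CkGd
import Vale.Agent.P098.CkOk
import Vale.Agent.P098.Sh.A27
import Vale.Agent.P098.Sh.A29
import Vale.Agent.P098.Sh.A37
import Vale.Agent.P098.Sh.A38
import Vale.Agent.P098.Sh.A41
import Vale.Agent.P098.Sh.A42
import Vale.Agent.P098.Sh.A43
import Vale.Agent.P098.Sh.A45
import Vale.Agent.P098.Sh.A46

namespace Vale.Agent.P098.Ck

theorem r170 :
    Ok Gd mult 0 128 256 320 256 384 198 256 512 660 ∧
    Ok Gd mult 0 128 256 320 256 384 198 256 660 808 ∧
    Ok Gd mult 0 128 256 320 256 384 256 314 216 512 ∧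
    Ok Gd mult 0 128 256 320 256 384 256 314 512 660 :=
  have c0 : (band (go 16 Gd mult S227_256_512_660 (Tr.lf 17734075524 103508425 1253656074940370454170304512) 96 128 256 288 256 320)
  (go 16 Gd mult S256_285_216_364 (Tr.lf 18346427458 104032841 1054183314703956640343785472) 96 128 256 288 256 320)) = true := by decide +kernel
  have c1 : (band (go 16 Gd mult S256_285_512_660 (Tr.lf 17734059144 103377353 2883288079780890581674229760) 64 128 256 288 256 320)
  (go 16 Gd mult S198_227_660_808 (Tr.lf 13430703172 103770823 2917138002730100198566002688) 64 128 256 288 256 320)) = true := by decide +kernel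
  have c2 : (band (go 16 Gd mult S198_227_512_660 (Tr.lf 17734059140 103508425 1224641855269619353977356288) 96 128 256 288 256 320)
  (go 16 Gd mult S256_285_364_512 (Tr.lf 17734059140 99445193 1015497688476288506753187840) 96 128 256 288 256 320)) = true := by decide +kernel
  have c3 : (go 16 Gd mult S256_314_364_512 (Tr.sp 1 272 (Tr.sp 0 96 Tr.skip (Tr.lf 12893848644 103766727 3132326798621504191663702016)) Tr.skip) 64 128 256 288 320 384) = true := by decide +kernel
  have c4 : (go 16 Gd mult S256_314_216_364 (Tr.sp 0 96 Tr.skip (Tr.sp 2 352 (Tr.lf 8598880836 99847109 2305421538005097836164677632) Tr.skip)) 64 128 256 288 320 384) = true := by decide +kernel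
  have c5 : (band (go 16 Gd mult S227_256_660_808 (Tr.lf 13430703172 107834055 2888123783059349098373054464) 64 128 256 288 256 320)
  (band (go 16 Gd mult S285_314_216_364 (Tr.lf 12893570116 103770823 2259482356859741927525842944) 64 128 256 288 256 320)
  (band (go 16 Gd mult S285_314_364_512 (Tr.lf 12893570116 99576519 2625786880202974567461814272) 64 128 256 288 256 320)
  (go 16 Gd mult S285_314_512_660 (Tr.lf 12893569604 95251143 2913511225271256311041884160) 64 128 256 288 256 320)))) = true := by decide +kernel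
  have c6 : (band (go 16 Gd mult S285_314_512_660 (Tr.lf 8598619202 99715782 4857563518736089908129038336) 64 128 256 288 320 384)
  (go 16 Gd mult S227_256_660_808 (Tr.lf 12893570116 95377864 4828449723540828923776466944) 64 128 256 288 320 384)) = true := by decide +kernel
  have c7 : (go 16 Gd mult S198_256_512_660 (Tr.sp 0 96 Tr.skip (Tr.sp 2 352 (Tr.sp 0 112 Tr.skip (Tr.lf 12893585986 99572423 3789982444491862462703861760)) Tr.skip)) 64 128 256 288 320 384) = true := by decide +kernel
  have c8 : (band (go 16 Gd mult S198_227_512_660 (Tr.lf 12893570114 99445447 2988464626087363319873667072) 64 96 256 288 256 320)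
  (band (go 16 Gd mult S227_256_512_660 (Tr.lf 12893570114 99445447 3067044804362314216229568512) 64 96 256 288 256 320)
  (go 16 Gd mult S256_285_364_512 (Tr.lf 12893569602 103639751 2257064505220512669176430592) 64 96 256 288 256 320))) = true := by decide +kernel
  have c9 : (go 16 Gd mult S198_227_660_808 (Tr.sp 2 352 (Tr.lf 12893569572 99572168 4847792536654662990571765760) Tr.skip) 64 128 256 288 320 384) = true := by decide +kernel
  have c10 : (go 16 Gd mult S256_285_512_660 (Tr.sp 1 272 (Tr.lf 12893569572 99314120 4747451693626648769071153152) Tr.skip) 64 128 256 288 320 384) = true := by decide +kernel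
  have c11 : (go 16 Gd mult S256_285_216_364 (Tr.sp 1 272 (Tr.lf 12893561378 108092103 1245193594203068049947361280) Tr.skip) 64 96 256 288 256 320) = true := by decide +kernel
  (And.intro (Ok.s1 288 (Ok.s0 64 (Ok.out rfl)
  (Ok.s2 320 (Ok.s3 227 (Ok.s0 96 (Ok.lf S198_227_512_660_ok (bl c8))
  (Ok.lf S198_227_512_660_ok (bl c2)))
  (Ok.s0 96 (Ok.lf S227_256_512_660_ok (bl (br c8)))
  (Ok.lf S227_256_512_660_ok (bl c0))))
  (Ok.lf S198_256_512_660_ok c7)))
  (Ok.out rfl))
  (And.intro (Ok.s1 288 (Ok.s0 64 (Ok.out rfl)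
  (Ok.s3 227 (Ok.s2 320 (Ok.lf S198_227_660_808_ok (br c1))
  (Ok.lf S198_227_660_808_ok c9))
  (Ok.s2 320 (Ok.lf S227_256_660_808_ok (bl c5))
  (Ok.lf S227_256_660_808_ok (br c6)))))
  (Ok.out rfl))
  (And.intro (Ok.s4 364 (Ok.s1 288 (Ok.s0 64 (Ok.out rfl)
  (Ok.s2 320 (Ok.s3 285 (Ok.s0 96 (Ok.lf S256_285_216_364_ok c11)
  (Ok.lf S256_285_216_364_ok (br c0)))
  (Ok.lf S285_314_216_364_ok (bl (br c5))))
  (Ok.lf S256_314_216_364_ok c4)))
  (Ok.out rfl))
  (Ok.s1 288 (Ok.s0 64 (Ok.out rfl)
  (Ok.s2 320 (Ok.s3 285 (Ok.s0 96 (Ok.lf S256_285_364_512_ok (br (br c8)))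
  (Ok.lf S256_285_364_512_ok (br c2)))
  (Ok.lf S285_314_364_512_ok (bl (br (br c5)))))
  (Ok.lf S256_314_364_512_ok c3)))
  (Ok.out rfl)))
  (Ok.s1 288 (Ok.s0 64 (Ok.out rfl)
  (Ok.s3 285 (Ok.s2 320 (Ok.lf S256_285_512_660_ok (bl c1))
  (Ok.lf S256_285_512_660_ok c10))
  (Ok.s2 320 (Ok.lf S285_314_512_660_ok (br (br (br c5))))
  (Ok.lf S285_314_512_660_ok (bl c6)))))
  (Ok.out rfl)))))

end Vale.Agent.P098.Ck
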