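import Vale.Agent.P098.CkGd
import Vale.Agent.P098.CkOk
import Vale.Agent.P098.Sh.A42
import Vale.Agent.P098.Sh.A46
import Vale.Agent.P098.Sh.A48
import Vale.Agent.P098.Sh.A49
import Vale.Agent.P098.Sh.A51
import Vale.Agent.P098.Sh.A52

namespace Vale.Agent.P098.Ck

theorem r171 :
    Ok Gd mult 0 128 256 320 256 384 256 314 660 808 ∧
    Ok Gd mult 0 128 256 320 256 384 314 372 216 512 ∧
    Ok Gd mult 0 128 256 320 256 384 314 372 512 660 ∧
    Ok Gd mult 64 128 256 272 256 384 314 372 660 808 :=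
  have c0 : (go 16 Gd mult S285_314_660_808 (Tr.lf 12893849668 95120071 2607678689223249807246622720) 64 128 256 288 256 384) = true := by decide +kernel
  have c1 : (band (go 16 Gd mult S343_372_660_808 (Tr.lf 13432816712 99584840 2816849972730369007511666688) 64 128 256 272 256 320)
  (band (go 16 Gd mult S314_343_660_808 (Tr.lf 13431505956 103648071 2885759094944703169831960605) 64 128 256 272 256 320)
  (go 16 Gd mult S343_372_364_512 (Tr.lf 13431358500 103770824 2568974302656858711042031616) 64 128 256 272 256 320))) = true := by decide +kernel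
  have c2 : (go 16 Gd mult S256_285_660_808 (Tr.lf 12893833284 99572423 2688651022822935284546535424) 64 128 256 288 256 384) = true := by decide +kernel
  have c3 : (go 16 Gd mult S314_343_512_660 (Tr.lf 13441991812 107842505 2907533318046497772616548352) 64 128 256 288 256 320) = true := by decide +kernel
  have c4 : (band (go 16 Gd mult S343_372_512_660 (Tr.lf 13433603204 103779145 1240421956496895473585291293) 96 128 256 288 256 320)
  (band (go 16 Gd mult S343_372_512_660 (Tr.lf 13432554050 99445704 3975158295549783421099180032) 96 128 256 288 320 352)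
  (go 16 Gd mult S314_343_512_660 (Tr.lf 9136390721 99847110 4349860348644435058482806813) 96 128 256 288 320 352))) = true := by decide +kernel
  have c5 : (go 16 Gd mult S314_372_216_364 (Tr.sp 0 96 Tr.skip (Tr.lf 9136800834 99720134 3599070320126130160504995869)) 64 128 256 272 320 384) = true := by decide +kernel
  have c6 : (band (go 16 Gd mult S314_372_216_364 (Tr.sp 0 96 Tr.skip (Tr.sp 2 320 (Tr.lf 8598619202 104041413 2286078724891263769369378816) Tr.skip)) 64 128 272 288 256 384)
  (band (go 16 Gd mult S343_372_364_512 (Tr.lf 13431358498 112294727 2365895499101939859227410432) 96 128 272 288 256 320)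
  (band (go 16 Gd mult S314_343_364_512 (Tr.lf 12894478882 107969351 2595569453211434586935722013) 96 128 272 288 256 320)
  (go 16 Gd mult S314_372_216_364 (Tr.lf 8598619170 108235717 911530067989430397728456704) 96 128 256 272 256 320)))) = true := by decide +kernel
  have c7 : (band (go 16 Gd mult S314_372_364_512 (Tr.sp 0 96 Tr.skip (Tr.sp 2 352 (Tr.lf 9137586722 103783367 3729618426002929072474161152) Tr.skip)) 64 128 256 272 320 384)
  (band (go 16 Gd mult S343_372_660_808 (Tr.lf 13432537634 103775048 4164887190410395896084692992) 96 128 256 272 320 352)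
  (go 16 Gd mult S314_343_660_808 (Tr.lf 9136390434 99716293 4372820107094358826730651648) 96 128 256 272 320 352))) = true := by decide +kernel
  have c8 : (band (go 16 Gd mult S314_372_216_364 (Tr.lf 8591147554 108096454 2694742414438938024463040512) 64 96 256 272 256 320)
  (go 16 Gd mult S343_372_512_660 (Tr.sp 1 272 (Tr.lf 9136390690 103783366 3030870886815885274067566621) Tr.skip) 64 96 256 288 256 320)) = true := by decide +kernel
  have c9 : (go 16 Gd mult S314_343_364_512 (Tr.lf 12894487076 95382471 2778111533474417843474792448) 64 128 256 272 256 320) = true := by decide +kernel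
  (And.intro (Ok.s1 288 (Ok.s0 64 (Ok.out rfl)
  (Ok.s3 285 (Ok.lf S256_285_660_808_ok c2)
  (Ok.lf S285_314_660_808_ok c0)))
  (Ok.out rfl))
  (And.intro (Ok.s4 364 (Ok.s1 288 (Ok.s0 64 (Ok.out rfl)
  (Ok.s1 272 (Ok.s2 320 (Ok.s0 96 (Ok.lf S314_372_216_364_ok (bl c8))
  (Ok.lf S314_372_216_364_ok (br (br (br c6)))))
  (Ok.lf S314_372_216_364_ok c5))
  (Ok.lf S314_372_216_364_ok (bl c6))))
  (Ok.out rfl))
  (Ok.s1 288 (Ok.s0 64 (Ok.out rfl)
  (Ok.s1 272 (Ok.s2 320 (Ok.s3 343 (Ok.lf S314_343_364_512_ok c9)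
  (Ok.lf S343_372_364_512_ok (br (br c1))))
  (Ok.lf S314_372_364_512_ok (bl c7)))
  (Ok.s2 320 (Ok.s0 96 (Ok.out rfl)
  (Ok.s3 343 (Ok.lf S314_343_364_512_ok (bl (br (br c6))))
  (Ok.lf S343_372_364_512_ok (bl (br c6)))))
  (Ok.out rfl))))
  (Ok.out rfl)))
  (And.intro (Ok.s1 288 (Ok.s0 64 (Ok.out rfl)
  (Ok.s2 320 (Ok.s3 343 (Ok.lf S314_343_512_660_ok c3)
  (Ok.s0 96 (Ok.lf S343_372_512_660_ok (br c8))
  (Ok.lf S343_372_512_660_ok (bl c4))))
  (Ok.s0 96 (Ok.out rfl)
  (Ok.s2 352 (Ok.s3 343 (Ok.lf S314_343_512_660_ok (br (br c4)))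
  (Ok.lf S343_372_512_660_ok (bl (br c4))))
  (Ok.out rfl)))))
  (Ok.out rfl))
  (Ok.s2 320 (Ok.s3 343 (Ok.lf S314_343_660_808_ok (bl (br c1)))
  (Ok.lf S343_372_660_808_ok (bl c1)))
  (Ok.s0 96 (Ok.out rfl)
  (Ok.s2 352 (Ok.s3 343 (Ok.lf S314_343_660_808_ok (br (br c7)))
  (Ok.lf S343_372_660_808_ok (bl (br c7))))
  (Ok.out rfl)))))))

end Vale.Agent.P098.Ck
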