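import Vale.Agent.P098.CkGd
import Vale.Agent.P098.CkOk
import Vale.Agent.P098.Sh.A49
import Vale.Agent.P098.Sh.A52
import Vale.Agent.P098.Sh.A54
import Vale.Agent.P098.Sh.A55
import Vale.Agent.P098.Sh.A57

namespace Vale.Agent.P098.Ck

theorem r172 :
    Ok Gd mult 64 128 272 288 256 384 314 372 660 808 ∧
    Ok Gd mult 0 128 256 320 256 384 372 430 216 808 :=
  have c0 : (band (go 16 Gd mult S372_430_216_364 (Tr.lf 13424165956 104029000 1422905689686418538629169152) 64 128 256 272 256 320)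
  (go 16 Gd mult S372_430_216_364 (Tr.sp 0 96 Tr.skip (Tr.lf 9137587266 99847111 2361085289223791209128919040)) 64 128 256 272 320 384)) = true := by decide +kernel
  have c1 : (band (go 16 Gd mult S372_401_660_808 (Tr.lf 18265441348 99572554 858377472041491106025701376) 96 128 256 272 256 320)
  (band (go 16 Gd mult S372_430_364_512 (Tr.lf 13424034850 104029000 712057307753016583901937664) 96 128 256 272 256 320)
  (band (go 16 Gd mult S372_401_512_660 (Tr.lf 13432407106 99842888 835395743524443847334363165) 96 128 256 272 256 320)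
  (band (go 16 Gd mult S401_430_660_808 (Tr.lf 13432406562 104045256 722946014959520484935335936) 96 128 256 272 256 320)
  (band (go 16 Gd mult S401_430_512_660 (Tr.lf 13423952418 104037064 716895316882647213175275549) 96 128 256 272 256 320)
  (go 16 Gd mult S372_430_364_512 (Tr.sp 0 96 Tr.skip (Tr.sp 2 320 (Tr.lf 13431374916 99715656 1668345301184298825421946880) Tr.skip)) 64 128 272 288 256 384)))))) = true := by decide +kernel
  have c2 : (band (go 16 Gd mult S372_430_512_660 (Tr.sp 2 320 (Tr.sp 0 96 Tr.skip (Tr.sp 2 288 (Tr.lf 13432422980 99715912 1685268288857287746945810432) Tr.skip)) Tr.skip) 64 128 272 288 256 384)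
  (band (go 16 Gd mult S372_430_512_660 (Tr.sp 1 264 (Tr.lf 9129067026 99846983 1401204257428575894854696960) Tr.skip) 64 96 256 272 256 320)
  (band (go 16 Gd mult S372_430_660_808 (Tr.sp 1 264 (Tr.lf 9137587218 95652807 1449574516550616388546134045) Tr.skip) 64 96 256 272 256 320)
  (go 16 Gd mult S372_430_660_808 (Tr.sp 2 288 (Tr.sp 0 96 Tr.skip (Tr.sp 0 112 Tr.skip (Tr.lf 13432554050 99716167 1797712501840664648000471040))) Tr.skip) 64 128 272 288 256 320)))) = true := by decide +kernel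
  have c3 : (band (go 16 Gd mult S372_401_660_808 (Tr.lf 13433602626 103775049 3314990940998186083186376704) 96 128 256 272 320 352)
  (band (go 16 Gd mult S372_430_364_512 (Tr.sp 0 96 Tr.skip (Tr.sp 2 352 (Tr.lf 9137455650 99847111 2376782785900987310300725248) Tr.skip)) 64 128 256 272 320 384)
  (band (go 16 Gd mult S372_401_512_660 (Tr.lf 13432406562 103775048 3178356627067238309039177728) 96 128 256 272 320 352)
  (band (go 16 Gd mult S401_430_660_808 (Tr.lf 13432406562 99453768 2452962766070787488348110848) 96 128 256 272 320 352)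
  (band (go 16 Gd mult S401_430_512_660 (Tr.lf 13432341026 99453768 2415473042261417944988778496) 96 128 256 272 320 352)
  (go 16 Gd mult S372_430_364_512 (Tr.lf 9129067554 99846983 1351663663097477449325215744) 64 96 256 272 256 320)))))) = true := by decide +kernel
  have c4 : (band (go 16 Gd mult S343_372_660_808 (Tr.lf 13432537618 103914439 2640336454443207796946108416) 96 128 272 280 256 288)
  (go 16 Gd mult S314_343_660_808 (Tr.lf 12894486802 103644230 2809589481836909517672022016) 96 128 272 280 256 288)) = true := by decide +kernel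
  have c5 : (go 16 Gd mult S372_430_216_364 (Tr.sp 0 96 Tr.skip (Tr.sp 2 320 (Tr.lf 9136390690 108108742 1663481927789729744395698176) Tr.skip)) 64 128 272 288 256 384) = true := by decide +kernel
  (And.intro (Ok.s2 320 (Ok.s0 96 (Ok.out rfl)
  (Ok.s1 280 (Ok.s2 288 (Ok.s3 343 (Ok.lf S314_343_660_808_ok (br c4))
  (Ok.lf S343_372_660_808_ok (bl c4)))
  (Ok.out rfl))
  (Ok.out rfl)))
  (Ok.out rfl))
  (Ok.s4 512 (Ok.s4 364 (Ok.s1 288 (Ok.s0 64 (Ok.out rfl)
  (Ok.s1 272 (Ok.s2 320 (Ok.lf S372_430_216_364_ok (bl c0))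
  (Ok.lf S372_430_216_364_ok (br c0)))
  (Ok.lf S372_430_216_364_ok c5)))
  (Ok.out rfl))
  (Ok.s1 288 (Ok.s0 64 (Ok.out rfl)
  (Ok.s1 272 (Ok.s2 320 (Ok.s0 96 (Ok.lf S372_430_364_512_ok (br (br (br (br (br c3))))))
  (Ok.lf S372_430_364_512_ok (bl (br c1))))
  (Ok.lf S372_430_364_512_ok (bl (br c3))))
  (Ok.lf S372_430_364_512_ok (br (br (br (br (br c1))))))))
  (Ok.out rfl)))
  (Ok.s4 660 (Ok.s1 288 (Ok.s0 64 (Ok.out rfl)
  (Ok.s1 272 (Ok.s2 320 (Ok.s0 96 (Ok.lf S372_430_512_660_ok (bl (br c2)))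
  (Ok.s3 401 (Ok.lf S372_401_512_660_ok (bl (br (br c1))))
  (Ok.lf S401_430_512_660_ok (bl (br (br (br (br c1))))))))
  (Ok.s0 96 (Ok.out rfl)
  (Ok.s2 352 (Ok.s3 401 (Ok.lf S372_401_512_660_ok (bl (br (br c3))))
  (Ok.lf S401_430_512_660_ok (bl (br (br (br (br c3)))))))
  (Ok.out rfl))))
  (Ok.lf S372_430_512_660_ok (bl c2))))
  (Ok.out rfl))
  (Ok.s1 288 (Ok.s0 64 (Ok.out rfl)
  (Ok.s2 320 (Ok.s1 272 (Ok.s0 96 (Ok.lf S372_430_660_808_ok (bl (br (br c2))))
  (Ok.s3 401 (Ok.lf S372_401_660_808_ok (bl c1))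
  (Ok.lf S401_430_660_808_ok (bl (br (br (br c1)))))))
  (Ok.lf S372_430_660_808_ok (br (br (br c2)))))
  (Ok.s0 96 (Ok.out rfl)
  (Ok.s2 352 (Ok.s1 272 (Ok.s3 401 (Ok.lf S372_401_660_808_ok (bl c3))
  (Ok.lf S401_430_660_808_ok (bl (br (br (br c3))))))
  (Ok.out rfl))
  (Ok.out rfl)))))
  (Ok.out rfl)))))

end Vale.Agent.P098.Ck
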