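import Vale.Agent.P098.CkGd
import Vale.Agent.P098.CkOk
import Vale.Agent.P098.Sh.A1
import Vale.Agent.P098.Sh.A2
import Vale.Agent.P098.Sh.A3
import Vale.Agent.P098.Sh.A4
import Vale.Agent.P098.Sh.A5

namespace Vale.Agent.P098.Ck

theorem r174 :
    Ok Gd mult 128 256 0 64 0 128 24 82 660 808 ∧
    Ok Gd mult 128 256 0 64 0 128 82 140 216 808 :=
  have c0 : (band (go 16 Gd mult S82_140_364_512 (Tr.lf 13424035976 90651592 0) 128 256 0 32 0 64)
  (go 16 Gd mult S24_82_660_808 (Tr.lf 13423970436 94849864 0) 128 256 0 32 0 64)) = true := by decide +kernel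
  have c1 : (band (go 16 Gd mult S82_140_512_660 (Tr.lf 13431374920 94853832 0) 128 256 0 16 0 64)
  (band (go 16 Gd mult S82_140_660_808 (Tr.lf 13431374920 94853832 0) 128 256 0 16 0 64)
  (band (go 16 Gd mult S82_140_512_660 (Tr.lf 547521090 99589062 0) 128 256 0 32 64 128)
  (band (go 16 Gd mult S82_140_216_364 (Tr.lf 547521090 99589062 0) 128 256 0 32 64 128)
  (go 16 Gd mult S82_140_364_512 (Tr.lf 547455554 99589062 0) 128 256 0 32 64 128))))) = true := by decide +kernel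
  have c2 : (band (go 16 Gd mult S82_111_216_364 (Tr.lf 13422904456 90786376 0) 128 256 0 32 0 64)
  (go 16 Gd mult S111_140_216_364 (Tr.lf 13431358596 94853832 0) 128 256 0 32 0 64)) = true := by decide +kernel
  have c3 : (band (go 16 Gd mult S82_140_216_364 (Tr.lf 4842488866 107846853 0) 128 256 32 64 0 128)
  (band (go 16 Gd mult S82_140_512_660 (Tr.lf 4842488866 103783621 0) 128 256 32 64 0 128)
  (band (go 16 Gd mult S82_140_364_512 (Tr.lf 4842423330 103783621 0) 128 256 32 64 0 128)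
  (band (go 16 Gd mult S82_140_660_808 (Tr.lf 4842472482 103783621 0) 128 256 32 64 0 128)
  (band (go 16 Gd mult S24_82_660_808 (Tr.lf 4835066434 103771079 0) 128 256 32 64 0 128)
  (band (go 16 Gd mult S24_82_660_808 (Tr.lf 539050562 99843141 0) 128 256 0 32 64 128)
  (band (go 16 Gd mult S82_140_660_808 (Tr.lf 547439170 99589062 0) 128 256 0 32 64 128)
  (go 16 Gd mult S82_140_660_808 (Tr.lf 4834017810 107969733 0) 128 256 16 32 0 64)))))))) = true := by decide +kernel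
  have c4 : (go 16 Gd mult S82_140_512_660 (Tr.lf 4834017810 107969478 0) 128 256 16 32 0 64) = true := by decide +kernel
  (And.intro (Ok.s1 32 (Ok.s2 64 (Ok.lf S24_82_660_808_ok (br c0))
  (Ok.lf S24_82_660_808_ok (bl (br (br (br (br (br c3))))))))
  (Ok.lf S24_82_660_808_ok (bl (br (br (br (br c3)))))))
  (Ok.s4 512 (Ok.s4 364 (Ok.s1 32 (Ok.s2 64 (Ok.s3 111 (Ok.lf S82_111_216_364_ok (bl c2))
  (Ok.lf S111_140_216_364_ok (br c2)))
  (Ok.lf S82_140_216_364_ok (bl (br (br (br c1))))))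
  (Ok.lf S82_140_216_364_ok (bl c3)))
  (Ok.s1 32 (Ok.s2 64 (Ok.lf S82_140_364_512_ok (bl c0))
  (Ok.lf S82_140_364_512_ok (br (br (br (br c1))))))
  (Ok.lf S82_140_364_512_ok (bl (br (br c3))))))
  (Ok.s4 660 (Ok.s1 32 (Ok.s2 64 (Ok.s1 16 (Ok.lf S82_140_512_660_ok (bl c1))
  (Ok.lf S82_140_512_660_ok c4))
  (Ok.lf S82_140_512_660_ok (bl (br (br c1)))))
  (Ok.lf S82_140_512_660_ok (bl (br c3))))
  (Ok.s1 32 (Ok.s2 64 (Ok.s1 16 (Ok.lf S82_140_660_808_ok (bl (br c1)))
  (Ok.lf S82_140_660_808_ok (br (br (br (br (br (br (br c3)))))))))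
  (Ok.lf S82_140_660_808_ok (bl (br (br (br (br (br (br c3)))))))))
  (Ok.lf S82_140_660_808_ok (bl (br (br (br c3)))))))))

end Vale.Agent.P098.Ck
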