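import Vale.Agent.P098.CkGd
import Vale.Agent.P098.CkOk
import Vale.Agent.P098.Sh.A10
import Vale.Agent.P098.Sh.A11
import Vale.Agent.P098.Sh.A17
import Vale.Agent.P098.Sh.A18
import Vale.Agent.P098.Sh.A19
import Vale.Agent.P098.Sh.A25
import Vale.Agent.P098.Sh.A26
import Vale.Agent.P098.Sh.A36
import Vale.Agent.P098.Sh.A37
import Vale.Agent.P098.Sh.A8
import Vale.Agent.P098.Sh.A9

namespace Vale.Agent.P098.Ck

theorem r175 :
    Ok Gd mult 128 256 0 64 0 128 140 198 216 512 ∧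
    Ok Gd mult 128 256 0 64 0 128 140 198 512 808 ∧
    Ok Gd mult 128 256 0 64 0 128 198 256 216 512 :=
  have c0 : (band (go 16 Gd mult S198_227_216_290 (Tr.lf 12893571208 90790472 0) 128 256 0 32 0 64)
  (go 16 Gd mult S227_256_290_364 (Tr.lf 8598471812 95255366 0) 128 256 0 32 0 64)) = true := by decide +kernel
  have c1 : (band (go 16 Gd mult S227_256_216_290 (Tr.lf 12893571208 82532936 0) 128 256 0 32 0 64)
  (go 16 Gd mult S198_227_290_364 (Tr.lf 8598471812 95255366 0) 128 256 0 32 0 64)) = true := by decide +kernel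
  have c2 : (band (go 16 Gd mult S140_169_364_512 (Tr.lf 8599521416 86731591 0) 128 256 0 64 0 128)
  (band (go 16 Gd mult S140_169_216_364 (Tr.lf 8599521412 90794823 0) 128 256 0 64 0 128)
  (go 16 Gd mult S198_227_364_512 (Tr.lf 8598595716 95251143 0) 128 256 0 64 0 128))) = true := by decide +kernel
  have c3 : (band (go 16 Gd mult S227_256_364_512 (Tr.lf 8598595716 95251143 0) 128 256 0 64 0 128)
  (go 16 Gd mult S169_198_364_512 (Tr.lf 8598464644 91060807 0) 128 256 0 64 0 128)) = true := by decide +kernel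
  have c4 : (band (go 16 Gd mult S140_169_512_660 (Tr.lf 8599512200 95255494 0) 128 256 0 64 0 64)
  (band (go 16 Gd mult S140_169_660_808 (Tr.lf 8599512200 95255494 0) 128 256 0 64 0 64)
  (band (go 16 Gd mult S169_198_216_364 (Tr.lf 8598471812 91192134 0) 128 256 0 64 0 64)
  (band (go 16 Gd mult S169_198_660_808 (Tr.lf 8598463620 91065030 0) 128 256 0 64 0 64)
  (go 16 Gd mult S169_198_512_660 (Tr.lf 8599511684 90930246 0) 128 256 0 64 0 64))))) = true := by decide +kernel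
  have c5 : (band (go 16 Gd mult S140_198_512_660 (Tr.lf 9601666 108240068 0) 128 256 0 64 64 128)
  (band (go 16 Gd mult S140_198_660_808 (Tr.lf 9601666 108367044 0) 128 256 0 64 64 128)
  (go 16 Gd mult S169_198_216_364 (Tr.lf 9716290 108236100 0) 128 256 0 64 64 128))) = true := by decide +kernel
  have c6 : (band (go 16 Gd mult S198_227_216_364 (Tr.lf 4303626786 99453893 0) 128 256 0 32 64 128)
  (go 16 Gd mult S227_256_216_364 (Tr.lf 4303626786 99453893 0) 128 256 0 32 64 128)) = true := by decide +kernel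
  have c7 : (band (go 16 Gd mult S198_227_216_364 (Tr.lf 4295107618 99580869 0) 128 256 32 64 0 128)
  (go 16 Gd mult S227_256_216_364 (Tr.lf 4295107618 99580869 0) 128 256 32 64 0 128)) = true := by decide +kernel
  (And.intro (Ok.s4 364 (Ok.s3 169 (Ok.lf S140_169_216_364_ok (bl (br c2)))
  (Ok.s2 64 (Ok.lf S169_198_216_364_ok (bl (br (br c4))))
  (Ok.lf S169_198_216_364_ok (br (br c5)))))
  (Ok.s3 169 (Ok.lf S140_169_364_512_ok (bl c2))
  (Ok.lf S169_198_364_512_ok (br c3))))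
  (And.intro (Ok.s4 660 (Ok.s2 64 (Ok.s3 169 (Ok.lf S140_169_512_660_ok (bl c4))
  (Ok.lf S169_198_512_660_ok (br (br (br (br c4))))))
  (Ok.lf S140_198_512_660_ok (bl c5)))
  (Ok.s2 64 (Ok.s3 169 (Ok.lf S140_169_660_808_ok (bl (br c4)))
  (Ok.lf S169_198_660_808_ok (bl (br (br (br c4))))))
  (Ok.lf S140_198_660_808_ok (bl (br c5)))))
  (Ok.s4 364 (Ok.s3 227 (Ok.s1 32 (Ok.s2 64 (Ok.s4 290 (Ok.lf S198_227_216_290_ok (bl c0))
  (Ok.lf S198_227_290_364_ok (br c1)))
  (Ok.lf S198_227_216_364_ok (bl c6)))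
  (Ok.lf S198_227_216_364_ok (bl c7)))
  (Ok.s1 32 (Ok.s2 64 (Ok.s4 290 (Ok.lf S227_256_216_290_ok (bl c1))
  (Ok.lf S227_256_290_364_ok (br c0)))
  (Ok.lf S227_256_216_364_ok (br c6)))
  (Ok.lf S227_256_216_364_ok (br c7))))
  (Ok.s3 227 (Ok.lf S198_227_364_512_ok (br (br c2)))
  (Ok.lf S227_256_364_512_ok (bl c3))))))

end Vale.Agent.P098.Ck
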