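import Vale.Agent.P098.CkGd
import Vale.Agent.P098.CkOk
import Vale.Agent.P098.Sh.A27
import Vale.Agent.P098.Sh.A29
import Vale.Agent.P098.Sh.A37
import Vale.Agent.P098.Sh.A38
import Vale.Agent.P098.Sh.A41
import Vale.Agent.P098.Sh.A42
import Vale.Agent.P098.Sh.A43
import Vale.Agent.P098.Sh.A44
import Vale.Agent.P098.Sh.A45
import Vale.Agent.P098.Sh.A46

namespace Vale.Agent.P098.Ck

theorem r176 :
    Ok Gd mult 128 256 0 64 0 128 198 256 512 660 ∧
    Ok Gd mult 128 256 0 64 0 128 198 256 660 808 ∧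
    Ok Gd mult 128 256 0 64 0 128 256 314 216 512 ∧
    Ok Gd mult 128 256 0 64 0 128 256 314 512 660 :=
  have c0 : (band (go 16 Gd mult S227_256_660_808 (Tr.lf 12893832328 82270792 0) 128 256 0 32 0 64)
  (go 16 Gd mult S198_227_660_808 (Tr.lf 12893570180 86592072 0) 128 256 0 32 0 64)) = true := by decide +kernel
  have c1 : (go 16 Gd mult S256_285_512_660 (Tr.lf 12893832328 90786376 0) 128 256 0 32 0 64) = true := by decide +kernel
  have c2 : (band (go 16 Gd mult S227_256_512_660 (Tr.lf 12893570184 82270792 0) 128 256 0 32 0 64)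
  (go 16 Gd mult S285_314_512_660 (Tr.lf 12893570184 86592072 0) 128 256 0 32 0 64)) = true := by decide +kernel
  have c3 : (band (go 16 Gd mult S256_285_364_512 (Tr.lf 8598603908 91056839 0) 128 256 0 64 0 128)
  (go 16 Gd mult S285_314_364_512 (Tr.lf 8598603908 95255366 0) 128 256 0 64 0 128)) = true := by decide +kernel
  have c4 : (band (go 16 Gd mult S256_314_512_660 (Tr.lf 8598618756 99314502 0) 128 256 0 64 64 128)
  (go 16 Gd mult S256_314_216_364 (Tr.lf 4303651394 103910341 0) 128 256 0 64 64 128)) = true := by decide +kernel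
  have c5 : (go 16 Gd mult S198_227_512_660 (Tr.lf 8598603844 90929735 0) 128 256 0 32 0 128) = true := by decide +kernel
  have c6 : (band (go 16 Gd mult S256_285_216_364 (Tr.lf 8598594692 95390534 0) 128 256 0 64 0 64)
  (go 16 Gd mult S285_314_216_364 (Tr.lf 8598463044 95255366 0) 128 256 0 64 0 64)) = true := by decide +kernel
  have c7 : (band (go 16 Gd mult S198_256_660_808 (Tr.lf 4303635492 99584837 0) 128 256 32 64 0 128)
  (go 16 Gd mult S198_256_512_660 (Tr.lf 4303504420 103910213 0) 128 256 32 64 0 128)) = true := by decide +kernel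
  have c8 : (band (go 16 Gd mult S227_256_512_660 (Tr.lf 8598463044 90798663 0) 128 256 0 32 64 128)
  (band (go 16 Gd mult S227_256_660_808 (Tr.lf 8598594114 95251015 0) 128 256 0 32 64 128)
  (go 16 Gd mult S198_227_660_808 (Tr.lf 4303495746 99715909 0) 128 256 0 32 64 128))) = true := by decide +kernel
  have c9 : (go 16 Gd mult S256_314_512_660 (Tr.lf 4303503906 107981764 0) 128 256 32 64 0 64) = true := by decide +kernel
  (And.intro (Ok.s1 32 (Ok.s3 227 (Ok.lf S198_227_512_660_ok c5)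
  (Ok.s2 64 (Ok.lf S227_256_512_660_ok (bl c2))
  (Ok.lf S227_256_512_660_ok (bl c8))))
  (Ok.lf S198_256_512_660_ok (br c7)))
  (And.intro (Ok.s1 32 (Ok.s3 227 (Ok.s2 64 (Ok.lf S198_227_660_808_ok (br c0))
  (Ok.lf S198_227_660_808_ok (br (br c8))))
  (Ok.s2 64 (Ok.lf S227_256_660_808_ok (bl c0))
  (Ok.lf S227_256_660_808_ok (bl (br c8)))))
  (Ok.lf S198_256_660_808_ok (bl c7)))
  (And.intro (Ok.s4 364 (Ok.s2 64 (Ok.s3 285 (Ok.lf S256_285_216_364_ok (bl c6))
  (Ok.lf S285_314_216_364_ok (br c6)))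
  (Ok.lf S256_314_216_364_ok (br c4)))
  (Ok.s3 285 (Ok.lf S256_285_364_512_ok (bl c3))
  (Ok.lf S285_314_364_512_ok (br c3))))
  (Ok.s2 64 (Ok.s1 32 (Ok.s3 285 (Ok.lf S256_285_512_660_ok c1)
  (Ok.lf S285_314_512_660_ok (br c2)))
  (Ok.lf S256_314_512_660_ok c9))
  (Ok.lf S256_314_512_660_ok (bl c4))))))

end Vale.Agent.P098.Ck
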