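import Vale.Agent.P098.CkGd
import Vale.Agent.P098.CkOk
import Vale.Agent.P098.Sh.A42
import Vale.Agent.P098.Sh.A44
import Vale.Agent.P098.Sh.A46
import Vale.Agent.P098.Sh.A48
import Vale.Agent.P098.Sh.A49
import Vale.Agent.P098.Sh.A50
import Vale.Agent.P098.Sh.A52

namespace Vale.Agent.P098.Ck

theorem r177 :
    Ok Gd mult 128 256 0 64 0 128 256 314 660 808 ∧
    Ok Gd mult 128 256 0 64 0 128 314 372 216 808 :=
  have c0 : (go 16 Gd mult S256_285_660_808 (Tr.lf 12893832328 82270792 0) 128 256 0 32 0 64) = true := by decide +kernel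
  have c1 : (go 16 Gd mult S285_314_660_808 (Tr.lf 12893832328 82528840 0) 128 256 0 32 0 64) = true := by decide +kernel
  have c2 : (band (go 16 Gd mult S256_314_660_808 (Tr.lf 8598619268 90925894 0) 128 256 0 64 64 128)
  (band (go 16 Gd mult S314_372_364_512 (Tr.lf 4841439874 112041029 0) 128 256 0 64 64 128)
  (band (go 16 Gd mult S314_372_216_364 (Tr.lf 4841439810 103783493 0) 128 256 0 64 64 128)
  (go 16 Gd mult S314_372_364_512 (Tr.lf 8598488196 95259334 0) 128 256 0 64 0 64)))) = true := by decide +kernel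
  have c3 : (go 16 Gd mult S314_343_512_660 (Tr.lf 12893570184 90663368 0) 128 256 0 32 0 64) = true := by decide +kernel
  have c4 : (band (go 16 Gd mult S343_372_660_808 (Tr.lf 8599652484 99449798 0) 128 256 0 32 0 128)
  (go 16 Gd mult S343_372_512_660 (Tr.lf 8599521348 99449798 0) 128 256 0 32 0 128)) = true := by decide +kernel
  have c5 : (go 16 Gd mult S314_343_660_808 (Tr.lf 12893570120 90663368 0) 128 256 0 16 0 64) = true := by decide +kernel
  have c6 : (go 16 Gd mult S314_372_216_364 (Tr.lf 8598618690 99453638 0) 128 256 0 64 0 64) = true := by decide +kernel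
  have c7 : (band (go 16 Gd mult S314_372_512_660 (Tr.lf 4841440290 108104773 0) 128 256 32 64 0 128)
  (band (go 16 Gd mult S343_372_660_808 (Tr.lf 4841415202 108104773 0) 128 256 32 64 0 128)
  (band (go 16 Gd mult S314_343_660_808 (Tr.lf 4304544290 103914692 0) 128 256 32 64 0 128)
  (band (go 16 Gd mult S314_343_660_808 (Tr.lf 4304544322 99851460 0) 128 256 0 32 64 128)
  (band (go 16 Gd mult S314_343_512_660 (Tr.lf 4304544322 99585348 0) 128 256 0 32 64 128)
  (go 16 Gd mult S314_343_660_808 (Tr.lf 4303495442 108108740 0) 128 256 16 32 0 64)))))) = true := by decide +kernel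
  have c8 : (go 16 Gd mult S256_314_660_808 (Tr.lf 4303503906 108108740 0) 128 256 32 64 0 64) = true := by decide +kernel
  (And.intro (Ok.s2 64 (Ok.s1 32 (Ok.s3 285 (Ok.lf S256_285_660_808_ok c0)
  (Ok.lf S285_314_660_808_ok c1))
  (Ok.lf S256_314_660_808_ok c8))
  (Ok.lf S256_314_660_808_ok (bl c2)))
  (Ok.s4 512 (Ok.s4 364 (Ok.s2 64 (Ok.lf S314_372_216_364_ok c6)
  (Ok.lf S314_372_216_364_ok (bl (br (br c2)))))
  (Ok.s2 64 (Ok.lf S314_372_364_512_ok (br (br (br c2))))
  (Ok.lf S314_372_364_512_ok (bl (br c2)))))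
  (Ok.s4 660 (Ok.s1 32 (Ok.s3 343 (Ok.s2 64 (Ok.lf S314_343_512_660_ok c3)
  (Ok.lf S314_343_512_660_ok (bl (br (br (br (br c7)))))))
  (Ok.lf S343_372_512_660_ok (br c4)))
  (Ok.lf S314_372_512_660_ok (bl c7)))
  (Ok.s3 343 (Ok.s1 32 (Ok.s2 64 (Ok.s1 16 (Ok.lf S314_343_660_808_ok c5)
  (Ok.lf S314_343_660_808_ok (br (br (br (br (br c7)))))))
  (Ok.lf S314_343_660_808_ok (bl (br (br (br c7))))))
  (Ok.lf S314_343_660_808_ok (bl (br (br c7)))))
  (Ok.s1 32 (Ok.lf S343_372_660_808_ok (bl c4))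
  (Ok.lf S343_372_660_808_ok (bl (br c7))))))))

end Vale.Agent.P098.Ck
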