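import Vale.Agent.P098.CkGd
import Vale.Agent.P098.CkOk
import Vale.Agent.P098.Sh.A54
import Vale.Agent.P098.Sh.A55
import Vale.Agent.P098.Sh.A56
import Vale.Agent.P098.Sh.A57
import Vale.Agent.P098.Sh.A58
import Vale.Agent.P098.Sh.A59

namespace Vale.Agent.P098.Ck

theorem r178 :
    Ok Gd mult 128 256 0 64 0 128 372 430 216 364 ∧
    Ok Gd mult 128 256 0 64 0 128 372 430 364 512 ∧
    Ok Gd mult 128 256 0 64 0 128 372 430 512 808 ∧
    Ok Gd mult 128 256 0 64 0 128 430 488 216 364 :=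
  have c0 : (band (go 16 Gd mult S430_488_216_364 (Tr.lf 13425084552 94846152 0) 128 256 0 32 64 128)
  (band (go 16 Gd mult S401_430_364_512 (Tr.lf 547439170 99720134 0) 128 256 0 32 64 128)
  (band (go 16 Gd mult S401_430_216_364 (Tr.lf 547496514 99720134 0) 128 256 0 32 64 128)
  (go 16 Gd mult S401_430_660_808 (Tr.lf 547430978 95525830 0) 128 256 0 32 64 128)))) = true := by decide +kernel
  have c1 : (band (go 16 Gd mult S459_488_216_364 (Tr.lf 13425002632 94854216 0) 128 256 0 32 0 64)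
  (band (go 16 Gd mult S430_459_216_364 (Tr.lf 9128985732 99449926 0) 128 256 0 32 0 64)
  (band (go 16 Gd mult S401_430_216_364 (Tr.lf 4842398276 108108742 0) 128 256 0 32 0 64)
  (band (go 16 Gd mult S401_430_364_512 (Tr.lf 4842406466 112303046 0) 128 256 0 32 0 64)
  (go 16 Gd mult S401_430_660_808 (Tr.lf 4842406466 108108742 0) 128 256 0 32 0 64))))) = true := by decide +kernel
  have c2 : (band (go 16 Gd mult S372_401_216_364 (Tr.lf 547506244 99593158 0) 128 256 0 32 0 128)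
  (band (go 16 Gd mult S372_401_364_512 (Tr.lf 547506244 99593158 0) 128 256 0 32 0 128)
  (band (go 16 Gd mult S372_401_512_660 (Tr.lf 547506244 95656902 0) 128 256 0 32 0 128)
  (band (go 16 Gd mult S401_430_512_660 (Tr.lf 547506244 103914438 0) 128 256 0 32 0 128)
  (go 16 Gd mult S372_401_660_808 (Tr.lf 547506242 103914438 0) 128 256 0 32 0 128))))) = true := by decide +kernel
  have c3 : (band (go 16 Gd mult S372_430_660_808 (Tr.lf 4841423906 112299077 0) 128 256 32 64 0 128)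
  (band (go 16 Gd mult S372_430_512_660 (Tr.lf 4841358370 112299077 0) 128 256 32 64 0 128)
  (band (go 16 Gd mult S430_488_216_364 (Tr.lf 539051042 99847110 0) 128 256 32 64 0 128)
  (band (go 16 Gd mult S372_430_216_364 (Tr.lf 4832969250 108096581 0) 128 256 32 64 0 128)
  (go 16 Gd mult S372_430_364_512 (Tr.lf 4841357858 108104773 0) 128 256 32 64 0 128))))) = true := by decide +kernel
  (And.intro (Ok.s1 32 (Ok.s3 401 (Ok.lf S372_401_216_364_ok (bl c2))
  (Ok.s2 64 (Ok.lf S401_430_216_364_ok (bl (br (br c1))))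
  (Ok.lf S401_430_216_364_ok (bl (br (br c0))))))
  (Ok.lf S372_430_216_364_ok (bl (br (br (br c3))))))
  (And.intro (Ok.s1 32 (Ok.s3 401 (Ok.lf S372_401_364_512_ok (bl (br c2)))
  (Ok.s2 64 (Ok.lf S401_430_364_512_ok (bl (br (br (br c1)))))
  (Ok.lf S401_430_364_512_ok (bl (br c0)))))
  (Ok.lf S372_430_364_512_ok (br (br (br (br c3))))))
  (And.intro (Ok.s4 660 (Ok.s1 32 (Ok.s3 401 (Ok.lf S372_401_512_660_ok (bl (br (br c2))))
  (Ok.lf S401_430_512_660_ok (bl (br (br (br c2))))))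
  (Ok.lf S372_430_512_660_ok (bl (br c3))))
  (Ok.s1 32 (Ok.s3 401 (Ok.lf S372_401_660_808_ok (br (br (br (br c2)))))
  (Ok.s2 64 (Ok.lf S401_430_660_808_ok (br (br (br (br c1)))))
  (Ok.lf S401_430_660_808_ok (br (br (br c0))))))
  (Ok.lf S372_430_660_808_ok (bl c3))))
  (Ok.s1 32 (Ok.s2 64 (Ok.s3 459 (Ok.lf S430_459_216_364_ok (bl (br c1)))
  (Ok.lf S459_488_216_364_ok (bl c1)))
  (Ok.lf S430_488_216_364_ok (bl c0)))
  (Ok.lf S430_488_216_364_ok (bl (br (br c3))))))))

end Vale.Agent.P098.Ck
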