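import Vale.Agent.P098.CkGd
import Vale.Agent.P098.CkOk
import Vale.Agent.P098.Sh.A0
import Vale.Agent.P098.Sh.A1
import Vale.Agent.P098.Sh.A58
import Vale.Agent.P098.Sh.A59

namespace Vale.Agent.P098.Ck

theorem r179 :
    Ok Gd mult 128 256 0 64 0 128 430 488 364 512 ∧
    Ok Gd mult 128 256 0 64 0 128 430 488 512 808 ∧
    Ok Gd mult 128 256 0 64 128 256 24 82 216 808 :=
  have c0 : (go 16 Gd mult S430_488_512_660 (Tr.lf 13425084552 94846152 0) 128 256 0 32 64 128) = true := by decide +kernel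
  have c1 : (go 16 Gd mult S430_488_660_808 (Tr.lf 13425084552 94846152 0) 128 256 0 32 64 128) = true := by decide +kernel
  have c2 : (go 16 Gd mult S430_488_364_512 (Tr.lf 13425019016 94846152 0) 128 256 0 32 64 128) = true := by decide +kernel
  have c3 : (go 16 Gd mult S430_488_512_660 (Tr.lf 13425019016 90914119 0) 128 256 0 16 0 64) = true := by decide +kernel
  have c4 : (band (go 16 Gd mult S459_488_364_512 (Tr.lf 13425002632 94854216 0) 128 256 0 32 0 64)
  (band (go 16 Gd mult S459_488_660_808 (Tr.lf 13425002632 94854216 0) 128 256 0 32 0 64)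
  (band (go 16 Gd mult S430_459_660_808 (Tr.lf 9128985732 99449926 0) 128 256 0 32 0 64)
  (go 16 Gd mult S430_459_364_512 (Tr.lf 9128985668 99449926 0) 128 256 0 32 0 64)))) = true := by decide +kernel
  have c5 : (go 16 Gd mult S24_82_216_364 (Tr.lf 1076988036 99441735 0) 128 256 0 64 128 256) = true := by decide +kernel
  have c6 : (band (go 16 Gd mult S24_82_364_512 (Tr.lf 1153532994 99711817 0) 128 256 0 32 128 256)
  (band (go 16 Gd mult S24_82_660_808 (Tr.lf 1153532994 99711817 0) 128 256 0 32 128 256)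
  (go 16 Gd mult S24_82_512_660 (Tr.lf 1153532994 99711817 0) 128 256 0 32 128 256))) = true := by decide +kernel
  have c7 : (band (go 16 Gd mult S24_82_364_512 (Tr.lf 540099650 103906119 0) 128 256 32 64 128 256)
  (band (go 16 Gd mult S24_82_512_660 (Tr.lf 540099650 103906119 0) 128 256 32 64 128 256)
  (go 16 Gd mult S24_82_660_808 (Tr.lf 540099650 103906119 0) 128 256 32 64 128 256))) = true := by decide +kernel
  have c8 : (band (go 16 Gd mult S430_488_364_512 (Tr.lf 539051042 99847110 0) 128 256 32 64 0 128)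
  (band (go 16 Gd mult S430_488_660_808 (Tr.lf 539051042 99847110 0) 128 256 32 64 0 128)
  (go 16 Gd mult S430_488_512_660 (Tr.lf 539051042 99847110 0) 128 256 32 64 0 128))) = true := by decide +kernel
  have c9 : (go 16 Gd mult S430_488_512_660 (Tr.lf 4834009361 112299077 0) 128 256 16 32 0 64) = true := by decide +kernel
  (And.intro (Ok.s1 32 (Ok.s2 64 (Ok.s3 459 (Ok.lf S430_459_364_512_ok (br (br (br c4))))
  (Ok.lf S459_488_364_512_ok (bl c4)))
  (Ok.lf S430_488_364_512_ok c2))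
  (Ok.lf S430_488_364_512_ok (bl c8)))
  (And.intro (Ok.s4 660 (Ok.s1 32 (Ok.s2 64 (Ok.s1 16 (Ok.lf S430_488_512_660_ok c3)
  (Ok.lf S430_488_512_660_ok c9))
  (Ok.lf S430_488_512_660_ok c0))
  (Ok.lf S430_488_512_660_ok (br (br c8))))
  (Ok.s1 32 (Ok.s2 64 (Ok.s3 459 (Ok.lf S430_459_660_808_ok (bl (br (br c4))))
  (Ok.lf S459_488_660_808_ok (bl (br c4))))
  (Ok.lf S430_488_660_808_ok c1))
  (Ok.lf S430_488_660_808_ok (bl (br c8)))))
  (Ok.s4 512 (Ok.s4 364 (Ok.lf S24_82_216_364_ok c5)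
  (Ok.s1 32 (Ok.lf S24_82_364_512_ok (bl c6))
  (Ok.lf S24_82_364_512_ok (bl c7))))
  (Ok.s4 660 (Ok.s1 32 (Ok.lf S24_82_512_660_ok (br (br c6)))
  (Ok.lf S24_82_512_660_ok (bl (br c7))))
  (Ok.s1 32 (Ok.lf S24_82_660_808_ok (bl (br c6)))
  (Ok.lf S24_82_660_808_ok (br (br c7))))))))

end Vale.Agent.P098.Ck
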