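import Vale.Agent.P098.CkGd
import Vale.Agent.P098.CkOk
import Vale.Agent.P098.Sh.A27
import Vale.Agent.P098.Sh.A29
import Vale.Agent.P098.Sh.A38
import Vale.Agent.P098.Sh.A41
import Vale.Agent.P098.Sh.A45

namespace Vale.Agent.P098.Ck

theorem r18 :
    Ok Gd mult 0 128 0 64 384 512 227 256 586 660 ∧
    Ok Gd mult 0 128 0 64 384 512 198 256 660 808 ∧
    Ok Gd mult 0 128 0 64 384 448 256 314 216 364 ∧
    Ok Gd mult 0 128 0 64 448 480 256 314 216 364 :=
  have c0 : (go 16 Gd mult S198_256_660_808 (Tr.lf 4840785028 107842246 0) 0 128 0 64 448 480) = true := by decide +kernel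
  have c1 : (go 16 Gd mult S256_285_216_364 (Tr.lf 8946820 103910468 0) 0 128 0 64 448 480) = true := by decide +kernel
  have c2 : (go 16 Gd mult S285_314_216_364 (Tr.lf 4840784964 103644101 0) 0 128 0 16 448 480) = true := by decide +kernel
  have c3 : (band (go 16 Gd mult S227_256_586_660 (Tr.lf 4849813636 107842630 56022761751855908264380) 0 128 0 32 448 512)
  (band (go 16 Gd mult S227_256_586_660 (Tr.lf 9144779844 103386055 422356652311653893799936) 0 128 32 64 480 512)
  (band (go 16 Gd mult S227_256_660_808 (Tr.lf 9144910980 95128519 461906471605687172464795) 0 128 32 64 480 512)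
  (go 16 Gd mult S227_256_660_808 (Tr.lf 4840506436 107707206 273269513305611086352875597) 0 128 0 32 480 512)))) = true := by decide +kernel
  have c4 : (band (go 16 Gd mult S198_256_660_808 (Tr.lf 8684674 108104517 0) 0 128 0 64 384 448)
  (band (go 16 Gd mult S285_314_216_364 (Tr.lf 4841555074 103382086 0) 0 128 0 64 384 448)
  (band (go 16 Gd mult S256_285_216_364 (Tr.lf 8659522 99457861 0) 0 128 0 64 384 448)
  (go 16 Gd mult S285_314_216_364 (Tr.lf 4841554466 107838406 0) 0 128 16 32 448 480)))) = true := by decide +kernel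
  have c5 : (band (go 16 Gd mult S198_227_660_808 (Tr.lf 9144910980 99318727 208411314544770514157568) 0 128 0 32 480 512)
  (go 16 Gd mult S198_227_660_808 (Tr.lf 4841554242 107842757 0) 0 128 32 64 480 496)) = true := by decide +kernel
  have c6 : (go 16 Gd mult S198_227_660_808 (Tr.lf 9145173060 95263559 175244068700240740352000) 0 128 32 64 496 512) = true := by decide +kernel
  have c7 : (band (go 16 Gd mult S227_256_586_660 (Tr.lf 8462882 107973700 0) 0 128 0 32 384 448)
  (band (go 16 Gd mult S227_256_586_660 (Tr.lf 8462625 108112836 0) 0 128 32 64 448 480)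
  (band (go 16 Gd mult S285_314_216_364 (Tr.lf 546447650 103910469 0) 0 128 32 64 448 480)
  (go 16 Gd mult S227_256_586_660 (Tr.lf 621879569 99851461 0) 0 128 32 64 384 448)))) = true := by decide +kernel
  (And.intro (Ok.s1 32 (Ok.s2 448 (Ok.lf S227_256_586_660_ok (bl c7))
  (Ok.lf S227_256_586_660_ok (bl c3)))
  (Ok.s2 448 (Ok.lf S227_256_586_660_ok (br (br (br c7))))
  (Ok.s2 480 (Ok.lf S227_256_586_660_ok (bl (br c7)))
  (Ok.lf S227_256_586_660_ok (bl (br c3))))))
  (And.intro (Ok.s2 448 (Ok.lf S198_256_660_808_ok (bl c4))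
  (Ok.s2 480 (Ok.lf S198_256_660_808_ok c0)
  (Ok.s3 227 (Ok.s1 32 (Ok.lf S198_227_660_808_ok (bl c5))
  (Ok.s2 496 (Ok.lf S198_227_660_808_ok (br c5))
  (Ok.lf S198_227_660_808_ok c6)))
  (Ok.s1 32 (Ok.lf S227_256_660_808_ok (br (br (br c3))))
  (Ok.lf S227_256_660_808_ok (bl (br (br c3))))))))
  (And.intro (Ok.s3 285 (Ok.lf S256_285_216_364_ok (bl (br (br c4))))
  (Ok.lf S285_314_216_364_ok (bl (br c4))))
  (Ok.s3 285 (Ok.lf S256_285_216_364_ok c1)
  (Ok.s1 32 (Ok.s1 16 (Ok.lf S285_314_216_364_ok c2)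
  (Ok.lf S285_314_216_364_ok (br (br (br c4)))))
  (Ok.lf S285_314_216_364_ok (bl (br (br c7)))))))))

end Vale.Agent.P098.Ck
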