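import Vale.Agent.P098.CkGd
import Vale.Agent.P098.CkOk
import Vale.Agent.P098.Sh.A11
import Vale.Agent.P098.Sh.A17
import Vale.Agent.P098.Sh.A25
import Vale.Agent.P098.Sh.A26
import Vale.Agent.P098.Sh.A27
import Vale.Agent.P098.Sh.A29
import Vale.Agent.P098.Sh.A3
import Vale.Agent.P098.Sh.A36
import Vale.Agent.P098.Sh.A37
import Vale.Agent.P098.Sh.A4
import Vale.Agent.P098.Sh.A41
import Vale.Agent.P098.Sh.A43
import Vale.Agent.P098.Sh.A45
import Vale.Agent.P098.Sh.A8

namespace Vale.Agent.P098.Ck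

theorem r180 :
    Ok Gd mult 128 256 0 64 128 256 82 140 216 808 ∧
    Ok Gd mult 128 256 0 64 128 256 140 256 216 808 ∧
    Ok Gd mult 128 256 0 64 128 256 256 314 216 512 :=
  have c0 : (band (go 16 Gd mult S82_140_364_512 (Tr.lf 547653764 108104646 0) 128 256 0 64 128 256)
  (go 16 Gd mult S140_198_660_808 (Tr.lf 1160021122 87133255 0) 128 256 0 64 128 256)) = true := by decide +kernel
  have c1 : (band (go 16 Gd mult S82_140_216_364 (Tr.lf 547653762 108104646 0) 128 256 0 64 128 256)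
  (band (go 16 Gd mult S82_140_512_660 (Tr.lf 547522692 108104901 0) 128 256 0 64 128 256)
  (go 16 Gd mult S198_227_216_364 (Tr.lf 1227113538 95657159 0) 128 256 0 64 128 256))) = true := by decide +kernel
  have c2 : (band (go 16 Gd mult S140_198_364_512 (Tr.lf 1227131010 91593799 0) 128 256 0 64 128 256)
  (band (go 16 Gd mult S140_198_512_660 (Tr.lf 1160022146 91200583 0) 128 256 0 64 128 256)
  (go 16 Gd mult S256_285_364_512 (Tr.lf 75777090 112168132 0) 128 256 0 64 128 256))) = true := by decide +kernel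
  have c3 : (band (go 16 Gd mult S256_314_216_364 (Tr.lf 77104258 112299205 0) 128 256 0 64 128 256)
  (band (go 16 Gd mult S82_140_660_808 (Tr.lf 547521666 103910597 0) 128 256 0 64 128 256)
  (band (go 16 Gd mult S198_227_512_660 (Tr.lf 690242690 99720263 0) 128 256 0 64 128 256)
  (go 16 Gd mult S140_169_216_364 (Tr.lf 1227113537 87399367 0) 128 256 0 64 128 256)))) = true := by decide +kernel
  have c4 : (band (go 16 Gd mult S198_256_660_808 (Tr.lf 9732738 103914692 0) 128 256 0 64 128 192)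
  (go 16 Gd mult S198_256_660_808 (Tr.lf 690258498 99593414 0) 128 256 0 64 192 256)) = true := by decide +kernel
  have c5 : (band (go 16 Gd mult S227_256_512_660 (Tr.lf 689194114 99720262 0) 128 256 0 64 128 256)
  (band (go 16 Gd mult S169_198_216_364 (Tr.lf 1227113537 87264455 0) 128 256 0 64 128 256)
  (band (go 16 Gd mult S227_256_216_364 (Tr.lf 689194049 103783367 0) 128 256 0 64 128 256)
  (band (go 16 Gd mult S227_256_364_512 (Tr.lf 689194049 99716294 0) 128 256 0 64 128 256)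
  (band (go 16 Gd mult S198_227_364_512 (Tr.lf 690111553 99716295 0) 128 256 0 64 128 256)
  (go 16 Gd mult S285_314_364_512 (Tr.lf 76686402 107978052 0) 128 256 0 64 128 256)))))) = true := by decide +kernel
  (And.intro (Ok.s4 512 (Ok.s4 364 (Ok.lf S82_140_216_364_ok (bl c1))
  (Ok.lf S82_140_364_512_ok (bl c0)))
  (Ok.s4 660 (Ok.lf S82_140_512_660_ok (bl (br c1)))
  (Ok.lf S82_140_660_808_ok (bl (br c3)))))
  (And.intro (Ok.s3 198 (Ok.s4 512 (Ok.s4 364 (Ok.s3 169 (Ok.lf S140_169_216_364_ok (br (br (br c3))))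
  (Ok.lf S169_198_216_364_ok (bl (br c5))))
  (Ok.lf S140_198_364_512_ok (bl c2)))
  (Ok.s4 660 (Ok.lf S140_198_512_660_ok (bl (br c2)))
  (Ok.lf S140_198_660_808_ok (br c0))))
  (Ok.s4 512 (Ok.s4 364 (Ok.s3 227 (Ok.lf S198_227_216_364_ok (br (br c1)))
  (Ok.lf S227_256_216_364_ok (bl (br (br c5)))))
  (Ok.s3 227 (Ok.lf S198_227_364_512_ok (bl (br (br (br (br c5))))))
  (Ok.lf S227_256_364_512_ok (bl (br (br (br c5)))))))
  (Ok.s4 660 (Ok.s3 227 (Ok.lf S198_227_512_660_ok (bl (br (br c3))))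
  (Ok.lf S227_256_512_660_ok (bl c5)))
  (Ok.s2 192 (Ok.lf S198_256_660_808_ok (bl c4))
  (Ok.lf S198_256_660_808_ok (br c4))))))
  (Ok.s4 364 (Ok.lf S256_314_216_364_ok (bl c3))
  (Ok.s3 285 (Ok.lf S256_285_364_512_ok (br (br c2)))
  (Ok.lf S285_314_364_512_ok (br (br (br (br (br c5))))))))))

end Vale.Agent.P098.Ck
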