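import Vale.Agent.P098.CkGd
import Vale.Agent.P098.CkOk
import Vale.Agent.P098.Sh.A44
import Vale.Agent.P098.Sh.A48
import Vale.Agent.P098.Sh.A49
import Vale.Agent.P098.Sh.A51
import Vale.Agent.P098.Sh.A52
import Vale.Agent.P098.Sh.A54
import Vale.Agent.P098.Sh.A55
import Vale.Agent.P098.Sh.A57

namespace Vale.Agent.P098.Ck

theorem r181 :
    Ok Gd mult 128 256 0 64 128 256 256 314 512 808 ∧
    Ok Gd mult 128 256 0 64 128 256 314 372 216 808 ∧
    Ok Gd mult 128 256 0 64 128 256 372 430 216 808 :=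
  have c0 : (band (go 16 Gd mult S256_314_512_660 (Tr.lf 76843140 112299332 0) 128 256 0 64 128 256)
  (go 16 Gd mult S314_372_216_364 (Tr.lf 614761602 95657030 0) 128 256 0 64 128 256)) = true := by decide +kernel
  have c1 : (band (go 16 Gd mult S256_314_660_808 (Tr.lf 9734276 103914692 0) 128 256 0 64 128 256)
  (band (go 16 Gd mult S314_343_660_808 (Tr.lf 547636354 99585094 0) 128 256 0 64 128 256)
  (go 16 Gd mult S343_372_364_512 (Tr.lf 614614146 103914566 0) 128 256 0 64 128 256))) = true := by decide +kernel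
  have c2 : (band (go 16 Gd mult S343_372_660_808 (Tr.lf 614762626 99978310 0) 128 256 0 64 128 256)
  (band (go 16 Gd mult S314_343_512_660 (Tr.lf 10634370 112430022 0) 128 256 0 64 128 256)
  (band (go 16 Gd mult S343_372_512_660 (Tr.lf 614614146 99978310 0) 128 256 0 64 128 256)
  (go 16 Gd mult S314_343_364_512 (Tr.lf 76694594 108105028 0) 128 256 0 64 128 256)))) = true := by decide +kernel
  have c3 : (band (go 16 Gd mult S372_430_512_660 (Tr.lf 1152550978 91192264 0) 128 256 0 32 128 256)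
  (band (go 16 Gd mult S372_430_216_364 (Tr.lf 1152549954 95386568 0) 128 256 0 32 128 256)
  (band (go 16 Gd mult S372_430_364_512 (Tr.lf 1152549954 95386568 0) 128 256 0 32 128 256)
  (band (go 16 Gd mult S372_401_660_808 (Tr.lf 614745154 104045510 0) 128 256 0 32 128 256)
  (go 16 Gd mult S401_430_660_808 (Tr.lf 1152533570 91192519 0) 128 256 0 32 128 256))))) = true := by decide +kernel
  have c4 : (band (go 16 Gd mult S372_430_660_808 (Tr.lf 547522626 103910470 0) 128 256 32 64 128 256)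
  (band (go 16 Gd mult S372_430_364_512 (Tr.lf 547456034 99716166 0) 128 256 32 64 128 256)
  (band (go 16 Gd mult S372_430_512_660 (Tr.lf 547456034 99716166 0) 128 256 32 64 128 256)
  (go 16 Gd mult S372_430_216_364 (Tr.lf 547505186 99716166 0) 128 256 32 64 128 256)))) = true := by decide +kernel
  (And.intro (Ok.s4 660 (Ok.lf S256_314_512_660_ok (bl c0))
  (Ok.lf S256_314_660_808_ok (bl c1)))
  (And.intro (Ok.s4 512 (Ok.s4 364 (Ok.lf S314_372_216_364_ok (br c0))
  (Ok.s3 343 (Ok.lf S314_343_364_512_ok (br (br (br c2))))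
  (Ok.lf S343_372_364_512_ok (br (br c1)))))
  (Ok.s4 660 (Ok.s3 343 (Ok.lf S314_343_512_660_ok (bl (br c2)))
  (Ok.lf S343_372_512_660_ok (bl (br (br c2)))))
  (Ok.s3 343 (Ok.lf S314_343_660_808_ok (bl (br c1)))
  (Ok.lf S343_372_660_808_ok (bl c2)))))
  (Ok.s4 512 (Ok.s4 364 (Ok.s1 32 (Ok.lf S372_430_216_364_ok (bl (br c3)))
  (Ok.lf S372_430_216_364_ok (br (br (br c4)))))
  (Ok.s1 32 (Ok.lf S372_430_364_512_ok (bl (br (br c3))))
  (Ok.lf S372_430_364_512_ok (bl (br c4)))))
  (Ok.s4 660 (Ok.s1 32 (Ok.lf S372_430_512_660_ok (bl c3))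
  (Ok.lf S372_430_512_660_ok (bl (br (br c4)))))
  (Ok.s1 32 (Ok.s3 401 (Ok.lf S372_401_660_808_ok (bl (br (br (br c3)))))
  (Ok.lf S401_430_660_808_ok (br (br (br (br c3))))))
  (Ok.lf S372_430_660_808_ok (bl c4)))))))

end Vale.Agent.P098.Ck
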