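import Vale.Agent.P098.CkGd
import Vale.Agent.P098.CkOk
import Vale.Agent.P098.Sh.A0
import Vale.Agent.P098.Sh.A1
import Vale.Agent.P098.Sh.A11
import Vale.Agent.P098.Sh.A3
import Vale.Agent.P098.Sh.A4
import Vale.Agent.P098.Sh.A58
import Vale.Agent.P098.Sh.A59

namespace Vale.Agent.P098.Ck

theorem r182 :
    Ok Gd mult 128 256 0 64 128 256 430 488 216 512 ∧
    Ok Gd mult 128 256 0 64 128 256 430 488 512 808 ∧
    Ok Gd mult 128 256 0 64 256 384 24 140 216 808 ∧
    Ok Gd mult 128 256 0 64 256 384 140 198 216 808 :=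
  have c0 : (band (go 16 Gd mult S24_82_216_364 (Tr.lf 1077053572 103767111 0) 128 256 0 64 256 384)
  (band (go 16 Gd mult S82_140_216_364 (Tr.lf 547653762 112033093 0) 128 256 0 64 256 384)
  (go 16 Gd mult S140_198_512_660 (Tr.lf 1227129921 99716167 0) 128 256 0 64 256 384))) = true := by decide +kernel
  have c1 : (band (go 16 Gd mult S140_198_216_364 (Tr.lf 1228179586 99978312 0) 128 256 0 64 256 384)
  (go 16 Gd mult S140_198_364_512 (Tr.lf 1228179586 95784008 0) 128 256 0 64 256 384)) = true := by decide +kernel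
  have c2 : (band (go 16 Gd mult S24_82_364_512 (Tr.lf 1076988036 103767111 0) 128 256 0 64 256 384)
  (band (go 16 Gd mult S24_82_512_660 (Tr.lf 1076988036 103767111 0) 128 256 0 64 256 384)
  (go 16 Gd mult S24_82_660_808 (Tr.lf 1076988036 103767111 0) 128 256 0 64 256 384))) = true := by decide +kernel
  have c3 : (band (go 16 Gd mult S430_488_216_364 (Tr.lf 1152551042 99716167 0) 128 256 0 32 128 256)
  (band (go 16 Gd mult S430_488_660_808 (Tr.lf 1152551042 99716167 0) 128 256 0 32 128 256)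
  (go 16 Gd mult S430_488_364_512 (Tr.lf 1152485506 95521863 0) 128 256 0 32 128 256))) = true := by decide +kernel
  have c4 : (band (go 16 Gd mult S82_140_364_512 (Tr.lf 547522690 112033093 0) 128 256 0 64 256 384)
  (band (go 16 Gd mult S82_140_512_660 (Tr.lf 547522690 103775557 0) 128 256 0 64 256 384)
  (band (go 16 Gd mult S82_140_660_808 (Tr.lf 547521666 112033093 0) 128 256 0 64 256 384)
  (go 16 Gd mult S140_198_660_808 (Tr.lf 1160021058 99454023 0) 128 256 0 64 256 384)))) = true := by decide +kernel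
  have c5 : (go 16 Gd mult S430_488_512_660 (Tr.lf 1152485506 95521863 0) 128 256 0 32 128 256) = true := by decide +kernel
  have c6 : (band (go 16 Gd mult S430_488_216_364 (Tr.lf 539051041 95521734 0) 128 256 32 64 128 256)
  (band (go 16 Gd mult S430_488_364_512 (Tr.lf 539051041 95521734 0) 128 256 32 64 128 256)
  (band (go 16 Gd mult S430_488_512_660 (Tr.lf 539051041 95521734 0) 128 256 32 64 128 256)
  (go 16 Gd mult S430_488_660_808 (Tr.lf 539051041 95521734 0) 128 256 32 64 128 256)))) = true := by decide +kernel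
  (And.intro (Ok.s4 364 (Ok.s1 32 (Ok.lf S430_488_216_364_ok (bl c3))
  (Ok.lf S430_488_216_364_ok (bl c6)))
  (Ok.s1 32 (Ok.lf S430_488_364_512_ok (br (br c3)))
  (Ok.lf S430_488_364_512_ok (bl (br c6)))))
  (And.intro (Ok.s4 660 (Ok.s1 32 (Ok.lf S430_488_512_660_ok c5)
  (Ok.lf S430_488_512_660_ok (bl (br (br c6)))))
  (Ok.s1 32 (Ok.lf S430_488_660_808_ok (bl (br c3)))
  (Ok.lf S430_488_660_808_ok (br (br (br c6))))))
  (And.intro (Ok.s3 82 (Ok.s4 512 (Ok.s4 364 (Ok.lf S24_82_216_364_ok (bl c0))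
  (Ok.lf S24_82_364_512_ok (bl c2)))
  (Ok.s4 660 (Ok.lf S24_82_512_660_ok (bl (br c2)))
  (Ok.lf S24_82_660_808_ok (br (br c2)))))
  (Ok.s4 512 (Ok.s4 364 (Ok.lf S82_140_216_364_ok (bl (br c0)))
  (Ok.lf S82_140_364_512_ok (bl c4)))
  (Ok.s4 660 (Ok.lf S82_140_512_660_ok (bl (br c4)))
  (Ok.lf S82_140_660_808_ok (bl (br (br c4)))))))
  (Ok.s4 512 (Ok.s4 364 (Ok.lf S140_198_216_364_ok (bl c1))
  (Ok.lf S140_198_364_512_ok (br c1)))
  (Ok.s4 660 (Ok.lf S140_198_512_660_ok (br (br c0)))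
  (Ok.lf S140_198_660_808_ok (br (br (br c4)))))))))

end Vale.Agent.P098.Ck
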