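import Vale.Agent.P098.CkGd
import Vale.Agent.P098.CkOk
import Vale.Agent.P098.Sh.A28
import Vale.Agent.P098.Sh.A29
import Vale.Agent.P098.Sh.A43
import Vale.Agent.P098.Sh.A44
import Vale.Agent.P098.Sh.A48
import Vale.Agent.P098.Sh.A49
import Vale.Agent.P098.Sh.A51
import Vale.Agent.P098.Sh.A52
import Vale.Agent.P098.Sh.A54
import Vale.Agent.P098.Sh.A56

namespace Vale.Agent.P098.Ck

theorem r183 :
    Ok Gd mult 128 256 0 64 256 384 198 256 216 808 ∧
    Ok Gd mult 128 256 0 64 256 384 256 372 216 808 ∧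
    Ok Gd mult 128 256 0 64 256 384 372 430 216 512 :=
  have c0 : (band (go 16 Gd mult S343_372_660_808 (Tr.lf 614762628 104176582 0) 128 256 0 64 256 384)
  (go 16 Gd mult S198_256_512_660 (Tr.lf 690259074 99716422 0) 128 256 0 64 256 384)) = true := by decide +kernel
  have c1 : (band (go 16 Gd mult S372_430_216_364 (Tr.lf 1152682116 95517640 0) 128 256 0 64 256 384)
  (go 16 Gd mult S314_372_216_364 (Tr.lf 614761602 104041542 0) 128 256 0 64 256 384)) = true := by decide +kernel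
  have c2 : (band (go 16 Gd mult S343_372_512_660 (Tr.lf 614746242 104168518 0) 128 256 0 64 256 384)
  (band (go 16 Gd mult S314_343_660_808 (Tr.lf 547637378 107973702 0) 128 256 0 64 256 384)
  (band (go 16 Gd mult S198_256_660_808 (Tr.lf 690259010 103910726 0) 128 256 0 64 256 384)
  (go 16 Gd mult S256_314_660_808 (Tr.lf 9733186 112303300 0) 128 256 0 64 256 384)))) = true := by decide +kernel
  have c3 : (band (go 16 Gd mult S198_256_216_364 (Tr.lf 1227129921 95780039 0) 128 256 0 64 256 384)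
  (band (go 16 Gd mult S256_314_216_364 (Tr.lf 76842049 108109124 0) 128 256 0 64 256 384)
  (band (go 16 Gd mult S256_314_364_512 (Tr.lf 76710978 104041796 0) 128 256 0 64 256 384)
  (band (go 16 Gd mult S256_314_512_660 (Tr.lf 76710978 103918788 0) 128 256 0 64 256 384)
  (band (go 16 Gd mult S372_401_364_512 (Tr.lf 614614146 104176582 0) 128 256 0 64 256 384)
  (go 16 Gd mult S401_430_364_512 (Tr.lf 1152533634 95517640 0) 128 256 0 64 256 384)))))) = true := by decide +kernel
  have c4 : (band (go 16 Gd mult S198_256_364_512 (Tr.lf 690127937 108105030 0) 128 256 0 64 256 384)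
  (band (go 16 Gd mult S343_372_364_512 (Tr.lf 614614082 104168518 0) 128 256 0 64 256 384)
  (band (go 16 Gd mult S314_343_512_660 (Tr.lf 10634306 112171974 0) 128 256 0 64 256 384)
  (go 16 Gd mult S314_343_364_512 (Tr.lf 76686401 104045764 0) 128 256 0 64 256 384)))) = true := by decide +kernel
  (And.intro (Ok.s4 512 (Ok.s4 364 (Ok.lf S198_256_216_364_ok (bl c3))
  (Ok.lf S198_256_364_512_ok (bl c4)))
  (Ok.s4 660 (Ok.lf S198_256_512_660_ok (br c0))
  (Ok.lf S198_256_660_808_ok (bl (br (br c2))))))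
  (And.intro (Ok.s3 314 (Ok.s4 512 (Ok.s4 364 (Ok.lf S256_314_216_364_ok (bl (br c3)))
  (Ok.lf S256_314_364_512_ok (bl (br (br c3)))))
  (Ok.s4 660 (Ok.lf S256_314_512_660_ok (bl (br (br (br c3)))))
  (Ok.lf S256_314_660_808_ok (br (br (br c2))))))
  (Ok.s4 512 (Ok.s4 364 (Ok.lf S314_372_216_364_ok (br c1))
  (Ok.s3 343 (Ok.lf S314_343_364_512_ok (br (br (br c4))))
  (Ok.lf S343_372_364_512_ok (bl (br c4)))))
  (Ok.s4 660 (Ok.s3 343 (Ok.lf S314_343_512_660_ok (bl (br (br c4))))
  (Ok.lf S343_372_512_660_ok (bl c2)))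
  (Ok.s3 343 (Ok.lf S314_343_660_808_ok (bl (br c2)))
  (Ok.lf S343_372_660_808_ok (bl c0))))))
  (Ok.s4 364 (Ok.lf S372_430_216_364_ok (bl c1))
  (Ok.s3 401 (Ok.lf S372_401_364_512_ok (bl (br (br (br (br c3))))))
  (Ok.lf S401_430_364_512_ok (br (br (br (br (br c3))))))))))

end Vale.Agent.P098.Ck
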