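import Vale.Agent.P098.CkGd
import Vale.Agent.P098.CkOk
import Vale.Agent.P098.Sh.A0
import Vale.Agent.P098.Sh.A1
import Vale.Agent.P098.Sh.A54
import Vale.Agent.P098.Sh.A57
import Vale.Agent.P098.Sh.A58
import Vale.Agent.P098.Sh.A59

namespace Vale.Agent.P098.Ck

theorem r184 :
    Ok Gd mult 128 256 0 64 256 384 372 430 512 808 ∧
    Ok Gd mult 128 256 0 64 256 384 430 488 216 808 ∧
    Ok Gd mult 128 256 0 64 384 512 24 82 216 364 ∧
    Ok Gd mult 128 256 0 64 384 448 24 82 364 512 ∧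
    Ok Gd mult 128 256 0 64 448 480 24 82 364 512 :=
  have c0 : (go 16 Gd mult S24_82_216_364 (Tr.lf 9666988168 94846152 603253983987699958178381824) 128 256 0 32 480 512) = true := by decide +kernel
  have c1 : (band (go 16 Gd mult S372_401_660_808 (Tr.lf 614762626 104176582 0) 128 256 0 64 256 384)
  (band (go 16 Gd mult S401_430_660_808 (Tr.lf 1152534658 95517640 0) 128 256 0 64 256 384)
  (band (go 16 Gd mult S372_401_512_660 (Tr.lf 614614146 104176582 0) 128 256 0 64 256 384)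
  (go 16 Gd mult S401_430_512_660 (Tr.lf 1152533634 95517640 0) 128 256 0 64 256 384)))) = true := by decide +kernel
  have c2 : (band (go 16 Gd mult S53_82_216_364 (Tr.lf 5380393096 107842631 120973747635387239497728) 128 256 32 64 480 512)
  (go 16 Gd mult S24_53_216_364 (Tr.lf 9666905220 99310791 145784618414526586421248) 128 256 32 64 480 512)) = true := by decide +kernel
  have c3 : (band (go 16 Gd mult S24_82_364_512 (Tr.lf 539134084 103775429 0) 128 256 0 64 384 448)
  (band (go 16 Gd mult S24_82_216_364 (Tr.lf 539067524 103775429 0) 128 256 0 64 384 448)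
  (band (go 16 Gd mult S24_82_216_364 (Tr.lf 1076987010 103640135 0) 128 256 0 32 448 480)
  (go 16 Gd mult S24_82_364_512 (Tr.lf 1076987010 103640135 0) 128 256 0 32 448 480)))) = true := by decide +kernel
  have c4 : (band (go 16 Gd mult S430_488_216_364 (Tr.lf 1152551042 99712071 0) 128 256 0 32 256 384)
  (band (go 16 Gd mult S430_488_660_808 (Tr.lf 1152550978 99712071 0) 128 256 0 32 256 384)
  (band (go 16 Gd mult S430_488_512_660 (Tr.lf 1152485442 99712071 0) 128 256 0 32 256 384)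
  (go 16 Gd mult S430_488_364_512 (Tr.lf 1152485442 99712071 0) 128 256 0 32 256 384)))) = true := by decide +kernel
  have c5 : (band (go 16 Gd mult S24_82_216_364 (Tr.lf 5371954244 107834439 0) 128 256 32 64 448 480)
  (go 16 Gd mult S24_82_364_512 (Tr.lf 5371954242 107834439 0) 128 256 32 64 448 480)) = true := by decide +kernel
  have c6 : (band (go 16 Gd mult S430_488_364_512 (Tr.lf 1152468001 95644871 0) 128 256 32 64 256 384)
  (band (go 16 Gd mult S430_488_512_660 (Tr.lf 1152467489 91450567 0) 128 256 32 64 256 384)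
  (band (go 16 Gd mult S430_488_660_808 (Tr.lf 1152467489 87256263 0) 128 256 32 64 256 384)
  (go 16 Gd mult S430_488_216_364 (Tr.lf 1152467489 91450567 0) 128 256 32 64 256 384)))) = true := by decide +kernel
  (And.intro (Ok.s4 660 (Ok.s3 401 (Ok.lf S372_401_512_660_ok (bl (br (br c1))))
  (Ok.lf S401_430_512_660_ok (br (br (br c1)))))
  (Ok.s3 401 (Ok.lf S372_401_660_808_ok (bl c1))
  (Ok.lf S401_430_660_808_ok (bl (br c1)))))
  (And.intro (Ok.s4 512 (Ok.s4 364 (Ok.s1 32 (Ok.lf S430_488_216_364_ok (bl c4))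
  (Ok.lf S430_488_216_364_ok (br (br (br c6)))))
  (Ok.s1 32 (Ok.lf S430_488_364_512_ok (br (br (br c4))))
  (Ok.lf S430_488_364_512_ok (bl c6))))
  (Ok.s4 660 (Ok.s1 32 (Ok.lf S430_488_512_660_ok (bl (br (br c4))))
  (Ok.lf S430_488_512_660_ok (bl (br c6))))
  (Ok.s1 32 (Ok.lf S430_488_660_808_ok (bl (br c4)))
  (Ok.lf S430_488_660_808_ok (bl (br (br c6)))))))
  (And.intro (Ok.s2 448 (Ok.lf S24_82_216_364_ok (bl (br c3)))
  (Ok.s2 480 (Ok.s1 32 (Ok.lf S24_82_216_364_ok (bl (br (br c3))))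
  (Ok.lf S24_82_216_364_ok (bl c5)))
  (Ok.s1 32 (Ok.lf S24_82_216_364_ok c0)
  (Ok.s3 53 (Ok.lf S24_53_216_364_ok (br c2))
  (Ok.lf S53_82_216_364_ok (bl c2))))))
  (And.intro (Ok.lf S24_82_364_512_ok (bl c3))
  (Ok.s1 32 (Ok.lf S24_82_364_512_ok (br (br (br c3))))
  (Ok.lf S24_82_364_512_ok (br c5)))))))

end Vale.Agent.P098.Ck
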