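import Vale.Agent.P098.CkGd
import Vale.Agent.P098.CkOk
import Vale.Agent.P098.Sh.A0
import Vale.Agent.P098.Sh.A1
import Vale.Agent.P098.Sh.A3

namespace Vale.Agent.P098.Ck

theorem r185 :
    Ok Gd mult 128 256 0 64 480 512 24 82 364 512 ∧
    Ok Gd mult 128 256 0 64 384 512 24 82 512 808 ∧
    Ok Gd mult 128 256 0 64 384 448 82 140 216 364 :=
  have c0 : (band (go 16 Gd mult S24_82_512_660 (Tr.lf 539134084 103775429 0) 128 256 0 64 384 448)
  (band (go 16 Gd mult S24_82_660_808 (Tr.lf 539067524 103775429 0) 128 256 0 64 384 448)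
  (band (go 16 Gd mult S24_82_660_808 (Tr.lf 1076987010 103640135 0) 128 256 0 32 448 480)
  (go 16 Gd mult S24_82_512_660 (Tr.lf 1076987010 103640135 0) 128 256 0 32 448 480)))) = true := by decide +kernel
  have c1 : (band (go 16 Gd mult S24_82_512_660 (Tr.lf 9666988164 94846152 604462909807314587353088000) 128 256 0 32 480 512)
  (go 16 Gd mult S24_82_660_808 (Tr.lf 9666988164 94846152 604462909807314587353088000) 128 256 0 32 480 512)) = true := by decide +kernel
  have c2 : (band (go 16 Gd mult S53_82_512_660 (Tr.lf 5380393096 103648327 130252459936533667840000) 128 256 32 64 480 512)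
  (band (go 16 Gd mult S53_82_660_808 (Tr.lf 5380393096 103648327 136856394326805861826560) 128 256 32 64 480 512)
  (go 16 Gd mult S24_53_512_660 (Tr.lf 9666905220 99310791 145784618414526586421248) 128 256 32 64 480 512))) = true := by decide +kernel
  have c3 : (band (go 16 Gd mult S24_82_364_512 (Tr.lf 9666921604 90917960 776130376192591930161364992) 128 256 0 32 496 512)
  (band (go 16 Gd mult S24_82_364_512 (Tr.lf 5371953796 103505095 0) 128 256 0 32 480 496)
  (go 16 Gd mult S24_82_364_512 (Tr.lf 5371953732 107834439 0) 128 256 32 64 480 496))) = true := by decide +kernel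
  have c4 : (band (go 16 Gd mult S82_140_216_364 (Tr.lf 4842488452 99310663 0) 128 256 0 64 416 448)
  (go 16 Gd mult S82_140_216_364 (Tr.lf 547520898 103775302 0) 128 256 0 64 384 416)) = true := by decide +kernel
  have c5 : (go 16 Gd mult S24_53_660_808 (Tr.lf 9666905220 99310791 145784618414526586421248) 128 256 32 64 480 512) = true := by decide +kernel
  have c6 : (band (go 16 Gd mult S24_53_364_512 (Tr.lf 9666904708 95116487 145784618414526795612160) 128 256 32 64 496 512)
  (go 16 Gd mult S53_82_364_512 (Tr.lf 9675293764 99318983 138295240320600510365696) 128 256 32 64 496 512)) = true := by decide +kernel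
  have c7 : (band (go 16 Gd mult S24_82_512_660 (Tr.lf 5371937858 107834439 0) 128 256 32 64 448 480)
  (go 16 Gd mult S24_82_660_808 (Tr.lf 5371937858 107834439 0) 128 256 32 64 448 480)) = true := by decide +kernel
  (And.intro (Ok.s2 496 (Ok.s1 32 (Ok.lf S24_82_364_512_ok (bl (br c3)))
  (Ok.lf S24_82_364_512_ok (br (br c3))))
  (Ok.s1 32 (Ok.lf S24_82_364_512_ok (bl c3))
  (Ok.s3 53 (Ok.lf S24_53_364_512_ok (bl c6))
  (Ok.lf S53_82_364_512_ok (br c6)))))
  (And.intro (Ok.s4 660 (Ok.s2 448 (Ok.lf S24_82_512_660_ok (bl c0))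
  (Ok.s2 480 (Ok.s1 32 (Ok.lf S24_82_512_660_ok (br (br (br c0))))
  (Ok.lf S24_82_512_660_ok (bl c7)))
  (Ok.s1 32 (Ok.lf S24_82_512_660_ok (bl c1))
  (Ok.s3 53 (Ok.lf S24_53_512_660_ok (br (br c2)))
  (Ok.lf S53_82_512_660_ok (bl c2))))))
  (Ok.s2 448 (Ok.lf S24_82_660_808_ok (bl (br c0)))
  (Ok.s2 480 (Ok.s1 32 (Ok.lf S24_82_660_808_ok (bl (br (br c0))))
  (Ok.lf S24_82_660_808_ok (br c7)))
  (Ok.s1 32 (Ok.lf S24_82_660_808_ok (br c1))
  (Ok.s3 53 (Ok.lf S24_53_660_808_ok c5)
  (Ok.lf S53_82_660_808_ok (bl (br c2))))))))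
  (Ok.s2 416 (Ok.lf S82_140_216_364_ok (br c4))
  (Ok.lf S82_140_216_364_ok (bl c4)))))

end Vale.Agent.P098.Ck
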