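import Vale.Agent.P098.CkGd
import Vale.Agent.P098.CkOk
import Vale.Agent.P098.Sh.A2
import Vale.Agent.P098.Sh.A4
import Vale.Agent.P098.Sh.A5

namespace Vale.Agent.P098.Ck

theorem r186 :
    Ok Gd mult 128 256 0 32 448 512 82 140 216 364 ∧
    Ok Gd mult 128 256 32 64 448 512 82 140 216 364 ∧
    Ok Gd mult 128 256 0 64 384 512 82 140 364 512 ∧
    Ok Gd mult 128 256 0 64 384 448 82 140 512 660 :=
  have c0 : (band (go 16 Gd mult S111_140_216_364 (Tr.lf 9682847876 94993352 0) 128 256 0 32 480 512)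
  (go 16 Gd mult S82_111_364_512 (Tr.lf 5380393092 103644104 0) 128 256 0 32 480 512)) = true := by decide +kernel
  have c1 : (band (go 16 Gd mult S82_111_216_364 (Tr.lf 5380409476 103644104 0) 128 256 0 32 480 512)
  (go 16 Gd mult S111_140_364_512 (Tr.lf 9682716804 94993352 0) 128 256 0 32 480 512)) = true := by decide +kernel
  have c2 : (band (go 16 Gd mult S82_111_364_512 (Tr.lf 5380409476 95255496 38701269098171994210304) 128 256 32 64 480 512)
  (go 16 Gd mult S111_140_216_364 (Tr.lf 9682847812 99322951 0) 128 256 32 64 480 512)) = true := by decide +kernel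
  have c3 : (band (go 16 Gd mult S82_111_216_364 (Tr.lf 5380393092 99449800 28002157503891099353088) 128 256 32 64 480 512)
  (band (go 16 Gd mult S111_140_364_512 (Tr.lf 9682700420 99322951 0) 128 256 32 64 480 512)
  (band (go 16 Gd mult S111_140_364_512 (Tr.lf 9682699396 103250888 0) 128 256 32 64 448 480)
  (band (go 16 Gd mult S82_111_216_364 (Tr.lf 9137439810 90925896 0) 128 256 32 64 448 480)
  (go 16 Gd mult S82_111_364_512 (Tr.lf 9137374276 90925896 0) 128 256 32 64 448 480))))) = true := by decide +kernel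
  have c4 : (go 16 Gd mult S111_140_216_364 (Tr.lf 9682830468 103250888 0) 128 256 32 64 448 480) = true := by decide +kernel
  have c5 : (band (go 16 Gd mult S82_140_364_512 (Tr.lf 547521602 107977670 0) 128 256 32 64 384 448)
  (band (go 16 Gd mult S82_140_512_660 (Tr.lf 547521602 103914438 0) 128 256 32 64 384 448)
  (band (go 16 Gd mult S82_140_364_512 (Tr.lf 4842488898 99318982 0) 128 256 0 32 448 480)
  (band (go 16 Gd mult S111_140_216_364 (Tr.lf 4842472002 95255750 0) 128 256 0 32 448 480)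
  (go 16 Gd mult S82_111_216_364 (Tr.lf 4842406466 99318982 0) 128 256 0 32 448 480))))) = true := by decide +kernel
  have c6 : (band (go 16 Gd mult S82_140_512_660 (Tr.lf 1160922178 99589064 0) 128 256 0 32 384 448)
  (go 16 Gd mult S82_140_364_512 (Tr.lf 547455553 103775302 0) 128 256 0 32 384 448)) = true := by decide +kernel
  (And.intro (Ok.s3 111 (Ok.s2 480 (Ok.lf S82_111_216_364_ok (br (br (br (br c5)))))
  (Ok.lf S82_111_216_364_ok (bl c1)))
  (Ok.s2 480 (Ok.lf S111_140_216_364_ok (bl (br (br (br c5)))))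
  (Ok.lf S111_140_216_364_ok (bl c0))))
  (And.intro (Ok.s3 111 (Ok.s2 480 (Ok.lf S82_111_216_364_ok (bl (br (br (br c3)))))
  (Ok.lf S82_111_216_364_ok (bl c3)))
  (Ok.s2 480 (Ok.lf S111_140_216_364_ok c4)
  (Ok.lf S111_140_216_364_ok (br c2))))
  (And.intro (Ok.s2 448 (Ok.s1 32 (Ok.lf S82_140_364_512_ok (br c6))
  (Ok.lf S82_140_364_512_ok (bl c5)))
  (Ok.s2 480 (Ok.s1 32 (Ok.lf S82_140_364_512_ok (bl (br (br c5))))
  (Ok.s3 111 (Ok.lf S82_111_364_512_ok (br (br (br (br c3)))))
  (Ok.lf S111_140_364_512_ok (bl (br (br c3))))))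
  (Ok.s3 111 (Ok.s1 32 (Ok.lf S82_111_364_512_ok (br c0))
  (Ok.lf S82_111_364_512_ok (bl c2)))
  (Ok.s1 32 (Ok.lf S111_140_364_512_ok (br c1))
  (Ok.lf S111_140_364_512_ok (bl (br c3)))))))
  (Ok.s1 32 (Ok.lf S82_140_512_660_ok (bl c6))
  (Ok.lf S82_140_512_660_ok (bl (br c5)))))))

end Vale.Agent.P098.Ck
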