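import Vale.Agent.P098.CkGd
import Vale.Agent.P098.CkOk
import Vale.Agent.P098.Sh.A17
import Vale.Agent.P098.Sh.A3
import Vale.Agent.P098.Sh.A4
import Vale.Agent.P098.Sh.A5
import Vale.Agent.P098.Sh.A6
import Vale.Agent.P098.Sh.A8

namespace Vale.Agent.P098.Ck

theorem r187 :
    Ok Gd mult 128 256 0 64 448 512 82 140 512 660 ∧
    Ok Gd mult 128 256 0 64 384 512 82 140 660 808 ∧
    Ok Gd mult 128 256 0 64 384 448 140 198 216 364 ∧
    Ok Gd mult 128 256 0 64 448 480 140 198 216 364 :=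
  have c0 : (band (go 16 Gd mult S111_140_512_660 (Tr.lf 9682847876 94993352 0) 128 256 0 32 448 512)
  (go 16 Gd mult S82_111_512_660 (Tr.lf 5380393092 103644104 0) 128 256 0 32 448 512)) = true := by decide +kernel
  have c1 : (go 16 Gd mult S82_140_660_808 (Tr.lf 9145975944 86604744 0) 128 256 0 32 480 496) = true := by decide +kernel
  have c2 : (go 16 Gd mult S111_140_512_660 (Tr.lf 9145960580 94862535 0) 128 256 32 64 448 512) = true := by decide +kernel
  have c3 : (band (go 16 Gd mult S82_140_660_808 (Tr.lf 9145975940 94862280 0) 128 256 32 64 448 480)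
  (band (go 16 Gd mult S140_169_216_364 (Tr.lf 9682846852 103250888 0) 128 256 32 64 448 480)
  (go 16 Gd mult S82_111_512_660 (Tr.lf 4842406978 99585094 0) 128 256 32 64 448 480))) = true := by decide +kernel
  have c4 : (go 16 Gd mult S82_140_660_808 (Tr.lf 9145975940 90934343 0) 128 256 32 64 480 496) = true := by decide +kernel
  have c5 : (go 16 Gd mult S169_198_216_364 (Tr.lf 9146238020 99056584 0) 128 256 32 64 448 480) = true := by decide +kernel
  have c6 : (go 16 Gd mult S82_111_512_660 (Tr.lf 5380393092 103513032 64416030309628591996928) 128 256 32 64 480 512) = true := by decide +kernel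
  have c7 : (band (go 16 Gd mult S82_140_660_808 (Tr.lf 547521602 103914438 0) 128 256 32 64 384 448)
  (band (go 16 Gd mult S82_140_660_808 (Tr.lf 4842488898 103513286 0) 128 256 0 32 448 480)
  (band (go 16 Gd mult S140_169_216_364 (Tr.lf 4841423426 99318726 0) 128 256 0 32 448 480)
  (band (go 16 Gd mult S169_198_216_364 (Tr.lf 4841423394 103381958 0) 128 256 0 32 448 480)
  (band (go 16 Gd mult S140_169_216_364 (Tr.lf 4841424002 99310407 0) 128 256 0 64 384 448)
  (go 16 Gd mult S169_198_216_364 (Tr.lf 1227113538 95652935 0) 128 256 0 64 384 448)))))) = true := by decide +kernel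
  have c8 : (band (go 16 Gd mult S111_140_660_808 (Tr.lf 9145827972 90667976 0) 128 256 0 32 496 512)
  (band (go 16 Gd mult S82_111_660_808 (Tr.lf 5379342978 99449799 0) 128 256 0 32 496 512)
  (band (go 16 Gd mult S82_111_660_808 (Tr.lf 5380392004 99318983 90979341788401845141504) 128 256 32 64 496 512)
  (go 16 Gd mult S111_140_660_808 (Tr.lf 9145827908 86740039 0) 128 256 32 64 496 512)))) = true := by decide +kernel
  have c9 : (go 16 Gd mult S82_140_660_808 (Tr.lf 1160921666 99589064 0) 128 256 0 32 384 448) = true := by decide +kernel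
  (And.intro (Ok.s1 32 (Ok.s3 111 (Ok.lf S82_111_512_660_ok (br c0))
  (Ok.lf S111_140_512_660_ok (bl c0)))
  (Ok.s3 111 (Ok.s2 480 (Ok.lf S82_111_512_660_ok (br (br c3)))
  (Ok.lf S82_111_512_660_ok c6))
  (Ok.lf S111_140_512_660_ok c2)))
  (And.intro (Ok.s2 448 (Ok.s1 32 (Ok.lf S82_140_660_808_ok c9)
  (Ok.lf S82_140_660_808_ok (bl c7)))
  (Ok.s2 480 (Ok.s1 32 (Ok.lf S82_140_660_808_ok (bl (br c7)))
  (Ok.lf S82_140_660_808_ok (bl c3)))
  (Ok.s2 496 (Ok.s1 32 (Ok.lf S82_140_660_808_ok c1)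
  (Ok.lf S82_140_660_808_ok c4))
  (Ok.s1 32 (Ok.s3 111 (Ok.lf S82_111_660_808_ok (bl (br c8)))
  (Ok.lf S111_140_660_808_ok (bl c8)))
  (Ok.s3 111 (Ok.lf S82_111_660_808_ok (bl (br (br c8))))
  (Ok.lf S111_140_660_808_ok (br (br (br c8)))))))))
  (And.intro (Ok.s3 169 (Ok.lf S140_169_216_364_ok (bl (br (br (br (br c7))))))
  (Ok.lf S169_198_216_364_ok (br (br (br (br (br c7)))))))
  (Ok.s3 169 (Ok.s1 32 (Ok.lf S140_169_216_364_ok (bl (br (br c7))))
  (Ok.lf S140_169_216_364_ok (bl (br c3))))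
  (Ok.s1 32 (Ok.lf S169_198_216_364_ok (bl (br (br (br c7)))))
  (Ok.lf S169_198_216_364_ok c5))))))

end Vale.Agent.P098.Ck
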