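import Vale.Agent.P098.CkGd
import Vale.Agent.P098.CkOk
import Vale.Agent.P098.Sh.A14
import Vale.Agent.P098.Sh.A17
import Vale.Agent.P098.Sh.A20
import Vale.Agent.P098.Sh.A8

namespace Vale.Agent.P098.Ck

theorem r188 :
    Ok Gd mult 128 256 0 64 480 496 140 169 216 364 ∧
    Ok Gd mult 128 256 0 64 480 496 169 198 216 364 ∧
    Ok Gd mult 128 256 0 64 496 504 140 198 216 364 ∧
    Ok Gd mult 128 256 0 64 504 508 140 198 216 364 :=
  have c0 : (band (go 16 Gd mult S140_169_216_364 (Tr.lf 9691497604 103517128 0) 128 256 32 64 480 496)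
  (go 16 Gd mult S140_169_216_364 (Tr.lf 9684156804 90934344 0) 128 256 32 64 504 508)) = true := by decide +kernel
  have c1 : (band (go 16 Gd mult S169_183_216_364 (Tr.lf 13986448520 90671945 0) 128 256 32 64 480 496)
  (go 16 Gd mult S169_183_216_364 (Tr.lf 9692529284 103386312 0) 128 256 0 32 496 504)) = true := by decide +kernel
  have c2 : (band (go 16 Gd mult S183_198_216_364 (Tr.lf 9145173128 99191623 0) 128 256 32 64 480 496)
  (go 16 Gd mult S183_198_216_364 (Tr.lf 8608301700 86744006 0) 128 256 0 32 504 508)) = true := by decide +kernel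
  have c3 : (band (go 16 Gd mult S140_169_216_364 (Tr.lf 9692545668 99065032 0) 128 256 0 32 496 504)
  (go 16 Gd mult S183_198_216_364 (Tr.lf 8608301704 82414407 0) 128 256 0 32 496 504)) = true := by decide +kernel
  have c4 : (band (go 16 Gd mult S140_169_216_364 (Tr.lf 9692545668 95128776 0) 128 256 32 64 496 504)
  (go 16 Gd mult S183_198_216_364 (Tr.lf 9145172616 99326918 0) 128 256 32 64 496 504)) = true := by decide +kernel
  have c5 : (band (go 16 Gd mult S140_169_216_364 (Tr.lf 9692545668 99323080 0) 128 256 0 32 504 508)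
  (band (go 16 Gd mult S169_183_216_364 (Tr.lf 9692529028 99200072 0) 128 256 0 32 504 508)
  (go 16 Gd mult S169_183_216_364 (Tr.lf 13987496580 90807496 0) 128 256 32 64 504 508))) = true := by decide +kernel
  have c6 : (band (go 16 Gd mult S140_169_216_364 (Tr.lf 9682846852 103250888 0) 128 256 0 32 480 496)
  (go 16 Gd mult S169_198_216_364 (Tr.lf 9145975940 90668231 0) 128 256 0 32 480 496)) = true := by decide +kernel
  have c7 : (go 16 Gd mult S183_198_216_364 (Tr.lf 13987496580 95128776 0) 128 256 32 64 504 508) = true := by decide +kernel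
  have c8 : (go 16 Gd mult S169_183_216_364 (Tr.lf 9692529220 103644360 0) 128 256 32 64 496 504) = true := by decide +kernel
  (And.intro (Ok.s1 32 (Ok.lf S140_169_216_364_ok (bl c6))
  (Ok.lf S140_169_216_364_ok (bl c0)))
  (And.intro (Ok.s1 32 (Ok.lf S169_198_216_364_ok (br c6))
  (Ok.s3 183 (Ok.lf S169_183_216_364_ok (bl c1))
  (Ok.lf S183_198_216_364_ok (bl c2))))
  (And.intro (Ok.s3 169 (Ok.s1 32 (Ok.lf S140_169_216_364_ok (bl c3))
  (Ok.lf S140_169_216_364_ok (bl c4)))
  (Ok.s1 32 (Ok.s3 183 (Ok.lf S169_183_216_364_ok (br c1))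
  (Ok.lf S183_198_216_364_ok (br c3)))
  (Ok.s3 183 (Ok.lf S169_183_216_364_ok c8)
  (Ok.lf S183_198_216_364_ok (br c4)))))
  (Ok.s3 169 (Ok.s1 32 (Ok.lf S140_169_216_364_ok (bl c5))
  (Ok.lf S140_169_216_364_ok (br c0)))
  (Ok.s1 32 (Ok.s3 183 (Ok.lf S169_183_216_364_ok (bl (br c5)))
  (Ok.lf S183_198_216_364_ok (br c2)))
  (Ok.s3 183 (Ok.lf S169_183_216_364_ok (br (br c5)))
  (Ok.lf S183_198_216_364_ok c7)))))))

end Vale.Agent.P098.Ck
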