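import Vale.Agent.P098.CkGd
import Vale.Agent.P098.CkOk
import Vale.Agent.P098.Sh.A14
import Vale.Agent.P098.Sh.A16
import Vale.Agent.P098.Sh.A17
import Vale.Agent.P098.Sh.A20
import Vale.Agent.P098.Sh.A8
import Vale.Agent.P098.Sh.A9

namespace Vale.Agent.P098.Ck

theorem r189 :
    Ok Gd mult 128 256 0 32 508 510 140 198 216 364 ∧
    Ok Gd mult 128 256 32 64 508 510 140 198 216 364 ∧
    Ok Gd mult 128 256 0 32 510 512 140 198 216 364 :=
  have c0 : (band (go 16 Gd mult S169_198_216_364 (Tr.lf 13987512968 94870728 0) 128 256 32 48 508 510)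
  (go 16 Gd mult S140_169_216_364 (Tr.lf 13987512644 82283848 0) 128 256 32 48 508 510)) = true := by decide +kernel
  have c1 : (band (go 16 Gd mult S140_169_216_364 (Tr.lf 9692545412 95128776 0) 128 256 0 32 508 510)
  (band (go 16 Gd mult S169_183_216_364 (Tr.lf 9692529028 95263816 0) 128 256 0 32 508 510)
  (go 16 Gd mult S183_198_216_364 (Tr.lf 8608301444 82549702 0) 128 256 0 32 508 510))) = true := by decide +kernel
  have c2 : (band (go 16 Gd mult S169_198_216_290 (Tr.lf 9692283268 91069512 133997148951426182938624) 128 192 0 32 510 512)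
  (band (go 16 Gd mult S140_169_216_290 (Tr.lf 9692283266 95128776 134882592666964241416192) 128 192 0 32 510 512)
  (band (go 16 Gd mult S169_198_290_364 (Tr.lf 9683894658 95255624 122966004161820162523165) 128 192 0 32 510 512)
  (band (go 16 Gd mult S140_169_290_364 (Tr.lf 9692152194 95128776 125603880397888336953344) 128 192 0 32 510 512)
  (band (go 16 Gd mult S140_169_216_290 (Tr.lf 9692283266 99192008 0) 192 256 0 32 510 512)
  (go 16 Gd mult S140_169_290_364 (Tr.lf 9692152194 99192008 0) 192 256 0 32 510 512)))))) = true := by decide +kernel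
  have c3 : (band (go 16 Gd mult S169_198_216_290 (Tr.lf 9692283266 99327048 0) 192 256 0 32 510 512)
  (band (go 16 Gd mult S169_198_290_364 (Tr.lf 9692283266 99327048 0) 192 256 0 32 510 512)
  (band (go 16 Gd mult S169_198_216_290 (Tr.lf 13987250468 94870728 88876412947132619685888) 128 192 48 64 508 510)
  (band (go 16 Gd mult S169_198_290_364 (Tr.lf 9144926498 86875078 29441003541640444379136) 128 192 48 64 508 510)
  (band (go 16 Gd mult S140_169_216_290 (Tr.lf 13987250466 94735688 0) 128 192 48 64 508 510)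
  (band (go 16 Gd mult S140_169_290_364 (Tr.lf 9683763490 103386184 0) 128 192 48 64 508 510)
  (go 16 Gd mult S169_198_290_364 (Tr.lf 9144926498 99326918 0) 192 256 48 64 508 510))))))) = true := by decide +kernel
  have c4 : (band (go 16 Gd mult S169_198_216_290 (Tr.lf 9144795426 95132614 0) 192 256 48 64 508 510)
  (band (go 16 Gd mult S140_169_216_290 (Tr.lf 9682698530 99191879 0) 192 256 48 64 508 510)
  (go 16 Gd mult S140_169_290_364 (Tr.lf 9682698514 99191879 0) 192 256 48 64 508 510))) = true := by decide +kernel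
  (And.intro (Ok.s3 169 (Ok.lf S140_169_216_364_ok (bl c1))
  (Ok.s3 183 (Ok.lf S169_183_216_364_ok (bl (br c1)))
  (Ok.lf S183_198_216_364_ok (br (br c1)))))
  (And.intro (Ok.s1 48 (Ok.s3 169 (Ok.lf S140_169_216_364_ok (br c0))
  (Ok.lf S169_198_216_364_ok (bl c0)))
  (Ok.s4 290 (Ok.s0 192 (Ok.s3 169 (Ok.lf S140_169_216_290_ok (bl (br (br (br (br c3))))))
  (Ok.lf S169_198_216_290_ok (bl (br (br c3)))))
  (Ok.s3 169 (Ok.lf S140_169_216_290_ok (bl (br c4)))
  (Ok.lf S169_198_216_290_ok (bl c4))))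
  (Ok.s0 192 (Ok.s3 169 (Ok.lf S140_169_290_364_ok (bl (br (br (br (br (br c3)))))))
  (Ok.lf S169_198_290_364_ok (bl (br (br (br c3))))))
  (Ok.s3 169 (Ok.lf S140_169_290_364_ok (br (br c4)))
  (Ok.lf S169_198_290_364_ok (br (br (br (br (br (br c3)))))))))))
  (Ok.s4 290 (Ok.s0 192 (Ok.s3 169 (Ok.lf S140_169_216_290_ok (bl (br c2)))
  (Ok.lf S169_198_216_290_ok (bl c2)))
  (Ok.s3 169 (Ok.lf S140_169_216_290_ok (bl (br (br (br (br c2))))))
  (Ok.lf S169_198_216_290_ok (bl c3))))
  (Ok.s0 192 (Ok.s3 169 (Ok.lf S140_169_290_364_ok (bl (br (br (br c2)))))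
  (Ok.lf S169_198_290_364_ok (bl (br (br c2)))))
  (Ok.s3 169 (Ok.lf S140_169_290_364_ok (br (br (br (br (br c2))))))
  (Ok.lf S169_198_290_364_ok (bl (br c3))))))))

end Vale.Agent.P098.Ck
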