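import Vale.Agent.P098.CkGd
import Vale.Agent.P098.CkOk
import Vale.Agent.P098.Sh.A41
import Vale.Agent.P098.Sh.A43
import Vale.Agent.P098.Sh.A45
import Vale.Agent.P098.Sh.A46

namespace Vale.Agent.P098.Ck

theorem r19 :
    Ok Gd mult 0 128 0 64 480 496 256 314 216 364 ∧
    Ok Gd mult 0 128 0 64 496 512 256 314 216 364 ∧
    Ok Gd mult 0 128 0 64 384 448 256 314 364 512 ∧
    Ok Gd mult 0 128 0 64 448 480 256 314 364 512 :=
  have c0 : (band (go 16 Gd mult S285_314_216_364 (Tr.lf 4840785028 103652165 0) 0 128 0 32 480 496)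
  (go 16 Gd mult S256_285_216_364 (Tr.lf 4840768132 103652165 0) 0 128 0 32 480 496)) = true := by decide +kernel
  have c1 : (go 16 Gd mult S285_314_364_438 (Tr.lf 4849961092 107846853 0) 0 128 0 16 448 480) = true := by decide +kernel
  have c2 : (go 16 Gd mult S285_314_438_512 (Tr.lf 4840523908 103775173 0) 0 128 0 16 448 480) = true := by decide +kernel
  have c3 : (band (go 16 Gd mult S256_314_216_364 (Tr.lf 4841833092 99716165 23925427065345045168157) 0 128 32 64 504 512)
  (go 16 Gd mult S256_314_216_364 (Tr.lf 4841832772 103652421 0) 0 128 32 64 496 504)) = true := by decide +kernel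
  have c4 : (band (go 16 Gd mult S256_285_364_438 (Tr.lf 4840523844 107838150 0) 0 128 0 16 448 480)
  (go 16 Gd mult S256_285_438_512 (Tr.lf 4840523844 103774918 0) 0 128 0 16 448 480)) = true := by decide +kernel
  have c5 : (band (go 16 Gd mult S285_314_364_512 (Tr.lf 4841555076 107576390 0) 0 128 0 64 384 448)
  (band (go 16 Gd mult S256_285_364_512 (Tr.lf 4840506498 107575879 0) 0 128 0 64 384 448)
  (band (go 16 Gd mult S285_314_364_512 (Tr.lf 4840506436 107969477 0) 0 128 16 32 448 480)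
  (go 16 Gd mult S256_285_364_512 (Tr.lf 4840497698 103774918 0) 0 128 16 32 448 480)))) = true := by decide +kernel
  have c6 : (band (go 16 Gd mult S256_285_216_364 (Tr.lf 4303896964 99585092 0) 0 128 0 32 496 504)
  (band (go 16 Gd mult S285_314_216_364 (Tr.lf 9144910212 99322695 0) 0 128 0 32 496 504)
  (band (go 16 Gd mult S285_314_216_364 (Tr.lf 4841554306 103771333 0) 0 128 0 32 504 512)
  (go 16 Gd mult S256_285_216_364 (Tr.lf 278914 104041539 0) 0 128 0 32 504 512)))) = true := by decide +kernel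
  have c7 : (band (go 16 Gd mult S285_314_364_512 (Tr.lf 4841415234 103648198 0) 0 128 32 64 448 480)
  (go 16 Gd mult S256_285_364_512 (Tr.lf 545399074 99588933 0) 0 128 32 64 448 480)) = true := by decide +kernel
  have c8 : (band (go 16 Gd mult S285_314_216_364 (Tr.lf 4841546018 103775429 0) 0 128 32 64 480 496)
  (go 16 Gd mult S256_285_216_364 (Tr.lf 545399073 103779396 0) 0 128 32 64 480 496)) = true := by decide +kernel
  (And.intro (Ok.s3 285 (Ok.s1 32 (Ok.lf S256_285_216_364_ok (br c0))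
  (Ok.lf S256_285_216_364_ok (br c8)))
  (Ok.s1 32 (Ok.lf S285_314_216_364_ok (bl c0))
  (Ok.lf S285_314_216_364_ok (bl c8))))
  (And.intro (Ok.s2 504 (Ok.s1 32 (Ok.s3 285 (Ok.lf S256_285_216_364_ok (bl c6))
  (Ok.lf S285_314_216_364_ok (bl (br c6))))
  (Ok.lf S256_314_216_364_ok (br c3)))
  (Ok.s1 32 (Ok.s3 285 (Ok.lf S256_285_216_364_ok (br (br (br c6))))
  (Ok.lf S285_314_216_364_ok (bl (br (br c6)))))
  (Ok.lf S256_314_216_364_ok (bl c3))))
  (And.intro (Ok.s3 285 (Ok.lf S256_285_364_512_ok (bl (br c5)))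
  (Ok.lf S285_314_364_512_ok (bl c5)))
  (Ok.s3 285 (Ok.s1 32 (Ok.s1 16 (Ok.s4 438 (Ok.lf S256_285_364_438_ok (bl c4))
  (Ok.lf S256_285_438_512_ok (br c4)))
  (Ok.lf S256_285_364_512_ok (br (br (br c5)))))
  (Ok.lf S256_285_364_512_ok (br c7)))
  (Ok.s1 32 (Ok.s1 16 (Ok.s4 438 (Ok.lf S285_314_364_438_ok c1)
  (Ok.lf S285_314_438_512_ok c2))
  (Ok.lf S285_314_364_512_ok (bl (br (br c5)))))
  (Ok.lf S285_314_364_512_ok (bl c7)))))))

end Vale.Agent.P098.Ck
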