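import Vale.Agent.P098.CkGd
import Vale.Agent.P098.CkOk
import Vale.Agent.P098.Sh.A11
import Vale.Agent.P098.Sh.A15
import Vale.Agent.P098.Sh.A16
import Vale.Agent.P098.Sh.A18
import Vale.Agent.P098.Sh.A21
import Vale.Agent.P098.Sh.A9

namespace Vale.Agent.P098.Ck

theorem r191 :
    Ok Gd mult 128 256 0 32 480 512 169 198 364 438 ∧
    Ok Gd mult 128 256 32 64 480 512 169 198 364 438 ∧
    Ok Gd mult 128 256 0 64 448 512 140 198 438 512 ∧
    Ok Gd mult 128 256 0 64 384 448 140 198 512 660 :=
  have c0 : (go 16 Gd mult S183_198_364_438 (Tr.lf 9144912008 103385927 0) 128 256 32 64 480 512) = true := by decide +kernel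
  have c1 : (go 16 Gd mult S169_198_438_512 (Tr.lf 9144928388 95128391 31414813341407160303616) 128 192 32 64 480 512) = true := by decide +kernel
  have c2 : (go 16 Gd mult S169_198_438_512 (Tr.lf 9144928388 99457990 0) 192 256 32 64 480 512) = true := by decide +kernel
  have c3 : (band (go 16 Gd mult S169_198_364_438 (Tr.lf 8607926404 86608966 0) 192 256 0 32 496 512)
  (go 16 Gd mult S169_198_364_438 (Tr.lf 9144796292 90803015 88673498841301968224256) 128 192 0 32 496 512)) = true := by decide +kernel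
  have c4 : (band (go 16 Gd mult S169_183_364_438 (Tr.lf 9144780936 95128391 0) 128 256 32 64 480 512)
  (go 16 Gd mult S140_169_438_512 (Tr.lf 9682716804 103517255 0) 128 256 32 64 480 512)) = true := by decide +kernel
  have c5 : (go 16 Gd mult S140_169_438_512 (Tr.lf 4849830020 95263686 0) 128 256 0 32 480 512) = true := by decide +kernel
  have c6 : (band (go 16 Gd mult S183_198_438_512 (Tr.lf 9144910984 99191623 0) 128 256 0 32 496 512)
  (go 16 Gd mult S169_183_438_512 (Tr.lf 9144779912 90934087 0) 128 256 0 32 496 512)) = true := by decide +kernel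
  have c7 : (go 16 Gd mult S140_198_512_660 (Tr.lf 4841571460 99441479 0) 128 256 0 64 384 448) = true := by decide +kernel
  have c8 : (band (go 16 Gd mult S169_198_364_438 (Tr.lf 9145828484 90668231 0) 128 256 0 32 480 496)
  (band (go 16 Gd mult S169_198_438_512 (Tr.lf 9145828484 94862535 0) 128 256 0 32 480 496)
  (go 16 Gd mult S169_198_438_512 (Tr.lf 9145828418 99314887 0) 192 256 32 64 448 480))) = true := by decide +kernel
  have c9 : (go 16 Gd mult S140_169_438_512 (Tr.lf 9682699396 107445192 0) 128 256 32 64 448 480) = true := by decide +kernel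
  have c10 : (go 16 Gd mult S140_198_438_512 (Tr.lf 4841440322 103513030 0) 128 256 0 32 448 480) = true := by decide +kernel
  have c11 : (go 16 Gd mult S169_198_438_512 (Tr.lf 4841357858 107707334 0) 128 192 32 64 448 480) = true := by decide +kernel
  (And.intro (Ok.s2 496 (Ok.lf S169_198_364_438_ok (bl c8))
  (Ok.s0 192 (Ok.lf S169_198_364_438_ok (br c3))
  (Ok.lf S169_198_364_438_ok (bl c3))))
  (And.intro (Ok.s3 183 (Ok.lf S169_183_364_438_ok (bl c4))
  (Ok.lf S183_198_364_438_ok c0))
  (And.intro (Ok.s1 32 (Ok.s2 480 (Ok.lf S140_198_438_512_ok c10)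
  (Ok.s3 169 (Ok.lf S140_169_438_512_ok c5)
  (Ok.s2 496 (Ok.lf S169_198_438_512_ok (bl (br c8)))
  (Ok.s3 183 (Ok.lf S169_183_438_512_ok (br c6))
  (Ok.lf S183_198_438_512_ok (bl c6))))))
  (Ok.s3 169 (Ok.s2 480 (Ok.lf S140_169_438_512_ok c9)
  (Ok.lf S140_169_438_512_ok (br c4)))
  (Ok.s0 192 (Ok.s2 480 (Ok.lf S169_198_438_512_ok c11)
  (Ok.lf S169_198_438_512_ok c1))
  (Ok.s2 480 (Ok.lf S169_198_438_512_ok (br (br c8)))
  (Ok.lf S169_198_438_512_ok c2)))))
  (Ok.lf S140_198_512_660_ok c7))))

end Vale.Agent.P098.Ck
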