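import Vale.Agent.P098.CkGd
import Vale.Agent.P098.CkOk
import Vale.Agent.P098.Sh.A10
import Vale.Agent.P098.Sh.A11
import Vale.Agent.P098.Sh.A18
import Vale.Agent.P098.Sh.A19
import Vale.Agent.P098.Sh.A9

namespace Vale.Agent.P098.Ck

theorem r192 :
    Ok Gd mult 128 256 0 64 448 480 140 198 512 586 ∧
    Ok Gd mult 128 256 0 64 480 512 140 198 512 586 ∧
    Ok Gd mult 128 256 0 64 448 512 140 198 586 660 ∧
    Ok Gd mult 128 256 0 64 384 448 140 198 660 808 :=
  have c0 : (go 16 Gd mult S169_198_512_586 (Tr.lf 9144927368 95128391 0) 128 256 0 32 496 512) = true := by decide +kernel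
  have c1 : (band (go 16 Gd mult S169_198_512_586 (Tr.lf 9144928388 99322695 0) 128 256 32 64 480 512)
  (go 16 Gd mult S140_169_512_586 (Tr.lf 9682716740 103517255 0) 128 256 32 64 480 512)) = true := by decide +kernel
  have c2 : (band (go 16 Gd mult S140_169_512_586 (Tr.lf 4841441412 95255494 0) 128 256 0 32 480 512)
  (go 16 Gd mult S169_198_586_660 (Tr.lf 4841441412 107707589 0) 128 256 0 32 480 512)) = true := by decide +kernel
  have c3 : (band (go 16 Gd mult S140_169_586_660 (Tr.lf 9682700420 94993352 0) 128 256 0 32 480 512)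
  (band (go 16 Gd mult S140_169_586_660 (Tr.lf 9682700420 103517255 0) 128 256 32 64 480 512)
  (band (go 16 Gd mult S169_198_586_660 (Tr.lf 9145845828 103517255 0) 128 256 32 64 480 512)
  (go 16 Gd mult S140_169_586_660 (Tr.lf 9145828420 90799303 0) 128 256 32 64 448 480)))) = true := by decide +kernel
  have c4 : (go 16 Gd mult S140_198_660_808 (Tr.lf 4841571458 103643847 0) 128 256 0 64 384 448) = true := by decide +kernel
  have c5 : (band (go 16 Gd mult S169_198_512_586 (Tr.lf 9145827972 99056839 0) 128 256 0 32 480 496)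
  (band (go 16 Gd mult S169_198_512_586 (Tr.lf 9145828420 94993352 0) 128 256 32 64 448 480)
  (band (go 16 Gd mult S140_169_512_586 (Tr.lf 9145828420 99056584 0) 128 256 32 64 448 480)
  (go 16 Gd mult S169_198_586_660 (Tr.lf 9145828420 99187911 0) 128 256 32 64 448 480)))) = true := by decide +kernel
  have c6 : (band (go 16 Gd mult S140_169_512_586 (Tr.lf 4841349698 103513030 0) 128 256 0 32 448 480)
  (band (go 16 Gd mult S140_169_586_660 (Tr.lf 4841349698 103513030 0) 128 256 0 32 448 480)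
  (band (go 16 Gd mult S169_198_512_586 (Tr.lf 4841349666 103513030 0) 128 256 0 32 448 480)
  (go 16 Gd mult S169_198_586_660 (Tr.lf 4841349666 107707334 0) 128 256 0 32 448 480)))) = true := by decide +kernel
  (And.intro (Ok.s3 169 (Ok.s1 32 (Ok.lf S140_169_512_586_ok (bl c6))
  (Ok.lf S140_169_512_586_ok (bl (br (br c5)))))
  (Ok.s1 32 (Ok.lf S169_198_512_586_ok (bl (br (br c6))))
  (Ok.lf S169_198_512_586_ok (bl (br c5)))))
  (And.intro (Ok.s1 32 (Ok.s3 169 (Ok.lf S140_169_512_586_ok (bl c2))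
  (Ok.s2 496 (Ok.lf S169_198_512_586_ok (bl c5))
  (Ok.lf S169_198_512_586_ok c0)))
  (Ok.s3 169 (Ok.lf S140_169_512_586_ok (br c1))
  (Ok.lf S169_198_512_586_ok (bl c1))))
  (And.intro (Ok.s1 32 (Ok.s3 169 (Ok.s2 480 (Ok.lf S140_169_586_660_ok (bl (br c6)))
  (Ok.lf S140_169_586_660_ok (bl c3)))
  (Ok.s2 480 (Ok.lf S169_198_586_660_ok (br (br (br c6))))
  (Ok.lf S169_198_586_660_ok (br c2))))
  (Ok.s3 169 (Ok.s2 480 (Ok.lf S140_169_586_660_ok (br (br (br c3))))
  (Ok.lf S140_169_586_660_ok (bl (br c3))))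
  (Ok.s2 480 (Ok.lf S169_198_586_660_ok (br (br (br c5))))
  (Ok.lf S169_198_586_660_ok (bl (br (br c3)))))))
  (Ok.lf S140_198_660_808_ok c4))))

end Vale.Agent.P098.Ck
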