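import Vale.Agent.P098.CkGd
import Vale.Agent.P098.CkOk
import Vale.Agent.P098.Sh.A10
import Vale.Agent.P098.Sh.A19
import Vale.Agent.P098.Sh.A25
import Vale.Agent.P098.Sh.A36

namespace Vale.Agent.P098.Ck

theorem r193 :
    Ok Gd mult 128 256 0 32 448 512 140 198 660 734 ∧
    Ok Gd mult 128 256 32 64 448 512 140 198 660 734 ∧
    Ok Gd mult 128 256 0 64 448 512 140 198 734 808 ∧
    Ok Gd mult 128 256 0 64 384 448 198 256 216 364 ∧
    Ok Gd mult 128 256 0 64 448 480 198 256 216 364 :=
  have c0 : (go 16 Gd mult S140_169_660_734 (Tr.lf 9145845896 90799303 0) 128 256 32 64 448 512) = true := by decide +kernel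
  have c1 : (band (go 16 Gd mult S169_198_660_734 (Tr.lf 9145845892 94993607 0) 128 256 0 32 480 512)
  (go 16 Gd mult S140_169_660_734 (Tr.lf 9682700420 99187656 0) 128 256 0 32 480 512)) = true := by decide +kernel
  have c2 : (go 16 Gd mult S169_198_734_808 (Tr.lf 9145976962 95259719 0) 192 256 0 64 480 512) = true := by decide +kernel
  have c3 : (band (go 16 Gd mult S198_227_216_364 (Tr.lf 9144927364 94993096 0) 128 256 0 64 448 480)
  (go 16 Gd mult S227_256_216_364 (Tr.lf 4303635010 95255238 0) 128 256 0 64 448 480)) = true := by decide +kernel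
  have c4 : (band (go 16 Gd mult S169_198_734_808 (Tr.lf 9144912002 103250887 40693517434742233890816) 128 192 0 64 480 512)
  (band (go 16 Gd mult S140_169_734_808 (Tr.lf 9145828482 90799048 0) 128 192 0 64 480 512)
  (band (go 16 Gd mult S140_169_734_808 (Tr.lf 9145829508 90799048 0) 192 256 0 32 448 512)
  (go 16 Gd mult S140_169_734_808 (Tr.lf 9145829442 95128647 0) 192 256 32 64 448 512)))) = true := by decide +kernel
  have c5 : (band (go 16 Gd mult S169_198_660_734 (Tr.lf 9145829444 95259719 0) 128 256 32 64 480 512)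
  (go 16 Gd mult S169_198_660_734 (Tr.lf 9145828420 99187911 0) 128 256 32 64 448 480)) = true := by decide +kernel
  have c6 : (go 16 Gd mult S169_198_734_808 (Tr.lf 9145828482 94993352 0) 192 256 0 64 448 480) = true := by decide +kernel
  have c7 : (band (go 16 Gd mult S198_227_216_364 (Tr.lf 690242626 108105030 0) 128 256 0 64 384 448)
  (go 16 Gd mult S227_256_216_364 (Tr.lf 689185345 112176070 0) 128 256 0 64 384 448)) = true := by decide +kernel
  have c8 : (band (go 16 Gd mult S140_169_734_808 (Tr.lf 4842463874 99450054 0) 128 192 0 64 448 480)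
  (go 16 Gd mult S169_198_734_808 (Tr.lf 4841415297 107838406 0) 128 192 0 64 448 480)) = true := by decide +kernel
  have c9 : (band (go 16 Gd mult S140_169_660_734 (Tr.lf 4841349698 103513030 0) 128 256 0 32 448 480)
  (go 16 Gd mult S169_198_660_734 (Tr.lf 4841349666 107707334 0) 128 256 0 32 448 480)) = true := by decide +kernel
  (And.intro (Ok.s3 169 (Ok.s2 480 (Ok.lf S140_169_660_734_ok (bl c9))
  (Ok.lf S140_169_660_734_ok (br c1)))
  (Ok.s2 480 (Ok.lf S169_198_660_734_ok (br c9))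
  (Ok.lf S169_198_660_734_ok (bl c1))))
  (And.intro (Ok.s3 169 (Ok.lf S140_169_660_734_ok c0)
  (Ok.s2 480 (Ok.lf S169_198_660_734_ok (br c5))
  (Ok.lf S169_198_660_734_ok (bl c5))))
  (And.intro (Ok.s0 192 (Ok.s3 169 (Ok.s2 480 (Ok.lf S140_169_734_808_ok (bl c8))
  (Ok.lf S140_169_734_808_ok (bl (br c4))))
  (Ok.s2 480 (Ok.lf S169_198_734_808_ok (br c8))
  (Ok.lf S169_198_734_808_ok (bl c4))))
  (Ok.s3 169 (Ok.s1 32 (Ok.lf S140_169_734_808_ok (bl (br (br c4))))
  (Ok.lf S140_169_734_808_ok (br (br (br c4)))))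
  (Ok.s2 480 (Ok.lf S169_198_734_808_ok c6)
  (Ok.lf S169_198_734_808_ok c2))))
  (And.intro (Ok.s3 227 (Ok.lf S198_227_216_364_ok (bl c7))
  (Ok.lf S227_256_216_364_ok (br c7)))
  (Ok.s3 227 (Ok.lf S198_227_216_364_ok (bl c3))
  (Ok.lf S227_256_216_364_ok (br c3)))))))

end Vale.Agent.P098.Ck
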