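import Vale.Agent.P098.CkGd
import Vale.Agent.P098.CkOk
import Vale.Agent.P098.Sh.A23
import Vale.Agent.P098.Sh.A25
import Vale.Agent.P098.Sh.A30
import Vale.Agent.P098.Sh.A34
import Vale.Agent.P098.Sh.A36
import Vale.Agent.P098.Sh.A39

namespace Vale.Agent.P098.Ck

theorem r195 :
    Ok Gd mult 128 256 0 32 508 510 198 256 216 364 ∧
    Ok Gd mult 128 256 32 64 508 510 198 256 216 364 ∧
    Ok Gd mult 128 256 0 32 510 512 198 256 216 290 :=
  have c0 : (band (go 16 Gd mult S198_212_216_364 (Tr.lf 8608301448 86871237 0) 128 256 0 32 508 510)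
  (band (go 16 Gd mult S212_227_216_364 (Tr.lf 8608301448 95394885 0) 128 256 0 32 508 510)
  (band (go 16 Gd mult S227_241_216_364 (Tr.lf 8598864260 99580741 0) 128 256 0 32 508 510)
  (go 16 Gd mult S241_256_216_364 (Tr.lf 9210962242 103910086 0) 128 256 0 32 508 510)))) = true := by decide +kernel
  have c1 : (band (go 16 Gd mult S198_212_216_364 (Tr.lf 9145172296 103775174 0) 128 256 32 48 508 510)
  (band (go 16 Gd mult S212_227_216_364 (Tr.lf 9145172296 103783493 0) 128 256 32 48 508 510)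
  (go 16 Gd mult S227_256_216_364 (Tr.lf 8675148068 91458502 0) 128 256 32 48 508 510))) = true := by decide +kernel
  have c2 : (band (go 16 Gd mult S227_256_216_290 (Tr.lf 8598618500 99314629 0) 128 192 0 32 510 512)
  (band (go 16 Gd mult S212_227_216_290 (Tr.lf 8608039300 99585093 61538338279373087440896) 128 192 0 32 510 512)
  (band (go 16 Gd mult S198_212_216_290 (Tr.lf 8608039300 91200581 61538338269821080174592) 128 192 0 32 510 512)
  (band (go 16 Gd mult S227_256_216_290 (Tr.lf 8598618500 99314374 0) 192 256 0 32 510 512)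
  (go 16 Gd mult S212_227_216_290 (Tr.lf 8608039300 95648837 28002157503891099353088) 192 256 0 32 510 512))))) = true := by decide +kernel
  have c3 : (band (go 16 Gd mult S198_227_216_290 (Tr.lf 8608055588 91200581 0) 128 192 48 64 508 510)
  (band (go 16 Gd mult S198_227_290_364 (Tr.lf 8608055588 95394885 5165088340638674452480) 128 192 48 64 508 510)
  (band (go 16 Gd mult S227_256_216_290 (Tr.lf 8675016978 95521734 0) 128 192 48 64 508 510)
  (band (go 16 Gd mult S227_256_290_364 (Tr.lf 4303503634 103783364 55469359430722658500733) 128 192 48 64 508 510)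
  (band (go 16 Gd mult S198_227_216_290 (Tr.lf 8608055588 95386566 0) 192 256 48 64 508 510)
  (band (go 16 Gd mult S198_227_290_364 (Tr.lf 8608055588 95386566 0) 192 256 48 64 508 510)
  (band (go 16 Gd mult S227_256_290_364 (Tr.lf 4303503634 99847108 55469359430928816930941) 192 256 48 64 508 510)
  (go 16 Gd mult S227_256_216_290 (Tr.lf 8675016977 95521734 0) 192 256 48 64 508 510)))))))) = true := by decide +kernel
  have c4 : (go 16 Gd mult S198_212_216_290 (Tr.lf 8608039298 95263813 43884834280142582841391) 192 256 0 32 510 512) = true := by decide +kernel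
  (And.intro (Ok.s3 227 (Ok.s3 212 (Ok.lf S198_212_216_364_ok (bl c0))
  (Ok.lf S212_227_216_364_ok (bl (br c0))))
  (Ok.s3 241 (Ok.lf S227_241_216_364_ok (bl (br (br c0))))
  (Ok.lf S241_256_216_364_ok (br (br (br c0))))))
  (And.intro (Ok.s1 48 (Ok.s3 227 (Ok.s3 212 (Ok.lf S198_212_216_364_ok (bl c1))
  (Ok.lf S212_227_216_364_ok (bl (br c1))))
  (Ok.lf S227_256_216_364_ok (br (br c1))))
  (Ok.s4 290 (Ok.s0 192 (Ok.s3 227 (Ok.lf S198_227_216_290_ok (bl c3))
  (Ok.lf S227_256_216_290_ok (bl (br (br c3)))))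
  (Ok.s3 227 (Ok.lf S198_227_216_290_ok (bl (br (br (br (br c3))))))
  (Ok.lf S227_256_216_290_ok (br (br (br (br (br (br (br c3))))))))))
  (Ok.s0 192 (Ok.s3 227 (Ok.lf S198_227_290_364_ok (bl (br c3)))
  (Ok.lf S227_256_290_364_ok (bl (br (br (br c3))))))
  (Ok.s3 227 (Ok.lf S198_227_290_364_ok (bl (br (br (br (br (br c3)))))))
  (Ok.lf S227_256_290_364_ok (bl (br (br (br (br (br (br c3))))))))))))
  (Ok.s0 192 (Ok.s3 227 (Ok.s3 212 (Ok.lf S198_212_216_290_ok (bl (br (br c2))))
  (Ok.lf S212_227_216_290_ok (bl (br c2))))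
  (Ok.lf S227_256_216_290_ok (bl c2)))
  (Ok.s3 227 (Ok.s3 212 (Ok.lf S198_212_216_290_ok c4)
  (Ok.lf S212_227_216_290_ok (br (br (br (br c2))))))
  (Ok.lf S227_256_216_290_ok (bl (br (br (br c2)))))))))

end Vale.Agent.P098.Ck
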