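import Vale.Agent.P098.CkGd
import Vale.Agent.P098.CkOk
import Vale.Agent.P098.Sh.A25
import Vale.Agent.P098.Sh.A28
import Vale.Agent.P098.Sh.A36

namespace Vale.Agent.P098.Ck

theorem r196 :
    Ok Gd mult 128 256 0 32 510 512 198 256 290 364 ∧
    Ok Gd mult 128 256 32 64 510 512 198 256 216 364 ∧
    Ok Gd mult 128 256 0 64 384 448 198 256 364 512 ∧
    Ok Gd mult 128 256 0 32 448 480 198 256 364 438 :=
  have c0 : (go 16 Gd mult S198_256_364_512 (Tr.lf 690260100 103910726 0) 128 256 0 64 384 448) = true := by decide +kernel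
  have c1 : (band (go 16 Gd mult S198_227_290_364 (Tr.lf 8608318084 95128773 58882007095581675094016) 128 192 0 32 510 512)
  (band (go 16 Gd mult S227_256_290_364 (Tr.lf 8598618498 99445701 0) 128 192 0 32 510 512)
  (go 16 Gd mult S198_227_290_364 (Tr.lf 8608318084 91200581 28002165666665423962112) 192 256 0 32 510 512))) = true := by decide +kernel
  have c2 : (band (go 16 Gd mult S198_227_216_290 (Tr.lf 8608055684 95128518 10853782217594062114721366063) 192 256 32 64 510 512)
  (band (go 16 Gd mult S198_227_290_364 (Tr.lf 8608055684 91065286 12007079242570000854281093149) 192 256 32 64 510 512)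
  (band (go 16 Gd mult S227_256_216_290 (Tr.lf 8675017026 95521734 10852624131001097887288393728) 192 256 32 64 510 512)
  (band (go 16 Gd mult S227_256_290_364 (Tr.lf 8675017026 91458502 12007141887712875171918381133) 192 256 32 64 510 512)
  (band (go 16 Gd mult S198_227_290_364 (Tr.lf 8608055620 91200581 32650737010465906360320) 128 192 32 48 510 512)
  (go 16 Gd mult S198_227_216_290 (Tr.lf 8608055588 95263813 58882007083280888758272) 128 192 32 48 510 512)))))) = true := by decide +kernel
  have c3 : (go 16 Gd mult S227_256_290_364 (Tr.lf 8598618434 99445446 0) 192 256 0 32 510 512) = true := by decide +kernel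
  have c4 : (band (go 16 Gd mult S198_227_216_290 (Tr.lf 8608055588 87006277 13324836959956516830806278144) 128 192 48 64 510 512)
  (band (go 16 Gd mult S198_227_290_364 (Tr.lf 9144926500 103783493 15152701365961934541886062639) 128 192 48 64 510 512)
  (band (go 16 Gd mult S227_256_216_290 (Tr.lf 8675016978 95521734 13323665849983927287440998400) 128 192 48 64 510 512)
  (band (go 16 Gd mult S227_256_290_364 (Tr.lf 4303503634 104041412 15151561154263996095698829407) 128 192 48 64 510 512)
  (band (go 16 Gd mult S227_256_216_290 (Tr.lf 8675016978 91327685 106529947025672660582400) 128 192 32 48 510 512)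
  (go 16 Gd mult S227_256_290_364 (Tr.lf 8675016978 91458502 108300834456748777537613) 128 192 32 48 510 512)))))) = true := by decide +kernel
  have c5 : (go 16 Gd mult S198_256_364_438 (Tr.lf 4304503330 95382470 0) 128 256 0 32 448 480) = true := by decide +kernel
  (And.intro (Ok.s0 192 (Ok.s3 227 (Ok.lf S198_227_290_364_ok (bl c1))
  (Ok.lf S227_256_290_364_ok (bl (br c1))))
  (Ok.s3 227 (Ok.lf S198_227_290_364_ok (br (br c1)))
  (Ok.lf S227_256_290_364_ok c3)))
  (And.intro (Ok.s4 290 (Ok.s0 192 (Ok.s1 48 (Ok.s3 227 (Ok.lf S198_227_216_290_ok (br (br (br (br (br c2))))))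
  (Ok.lf S227_256_216_290_ok (bl (br (br (br (br c4)))))))
  (Ok.s3 227 (Ok.lf S198_227_216_290_ok (bl c4))
  (Ok.lf S227_256_216_290_ok (bl (br (br c4))))))
  (Ok.s3 227 (Ok.lf S198_227_216_290_ok (bl c2))
  (Ok.lf S227_256_216_290_ok (bl (br (br c2))))))
  (Ok.s0 192 (Ok.s1 48 (Ok.s3 227 (Ok.lf S198_227_290_364_ok (bl (br (br (br (br c2))))))
  (Ok.lf S227_256_290_364_ok (br (br (br (br (br c4)))))))
  (Ok.s3 227 (Ok.lf S198_227_290_364_ok (bl (br c4)))
  (Ok.lf S227_256_290_364_ok (bl (br (br (br c4)))))))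
  (Ok.s3 227 (Ok.lf S198_227_290_364_ok (bl (br c2)))
  (Ok.lf S227_256_290_364_ok (bl (br (br (br c2))))))))
  (And.intro (Ok.lf S198_256_364_512_ok c0)
  (Ok.lf S198_256_364_438_ok c5))))

end Vale.Agent.P098.Ck
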