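import Vale.Agent.P098.CkGd
import Vale.Agent.P098.CkOk
import Vale.Agent.P098.Sh.A24
import Vale.Agent.P098.Sh.A25
import Vale.Agent.P098.Sh.A26
import Vale.Agent.P098.Sh.A31
import Vale.Agent.P098.Sh.A36
import Vale.Agent.P098.Sh.A37

namespace Vale.Agent.P098.Ck

theorem r197 :
    Ok Gd mult 128 256 0 32 480 512 198 227 364 438 ∧
    Ok Gd mult 128 256 0 32 480 512 227 256 364 438 ∧
    Ok Gd mult 128 256 32 64 448 512 198 256 364 438 ∧
    Ok Gd mult 128 256 0 32 448 512 198 212 438 512 :=
  have c0 : (band (go 16 Gd mult S198_227_364_438 (Tr.lf 8608057416 95132614 13890406450943336906781) 128 256 16 32 496 512)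
  (go 16 Gd mult S198_227_364_438 (Tr.lf 8608056388 86744006 5165088342047423725568) 128 256 0 16 504 512)) = true := by decide +kernel
  have c1 : (go 16 Gd mult S227_256_364_438 (Tr.lf 4303652996 103779141 0) 128 256 0 32 480 512) = true := by decide +kernel
  have c2 : (band (go 16 Gd mult S198_227_364_401 (Tr.lf 9144796296 103385927 0) 128 256 32 64 480 496)
  (go 16 Gd mult S198_227_401_438 (Tr.lf 9144796296 99322950 0) 128 256 32 64 480 496)) = true := by decide +kernel
  have c3 : (band (go 16 Gd mult S198_227_364_401 (Tr.lf 8607925384 95259590 13890419962360694308864) 128 256 32 64 504 512)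
  (go 16 Gd mult S198_227_364_401 (Tr.lf 9144795784 103521222 0) 128 256 32 64 496 504)) = true := by decide +kernel
  have c4 : (band (go 16 Gd mult S198_212_401_438 (Tr.lf 9144780936 103521222 0) 128 256 32 64 496 512)
  (go 16 Gd mult S212_227_401_438 (Tr.lf 8607909000 99327173 22486581037152002375727) 128 256 32 64 496 512)) = true := by decide +kernel
  have c5 : (go 16 Gd mult S198_212_438_512 (Tr.lf 9144910984 99449926 0) 128 256 0 32 496 512) = true := by decide +kernel
  have c6 : (band (go 16 Gd mult S227_256_364_401 (Tr.lf 4303439940 103779396 120088312084444571762765) 128 256 32 64 480 512)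
  (go 16 Gd mult S227_256_401_438 (Tr.lf 4303439940 103779396 133997157114608529440797) 128 256 32 64 480 512)) = true := by decide +kernel
  have c7 : (go 16 Gd mult S198_227_364_438 (Tr.lf 4304568868 99589316 0) 128 256 0 16 496 504) = true := by decide +kernel
  have c8 : (band (go 16 Gd mult S198_227_364_401 (Tr.lf 9144714276 94993096 0) 128 256 32 64 448 480)
  (band (go 16 Gd mult S198_227_401_438 (Tr.lf 9144714276 94993096 0) 128 256 32 64 448 480)
  (band (go 16 Gd mult S227_256_401_438 (Tr.lf 4303429922 95255493 0) 128 256 32 64 448 480)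
  (go 16 Gd mult S227_256_364_401 (Tr.lf 4303429922 95255493 0) 128 256 32 64 448 480)))) = true := by decide +kernel
  have c9 : (go 16 Gd mult S198_227_364_438 (Tr.lf 4303503908 103648069 0) 128 256 16 32 480 496) = true := by decide +kernel
  have c10 : (go 16 Gd mult S198_212_438_512 (Tr.lf 4303495746 103648069 0) 128 256 0 32 480 496) = true := by decide +kernel
  have c11 : (go 16 Gd mult S198_227_364_438 (Tr.lf 8471074 108112963 0) 128 256 0 16 480 496) = true := by decide +kernel
  have c12 : (go 16 Gd mult S198_212_438_512 (Tr.lf 4304474657 95124422 0) 128 256 0 32 448 480) = true := by decide +kernel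
  (And.intro (Ok.s1 16 (Ok.s2 496 (Ok.lf S198_227_364_438_ok c11)
  (Ok.s2 504 (Ok.lf S198_227_364_438_ok c7)
  (Ok.lf S198_227_364_438_ok (br c0))))
  (Ok.s2 496 (Ok.lf S198_227_364_438_ok c9)
  (Ok.lf S198_227_364_438_ok (bl c0))))
  (And.intro (Ok.lf S227_256_364_438_ok c1)
  (And.intro (Ok.s4 401 (Ok.s3 227 (Ok.s2 480 (Ok.lf S198_227_364_401_ok (bl c8))
  (Ok.s2 496 (Ok.lf S198_227_364_401_ok (bl c2))
  (Ok.s2 504 (Ok.lf S198_227_364_401_ok (br c3))
  (Ok.lf S198_227_364_401_ok (bl c3)))))
  (Ok.s2 480 (Ok.lf S227_256_364_401_ok (br (br (br c8))))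
  (Ok.lf S227_256_364_401_ok (bl c6))))
  (Ok.s3 227 (Ok.s2 480 (Ok.lf S198_227_401_438_ok (bl (br c8)))
  (Ok.s2 496 (Ok.lf S198_227_401_438_ok (br c2))
  (Ok.s3 212 (Ok.lf S198_212_401_438_ok (bl c4))
  (Ok.lf S212_227_401_438_ok (br c4)))))
  (Ok.s2 480 (Ok.lf S227_256_401_438_ok (bl (br (br c8))))
  (Ok.lf S227_256_401_438_ok (br c6)))))
  (Ok.s2 480 (Ok.lf S198_212_438_512_ok c12)
  (Ok.s2 496 (Ok.lf S198_212_438_512_ok c10)
  (Ok.lf S198_212_438_512_ok c5))))))

end Vale.Agent.P098.Ck
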