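import Vale.Agent.P098.CkGd
import Vale.Agent.P098.CkOk
import Vale.Agent.P098.Sh.A24
import Vale.Agent.P098.Sh.A27
import Vale.Agent.P098.Sh.A29
import Vale.Agent.P098.Sh.A32
import Vale.Agent.P098.Sh.A37

namespace Vale.Agent.P098.Ck

theorem r198 :
    Ok Gd mult 128 256 32 64 448 512 198 212 438 512 ∧
    Ok Gd mult 128 256 0 64 448 512 212 227 438 512 ∧
    Ok Gd mult 128 256 0 64 448 512 227 256 438 512 ∧
    Ok Gd mult 128 256 0 64 384 448 198 256 512 660 ∧
    Ok Gd mult 128 256 0 64 448 512 198 227 512 586 :=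
  have c0 : (band (go 16 Gd mult S198_212_438_512 (Tr.lf 9144912008 99457990 0) 128 256 32 64 496 512)
  (go 16 Gd mult S198_212_438_512 (Tr.lf 9144910920 99322950 0) 128 256 32 64 480 496)) = true := by decide +kernel
  have c1 : (go 16 Gd mult S212_227_438_512 (Tr.lf 8608041096 95263686 48533391820704154910767) 128 256 0 32 496 512) = true := by decide +kernel
  have c2 : (go 16 Gd mult S212_227_438_512 (Tr.lf 13986187400 103390152 15882654810238248550400) 128 256 32 64 496 512) = true := by decide +kernel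
  have c3 : (band (go 16 Gd mult S198_227_512_586 (Tr.lf 13449332808 90803272 0) 128 256 32 64 480 512)
  (go 16 Gd mult S227_256_438_512 (Tr.lf 4303521860 103910213 161667265064941152895101) 128 256 32 64 480 512)) = true := by decide +kernel
  have c4 : (go 16 Gd mult S198_227_512_586 (Tr.lf 8608056452 90934342 0) 128 256 0 32 496 512) = true := by decide +kernel
  have c5 : (go 16 Gd mult S227_256_438_512 (Tr.lf 4303505476 99715909 0) 128 256 0 32 480 512) = true := by decide +kernel
  have c6 : (go 16 Gd mult S198_256_512_660 (Tr.lf 9733186 104045764 0) 128 256 0 64 384 448) = true := by decide +kernel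
  have c7 : (go 16 Gd mult S212_227_438_512 (Tr.lf 4303496260 103779396 0) 128 256 32 64 480 496) = true := by decide +kernel
  have c8 : (band (go 16 Gd mult S198_227_512_586 (Tr.lf 9144779332 103516999 0) 128 256 0 32 480 496)
  (band (go 16 Gd mult S212_227_438_512 (Tr.lf 8674943554 87001927 0) 128 256 0 32 480 496)
  (band (go 16 Gd mult S198_227_512_586 (Tr.lf 9144779300 103381959 0) 128 256 32 64 448 480)
  (band (go 16 Gd mult S198_212_438_512 (Tr.lf 9144771108 94993096 0) 128 256 32 64 448 480)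
  (band (go 16 Gd mult S212_227_438_512 (Tr.lf 4304474658 95255749 0) 128 256 32 64 448 480)
  (band (go 16 Gd mult S212_227_438_512 (Tr.lf 4304474401 95382470 0) 128 256 0 32 448 480)
  (go 16 Gd mult S198_227_512_586 (Tr.lf 4304478753 91061190 0) 128 256 0 32 448 480))))))) = true := by decide +kernel
  have c9 : (go 16 Gd mult S227_256_438_512 (Tr.lf 4840366658 107838405 0) 128 256 0 64 448 480) = true := by decide +kernel
  (And.intro (Ok.s2 480 (Ok.lf S198_212_438_512_ok (bl (br (br (br c8)))))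
  (Ok.s2 496 (Ok.lf S198_212_438_512_ok (br c0))
  (Ok.lf S198_212_438_512_ok (bl c0))))
  (And.intro (Ok.s1 32 (Ok.s2 480 (Ok.lf S212_227_438_512_ok (bl (br (br (br (br (br c8)))))))
  (Ok.s2 496 (Ok.lf S212_227_438_512_ok (bl (br c8)))
  (Ok.lf S212_227_438_512_ok c1)))
  (Ok.s2 480 (Ok.lf S212_227_438_512_ok (bl (br (br (br (br c8))))))
  (Ok.s2 496 (Ok.lf S212_227_438_512_ok c7)
  (Ok.lf S212_227_438_512_ok c2))))
  (And.intro (Ok.s2 480 (Ok.lf S227_256_438_512_ok c9)
  (Ok.s1 32 (Ok.lf S227_256_438_512_ok c5)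
  (Ok.lf S227_256_438_512_ok (br c3))))
  (And.intro (Ok.lf S198_256_512_660_ok c6)
  (Ok.s1 32 (Ok.s2 480 (Ok.lf S198_227_512_586_ok (br (br (br (br (br (br c8)))))))
  (Ok.s2 496 (Ok.lf S198_227_512_586_ok (bl c8))
  (Ok.lf S198_227_512_586_ok c4)))
  (Ok.s2 480 (Ok.lf S198_227_512_586_ok (bl (br (br c8))))
  (Ok.lf S198_227_512_586_ok (bl c3))))))))

end Vale.Agent.P098.Ck
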