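import Vale.Agent.P098.CkGd
import Vale.Agent.P098.CkOk
import Vale.Agent.P098.Sh.A27
import Vale.Agent.P098.Sh.A29
import Vale.Agent.P098.Sh.A37
import Vale.Agent.P098.Sh.A38
import Vale.Agent.P098.Sh.A41
import Vale.Agent.P098.Sh.A43
import Vale.Agent.P098.Sh.A45

namespace Vale.Agent.P098.Ck

theorem r199 :
    Ok Gd mult 128 256 0 64 448 512 198 227 586 660 ∧
    Ok Gd mult 128 256 0 64 448 512 227 256 512 660 ∧
    Ok Gd mult 128 256 0 64 384 512 198 256 660 808 ∧
    Ok Gd mult 128 256 0 64 384 512 256 314 216 364 :=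
  have c0 : (band (go 16 Gd mult S198_227_660_808 (Tr.lf 9145190468 99326791 61538346392669388800000) 128 256 32 64 480 512)
  (go 16 Gd mult S198_227_586_660 (Tr.lf 9681668164 103521095 20180738016968961949725) 128 256 32 64 480 512)) = true := by decide +kernel
  have c1 : (band (go 16 Gd mult S256_314_216_364 (Tr.lf 546866308 112168005 0) 128 256 0 64 384 448)
  (go 16 Gd mult S198_256_660_808 (Tr.lf 9733186 103918788 0) 128 256 0 64 384 448)) = true := by decide +kernel
  have c2 : (band (go 16 Gd mult S227_256_512_660 (Tr.lf 9144928324 103513031 248551429654273509556224) 128 256 32 64 480 512)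
  (band (go 16 Gd mult S227_256_660_808 (Tr.lf 9144910916 99191751 407359449379728028336175) 128 256 32 64 480 512)
  (band (go 16 Gd mult S227_256_660_808 (Tr.lf 4840506434 103779269 52278072705094732742656) 128 256 0 32 480 512)
  (go 16 Gd mult S227_256_512_660 (Tr.lf 9144910916 94997447 0) 128 256 0 32 480 512)))) = true := by decide +kernel
  have c3 : (band (go 16 Gd mult S198_227_660_808 (Tr.lf 9145975940 95132743 60652902677874359664640) 128 256 0 32 496 512)
  (go 16 Gd mult S198_227_586_660 (Tr.lf 4304569476 99716165 29441003542589632151552) 128 256 0 32 496 512)) = true := by decide +kernel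
  have c4 : (band (go 16 Gd mult S285_314_216_364 (Tr.lf 4849944708 99589062 0) 128 256 0 64 448 512)
  (go 16 Gd mult S256_285_216_364 (Tr.lf 4907616386 108100549 0) 128 256 0 64 448 512)) = true := by decide +kernel
  have c5 : (band (go 16 Gd mult S198_227_660_808 (Tr.lf 4841554564 107711430 0) 128 256 0 64 448 480)
  (band (go 16 Gd mult S227_256_660_808 (Tr.lf 4303626818 95259334 0) 128 256 0 64 448 480)
  (band (go 16 Gd mult S198_227_660_808 (Tr.lf 4849943106 107977670 0) 128 256 0 32 480 496)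
  (band (go 16 Gd mult S198_227_586_660 (Tr.lf 9144779330 99195719 0) 128 256 0 32 480 496)
  (band (go 16 Gd mult S198_227_586_660 (Tr.lf 4841423394 107969733 0) 128 256 32 64 448 480)
  (band (go 16 Gd mult S227_256_512_660 (Tr.lf 4303495458 95386565 0) 128 256 32 64 448 480)
  (band (go 16 Gd mult S227_256_512_660 (Tr.lf 4840366658 103775173 0) 128 256 0 32 448 480)
  (go 16 Gd mult S198_227_586_660 (Tr.lf 4303430177 95255238 0) 128 256 0 32 448 480)))))))) = true := by decide +kernel
  (And.intro (Ok.s1 32 (Ok.s2 480 (Ok.lf S198_227_586_660_ok (br (br (br (br (br (br (br c5))))))))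
  (Ok.s2 496 (Ok.lf S198_227_586_660_ok (bl (br (br (br c5)))))
  (Ok.lf S198_227_586_660_ok (br c3))))
  (Ok.s2 480 (Ok.lf S198_227_586_660_ok (bl (br (br (br (br c5))))))
  (Ok.lf S198_227_586_660_ok (br c0))))
  (And.intro (Ok.s1 32 (Ok.s2 480 (Ok.lf S227_256_512_660_ok (bl (br (br (br (br (br (br c5))))))))
  (Ok.lf S227_256_512_660_ok (br (br (br c2)))))
  (Ok.s2 480 (Ok.lf S227_256_512_660_ok (bl (br (br (br (br (br c5)))))))
  (Ok.lf S227_256_512_660_ok (bl c2))))
  (And.intro (Ok.s2 448 (Ok.lf S198_256_660_808_ok (br c1))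
  (Ok.s2 480 (Ok.s3 227 (Ok.lf S198_227_660_808_ok (bl c5))
  (Ok.lf S227_256_660_808_ok (bl (br c5))))
  (Ok.s3 227 (Ok.s1 32 (Ok.s2 496 (Ok.lf S198_227_660_808_ok (bl (br (br c5))))
  (Ok.lf S198_227_660_808_ok (bl c3)))
  (Ok.lf S198_227_660_808_ok (bl c0)))
  (Ok.s1 32 (Ok.lf S227_256_660_808_ok (bl (br (br c2))))
  (Ok.lf S227_256_660_808_ok (bl (br c2)))))))
  (Ok.s2 448 (Ok.lf S256_314_216_364_ok (bl c1))
  (Ok.s3 285 (Ok.lf S256_285_216_364_ok (br c4))
  (Ok.lf S285_314_216_364_ok (bl c4)))))))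

end Vale.Agent.P098.Ck
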