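import Vale.Agent.P098.CkGd
import Vale.Agent.P098.CkOk
import Vale.Agent.P098.Sh.A42
import Vale.Agent.P098.Sh.A43
import Vale.Agent.P098.Sh.A44
import Vale.Agent.P098.Sh.A46
import Vale.Agent.P098.Sh.A47
import Vale.Agent.P098.Sh.A48
import Vale.Agent.P098.Sh.A49
import Vale.Agent.P098.Sh.A51
import Vale.Agent.P098.Sh.A52

namespace Vale.Agent.P098.Ck

theorem r2 :
    Ok Gd mult 0 128 0 64 0 128 256 314 216 512 ∧
    Ok Gd mult 0 128 0 64 0 128 256 314 512 808 ∧
    Ok Gd mult 0 128 0 64 0 128 314 372 216 512 ∧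
    Ok Gd mult 0 128 0 64 0 128 314 372 512 660 :=
  have c0 : (band (go 16 Gd mult S256_314_364_512 (Tr.lf 8598620292 90794440 0) 0 128 0 32 0 128)
  (go 16 Gd mult S314_343_512_660 (Tr.lf 8598472836 86727367 0) 0 128 0 32 0 128)) = true := by decide +kernel
  have c1 : (band (go 16 Gd mult S343_372_512_660 (Tr.lf 8599521416 86731719 0) 0 128 0 64 0 128)
  (band (go 16 Gd mult S343_372_216_364 (Tr.lf 546588804 108108869 0) 0 128 0 64 0 128)
  (go 16 Gd mult S314_343_216_364 (Tr.lf 8598463620 86731208 0) 0 128 0 64 0 128))) = true := by decide +kernel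
  have c2 : (band (go 16 Gd mult S256_285_512_660 (Tr.lf 8598603908 90794440 0) 0 128 0 32 0 128)
  (go 16 Gd mult S256_285_660_808 (Tr.lf 8598603908 86600391 0) 0 128 0 32 0 128)) = true := by decide +kernel
  have c3 : (band (go 16 Gd mult S285_314_660_808 (Tr.lf 8598603908 95115975 0) 0 128 0 32 0 128)
  (go 16 Gd mult S285_314_512_660 (Tr.lf 8598602884 94857927 0) 0 128 0 32 0 128)) = true := by decide +kernel
  have c4 : (band (go 16 Gd mult S256_314_512_660 (Tr.lf 8685634 108235844 0) 0 128 32 64 0 128)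
  (band (go 16 Gd mult S256_314_364_512 (Tr.lf 8684610 112434244 0) 0 128 32 64 0 128)
  (band (go 16 Gd mult S256_314_660_808 (Tr.lf 8668225 108108995 0) 0 128 32 64 0 128)
  (band (go 16 Gd mult S256_314_216_364 (Tr.lf 8668193 108371012 0) 0 128 32 64 0 128)
  (band (go 16 Gd mult S314_343_512_660 (Tr.lf 9577538 103918788 0) 0 128 32 64 0 128)
  (go 16 Gd mult S256_314_216_364 (Tr.lf 4303635010 95382342 0) 0 128 0 32 64 128)))))) = true := by decide +kernel
  have c5 : (band (go 16 Gd mult S314_372_364_512 (Tr.lf 8598488196 90794695 0) 0 128 0 64 0 64)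
  (go 16 Gd mult S314_372_364_512 (Tr.lf 4841439874 107842502 0) 0 128 0 64 64 128)) = true := by decide +kernel
  have c6 : (go 16 Gd mult S256_314_216_364 (Tr.lf 8598619204 90925767 0) 0 128 0 32 0 64) = true := by decide +kernel
  (And.intro (Ok.s4 364 (Ok.s1 32 (Ok.s2 64 (Ok.lf S256_314_216_364_ok c6)
  (Ok.lf S256_314_216_364_ok (br (br (br (br (br c4)))))))
  (Ok.lf S256_314_216_364_ok (bl (br (br (br c4))))))
  (Ok.s1 32 (Ok.lf S256_314_364_512_ok (bl c0))
  (Ok.lf S256_314_364_512_ok (bl (br c4)))))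
  (And.intro (Ok.s4 660 (Ok.s1 32 (Ok.s3 285 (Ok.lf S256_285_512_660_ok (bl c2))
  (Ok.lf S285_314_512_660_ok (br c3)))
  (Ok.lf S256_314_512_660_ok (bl c4)))
  (Ok.s1 32 (Ok.s3 285 (Ok.lf S256_285_660_808_ok (br c2))
  (Ok.lf S285_314_660_808_ok (bl c3)))
  (Ok.lf S256_314_660_808_ok (bl (br (br c4))))))
  (And.intro (Ok.s4 364 (Ok.s3 343 (Ok.lf S314_343_216_364_ok (br (br c1)))
  (Ok.lf S343_372_216_364_ok (bl (br c1))))
  (Ok.s2 64 (Ok.lf S314_372_364_512_ok (bl c5))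
  (Ok.lf S314_372_364_512_ok (br c5))))
  (Ok.s3 343 (Ok.s1 32 (Ok.lf S314_343_512_660_ok (br c0))
  (Ok.lf S314_343_512_660_ok (bl (br (br (br (br c4)))))))
  (Ok.lf S343_372_512_660_ok (bl c1))))))

end Vale.Agent.P098.Ck
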