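import Vale.Agent.P098.CkGd
import Vale.Agent.P098.CkOk
import Vale.Agent.P098.Sh.A40
import Vale.Agent.P098.Sh.A41
import Vale.Agent.P098.Sh.A42
import Vale.Agent.P098.Sh.A44
import Vale.Agent.P098.Sh.A45
import Vale.Agent.P098.Sh.A46

namespace Vale.Agent.P098.Ck

theorem r20 :
    Ok Gd mult 0 128 0 32 480 496 256 285 364 512 ∧
    Ok Gd mult 0 128 0 32 480 496 285 314 364 512 ∧
    Ok Gd mult 0 128 32 64 480 496 256 314 364 512 ∧
    Ok Gd mult 0 128 0 64 496 512 256 314 364 512 ∧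
    Ok Gd mult 0 128 0 64 384 512 256 285 512 660 :=
  have c0 : (go 16 Gd mult S256_285_364_512 (Tr.lf 4840785028 99580869 0) 0 128 0 16 480 496) = true := by decide +kernel
  have c1 : (go 16 Gd mult S256_285_512_660 (Tr.lf 9144125572 103385799 350248329727853969014813) 0 128 32 64 448 512) = true := by decide +kernel
  have c2 : (band (go 16 Gd mult S285_314_364_438 (Tr.lf 4849960068 103910597 0) 0 128 0 16 480 496)
  (go 16 Gd mult S285_314_438_512 (Tr.lf 4840522884 99580869 0) 0 128 0 16 480 496)) = true := by decide +kernel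
  have c3 : (band (go 16 Gd mult S270_285_512_660 (Tr.lf 9144912004 99056456 0) 0 128 0 32 448 512)
  (go 16 Gd mult S256_270_512_660 (Tr.lf 4848887940 103521094 0) 0 128 0 32 448 512)) = true := by decide +kernel
  have c4 : (band (go 16 Gd mult S285_314_364_512 (Tr.lf 4841833028 103775429 0) 0 128 16 32 480 496)
  (band (go 16 Gd mult S256_285_364_512 (Tr.lf 4841554466 103775429 0) 0 128 16 32 480 496)
  (band (go 16 Gd mult S256_285_364_512 (Tr.lf 4840505988 99580869 0) 0 128 0 32 496 504)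
  (go 16 Gd mult S285_314_364_512 (Tr.lf 4840768132 103774918 0) 0 128 0 32 496 504)))) = true := by decide +kernel
  have c5 : (band (go 16 Gd mult S256_285_364_512 (Tr.lf 9210970500 95386311 0) 0 128 0 32 504 512)
  (band (go 16 Gd mult S285_314_364_512 (Tr.lf 4841554308 103517126 0) 0 128 0 32 504 512)
  (band (go 16 Gd mult S285_314_364_512 (Tr.lf 4841554244 103648453 0) 0 128 32 64 480 496)
  (band (go 16 Gd mult S256_285_364_512 (Tr.lf 4840497442 107969477 0) 0 128 32 64 480 496)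
  (band (go 16 Gd mult S285_314_364_512 (Tr.lf 4841554242 103906501 0) 0 128 32 64 496 504)
  (band (go 16 Gd mult S256_285_364_512 (Tr.lf 4840497474 107977541 0) 0 128 32 64 496 504)
  (band (go 16 Gd mult S285_314_364_512 (Tr.lf 4841554242 107977797 0) 0 128 32 64 504 512)
  (go 16 Gd mult S256_285_364_512 (Tr.lf 4840497474 103783237 40693517426603270864896) 0 128 32 64 504 512)))))))) = true := by decide +kernel
  have c6 : (go 16 Gd mult S256_285_512_660 (Tr.lf 4840375362 103639878 0) 0 128 0 32 384 448) = true := by decide +kernel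
  have c7 : (go 16 Gd mult S256_285_512_660 (Tr.lf 8528401 103910468 0) 0 128 32 64 384 448) = true := by decide +kernel
  (And.intro (Ok.s1 16 (Ok.lf S256_285_364_512_ok c0)
  (Ok.lf S256_285_364_512_ok (bl (br c4))))
  (And.intro (Ok.s1 16 (Ok.s4 438 (Ok.lf S285_314_364_438_ok (bl c2))
  (Ok.lf S285_314_438_512_ok (br c2)))
  (Ok.lf S285_314_364_512_ok (bl c4)))
  (And.intro (Ok.s3 285 (Ok.lf S256_285_364_512_ok (bl (br (br (br c5)))))
  (Ok.lf S285_314_364_512_ok (bl (br (br c5)))))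
  (And.intro (Ok.s2 504 (Ok.s1 32 (Ok.s3 285 (Ok.lf S256_285_364_512_ok (bl (br (br c4))))
  (Ok.lf S285_314_364_512_ok (br (br (br c4)))))
  (Ok.s3 285 (Ok.lf S256_285_364_512_ok (bl (br (br (br (br (br c5)))))))
  (Ok.lf S285_314_364_512_ok (bl (br (br (br (br c5))))))))
  (Ok.s1 32 (Ok.s3 285 (Ok.lf S256_285_364_512_ok (bl c5))
  (Ok.lf S285_314_364_512_ok (bl (br c5))))
  (Ok.s3 285 (Ok.lf S256_285_364_512_ok (br (br (br (br (br (br (br c5))))))))
  (Ok.lf S285_314_364_512_ok (bl (br (br (br (br (br (br c5)))))))))))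
  (Ok.s1 32 (Ok.s2 448 (Ok.lf S256_285_512_660_ok c6)
  (Ok.s3 270 (Ok.lf S256_270_512_660_ok (br c3))
  (Ok.lf S270_285_512_660_ok (bl c3))))
  (Ok.s2 448 (Ok.lf S256_285_512_660_ok c7)
  (Ok.lf S256_285_512_660_ok c1)))))))

end Vale.Agent.P098.Ck
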