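import Vale.Agent.P098.CkGd
import Vale.Agent.P098.CkOk
import Vale.Agent.P098.Sh.A41
import Vale.Agent.P098.Sh.A42
import Vale.Agent.P098.Sh.A44
import Vale.Agent.P098.Sh.A45
import Vale.Agent.P098.Sh.A46

namespace Vale.Agent.P098.Ck

theorem r200 :
    Ok Gd mult 128 256 0 64 384 512 256 285 364 512 ∧
    Ok Gd mult 128 256 0 64 384 512 285 314 364 512 ∧
    Ok Gd mult 128 256 0 64 384 512 256 314 512 808 :=
  have c0 : (band (go 16 Gd mult S256_314_660_808 (Tr.lf 9995396 108113092 0) 128 256 0 64 384 448)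
  (band (go 16 Gd mult S285_314_364_512 (Tr.lf 4841424002 103517126 0) 128 256 0 64 384 448)
  (go 16 Gd mult S256_285_364_512 (Tr.lf 545399938 99715909 0) 128 256 0 64 384 448))) = true := by decide +kernel
  have c1 : (band (go 16 Gd mult S256_285_512_660 (Tr.lf 4849158274 103779142 36044937923932589129728) 128 192 0 64 448 512)
  (band (go 16 Gd mult S285_314_512_660 (Tr.lf 4849944706 103779398 0) 128 192 0 64 448 512)
  (go 16 Gd mult S285_314_512_660 (Tr.lf 546588802 99712197 0) 192 256 0 64 384 512))) = true := by decide +kernel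
  have c2 : (band (go 16 Gd mult S256_285_660_808 (Tr.lf 4850222148 103779398 584854020856961333986798) 128 256 32 64 480 512)
  (go 16 Gd mult S285_314_660_808 (Tr.lf 4850222148 103521350 592361845694961121493039) 128 256 32 64 480 512)) = true := by decide +kernel
  have c3 : (band (go 16 Gd mult S285_314_364_512 (Tr.lf 4849944644 112040902 0) 128 256 0 32 448 512)
  (band (go 16 Gd mult S256_285_364_512 (Tr.lf 4849944642 112041157 0) 128 256 0 32 448 512)
  (band (go 16 Gd mult S256_285_364_512 (Tr.lf 4840506402 107838405 421268294412507621097519) 128 256 32 64 448 512)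
  (go 16 Gd mult S285_314_364_512 (Tr.lf 9577506 108108996 189116020245491389300736) 128 256 32 64 448 512)))) = true := by decide +kernel
  have c4 : (go 16 Gd mult S256_285_512_660 (Tr.lf 4840506497 107834182 123298037392243760824320) 192 256 0 64 448 512) = true := by decide +kernel
  have c5 : (band (go 16 Gd mult S285_314_660_808 (Tr.lf 9716802 99720261 605671835626929216527794176) 128 256 0 32 480 512)
  (band (go 16 Gd mult S256_285_660_808 (Tr.lf 4840505922 99449670 606922875363264124608840870) 128 256 0 32 480 512)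
  (band (go 16 Gd mult S285_314_660_808 (Tr.lf 546587202 103648453 0) 128 256 0 64 448 480)
  (go 16 Gd mult S256_285_660_808 (Tr.lf 4303626882 91188038 0) 128 256 0 64 448 480)))) = true := by decide +kernel
  have c6 : (band (go 16 Gd mult S285_314_512_660 (Tr.lf 4841424001 103648198 0) 128 192 0 64 384 448)
  (band (go 16 Gd mult S256_285_512_660 (Tr.lf 545399937 99580869 0) 128 192 0 64 384 448)
  (go 16 Gd mult S256_285_512_660 (Tr.lf 8528449 104045508 0) 192 256 0 64 384 448))) = true := by decide +kernel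
  (And.intro (Ok.s2 448 (Ok.lf S256_285_364_512_ok (br (br c0)))
  (Ok.s1 32 (Ok.lf S256_285_364_512_ok (bl (br c3)))
  (Ok.lf S256_285_364_512_ok (bl (br (br c3))))))
  (And.intro (Ok.s2 448 (Ok.lf S285_314_364_512_ok (bl (br c0)))
  (Ok.s1 32 (Ok.lf S285_314_364_512_ok (bl c3))
  (Ok.lf S285_314_364_512_ok (br (br (br c3))))))
  (Ok.s4 660 (Ok.s0 192 (Ok.s3 285 (Ok.s2 448 (Ok.lf S256_285_512_660_ok (bl (br c6)))
  (Ok.lf S256_285_512_660_ok (bl c1)))
  (Ok.s2 448 (Ok.lf S285_314_512_660_ok (bl c6))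
  (Ok.lf S285_314_512_660_ok (bl (br c1)))))
  (Ok.s3 285 (Ok.s2 448 (Ok.lf S256_285_512_660_ok (br (br c6)))
  (Ok.lf S256_285_512_660_ok c4))
  (Ok.lf S285_314_512_660_ok (br (br c1)))))
  (Ok.s2 448 (Ok.lf S256_314_660_808_ok (bl c0))
  (Ok.s2 480 (Ok.s3 285 (Ok.lf S256_285_660_808_ok (br (br (br c5))))
  (Ok.lf S285_314_660_808_ok (bl (br (br c5)))))
  (Ok.s3 285 (Ok.s1 32 (Ok.lf S256_285_660_808_ok (bl (br c5)))
  (Ok.lf S256_285_660_808_ok (bl c2)))
  (Ok.s1 32 (Ok.lf S285_314_660_808_ok (bl c5))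
  (Ok.lf S285_314_660_808_ok (br c2)))))))))

end Vale.Agent.P098.Ck
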