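import Vale.Agent.P098.CkGd
import Vale.Agent.P098.CkOk
import Vale.Agent.P098.Sh.A47
import Vale.Agent.P098.Sh.A48
import Vale.Agent.P098.Sh.A49
import Vale.Agent.P098.Sh.A51
import Vale.Agent.P098.Sh.A52

namespace Vale.Agent.P098.Ck

theorem r201 :
    Ok Gd mult 128 256 0 64 384 512 314 372 216 364 ∧
    Ok Gd mult 128 256 0 64 384 512 314 372 364 512 ∧
    Ok Gd mult 128 256 0 64 384 512 314 372 512 660 :=
  have c0 : (band (go 16 Gd mult S314_343_364_512 (Tr.lf 4851009668 107846854 0) 128 256 0 32 448 512)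
  (band (go 16 Gd mult S314_343_216_364 (Tr.lf 4850992194 103521478 0) 128 256 0 32 448 512)
  (go 16 Gd mult S343_372_216_364 (Tr.lf 4850992194 99454150 0) 128 256 0 32 448 512))) = true := by decide +kernel
  have c1 : (go 16 Gd mult S314_343_512_660 (Tr.lf 9995396 107982020 0) 128 256 0 64 448 480) = true := by decide +kernel
  have c2 : (band (go 16 Gd mult S343_372_216_364 (Tr.lf 1161070660 91331528 559471309175720064843776) 128 256 32 64 448 512)
  (band (go 16 Gd mult S314_343_364_512 (Tr.lf 623002658 104041670 192547114642582890610688) 128 256 32 64 448 512)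
  (go 16 Gd mult S314_343_216_364 (Tr.lf 622994466 99847366 333480239365470461886464) 128 256 32 64 448 512))) = true := by decide +kernel
  have c3 : (go 16 Gd mult S343_372_364_512 (Tr.lf 9733252 103783620 0) 128 256 0 64 448 480) = true := by decide +kernel
  have c4 : (band (go 16 Gd mult S343_372_512_660 (Tr.lf 5387879556 103521223 0) 128 256 0 32 448 480)
  (go 16 Gd mult S343_372_512_660 (Tr.lf 1161070660 91323464 562348993087701400944640) 128 256 32 64 480 512)) = true := by decide +kernel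
  have c5 : (band (go 16 Gd mult S314_343_512_660 (Tr.lf 4851008644 99454023 0) 128 256 0 64 480 512)
  (go 16 Gd mult S343_372_364_512 (Tr.lf 4850992260 99584967 0) 128 256 0 64 480 512)) = true := by decide +kernel
  have c6 : (band (go 16 Gd mult S314_372_216_364 (Tr.lf 546604162 103779397 0) 128 256 0 64 384 448)
  (band (go 16 Gd mult S314_343_512_660 (Tr.lf 4849943684 103783366 0) 128 256 0 64 384 448)
  (band (go 16 Gd mult S343_372_512_660 (Tr.lf 4850992260 103521478 0) 128 256 0 64 384 448)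
  (go 16 Gd mult S314_343_364_512 (Tr.lf 4849943682 107846598 0) 128 256 0 64 384 448)))) = true := by decide +kernel
  have c7 : (go 16 Gd mult S343_372_512_660 (Tr.lf 4851008642 103648199 0) 128 256 0 32 480 512) = true := by decide +kernel
  have c8 : (go 16 Gd mult S343_372_364_512 (Tr.lf 4850861186 103521478 0) 128 256 0 64 384 448) = true := by decide +kernel
  have c9 : (go 16 Gd mult S343_372_512_660 (Tr.lf 547496481 103783366 0) 128 256 32 64 448 480) = true := by decide +kernel
  (And.intro (Ok.s2 448 (Ok.lf S314_372_216_364_ok (bl c6))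
  (Ok.s1 32 (Ok.s3 343 (Ok.lf S314_343_216_364_ok (bl (br c0)))
  (Ok.lf S343_372_216_364_ok (br (br c0))))
  (Ok.s3 343 (Ok.lf S314_343_216_364_ok (br (br c2)))
  (Ok.lf S343_372_216_364_ok (bl c2)))))
  (And.intro (Ok.s3 343 (Ok.s2 448 (Ok.lf S314_343_364_512_ok (br (br (br c6))))
  (Ok.s1 32 (Ok.lf S314_343_364_512_ok (bl c0))
  (Ok.lf S314_343_364_512_ok (bl (br c2)))))
  (Ok.s2 448 (Ok.lf S343_372_364_512_ok c8)
  (Ok.s2 480 (Ok.lf S343_372_364_512_ok c3)
  (Ok.lf S343_372_364_512_ok (br c5)))))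
  (Ok.s2 448 (Ok.s3 343 (Ok.lf S314_343_512_660_ok (bl (br c6)))
  (Ok.lf S343_372_512_660_ok (bl (br (br c6)))))
  (Ok.s2 480 (Ok.s3 343 (Ok.lf S314_343_512_660_ok c1)
  (Ok.s1 32 (Ok.lf S343_372_512_660_ok (bl c4))
  (Ok.lf S343_372_512_660_ok c9)))
  (Ok.s3 343 (Ok.lf S314_343_512_660_ok (bl c5))
  (Ok.s1 32 (Ok.lf S343_372_512_660_ok c7)
  (Ok.lf S343_372_512_660_ok (br c4))))))))

end Vale.Agent.P098.Ck
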