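import Vale.Agent.P098.CkGd
import Vale.Agent.P098.CkOk
import Vale.Agent.P098.Sh.A49
import Vale.Agent.P098.Sh.A51
import Vale.Agent.P098.Sh.A52
import Vale.Agent.P098.Sh.A53
import Vale.Agent.P098.Sh.A54
import Vale.Agent.P098.Sh.A55
import Vale.Agent.P098.Sh.A56

namespace Vale.Agent.P098.Ck

theorem r202 :
    Ok Gd mult 128 256 0 64 384 448 314 372 660 808 ∧
    Ok Gd mult 128 256 0 64 448 512 314 372 660 808 ∧
    Ok Gd mult 128 256 0 64 384 512 372 430 216 364 ∧
    Ok Gd mult 128 256 0 64 384 448 372 430 364 512 ∧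
    Ok Gd mult 128 256 0 64 448 480 372 430 364 512 :=
  have c0 : (band (go 16 Gd mult S343_372_660_808 (Tr.lf 4851009668 103779526 0) 128 256 0 64 384 448)
  (go 16 Gd mult S314_343_660_808 (Tr.lf 4849943684 103783366 0) 128 256 0 64 384 448)) = true := by decide +kernel
  have c1 : (band (go 16 Gd mult S357_372_660_808 (Tr.lf 5397563524 107711560 0) 128 256 0 32 448 480)
  (band (go 16 Gd mult S343_357_660_808 (Tr.lf 5387854980 99326919 0) 128 256 0 32 448 480)
  (go 16 Gd mult S372_430_364_512 (Tr.lf 4850877506 99457863 0) 128 256 0 32 448 480))) = true := by decide +kernel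
  have c2 : (band (go 16 Gd mult S343_372_660_808 (Tr.lf 5388141700 99449927 0) 128 256 0 64 480 496)
  (band (go 16 Gd mult S372_430_216_364 (Tr.lf 1229095554 95652809 0) 128 256 0 64 480 496)
  (go 16 Gd mult S314_343_660_808 (Tr.lf 4850991746 99454278 0) 128 256 0 64 480 496))) = true := by decide +kernel
  have c3 : (band (go 16 Gd mult S372_430_364_512 (Tr.lf 1160939652 99716295 0) 128 256 0 64 384 448)
  (band (go 16 Gd mult S372_430_216_364 (Tr.lf 1160938625 99716295 0) 128 256 0 64 384 448)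
  (band (go 16 Gd mult S372_430_216_364 (Tr.lf 1160938626 103779527 0) 128 256 0 64 448 480)
  (band (go 16 Gd mult S372_430_364_512 (Tr.lf 1160938017 99585223 0) 128 256 32 64 448 480)
  (go 16 Gd mult S343_372_660_808 (Tr.lf 547496481 103783621 0) 128 256 32 64 448 480))))) = true := by decide +kernel
  have c4 : (go 16 Gd mult S314_343_660_808 (Tr.lf 4851008644 99454278 0) 128 256 0 64 448 480) = true := by decide +kernel
  have c5 : (band (go 16 Gd mult S372_401_216_364 (Tr.lf 1162117764 95525705 1206472631574939209630401) 128 256 0 64 496 512)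
  (band (go 16 Gd mult S343_372_660_808 (Tr.lf 1161069186 87137479 9260265525002194911232) 128 256 0 64 496 512)
  (band (go 16 Gd mult S314_343_660_808 (Tr.lf 546587268 103783493 0) 128 256 0 64 496 512)
  (go 16 Gd mult S401_430_216_364 (Tr.lf 1765950082 91454664 1206472614659609948258991) 128 256 0 64 496 512)))) = true := by decide +kernel
  (And.intro (Ok.s3 343 (Ok.lf S314_343_660_808_ok (br c0))
  (Ok.lf S343_372_660_808_ok (bl c0)))
  (And.intro (Ok.s2 480 (Ok.s3 343 (Ok.lf S314_343_660_808_ok c4)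
  (Ok.s1 32 (Ok.s3 357 (Ok.lf S343_357_660_808_ok (bl (br c1)))
  (Ok.lf S357_372_660_808_ok (bl c1)))
  (Ok.lf S343_372_660_808_ok (br (br (br (br c3)))))))
  (Ok.s2 496 (Ok.s3 343 (Ok.lf S314_343_660_808_ok (br (br c2)))
  (Ok.lf S343_372_660_808_ok (bl c2)))
  (Ok.s3 343 (Ok.lf S314_343_660_808_ok (bl (br (br c5))))
  (Ok.lf S343_372_660_808_ok (bl (br c5))))))
  (And.intro (Ok.s2 448 (Ok.lf S372_430_216_364_ok (bl (br c3)))
  (Ok.s2 480 (Ok.lf S372_430_216_364_ok (bl (br (br c3))))
  (Ok.s2 496 (Ok.lf S372_430_216_364_ok (bl (br c2)))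
  (Ok.s3 401 (Ok.lf S372_401_216_364_ok (bl c5))
  (Ok.lf S401_430_216_364_ok (br (br (br c5))))))))
  (And.intro (Ok.lf S372_430_364_512_ok (bl c3))
  (Ok.s1 32 (Ok.lf S372_430_364_512_ok (br (br c1)))
  (Ok.lf S372_430_364_512_ok (bl (br (br (br c3))))))))))

end Vale.Agent.P098.Ck
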