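import Vale.Agent.P098.CkGd
import Vale.Agent.P098.CkOk
import Vale.Agent.P098.Sh.A54
import Vale.Agent.P098.Sh.A57
import Vale.Agent.P098.Sh.A58
import Vale.Agent.P098.Sh.A59

namespace Vale.Agent.P098.Ck

theorem r204 :
    Ok Gd mult 128 256 0 64 480 512 372 430 660 808 ∧
    Ok Gd mult 128 256 0 64 384 512 430 488 216 808 :=
  have c0 : (band (go 16 Gd mult S430_488_364_512 (Tr.lf 1766099076 91323592 1206472538888664721326534) 128 256 0 64 480 512)
  (band (go 16 Gd mult S430_459_512_660 (Tr.lf 1765885058 91192520 1203816207816795619590628) 128 256 0 64 480 512)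
  (go 16 Gd mult S459_488_512_660 (Tr.lf 1765885058 91589704 1206472543955214194377158) 128 256 0 64 480 512))) = true := by decide +kernel
  have c1 : (go 16 Gd mult S430_488_216_364 (Tr.lf 1765968004 91323592 1206472538888664745968070) 128 256 0 64 480 512) = true := by decide +kernel
  have c2 : (band (go 16 Gd mult S372_401_660_808 (Tr.lf 5387879556 112032711 0) 128 256 0 64 480 496)
  (band (go 16 Gd mult S430_488_660_808 (Tr.lf 1765900674 99712200 0) 128 256 0 64 480 496)
  (band (go 16 Gd mult S401_430_660_808 (Tr.lf 1698840898 95120457 0) 128 256 0 64 480 496)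
  (band (go 16 Gd mult S372_401_660_808 (Tr.lf 1707377026 90938441 1206472688635765895726072) 128 256 0 64 504 512)
  (go 16 Gd mult S401_430_660_808 (Tr.lf 1765950082 87129033 1206472614606511267578561) 128 256 0 64 496 512))))) = true := by decide +kernel
  have c3 : (go 16 Gd mult S430_488_660_808 (Tr.lf 1765966466 95652936 1203816226319811089793574) 128 256 0 64 496 512) = true := by decide +kernel
  have c4 : (go 16 Gd mult S372_401_660_808 (Tr.lf 1170489730 95517769 0) 128 256 0 64 496 504) = true := by decide +kernel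
  have c5 : (band (go 16 Gd mult S430_488_216_364 (Tr.lf 1690387073 91057097 0) 128 256 0 64 448 480)
  (band (go 16 Gd mult S430_488_364_512 (Tr.lf 1690387010 91057097 0) 128 256 0 64 448 480)
  (band (go 16 Gd mult S430_488_512_660 (Tr.lf 1690387010 91057352 0) 128 256 0 64 448 480)
  (band (go 16 Gd mult S430_488_660_808 (Tr.lf 1690387010 91057352 0) 128 256 0 64 448 480)
  (band (go 16 Gd mult S430_488_216_364 (Tr.lf 1160856641 99720263 0) 128 256 0 64 384 448)
  (band (go 16 Gd mult S430_488_364_512 (Tr.lf 1160856641 99720263 0) 128 256 0 64 384 448)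
  (band (go 16 Gd mult S430_488_512_660 (Tr.lf 1160856641 99720263 0) 128 256 0 64 384 448)
  (go 16 Gd mult S430_488_660_808 (Tr.lf 1160856641 99720263 0) 128 256 0 64 384 448)))))))) = true := by decide +kernel
  (And.intro (Ok.s3 401 (Ok.s2 496 (Ok.lf S372_401_660_808_ok (bl c2))
  (Ok.s2 504 (Ok.lf S372_401_660_808_ok c4)
  (Ok.lf S372_401_660_808_ok (bl (br (br (br c2)))))))
  (Ok.s2 496 (Ok.lf S401_430_660_808_ok (bl (br (br c2))))
  (Ok.lf S401_430_660_808_ok (br (br (br (br c2)))))))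
  (Ok.s4 512 (Ok.s4 364 (Ok.s2 448 (Ok.lf S430_488_216_364_ok (bl (br (br (br (br c5))))))
  (Ok.s2 480 (Ok.lf S430_488_216_364_ok (bl c5))
  (Ok.lf S430_488_216_364_ok c1)))
  (Ok.s2 448 (Ok.lf S430_488_364_512_ok (bl (br (br (br (br (br c5)))))))
  (Ok.s2 480 (Ok.lf S430_488_364_512_ok (bl (br c5)))
  (Ok.lf S430_488_364_512_ok (bl c0)))))
  (Ok.s4 660 (Ok.s2 448 (Ok.lf S430_488_512_660_ok (bl (br (br (br (br (br (br c5))))))))
  (Ok.s2 480 (Ok.lf S430_488_512_660_ok (bl (br (br c5))))
  (Ok.s3 459 (Ok.lf S430_459_512_660_ok (bl (br c0)))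
  (Ok.lf S459_488_512_660_ok (br (br c0))))))
  (Ok.s2 448 (Ok.lf S430_488_660_808_ok (br (br (br (br (br (br (br c5))))))))
  (Ok.s2 480 (Ok.lf S430_488_660_808_ok (bl (br (br (br c5)))))
  (Ok.s2 496 (Ok.lf S430_488_660_808_ok (bl (br c2)))
  (Ok.lf S430_488_660_808_ok c3)))))))

end Vale.Agent.P098.Ck
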