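import Vale.Agent.P098.CkGd
import Vale.Agent.P098.CkOk
import Vale.Agent.P098.Sh.A0
import Vale.Agent.P098.Sh.A1
import Vale.Agent.P098.Sh.A12
import Vale.Agent.P098.Sh.A17
import Vale.Agent.P098.Sh.A2
import Vale.Agent.P098.Sh.A3
import Vale.Agent.P098.Sh.A4
import Vale.Agent.P098.Sh.A5
import Vale.Agent.P098.Sh.A7

namespace Vale.Agent.P098.Ck

theorem r205 :
    Ok Gd mult 128 256 64 128 0 128 24 82 216 512 ∧
    Ok Gd mult 128 256 64 128 0 128 24 82 512 808 ∧
    Ok Gd mult 128 256 64 128 0 128 82 140 216 808 ∧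
    Ok Gd mult 128 256 64 128 0 128 140 198 216 364 :=
  have c0 : (band (go 16 Gd mult S82_140_512_660 (Tr.lf 12886116424 86584008 0) 128 256 96 128 0 128)
  (band (go 16 Gd mult S82_140_660_808 (Tr.lf 12886116424 82520776 0) 128 256 96 128 0 128)
  (go 16 Gd mult S82_111_216_364 (Tr.lf 13423945796 94714696 0) 128 256 96 128 0 128))) = true := by decide +kernel
  have c1 : (band (go 16 Gd mult S140_154_216_364 (Tr.lf 12886222984 86456777 0) 128 256 64 128 0 128)
  (go 16 Gd mult S154_169_216_364 (Tr.lf 12886222920 86583881 0) 128 256 64 128 0 128)) = true := by decide +kernel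
  have c2 : (go 16 Gd mult S82_140_364_512 (Tr.lf 9137456260 99187655 0) 128 256 64 128 64 128) = true := by decide +kernel
  have c3 : (band (go 16 Gd mult S82_140_216_364 (Tr.lf 4842619972 107973829 0) 128 256 64 96 0 128)
  (band (go 16 Gd mult S82_140_512_660 (Tr.lf 4842488898 107846853 0) 128 256 64 96 0 128)
  (band (go 16 Gd mult S82_140_660_808 (Tr.lf 4842488898 112041157 0) 128 256 64 96 0 128)
  (band (go 16 Gd mult S24_82_512_660 (Tr.lf 4835066946 103648071 0) 128 256 64 96 0 128)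
  (band (go 16 Gd mult S24_82_660_808 (Tr.lf 4835066946 103648071 0) 128 256 64 96 0 128)
  (go 16 Gd mult S169_198_216_364 (Tr.lf 8591123492 95243207 0) 128 256 64 96 0 128)))))) = true := by decide +kernel
  have c4 : (band (go 16 Gd mult S111_140_216_364 (Tr.lf 12887148584 82393928 0) 128 256 96 128 0 128)
  (band (go 16 Gd mult S169_198_216_364 (Tr.lf 8591263780 103635911 0) 128 256 96 128 0 128)
  (band (go 16 Gd mult S24_82_216_364 (Tr.lf 9127937060 99310406 0) 128 256 96 128 0 128)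
  (band (go 16 Gd mult S24_82_364_512 (Tr.lf 9127937060 99310406 0) 128 256 96 128 0 128)
  (band (go 16 Gd mult S24_82_512_660 (Tr.lf 9127937060 99310406 0) 128 256 96 128 0 128)
  (band (go 16 Gd mult S24_82_660_808 (Tr.lf 9127937060 99310406 0) 128 256 96 128 0 128)
  (go 16 Gd mult S24_82_216_364 (Tr.lf 4835066914 99711815 0) 128 256 64 96 0 128))))))) = true := by decide +kernel
  have c5 : (band (go 16 Gd mult S111_140_364_512 (Tr.lf 12887073928 78072648 0) 128 256 64 128 0 64)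
  (go 16 Gd mult S82_111_364_512 (Tr.lf 13422896260 86587976 0) 128 256 64 128 0 64)) = true := by decide +kernel
  have c6 : (go 16 Gd mult S24_82_364_512 (Tr.lf 4835066914 99711815 0) 128 256 64 96 0 128) = true := by decide +kernel
  (And.intro (Ok.s4 364 (Ok.s1 96 (Ok.lf S24_82_216_364_ok (br (br (br (br (br (br c4)))))))
  (Ok.lf S24_82_216_364_ok (bl (br (br c4)))))
  (Ok.s1 96 (Ok.lf S24_82_364_512_ok c6)
  (Ok.lf S24_82_364_512_ok (bl (br (br (br c4)))))))
  (And.intro (Ok.s4 660 (Ok.s1 96 (Ok.lf S24_82_512_660_ok (bl (br (br (br c3)))))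
  (Ok.lf S24_82_512_660_ok (bl (br (br (br (br c4)))))))
  (Ok.s1 96 (Ok.lf S24_82_660_808_ok (bl (br (br (br (br c3))))))
  (Ok.lf S24_82_660_808_ok (bl (br (br (br (br (br c4)))))))))
  (And.intro (Ok.s4 512 (Ok.s4 364 (Ok.s1 96 (Ok.lf S82_140_216_364_ok (bl c3))
  (Ok.s3 111 (Ok.lf S82_111_216_364_ok (br (br c0)))
  (Ok.lf S111_140_216_364_ok (bl c4))))
  (Ok.s2 64 (Ok.s3 111 (Ok.lf S82_111_364_512_ok (br c5))
  (Ok.lf S111_140_364_512_ok (bl c5)))
  (Ok.lf S82_140_364_512_ok c2)))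
  (Ok.s4 660 (Ok.s1 96 (Ok.lf S82_140_512_660_ok (bl (br c3)))
  (Ok.lf S82_140_512_660_ok (bl c0)))
  (Ok.s1 96 (Ok.lf S82_140_660_808_ok (bl (br (br c3))))
  (Ok.lf S82_140_660_808_ok (bl (br c0))))))
  (Ok.s3 169 (Ok.s3 154 (Ok.lf S140_154_216_364_ok (bl c1))
  (Ok.lf S154_169_216_364_ok (br c1)))
  (Ok.s1 96 (Ok.lf S169_198_216_364_ok (br (br (br (br (br c3))))))
  (Ok.lf S169_198_216_364_ok (bl (br c4))))))))

end Vale.Agent.P098.Ck
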