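import Vale.Agent.P098.CkGd
import Vale.Agent.P098.CkOk
import Vale.Agent.P098.Sh.A0
import Vale.Agent.P098.Sh.A1
import Vale.Agent.P098.Sh.A2
import Vale.Agent.P098.Sh.A4
import Vale.Agent.P098.Sh.A5
import Vale.Agent.P098.Sh.A54
import Vale.Agent.P098.Sh.A55
import Vale.Agent.P098.Sh.A57
import Vale.Agent.P098.Sh.A58
import Vale.Agent.P098.Sh.A59

namespace Vale.Agent.P098.Ck

theorem r208 :
    Ok Gd mult 128 256 64 128 0 128 372 430 216 512 ∧
    Ok Gd mult 128 256 64 128 0 128 372 430 512 808 ∧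
    Ok Gd mult 128 256 64 128 0 128 430 488 216 808 ∧
    Ok Gd mult 128 256 64 128 128 256 24 82 216 808 ∧
    Ok Gd mult 128 256 64 128 128 256 82 140 216 512 :=
  have c0 : (band (go 16 Gd mult S372_430_216_364 (Tr.lf 8590100616 99576646 0) 128 256 64 128 0 128)
  (go 16 Gd mult S372_401_660_808 (Tr.lf 12885051464 86723144 0) 128 256 64 128 0 128)) = true := by decide +kernel
  have c1 : (band (go 16 Gd mult S372_430_364_512 (Tr.lf 8590100616 99576646 0) 128 256 64 128 0 128)
  (band (go 16 Gd mult S430_488_216_364 (Tr.lf 8591067204 99584966 0) 128 256 64 128 0 128)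
  (go 16 Gd mult S430_488_364_512 (Tr.lf 8591082564 99584966 0) 128 256 64 128 0 128))) = true := by decide +kernel
  have c2 : (band (go 16 Gd mult S372_430_512_660 (Tr.lf 12885067912 86723144 0) 128 256 64 128 0 128)
  (band (go 16 Gd mult S430_488_512_660 (Tr.lf 8591082564 99584966 0) 128 256 64 128 0 128)
  (go 16 Gd mult S430_488_660_808 (Tr.lf 8591082564 99584966 0) 128 256 64 128 0 128))) = true := by decide +kernel
  have c3 : (band (go 16 Gd mult S24_82_216_364 (Tr.lf 1077053576 86731847 0) 128 256 64 128 128 256)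
  (go 16 Gd mult S82_111_216_364 (Tr.lf 547505284 95530053 0) 128 256 64 128 128 256)) = true := by decide +kernel
  have c4 : (band (go 16 Gd mult S24_82_364_512 (Tr.lf 1077053572 86731847 0) 128 256 64 128 128 256)
  (go 16 Gd mult S24_82_512_660 (Tr.lf 1077053572 86731847 0) 128 256 64 128 128 256)) = true := by decide +kernel
  have c5 : (band (go 16 Gd mult S24_82_660_808 (Tr.lf 1077053572 86731847 0) 128 256 64 128 128 256)
  (go 16 Gd mult S111_140_216_364 (Tr.lf 9137439876 99052360 0) 128 256 64 128 128 256)) = true := by decide +kernel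
  have c6 : (go 16 Gd mult S401_430_660_808 (Tr.lf 8590075972 95382342 0) 128 256 64 128 0 128) = true := by decide +kernel
  have c7 : (band (go 16 Gd mult S82_140_364_512 (Tr.lf 9137456164 99310663 0) 128 256 96 128 128 256)
  (go 16 Gd mult S82_140_364_512 (Tr.lf 547521570 103910597 0) 128 256 64 96 128 256)) = true := by decide +kernel
  (And.intro (Ok.s4 364 (Ok.lf S372_430_216_364_ok (bl c0))
  (Ok.lf S372_430_364_512_ok (bl c1)))
  (And.intro (Ok.s4 660 (Ok.lf S372_430_512_660_ok (bl c2))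
  (Ok.s3 401 (Ok.lf S372_401_660_808_ok (br c0))
  (Ok.lf S401_430_660_808_ok c6)))
  (And.intro (Ok.s4 512 (Ok.s4 364 (Ok.lf S430_488_216_364_ok (bl (br c1)))
  (Ok.lf S430_488_364_512_ok (br (br c1))))
  (Ok.s4 660 (Ok.lf S430_488_512_660_ok (bl (br c2)))
  (Ok.lf S430_488_660_808_ok (br (br c2)))))
  (And.intro (Ok.s4 512 (Ok.s4 364 (Ok.lf S24_82_216_364_ok (bl c3))
  (Ok.lf S24_82_364_512_ok (bl c4)))
  (Ok.s4 660 (Ok.lf S24_82_512_660_ok (br c4))
  (Ok.lf S24_82_660_808_ok (bl c5))))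
  (Ok.s4 364 (Ok.s3 111 (Ok.lf S82_111_216_364_ok (br c3))
  (Ok.lf S111_140_216_364_ok (br c5)))
  (Ok.s1 96 (Ok.lf S82_140_364_512_ok (br c7))
  (Ok.lf S82_140_364_512_ok (bl c7))))))))

end Vale.Agent.P098.Ck
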