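import Vale.Agent.P098.CkGd
import Vale.Agent.P098.CkOk
import Vale.Agent.P098.Sh.A10
import Vale.Agent.P098.Sh.A11
import Vale.Agent.P098.Sh.A17
import Vale.Agent.P098.Sh.A18
import Vale.Agent.P098.Sh.A19
import Vale.Agent.P098.Sh.A28
import Vale.Agent.P098.Sh.A29
import Vale.Agent.P098.Sh.A4
import Vale.Agent.P098.Sh.A41
import Vale.Agent.P098.Sh.A43
import Vale.Agent.P098.Sh.A45
import Vale.Agent.P098.Sh.A8
import Vale.Agent.P098.Sh.A9

namespace Vale.Agent.P098.Ck

theorem r209 :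
    Ok Gd mult 128 256 64 128 128 256 82 140 512 808 ∧
    Ok Gd mult 128 256 64 128 128 256 140 256 216 808 ∧
    Ok Gd mult 128 256 64 128 128 256 256 314 216 512 :=
  have c0 : (band (go 16 Gd mult S140_198_660_808 (Tr.lf 4304701572 103906246 0) 128 256 64 128 128 256)
  (band (go 16 Gd mult S140_169_364_512 (Tr.lf 9137439876 99310536 0) 128 256 64 128 128 256)
  (go 16 Gd mult S169_198_364_512 (Tr.lf 4304553028 107969606 0) 128 256 64 128 128 256))) = true := by decide +kernel
  have c1 : (band (go 16 Gd mult S140_169_216_364 (Tr.lf 9137571972 99310536 0) 128 256 64 128 128 256)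
  (band (go 16 Gd mult S198_256_512_660 (Tr.lf 4303652932 103910086 0) 128 256 64 128 128 256)
  (go 16 Gd mult S169_198_216_364 (Tr.lf 4304684100 108100678 0) 128 256 64 128 128 256))) = true := by decide +kernel
  have c2 : (band (go 16 Gd mult S198_256_660_808 (Tr.lf 4303651972 107969222 0) 128 256 64 128 128 256)
  (band (go 16 Gd mult S140_169_512_660 (Tr.lf 4304553028 99580870 0) 128 256 64 128 128 256)
  (band (go 16 Gd mult S285_314_216_364 (Tr.lf 4303627332 103914182 0) 128 256 64 128 128 256)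
  (band (go 16 Gd mult S169_198_512_660 (Tr.lf 4304544836 107973574 0) 128 256 64 128 128 256)
  (go 16 Gd mult S256_285_216_364 (Tr.lf 4295238722 103902022 0) 128 256 64 128 128 256))))) = true := by decide +kernel
  have c3 : (band (go 16 Gd mult S256_314_364_512 (Tr.lf 8598619172 95255239 0) 128 256 96 128 128 256)
  (band (go 16 Gd mult S82_140_512_660 (Tr.lf 9129067556 99302471 0) 128 256 96 128 128 256)
  (band (go 16 Gd mult S198_256_216_364 (Tr.lf 4295263266 108096326 0) 128 256 96 128 128 256)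
  (band (go 16 Gd mult S198_256_364_512 (Tr.lf 4303520804 104045254 0) 128 256 96 128 128 256)
  (band (go 16 Gd mult S82_140_660_808 (Tr.lf 9129051172 99302471 0) 128 256 96 128 128 256)
  (go 16 Gd mult S198_256_216_364 (Tr.lf 622101538 95783879 0) 128 256 64 96 128 256)))))) = true := by decide +kernel
  have c4 : (band (go 16 Gd mult S198_256_364_512 (Tr.lf 8684578 108362948 0) 128 256 64 96 128 256)
  (band (go 16 Gd mult S82_140_512_660 (Tr.lf 547521570 108104901 0) 128 256 64 96 128 256)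
  (band (go 16 Gd mult S82_140_660_808 (Tr.lf 547521570 108104901 0) 128 256 64 96 128 256)
  (go 16 Gd mult S256_314_364_512 (Tr.lf 4303520802 103910086 0) 128 256 64 96 128 256)))) = true := by decide +kernel
  (And.intro (Ok.s4 660 (Ok.s1 96 (Ok.lf S82_140_512_660_ok (bl (br c4)))
  (Ok.lf S82_140_512_660_ok (bl (br c3))))
  (Ok.s1 96 (Ok.lf S82_140_660_808_ok (bl (br (br c4))))
  (Ok.lf S82_140_660_808_ok (bl (br (br (br (br c3))))))))
  (And.intro (Ok.s3 198 (Ok.s4 512 (Ok.s4 364 (Ok.s3 169 (Ok.lf S140_169_216_364_ok (bl c1))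
  (Ok.lf S169_198_216_364_ok (br (br c1))))
  (Ok.s3 169 (Ok.lf S140_169_364_512_ok (bl (br c0)))
  (Ok.lf S169_198_364_512_ok (br (br c0)))))
  (Ok.s4 660 (Ok.s3 169 (Ok.lf S140_169_512_660_ok (bl (br c2)))
  (Ok.lf S169_198_512_660_ok (bl (br (br (br c2))))))
  (Ok.lf S140_198_660_808_ok (bl c0))))
  (Ok.s4 512 (Ok.s4 364 (Ok.s1 96 (Ok.lf S198_256_216_364_ok (br (br (br (br (br c3))))))
  (Ok.lf S198_256_216_364_ok (bl (br (br c3)))))
  (Ok.s1 96 (Ok.lf S198_256_364_512_ok (bl c4))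
  (Ok.lf S198_256_364_512_ok (bl (br (br (br c3)))))))
  (Ok.s4 660 (Ok.lf S198_256_512_660_ok (bl (br c1)))
  (Ok.lf S198_256_660_808_ok (bl c2)))))
  (Ok.s4 364 (Ok.s3 285 (Ok.lf S256_285_216_364_ok (br (br (br (br c2)))))
  (Ok.lf S285_314_216_364_ok (bl (br (br c2)))))
  (Ok.s1 96 (Ok.lf S256_314_364_512_ok (br (br (br c4))))
  (Ok.lf S256_314_364_512_ok (bl c3))))))

end Vale.Agent.P098.Ck
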