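import Vale.Agent.P098.CkGd
import Vale.Agent.P098.CkOk
import Vale.Agent.P098.Sh.A42
import Vale.Agent.P098.Sh.A44
import Vale.Agent.P098.Sh.A46

namespace Vale.Agent.P098.Ck

theorem r21 :
    Ok Gd mult 0 64 0 64 384 512 285 314 512 586 ∧
    Ok Gd mult 0 64 0 64 384 512 285 314 586 660 ∧
    Ok Gd mult 64 128 0 64 384 512 285 314 512 660 ∧
    Ok Gd mult 0 128 0 64 384 448 256 314 660 808 ∧
    Ok Gd mult 0 128 0 32 448 512 256 314 660 808 ∧
    Ok Gd mult 0 128 32 64 448 480 256 314 660 808 ∧
    Ok Gd mult 0 128 32 64 480 496 256 314 660 808 ∧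
    Ok Gd mult 0 128 32 48 496 512 256 314 660 808 ∧
    Ok Gd mult 0 128 48 64 496 512 256 285 660 808 :=
  have c0 : (go 16 Gd mult S285_314_586_660 (Tr.lf 4841572484 107707207 13558356895460715659264) 0 64 0 32 384 512) = true := by decide +kernel
  have c1 : (band (go 16 Gd mult S285_314_586_660 (Tr.lf 9681668228 103517127 198044244375470300200960) 0 64 32 64 448 512)
  (band (go 16 Gd mult S285_314_512_586 (Tr.lf 4841441410 103779525 138627281713927280394317) 0 64 32 64 448 512)
  (go 16 Gd mult S285_314_512_586 (Tr.lf 4303521922 99445574 0) 0 64 0 32 448 512))) = true := by decide +kernel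
  have c2 : (band (go 16 Gd mult S285_314_512_660 (Tr.lf 4849961090 103521350 0) 64 128 0 32 448 512)
  (go 16 Gd mult S285_314_512_660 (Tr.lf 9144928322 99449799 295092564947256251252765) 64 128 32 64 448 512)) = true := by decide +kernel
  have c3 : (go 16 Gd mult S256_285_660_808 (Tr.lf 9682059848 103517127 558035074411446112691945627) 0 128 48 64 504 512) = true := by decide +kernel
  have c4 : (band (go 16 Gd mult S285_314_660_808 (Tr.lf 4840507460 103643719 536763063908895353569542144) 0 128 0 32 448 512)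
  (band (go 16 Gd mult S256_285_660_808 (Tr.lf 4840507458 103643719 536791951510114782727375179) 0 128 0 32 448 512)
  (band (go 16 Gd mult S256_285_660_808 (Tr.lf 8667778 104041540 0) 0 128 0 64 384 448)
  (band (go 16 Gd mult S285_314_660_808 (Tr.lf 9716354 104041541 0) 0 128 0 64 384 448)
  (go 16 Gd mult S285_314_660_808 (Tr.lf 9136521796 95120327 702578448310740930804056159) 0 128 32 48 496 512))))) = true := by decide +kernel
  have c5 : (go 16 Gd mult S256_314_660_808 (Tr.lf 4840522820 107842501 0) 0 128 32 64 448 480) = true := by decide +kernel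
  have c6 : (go 16 Gd mult S285_314_512_586 (Tr.lf 4841424001 103771206 0) 0 64 0 64 384 448) = true := by decide +kernel
  have c7 : (go 16 Gd mult S285_314_512_660 (Tr.lf 4841555009 103648198 0) 64 128 0 32 384 448) = true := by decide +kernel
  have c8 : (band (go 16 Gd mult S285_314_660_808 (Tr.lf 4840505668 103779269 0) 0 128 32 64 480 496)
  (go 16 Gd mult S256_285_660_808 (Tr.lf 4840497474 107842501 0) 0 128 32 64 480 496)) = true := by decide +kernel
  have c9 : (band (go 16 Gd mult S256_285_660_808 (Tr.lf 4840505892 103779269 705198439371529898420076544) 0 128 32 48 496 512)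
  (go 16 Gd mult S256_285_660_808 (Tr.lf 9135472930 103635655 0) 0 128 48 64 496 504)) = true := by decide +kernel
  have c10 : (go 16 Gd mult S285_314_512_660 (Tr.lf 8462881 104045508 0) 64 128 32 64 384 448) = true := by decide +kernel
  have c11 : (go 16 Gd mult S285_314_586_660 (Tr.lf 8462625 103918532 0) 0 64 32 64 384 448) = true := by decide +kernel
  (And.intro (Ok.s2 448 (Ok.lf S285_314_512_586_ok c6)
  (Ok.s1 32 (Ok.lf S285_314_512_586_ok (br (br c1)))
  (Ok.lf S285_314_512_586_ok (bl (br c1)))))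
  (And.intro (Ok.s1 32 (Ok.lf S285_314_586_660_ok c0)
  (Ok.s2 448 (Ok.lf S285_314_586_660_ok c11)
  (Ok.lf S285_314_586_660_ok (bl c1))))
  (And.intro (Ok.s1 32 (Ok.s2 448 (Ok.lf S285_314_512_660_ok c7)
  (Ok.lf S285_314_512_660_ok (bl c2)))
  (Ok.s2 448 (Ok.lf S285_314_512_660_ok c10)
  (Ok.lf S285_314_512_660_ok (br c2))))
  (And.intro (Ok.s3 285 (Ok.lf S256_285_660_808_ok (bl (br (br c4))))
  (Ok.lf S285_314_660_808_ok (bl (br (br (br c4))))))
  (And.intro (Ok.s3 285 (Ok.lf S256_285_660_808_ok (bl (br c4)))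
  (Ok.lf S285_314_660_808_ok (bl c4)))
  (And.intro (Ok.lf S256_314_660_808_ok c5)
  (And.intro (Ok.s3 285 (Ok.lf S256_285_660_808_ok (br c8))
  (Ok.lf S285_314_660_808_ok (bl c8)))
  (And.intro (Ok.s3 285 (Ok.lf S256_285_660_808_ok (bl c9))
  (Ok.lf S285_314_660_808_ok (br (br (br (br c4))))))
  (Ok.s2 504 (Ok.lf S256_285_660_808_ok (br c9))
  (Ok.lf S256_285_660_808_ok c3))))))))))

end Vale.Agent.P098.Ck
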