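import Vale.Agent.P098.CkGd
import Vale.Agent.P098.CkOk
import Vale.Agent.P098.Sh.A44
import Vale.Agent.P098.Sh.A47
import Vale.Agent.P098.Sh.A48
import Vale.Agent.P098.Sh.A49
import Vale.Agent.P098.Sh.A51
import Vale.Agent.P098.Sh.A52
import Vale.Agent.P098.Sh.A54
import Vale.Agent.P098.Sh.A55
import Vale.Agent.P098.Sh.A58
import Vale.Agent.P098.Sh.A59

namespace Vale.Agent.P098.Ck

theorem r210 :
    Ok Gd mult 128 256 64 128 128 256 256 314 512 808 ∧
    Ok Gd mult 128 256 64 128 128 256 314 372 216 808 ∧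
    Ok Gd mult 128 256 64 128 128 256 372 488 216 808 :=
  have c0 : (band (go 16 Gd mult S372_430_512_660 (Tr.lf 8599537800 99445703 0) 128 256 64 128 128 256)
  (go 16 Gd mult S430_488_660_808 (Tr.lf 9129003140 107834184 0) 128 256 64 128 128 256)) = true := by decide +kernel
  have c1 : (band (go 16 Gd mult S256_314_512_660 (Tr.lf 8598620292 99441096 0) 128 256 64 128 128 256)
  (go 16 Gd mult S343_372_660_808 (Tr.lf 8599651460 91057095 0) 128 256 64 128 128 256)) = true := by decide +kernel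
  have c2 : (band (go 16 Gd mult S256_314_660_808 (Tr.lf 8598620292 95119943 0) 128 256 64 128 128 256)
  (band (go 16 Gd mult S430_488_216_364 (Tr.lf 9128986756 103897928 0) 128 256 64 128 128 256)
  (go 16 Gd mult S314_343_216_364 (Tr.lf 8599643204 95251399 0) 128 256 64 128 128 256))) = true := by decide +kernel
  have c3 : (band (go 16 Gd mult S372_430_216_364 (Tr.lf 8591149188 99437511 0) 128 256 64 128 128 256)
  (band (go 16 Gd mult S372_430_364_512 (Tr.lf 8591149188 99437511 0) 128 256 64 128 128 256)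
  (go 16 Gd mult S314_343_364_512 (Tr.lf 8598471748 95120071 0) 128 256 64 128 128 256))) = true := by decide +kernel
  have c4 : (band (go 16 Gd mult S372_430_660_808 (Tr.lf 8599537732 99445703 0) 128 256 96 128 128 256)
  (go 16 Gd mult S372_430_660_808 (Tr.lf 538084386 95390789 0) 128 256 64 96 128 256)) = true := by decide +kernel
  have c5 : (band (go 16 Gd mult S430_488_364_512 (Tr.lf 9128986756 103639880 0) 128 256 64 128 128 256)
  (band (go 16 Gd mult S430_488_512_660 (Tr.lf 9129002116 107834184 0) 128 256 64 128 128 256)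
  (band (go 16 Gd mult S343_372_216_364 (Tr.lf 8599520388 99445703 0) 128 256 64 128 128 256)
  (band (go 16 Gd mult S343_372_364_512 (Tr.lf 8599520388 95251399 0) 128 256 64 128 128 256)
  (go 16 Gd mult S314_343_660_808 (Tr.lf 8598602820 99318343 0) 128 256 64 128 128 256))))) = true := by decide +kernel
  have c6 : (band (go 16 Gd mult S343_372_512_660 (Tr.lf 8599520388 95251399 0) 128 256 64 128 128 256)
  (go 16 Gd mult S314_343_512_660 (Tr.lf 8598471748 95255111 0) 128 256 64 128 128 256)) = true := by decide +kernel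
  (And.intro (Ok.s4 660 (Ok.lf S256_314_512_660_ok (bl c1))
  (Ok.lf S256_314_660_808_ok (bl c2)))
  (And.intro (Ok.s4 512 (Ok.s4 364 (Ok.s3 343 (Ok.lf S314_343_216_364_ok (br (br c2)))
  (Ok.lf S343_372_216_364_ok (bl (br (br c5)))))
  (Ok.s3 343 (Ok.lf S314_343_364_512_ok (br (br c3)))
  (Ok.lf S343_372_364_512_ok (bl (br (br (br c5)))))))
  (Ok.s4 660 (Ok.s3 343 (Ok.lf S314_343_512_660_ok (br c6))
  (Ok.lf S343_372_512_660_ok (bl c6)))
  (Ok.s3 343 (Ok.lf S314_343_660_808_ok (br (br (br (br c5)))))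
  (Ok.lf S343_372_660_808_ok (br c1)))))
  (Ok.s3 430 (Ok.s4 512 (Ok.s4 364 (Ok.lf S372_430_216_364_ok (bl c3))
  (Ok.lf S372_430_364_512_ok (bl (br c3))))
  (Ok.s4 660 (Ok.lf S372_430_512_660_ok (bl c0))
  (Ok.s1 96 (Ok.lf S372_430_660_808_ok (br c4))
  (Ok.lf S372_430_660_808_ok (bl c4)))))
  (Ok.s4 512 (Ok.s4 364 (Ok.lf S430_488_216_364_ok (bl (br c2)))
  (Ok.lf S430_488_364_512_ok (bl c5)))
  (Ok.s4 660 (Ok.lf S430_488_512_660_ok (bl (br c5)))
  (Ok.lf S430_488_660_808_ok (br c0)))))))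

end Vale.Agent.P098.Ck
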