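import Vale.Agent.P098.CkGd
import Vale.Agent.P098.CkOk
import Vale.Agent.P098.Sh.A0
import Vale.Agent.P098.Sh.A1
import Vale.Agent.P098.Sh.A2
import Vale.Agent.P098.Sh.A4
import Vale.Agent.P098.Sh.A5

namespace Vale.Agent.P098.Ck

theorem r211 :
    Ok Gd mult 128 256 64 128 256 384 24 82 216 512 ∧
    Ok Gd mult 128 256 64 128 256 384 24 82 512 808 ∧
    Ok Gd mult 128 256 64 128 256 384 82 140 216 808 :=
  have c0 : (band (go 16 Gd mult S111_140_216_364 (Tr.lf 9137571972 94854088 0) 128 256 64 128 320 384)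
  (band (go 16 Gd mult S82_111_216_364 (Tr.lf 9137440900 90794824 0) 128 256 64 128 320 384)
  (go 16 Gd mult S111_140_364_512 (Tr.lf 9137440900 94854088 0) 128 256 64 128 320 384))) = true := by decide +kernel
  have c1 : (band (go 16 Gd mult S82_140_512_660 (Tr.lf 9137457220 103377991 0) 128 256 96 128 320 384)
  (band (go 16 Gd mult S82_140_660_808 (Tr.lf 9137456196 103377991 0) 128 256 96 128 320 384)
  (band (go 16 Gd mult S82_140_512_660 (Tr.lf 547521602 107977925 0) 128 256 64 96 256 384)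
  (band (go 16 Gd mult S24_82_216_364 (Tr.lf 1076986946 103636039 0) 128 256 64 96 256 384)
  (band (go 16 Gd mult S24_82_364_512 (Tr.lf 1076970562 103636039 0) 128 256 64 96 256 384)
  (go 16 Gd mult S24_82_512_660 (Tr.lf 1076970562 103636039 0) 128 256 64 96 256 384)))))) = true := by decide +kernel
  have c2 : (band (go 16 Gd mult S24_82_216_364 (Tr.lf 9137391684 94993351 0) 128 256 96 128 256 384)
  (band (go 16 Gd mult S24_82_364_512 (Tr.lf 9137391684 94993351 0) 128 256 96 128 256 384)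
  (band (go 16 Gd mult S24_82_512_660 (Tr.lf 9137375300 94993351 0) 128 256 96 128 256 384)
  (band (go 16 Gd mult S24_82_660_808 (Tr.lf 9137375300 94993351 0) 128 256 96 128 256 384)
  (band (go 16 Gd mult S24_82_660_808 (Tr.lf 1076970562 103636039 0) 128 256 64 96 256 384)
  (go 16 Gd mult S82_140_660_808 (Tr.lf 547505186 103783621 0) 128 256 64 96 256 384)))))) = true := by decide +kernel
  have c3 : (band (go 16 Gd mult S82_111_364_512 (Tr.lf 9137439876 90794824 0) 128 256 64 128 320 384)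
  (band (go 16 Gd mult S82_111_364_512 (Tr.lf 547504770 95653061 0) 128 256 64 128 256 320)
  (band (go 16 Gd mult S82_111_216_364 (Tr.lf 547504770 99716293 0) 128 256 64 128 256 320)
  (band (go 16 Gd mult S111_140_216_364 (Tr.lf 4842472004 107834566 0) 128 256 64 128 256 320)
  (go 16 Gd mult S111_140_364_512 (Tr.lf 4842472002 107834566 0) 128 256 64 128 256 320))))) = true := by decide +kernel
  have c4 : (band (go 16 Gd mult S82_140_512_660 (Tr.lf 4842488356 107842885 0) 128 256 96 128 256 320)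
  (go 16 Gd mult S82_140_660_808 (Tr.lf 4842488356 107842630 0) 128 256 96 128 256 320)) = true := by decide +kernel
  (And.intro (Ok.s4 364 (Ok.s1 96 (Ok.lf S24_82_216_364_ok (bl (br (br (br c1)))))
  (Ok.lf S24_82_216_364_ok (bl c2)))
  (Ok.s1 96 (Ok.lf S24_82_364_512_ok (bl (br (br (br (br c1))))))
  (Ok.lf S24_82_364_512_ok (bl (br c2)))))
  (And.intro (Ok.s4 660 (Ok.s1 96 (Ok.lf S24_82_512_660_ok (br (br (br (br (br c1))))))
  (Ok.lf S24_82_512_660_ok (bl (br (br c2)))))
  (Ok.s1 96 (Ok.lf S24_82_660_808_ok (bl (br (br (br (br c2))))))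
  (Ok.lf S24_82_660_808_ok (bl (br (br (br c2)))))))
  (Ok.s4 512 (Ok.s4 364 (Ok.s3 111 (Ok.s2 320 (Ok.lf S82_111_216_364_ok (bl (br (br c3))))
  (Ok.lf S82_111_216_364_ok (bl (br c0))))
  (Ok.s2 320 (Ok.lf S111_140_216_364_ok (bl (br (br (br c3)))))
  (Ok.lf S111_140_216_364_ok (bl c0))))
  (Ok.s3 111 (Ok.s2 320 (Ok.lf S82_111_364_512_ok (bl (br c3)))
  (Ok.lf S82_111_364_512_ok (bl c3)))
  (Ok.s2 320 (Ok.lf S111_140_364_512_ok (br (br (br (br c3)))))
  (Ok.lf S111_140_364_512_ok (br (br c0))))))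
  (Ok.s4 660 (Ok.s1 96 (Ok.lf S82_140_512_660_ok (bl (br (br c1))))
  (Ok.s2 320 (Ok.lf S82_140_512_660_ok (bl c4))
  (Ok.lf S82_140_512_660_ok (bl c1))))
  (Ok.s1 96 (Ok.lf S82_140_660_808_ok (br (br (br (br (br c2))))))
  (Ok.s2 320 (Ok.lf S82_140_660_808_ok (br c4))
  (Ok.lf S82_140_660_808_ok (bl (br c1)))))))))

end Vale.Agent.P098.Ck
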