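import Vale.Agent.P098.CkGd
import Vale.Agent.P098.CkOk
import Vale.Agent.P098.Sh.A10
import Vale.Agent.P098.Sh.A17
import Vale.Agent.P098.Sh.A18
import Vale.Agent.P098.Sh.A19
import Vale.Agent.P098.Sh.A25
import Vale.Agent.P098.Sh.A26
import Vale.Agent.P098.Sh.A27
import Vale.Agent.P098.Sh.A29
import Vale.Agent.P098.Sh.A36
import Vale.Agent.P098.Sh.A37
import Vale.Agent.P098.Sh.A43
import Vale.Agent.P098.Sh.A44
import Vale.Agent.P098.Sh.A8
import Vale.Agent.P098.Sh.A9

namespace Vale.Agent.P098.Ck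

theorem r212 :
    Ok Gd mult 128 256 64 128 256 384 140 198 216 364 ∧
    Ok Gd mult 128 256 64 128 256 384 140 198 364 512 ∧
    Ok Gd mult 128 256 64 128 256 384 140 198 512 808 ∧
    Ok Gd mult 128 256 64 128 256 384 198 256 216 808 ∧
    Ok Gd mult 128 256 64 128 256 384 256 314 216 808 :=
  have c0 : (band (go 16 Gd mult S140_169_364_512 (Tr.lf 9137588356 99310536 0) 128 256 64 128 256 384)
  (band (go 16 Gd mult S169_198_512_660 (Tr.lf 4841556036 103910342 0) 128 256 64 128 256 384)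
  (go 16 Gd mult S227_256_512_660 (Tr.lf 4303496226 99584710 0) 128 256 64 128 256 384))) = true := by decide +kernel
  have c1 : (band (go 16 Gd mult S140_169_512_660 (Tr.lf 9137588356 99310536 0) 128 256 64 128 256 384)
  (go 16 Gd mult S169_198_660_808 (Tr.lf 4841556036 112294854 0) 128 256 64 128 256 384)) = true := by decide +kernel
  have c2 : (band (go 16 Gd mult S198_256_660_808 (Tr.lf 4304701572 99711942 0) 128 256 64 128 256 384)
  (band (go 16 Gd mult S198_227_216_364 (Tr.lf 4304685122 103779398 0) 128 256 64 128 256 384)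
  (go 16 Gd mult S198_227_512_660 (Tr.lf 4304684098 103902278 0) 128 256 64 128 256 384))) = true := by decide +kernel
  have c3 : (band (go 16 Gd mult S169_198_216_364 (Tr.lf 4841556100 112163910 0) 128 256 64 128 256 384)
  (band (go 16 Gd mult S169_198_364_512 (Tr.lf 4841556100 107969606 0) 128 256 64 128 256 384)
  (go 16 Gd mult S198_227_364_512 (Tr.lf 4304685122 103906374 0) 128 256 64 128 256 384))) = true := by decide +kernel
  have c4 : (band (go 16 Gd mult S140_169_660_808 (Tr.lf 9137571972 99310536 0) 128 256 64 128 256 384)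
  (band (go 16 Gd mult S256_314_216_364 (Tr.lf 8684610 108362948 0) 128 256 64 128 256 384)
  (band (go 16 Gd mult S256_314_364_512 (Tr.lf 4303651906 99846854 0) 128 256 64 128 256 384)
  (go 16 Gd mult S256_314_512_660 (Tr.lf 4303651906 99711686 0) 128 256 64 128 256 384)))) = true := by decide +kernel
  have c5 : (band (go 16 Gd mult S140_169_216_364 (Tr.lf 9137570948 99310536 0) 128 256 64 128 320 384)
  (go 16 Gd mult S140_169_216_364 (Tr.lf 4841554498 107969478 0) 128 256 64 128 256 320)) = true := by decide +kernel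
  have c6 : (band (go 16 Gd mult S256_314_660_808 (Tr.lf 4303651906 99449797 0) 128 256 64 128 256 384)
  (band (go 16 Gd mult S227_256_216_364 (Tr.lf 4303627330 99584838 0) 128 256 64 128 256 384)
  (go 16 Gd mult S227_256_364_512 (Tr.lf 4303496258 103775046 0) 128 256 64 128 256 384))) = true := by decide +kernel
  (And.intro (Ok.s3 169 (Ok.s2 320 (Ok.lf S140_169_216_364_ok (br c5))
  (Ok.lf S140_169_216_364_ok (bl c5)))
  (Ok.lf S169_198_216_364_ok (bl c3)))
  (And.intro (Ok.s3 169 (Ok.lf S140_169_364_512_ok (bl c0))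
  (Ok.lf S169_198_364_512_ok (bl (br c3))))
  (And.intro (Ok.s4 660 (Ok.s3 169 (Ok.lf S140_169_512_660_ok (bl c1))
  (Ok.lf S169_198_512_660_ok (bl (br c0))))
  (Ok.s3 169 (Ok.lf S140_169_660_808_ok (bl c4))
  (Ok.lf S169_198_660_808_ok (br c1))))
  (And.intro (Ok.s4 512 (Ok.s4 364 (Ok.s3 227 (Ok.lf S198_227_216_364_ok (bl (br c2)))
  (Ok.lf S227_256_216_364_ok (bl (br c6))))
  (Ok.s3 227 (Ok.lf S198_227_364_512_ok (br (br c3)))
  (Ok.lf S227_256_364_512_ok (br (br c6)))))
  (Ok.s4 660 (Ok.s3 227 (Ok.lf S198_227_512_660_ok (br (br c2)))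
  (Ok.lf S227_256_512_660_ok (br (br c0))))
  (Ok.lf S198_256_660_808_ok (bl c2))))
  (Ok.s4 512 (Ok.s4 364 (Ok.lf S256_314_216_364_ok (bl (br c4)))
  (Ok.lf S256_314_364_512_ok (bl (br (br c4)))))
  (Ok.s4 660 (Ok.lf S256_314_512_660_ok (br (br (br c4))))
  (Ok.lf S256_314_660_808_ok (bl c6))))))))

end Vale.Agent.P098.Ck
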