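import Vale.Agent.P098.CkGd
import Vale.Agent.P098.CkOk
import Vale.Agent.P098.Sh.A0
import Vale.Agent.P098.Sh.A48
import Vale.Agent.P098.Sh.A49
import Vale.Agent.P098.Sh.A52
import Vale.Agent.P098.Sh.A54
import Vale.Agent.P098.Sh.A55
import Vale.Agent.P098.Sh.A57
import Vale.Agent.P098.Sh.A58
import Vale.Agent.P098.Sh.A59

namespace Vale.Agent.P098.Ck

theorem r213 :
    Ok Gd mult 128 256 64 128 256 384 314 372 216 512 ∧
    Ok Gd mult 128 256 64 128 256 384 314 372 512 808 ∧
    Ok Gd mult 128 256 64 128 256 384 372 488 216 808 ∧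
    Ok Gd mult 128 256 64 128 384 448 24 82 216 364 :=
  have c0 : (band (go 16 Gd mult S314_372_216_364 (Tr.lf 546605188 103779525 0) 128 256 64 128 256 384)
  (go 16 Gd mult S430_488_364_512 (Tr.lf 4834035844 95521862 0) 128 256 64 128 256 384)) = true := by decide +kernel
  have c1 : (band (go 16 Gd mult S314_372_364_512 (Tr.lf 546605188 99585221 0) 128 256 64 128 256 384)
  (band (go 16 Gd mult S430_488_216_364 (Tr.lf 4834034820 95521862 0) 128 256 64 128 256 384)
  (go 16 Gd mult S372_401_512_660 (Tr.lf 4842472578 107973575 0) 128 256 64 128 256 384))) = true := by decide +kernel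
  have c2 : (band (go 16 Gd mult S372_430_364_512 (Tr.lf 4842621060 99716039 0) 128 256 64 128 256 384)
  (band (go 16 Gd mult S430_488_512_660 (Tr.lf 4834034820 95521862 0) 128 256 64 128 256 384)
  (go 16 Gd mult S401_430_512_660 (Tr.lf 4842472578 99716039 0) 128 256 64 128 256 384))) = true := by decide +kernel
  have c3 : (band (go 16 Gd mult S372_430_216_364 (Tr.lf 4842489988 99716294 0) 128 256 64 128 256 384)
  (band (go 16 Gd mult S430_488_660_808 (Tr.lf 4834034820 95521862 0) 128 256 64 128 256 384)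
  (band (go 16 Gd mult S343_372_660_808 (Tr.lf 546587778 95657029 0) 128 256 64 128 256 384)
  (go 16 Gd mult S314_343_512_660 (Tr.lf 9585730 108105028 0) 128 256 64 128 256 384)))) = true := by decide +kernel
  have c4 : (band (go 16 Gd mult S372_401_660_808 (Tr.lf 4842472580 107973575 0) 128 256 64 128 256 384)
  (band (go 16 Gd mult S401_430_660_808 (Tr.lf 4842472580 99716039 0) 128 256 64 128 256 384)
  (band (go 16 Gd mult S343_372_512_660 (Tr.lf 546456642 95657029 0) 128 256 64 128 256 384)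
  (go 16 Gd mult S314_343_660_808 (Tr.lf 9585730 112434372 0) 128 256 64 128 256 384)))) = true := by decide +kernel
  have c5 : (go 16 Gd mult S24_82_216_364 (Tr.lf 539132996 103910469 0) 128 256 64 96 384 448) = true := by decide +kernel
  have c6 : (go 16 Gd mult S24_82_216_364 (Tr.lf 9137375300 95251399 0) 128 256 96 128 384 448) = true := by decide +kernel
  (And.intro (Ok.s4 364 (Ok.lf S314_372_216_364_ok (bl c0))
  (Ok.lf S314_372_364_512_ok (bl c1)))
  (And.intro (Ok.s4 660 (Ok.s3 343 (Ok.lf S314_343_512_660_ok (br (br (br c3))))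
  (Ok.lf S343_372_512_660_ok (bl (br (br c4)))))
  (Ok.s3 343 (Ok.lf S314_343_660_808_ok (br (br (br c4))))
  (Ok.lf S343_372_660_808_ok (bl (br (br c3))))))
  (And.intro (Ok.s3 430 (Ok.s4 512 (Ok.s4 364 (Ok.lf S372_430_216_364_ok (bl c3))
  (Ok.lf S372_430_364_512_ok (bl c2)))
  (Ok.s4 660 (Ok.s3 401 (Ok.lf S372_401_512_660_ok (br (br c1)))
  (Ok.lf S401_430_512_660_ok (br (br c2))))
  (Ok.s3 401 (Ok.lf S372_401_660_808_ok (bl c4))
  (Ok.lf S401_430_660_808_ok (bl (br c4))))))
  (Ok.s4 512 (Ok.s4 364 (Ok.lf S430_488_216_364_ok (bl (br c1)))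
  (Ok.lf S430_488_364_512_ok (br c0)))
  (Ok.s4 660 (Ok.lf S430_488_512_660_ok (bl (br c2)))
  (Ok.lf S430_488_660_808_ok (bl (br c3))))))
  (Ok.s1 96 (Ok.lf S24_82_216_364_ok c5)
  (Ok.lf S24_82_216_364_ok c6)))))

end Vale.Agent.P098.Ck
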