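import Vale.Agent.P098.CkGd
import Vale.Agent.P098.CkOk
import Vale.Agent.P098.Sh.A0
import Vale.Agent.P098.Sh.A1

namespace Vale.Agent.P098.Ck

theorem r214 :
    Ok Gd mult 128 256 64 128 448 512 24 82 216 364 ∧
    Ok Gd mult 128 256 64 128 384 512 24 82 364 512 ∧
    Ok Gd mult 128 256 64 128 384 512 24 82 512 808 :=
  have c0 : (band (go 16 Gd mult S24_82_216_364 (Tr.lf 5371954308 99445831 0) 128 256 64 128 448 480)
  (band (go 16 Gd mult S24_82_364_512 (Tr.lf 5371954308 99445831 0) 128 256 64 128 448 480)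
  (band (go 16 Gd mult S24_82_512_660 (Tr.lf 5371937924 107703367 0) 128 256 64 128 448 480)
  (band (go 16 Gd mult S24_82_660_808 (Tr.lf 5371937412 107703367 0) 128 256 64 128 448 480)
  (go 16 Gd mult S24_82_364_512 (Tr.lf 9666921544 90914119 338110372127022371569664) 128 256 64 96 496 512))))) = true := by decide +kernel
  have c1 : (band (go 16 Gd mult S24_82_512_660 (Tr.lf 5371954248 99314759 338110372127022414626816) 128 256 64 96 496 512)
  (band (go 16 Gd mult S24_82_512_660 (Tr.lf 539067458 108231749 0) 128 256 64 96 384 448)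
  (band (go 16 Gd mult S24_82_364_512 (Tr.lf 539067458 108231749 0) 128 256 64 96 384 448)
  (go 16 Gd mult S24_82_660_808 (Tr.lf 539067458 108231749 0) 128 256 64 96 384 448)))) = true := by decide +kernel
  have c2 : (band (go 16 Gd mult S24_53_660_808 (Tr.lf 5371937928 107830343 6307305199659547775790022656) 128 256 64 128 496 512)
  (band (go 16 Gd mult S24_53_216_364 (Tr.lf 5371937924 107830343 6307305199659547775795134464) 128 256 64 128 496 512)
  (band (go 16 Gd mult S53_82_216_364 (Tr.lf 5380391556 99454023 6325384835079446433509605376) 128 256 64 128 496 512)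
  (go 16 Gd mult S53_82_660_808 (Tr.lf 9675358852 99310919 6324179672395622841083428864) 128 256 64 128 496 512)))) = true := by decide +kernel
  have c3 : (band (go 16 Gd mult S24_82_216_364 (Tr.lf 5371953732 103767111 0) 128 256 64 128 480 496)
  (band (go 16 Gd mult S24_82_364_512 (Tr.lf 5371937412 103767111 0) 128 256 64 128 480 496)
  (band (go 16 Gd mult S24_82_512_660 (Tr.lf 5371937412 103767111 0) 128 256 64 128 480 496)
  (band (go 16 Gd mult S24_82_660_808 (Tr.lf 5371937412 103767111 0) 128 256 64 128 480 496)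
  (band (go 16 Gd mult S24_82_364_512 (Tr.lf 9137374276 95251399 0) 128 256 96 128 384 448)
  (band (go 16 Gd mult S24_82_512_660 (Tr.lf 9137374276 95251399 0) 128 256 96 128 384 448)
  (go 16 Gd mult S24_82_660_808 (Tr.lf 9137374276 95251399 0) 128 256 96 128 384 448))))))) = true := by decide +kernel
  have c4 : (band (go 16 Gd mult S24_82_364_512 (Tr.lf 5371937316 103767111 5026788876013681064527527936) 128 256 96 128 496 512)
  (go 16 Gd mult S24_82_512_660 (Tr.lf 5371937316 103767111 5026789208055074391299457024) 128 256 96 128 496 512)) = true := by decide +kernel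
  (And.intro (Ok.s2 480 (Ok.lf S24_82_216_364_ok (bl c0))
  (Ok.s2 496 (Ok.lf S24_82_216_364_ok (bl c3))
  (Ok.s3 53 (Ok.lf S24_53_216_364_ok (bl (br c2)))
  (Ok.lf S53_82_216_364_ok (bl (br (br c2)))))))
  (And.intro (Ok.s2 448 (Ok.s1 96 (Ok.lf S24_82_364_512_ok (bl (br (br c1))))
  (Ok.lf S24_82_364_512_ok (bl (br (br (br (br c3)))))))
  (Ok.s2 480 (Ok.lf S24_82_364_512_ok (bl (br c0)))
  (Ok.s2 496 (Ok.lf S24_82_364_512_ok (bl (br c3)))
  (Ok.s1 96 (Ok.lf S24_82_364_512_ok (br (br (br (br c0)))))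
  (Ok.lf S24_82_364_512_ok (bl c4))))))
  (Ok.s4 660 (Ok.s2 448 (Ok.s1 96 (Ok.lf S24_82_512_660_ok (bl (br c1)))
  (Ok.lf S24_82_512_660_ok (bl (br (br (br (br (br c3))))))))
  (Ok.s2 480 (Ok.lf S24_82_512_660_ok (bl (br (br c0))))
  (Ok.s2 496 (Ok.lf S24_82_512_660_ok (bl (br (br c3))))
  (Ok.s1 96 (Ok.lf S24_82_512_660_ok (bl c1))
  (Ok.lf S24_82_512_660_ok (br c4))))))
  (Ok.s2 448 (Ok.s1 96 (Ok.lf S24_82_660_808_ok (br (br (br c1))))
  (Ok.lf S24_82_660_808_ok (br (br (br (br (br (br c3))))))))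
  (Ok.s2 480 (Ok.lf S24_82_660_808_ok (bl (br (br (br c0)))))
  (Ok.s2 496 (Ok.lf S24_82_660_808_ok (bl (br (br (br c3)))))
  (Ok.s3 53 (Ok.lf S24_53_660_808_ok (bl c2))
  (Ok.lf S53_82_660_808_ok (br (br (br c2)))))))))))

end Vale.Agent.P098.Ck
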