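import Vale.Agent.P098.CkGd
import Vale.Agent.P098.CkOk
import Vale.Agent.P098.Sh.A2
import Vale.Agent.P098.Sh.A3
import Vale.Agent.P098.Sh.A5

namespace Vale.Agent.P098.Ck

theorem r215 :
    Ok Gd mult 128 256 64 128 384 448 82 140 216 364 ∧
    Ok Gd mult 128 256 64 128 448 512 82 140 216 364 ∧
    Ok Gd mult 128 256 64 128 384 512 82 140 364 512 ∧
    Ok Gd mult 128 256 64 128 384 448 82 140 512 660 :=
  have c0 : (go 16 Gd mult S82_111_216_364 (Tr.lf 5380409480 99318983 49068339236067407298560) 128 256 64 128 480 512) = true := by decide +kernel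
  have c1 : (go 16 Gd mult S111_140_216_364 (Tr.lf 9682847876 99322951 0) 128 256 64 128 480 512) = true := by decide +kernel
  have c2 : (band (go 16 Gd mult S82_111_364_512 (Tr.lf 9137440904 94989128 0) 128 256 64 128 384 448)
  (go 16 Gd mult S82_111_512_660 (Tr.lf 9137440900 94989128 0) 128 256 64 128 384 448)) = true := by decide +kernel
  have c3 : (band (go 16 Gd mult S82_111_364_512 (Tr.lf 5380409476 99318983 55137318067310333788160) 128 256 64 128 480 512)
  (go 16 Gd mult S111_140_364_512 (Tr.lf 9682716804 107580487 0) 128 256 64 128 480 512)) = true := by decide +kernel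
  have c4 : (band (go 16 Gd mult S111_140_216_364 (Tr.lf 9682846852 99322951 0) 128 256 64 128 448 480)
  (band (go 16 Gd mult S111_140_364_512 (Tr.lf 9682846852 103517255 0) 128 256 64 128 448 480)
  (go 16 Gd mult S82_111_216_364 (Tr.lf 9137439876 95255495 0) 128 256 64 128 448 480))) = true := by decide +kernel
  have c5 : (band (go 16 Gd mult S82_111_216_364 (Tr.lf 9137440840 99318727 0) 128 256 96 128 384 448)
  (band (go 16 Gd mult S111_140_364_512 (Tr.lf 9145845828 95128647 0) 128 256 96 128 384 448)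
  (band (go 16 Gd mult S111_140_216_364 (Tr.lf 9145960516 95128647 0) 128 256 96 128 384 448)
  (go 16 Gd mult S111_140_512_660 (Tr.lf 9145829444 95128647 0) 128 256 96 128 384 448)))) = true := by decide +kernel
  have c6 : (band (go 16 Gd mult S111_140_216_364 (Tr.lf 9145960516 94862280 0) 128 256 64 96 384 448)
  (band (go 16 Gd mult S111_140_364_512 (Tr.lf 9145829444 94862280 0) 128 256 64 96 384 448)
  (band (go 16 Gd mult S111_140_512_660 (Tr.lf 9145829444 94862280 0) 128 256 64 96 384 448)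
  (go 16 Gd mult S82_111_216_364 (Tr.lf 9137439812 94989128 0) 128 256 64 96 384 448)))) = true := by decide +kernel
  have c7 : (go 16 Gd mult S82_111_364_512 (Tr.lf 9137374340 91061191 0) 128 256 64 128 448 480) = true := by decide +kernel
  (And.intro (Ok.s3 111 (Ok.s1 96 (Ok.lf S82_111_216_364_ok (br (br (br c6))))
  (Ok.lf S82_111_216_364_ok (bl c5)))
  (Ok.s1 96 (Ok.lf S111_140_216_364_ok (bl c6))
  (Ok.lf S111_140_216_364_ok (bl (br (br c5))))))
  (And.intro (Ok.s2 480 (Ok.s3 111 (Ok.lf S82_111_216_364_ok (br (br c4)))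
  (Ok.lf S111_140_216_364_ok (bl c4)))
  (Ok.s3 111 (Ok.lf S82_111_216_364_ok c0)
  (Ok.lf S111_140_216_364_ok c1)))
  (And.intro (Ok.s2 448 (Ok.s3 111 (Ok.lf S82_111_364_512_ok (bl c2))
  (Ok.s1 96 (Ok.lf S111_140_364_512_ok (bl (br c6)))
  (Ok.lf S111_140_364_512_ok (bl (br c5)))))
  (Ok.s2 480 (Ok.s3 111 (Ok.lf S82_111_364_512_ok c7)
  (Ok.lf S111_140_364_512_ok (bl (br c4))))
  (Ok.s3 111 (Ok.lf S82_111_364_512_ok (bl c3))
  (Ok.lf S111_140_364_512_ok (br c3)))))
  (Ok.s3 111 (Ok.lf S82_111_512_660_ok (br c2))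
  (Ok.s1 96 (Ok.lf S111_140_512_660_ok (bl (br (br c6))))
  (Ok.lf S111_140_512_660_ok (br (br (br c5)))))))))

end Vale.Agent.P098.Ck
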