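import Vale.Agent.P098.CkGd
import Vale.Agent.P098.CkOk
import Vale.Agent.P098.Sh.A14
import Vale.Agent.P098.Sh.A17
import Vale.Agent.P098.Sh.A20
import Vale.Agent.P098.Sh.A3
import Vale.Agent.P098.Sh.A4
import Vale.Agent.P098.Sh.A5
import Vale.Agent.P098.Sh.A6
import Vale.Agent.P098.Sh.A8

namespace Vale.Agent.P098.Ck

theorem r216 :
    Ok Gd mult 128 256 64 128 448 512 82 140 512 660 ∧
    Ok Gd mult 128 256 64 128 384 512 82 140 660 808 ∧
    Ok Gd mult 128 256 64 128 384 448 140 198 216 364 ∧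
    Ok Gd mult 128 256 64 128 448 512 140 169 216 290 :=
  have c0 : (band (go 16 Gd mult S140_169_216_364 (Tr.lf 9146239044 95124679 0) 128 256 96 128 384 448)
  (band (go 16 Gd mult S111_140_660_808 (Tr.lf 9145829444 95128647 0) 128 256 96 128 384 448)
  (go 16 Gd mult S82_111_660_808 (Tr.lf 9137431620 99318727 0) 128 256 96 128 384 448))) = true := by decide +kernel
  have c1 : (go 16 Gd mult S183_198_216_364 (Tr.lf 13986448520 103250889 0) 128 256 96 128 416 448) = true := by decide +kernel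
  have c2 : (band (go 16 Gd mult S82_111_512_660 (Tr.lf 5380393096 99318983 69581118651267993829376) 128 256 64 128 480 512)
  (go 16 Gd mult S82_111_660_808 (Tr.lf 5380393096 99577031 84910362978552152653824) 128 256 64 128 480 512)) = true := by decide +kernel
  have c3 : (band (go 16 Gd mult S82_140_660_808 (Tr.lf 9137588292 90917832 0) 128 256 64 96 384 448)
  (band (go 16 Gd mult S140_169_216_364 (Tr.lf 9145960516 94993352 0) 128 256 64 96 384 448)
  (go 16 Gd mult S169_198_216_364 (Tr.lf 9145960516 94989384 0) 128 256 64 96 384 448))) = true := by decide +kernel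
  have c4 : (go 16 Gd mult S169_183_216_364 (Tr.lf 13986448456 107322185 0) 128 256 96 128 416 448) = true := by decide +kernel
  have c5 : (band (go 16 Gd mult S140_169_216_290 (Tr.lf 9683896388 99322952 6935975771714791407616) 128 256 64 96 480 512)
  (go 16 Gd mult S140_169_216_290 (Tr.lf 9145976900 99322951 0) 128 256 96 128 448 512)) = true := by decide +kernel
  have c6 : (band (go 16 Gd mult S111_140_512_660 (Tr.lf 9145829508 99191879 0) 128 256 64 128 480 512)
  (band (go 16 Gd mult S111_140_660_808 (Tr.lf 9145828484 94997575 0) 128 256 64 128 480 512)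
  (band (go 16 Gd mult S111_140_512_660 (Tr.lf 9145828484 90934343 0) 128 256 64 128 448 480)
  (band (go 16 Gd mult S111_140_660_808 (Tr.lf 9145828484 90934343 0) 128 256 64 128 448 480)
  (go 16 Gd mult S82_111_512_660 (Tr.lf 4842398852 99720389 0) 128 256 64 128 448 480))))) = true := by decide +kernel
  have c7 : (go 16 Gd mult S140_169_216_290 (Tr.lf 9682846788 107711559 0) 128 256 64 96 448 480) = true := by decide +kernel
  have c8 : (go 16 Gd mult S169_198_216_364 (Tr.lf 9145975364 103386056 0) 128 256 96 128 384 416) = true := by decide +kernel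
  have c9 : (go 16 Gd mult S82_111_660_808 (Tr.lf 4842464388 99720389 0) 128 256 64 128 448 480) = true := by decide +kernel
  (And.intro (Ok.s2 480 (Ok.s3 111 (Ok.lf S82_111_512_660_ok (br (br (br (br c6)))))
  (Ok.lf S111_140_512_660_ok (bl (br (br c6)))))
  (Ok.s3 111 (Ok.lf S82_111_512_660_ok (bl c2))
  (Ok.lf S111_140_512_660_ok (bl c6))))
  (And.intro (Ok.s2 448 (Ok.s1 96 (Ok.lf S82_140_660_808_ok (bl c3))
  (Ok.s3 111 (Ok.lf S82_111_660_808_ok (br (br c0)))
  (Ok.lf S111_140_660_808_ok (bl (br c0)))))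
  (Ok.s2 480 (Ok.s3 111 (Ok.lf S82_111_660_808_ok c9)
  (Ok.lf S111_140_660_808_ok (bl (br (br (br c6))))))
  (Ok.s3 111 (Ok.lf S82_111_660_808_ok (br c2))
  (Ok.lf S111_140_660_808_ok (bl (br c6))))))
  (And.intro (Ok.s3 169 (Ok.s1 96 (Ok.lf S140_169_216_364_ok (bl (br c3)))
  (Ok.lf S140_169_216_364_ok (bl c0)))
  (Ok.s1 96 (Ok.lf S169_198_216_364_ok (br (br c3)))
  (Ok.s2 416 (Ok.lf S169_198_216_364_ok c8)
  (Ok.s3 183 (Ok.lf S169_183_216_364_ok c4)
  (Ok.lf S183_198_216_364_ok c1)))))
  (Ok.s1 96 (Ok.s2 480 (Ok.lf S140_169_216_290_ok c7)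
  (Ok.lf S140_169_216_290_ok (bl c5)))
  (Ok.lf S140_169_216_290_ok (br c5))))))

end Vale.Agent.P098.Ck
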