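import Vale.Agent.P098.CkGd
import Vale.Agent.P098.CkOk
import Vale.Agent.P098.Sh.A15
import Vale.Agent.P098.Sh.A17
import Vale.Agent.P098.Sh.A20
import Vale.Agent.P098.Sh.A21

namespace Vale.Agent.P098.Ck

theorem r218 :
    Ok Gd mult 128 256 64 96 448 512 169 198 290 308 ∧
    Ok Gd mult 128 256 96 128 448 512 169 198 290 308 ∧
    Ok Gd mult 128 256 64 128 448 512 169 198 308 327 ∧
    Ok Gd mult 128 256 64 128 448 512 169 198 327 364 :=
  have c0 : (band (go 16 Gd mult S169_198_327_345 (Tr.lf 13986072712 98929481 0) 128 256 64 96 480 512)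
  (go 16 Gd mult S169_183_290_308 (Tr.lf 13987039304 98929737 10699111562751539937309) 128 256 64 96 480 512)) = true := by decide +kernel
  have c1 : (band (go 16 Gd mult S169_198_345_364 (Tr.lf 13986072712 98929481 0) 128 256 64 96 480 512)
  (go 16 Gd mult S169_183_308_327 (Tr.lf 13985990724 98929481 6050540218951057539072) 128 256 64 96 480 512)) = true := by decide +kernel
  have c2 : (band (go 16 Gd mult S169_198_290_308 (Tr.lf 13986007176 102988745 0) 128 256 64 96 448 480)
  (go 16 Gd mult S169_198_308_327 (Tr.lf 13986007176 94731209 0) 128 256 64 96 448 480)) = true := by decide +kernel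
  have c3 : (band (go 16 Gd mult S183_198_290_308 (Tr.lf 9145780360 99450182 1752448855759621455872) 128 256 64 96 480 512)
  (go 16 Gd mult S183_198_308_327 (Tr.lf 9145780360 99450182 13233434189103104) 128 256 64 96 480 512)) = true := by decide +kernel
  have c4 : (band (go 16 Gd mult S169_198_290_308 (Tr.lf 13986007176 103255112 0) 128 256 96 128 448 480)
  (go 16 Gd mult S169_198_308_327 (Tr.lf 13986007176 107449416 0) 128 256 96 128 448 480)) = true := by decide +kernel
  have c5 : (band (go 16 Gd mult S169_198_290_308 (Tr.lf 13986007176 94866249 0) 128 256 96 128 480 512)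
  (go 16 Gd mult S169_198_308_327 (Tr.lf 13986007176 94866249 0) 128 256 96 128 480 512)) = true := by decide +kernel
  have c6 : (band (go 16 Gd mult S169_198_327_345 (Tr.lf 13986007176 94731209 0) 128 256 64 96 448 480)
  (go 16 Gd mult S169_198_345_364 (Tr.lf 13986007176 94731209 0) 128 256 64 96 448 480)) = true := by decide +kernel
  have c7 : (band (go 16 Gd mult S169_198_327_345 (Tr.lf 13986007176 99191880 0) 128 256 96 128 448 480)
  (go 16 Gd mult S169_198_345_364 (Tr.lf 13986007176 99191880 0) 128 256 96 128 448 480)) = true := by decide +kernel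
  have c8 : (band (go 16 Gd mult S169_198_327_345 (Tr.lf 13986007176 94866249 0) 128 256 96 128 480 512)
  (go 16 Gd mult S169_198_345_364 (Tr.lf 13986007176 94866249 0) 128 256 96 128 480 512)) = true := by decide +kernel
  (And.intro (Ok.s2 480 (Ok.lf S169_198_290_308_ok (bl c2))
  (Ok.s3 183 (Ok.lf S169_183_290_308_ok (br c0))
  (Ok.lf S183_198_290_308_ok (bl c3))))
  (And.intro (Ok.s2 480 (Ok.lf S169_198_290_308_ok (bl c4))
  (Ok.lf S169_198_290_308_ok (bl c5)))
  (And.intro (Ok.s1 96 (Ok.s2 480 (Ok.lf S169_198_308_327_ok (br c2))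
  (Ok.s3 183 (Ok.lf S169_183_308_327_ok (br c1))
  (Ok.lf S183_198_308_327_ok (br c3))))
  (Ok.s2 480 (Ok.lf S169_198_308_327_ok (br c4))
  (Ok.lf S169_198_308_327_ok (br c5))))
  (Ok.s4 345 (Ok.s1 96 (Ok.s2 480 (Ok.lf S169_198_327_345_ok (bl c6))
  (Ok.lf S169_198_327_345_ok (bl c0)))
  (Ok.s2 480 (Ok.lf S169_198_327_345_ok (bl c7))
  (Ok.lf S169_198_327_345_ok (bl c8))))
  (Ok.s1 96 (Ok.s2 480 (Ok.lf S169_198_345_364_ok (br c6))
  (Ok.lf S169_198_345_364_ok (bl c1)))
  (Ok.s2 480 (Ok.lf S169_198_345_364_ok (br c7))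
  (Ok.lf S169_198_345_364_ok (br c8))))))))

end Vale.Agent.P098.Ck
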