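import Vale.Agent.P098.CkGd
import Vale.Agent.P098.CkOk
import Vale.Agent.P098.Sh.A46
import Vale.Agent.P098.Sh.A47
import Vale.Agent.P098.Sh.A48
import Vale.Agent.P098.Sh.A49
import Vale.Agent.P098.Sh.A51

namespace Vale.Agent.P098.Ck

theorem r22 :
    Ok Gd mult 0 128 48 64 496 512 285 314 660 808 ∧
    Ok Gd mult 0 128 0 64 384 512 314 372 216 364 ∧
    Ok Gd mult 0 128 0 64 384 448 314 372 364 512 ∧
    Ok Gd mult 0 128 0 64 448 480 314 372 364 512 :=
  have c0 : (go 16 Gd mult S314_343_364_512 (Tr.lf 4841833604 99458117 0) 0 128 0 16 448 480) = true := by decide +kernel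
  have c1 : (band (go 16 Gd mult S285_314_734_808 (Tr.lf 13985415752 95001416 556711299163228567848878080) 0 64 56 64 504 512)
  (go 16 Gd mult S285_314_660_734 (Tr.lf 9681666340 95128519 134778276329227413901803567) 0 64 56 64 504 512)) = true := by decide +kernel
  have c2 : (band (go 16 Gd mult S314_343_290_364 (Tr.lf 4841572482 103644102 0) 0 64 0 32 448 512)
  (go 16 Gd mult S314_343_216_290 (Tr.lf 4849813634 103652294 0) 0 64 0 32 448 512)) = true := by decide +kernel
  have c3 : (band (go 16 Gd mult S343_372_216_364 (Tr.lf 4850993284 107842758 0) 0 128 0 32 448 512)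
  (band (go 16 Gd mult S343_372_216_364 (Tr.lf 547637380 108100678 304592638147789355745280) 0 128 32 64 448 512)
  (go 16 Gd mult S314_343_216_364 (Tr.lf 4841555010 103517126 211067645696289542242304) 0 128 32 64 448 512))) = true := by decide +kernel
  have c4 : (go 16 Gd mult S343_372_364_512 (Tr.lf 4841571460 107842374 0) 0 128 0 32 448 480) = true := by decide +kernel
  have c5 : (band (go 16 Gd mult S285_314_660_808 (Tr.lf 9682059816 99322823 664115474284323375247523917) 0 128 48 56 504 512)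
  (go 16 Gd mult S285_314_660_808 (Tr.lf 9682059812 95128519 282397128294260139624497199) 64 128 56 64 504 512)) = true := by decide +kernel
  have c6 : (go 16 Gd mult S314_343_216_364 (Tr.lf 8669314 107977668 0) 64 128 0 32 448 512) = true := by decide +kernel
  have c7 : (go 16 Gd mult S314_343_364_512 (Tr.lf 4841571396 107838661 0) 0 128 16 32 448 480) = true := by decide +kernel
  have c8 : (go 16 Gd mult S314_372_364_512 (Tr.lf 4842619972 107711686 0) 0 128 32 64 448 480) = true := by decide +kernel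
  have c9 : (band (go 16 Gd mult S314_343_216_364 (Tr.lf 4841546882 103509062 0) 0 128 0 64 384 448)
  (go 16 Gd mult S343_372_216_364 (Tr.lf 546448514 112303045 0) 0 128 0 64 384 448)) = true := by decide +kernel
  have c10 : (band (go 16 Gd mult S314_343_364_512 (Tr.lf 4849943618 103652294 0) 0 128 0 32 384 448)
  (go 16 Gd mult S343_372_364_512 (Tr.lf 4850861122 103648454 0) 0 128 0 32 384 448)) = true := by decide +kernel
  have c11 : (go 16 Gd mult S285_314_660_808 (Tr.lf 9135472932 95247047 0) 0 128 48 64 496 504) = true := by decide +kernel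
  have c12 : (go 16 Gd mult S314_372_364_512 (Tr.lf 546472481 99716165 0) 0 128 32 64 384 448) = true := by decide +kernel
  (And.intro (Ok.s2 504 (Ok.lf S285_314_660_808_ok c11)
  (Ok.s1 56 (Ok.lf S285_314_660_808_ok (bl c5))
  (Ok.s0 64 (Ok.s4 734 (Ok.lf S285_314_660_734_ok (br c1))
  (Ok.lf S285_314_734_808_ok (bl c1)))
  (Ok.lf S285_314_660_808_ok (br c5)))))
  (And.intro (Ok.s2 448 (Ok.s3 343 (Ok.lf S314_343_216_364_ok (bl c9))
  (Ok.lf S343_372_216_364_ok (br c9)))
  (Ok.s1 32 (Ok.s3 343 (Ok.s0 64 (Ok.s4 290 (Ok.lf S314_343_216_290_ok (br c2))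
  (Ok.lf S314_343_290_364_ok (bl c2)))
  (Ok.lf S314_343_216_364_ok c6))
  (Ok.lf S343_372_216_364_ok (bl c3)))
  (Ok.s3 343 (Ok.lf S314_343_216_364_ok (br (br c3)))
  (Ok.lf S343_372_216_364_ok (bl (br c3))))))
  (And.intro (Ok.s1 32 (Ok.s3 343 (Ok.lf S314_343_364_512_ok (bl c10))
  (Ok.lf S343_372_364_512_ok (br c10)))
  (Ok.lf S314_372_364_512_ok c12))
  (Ok.s1 32 (Ok.s3 343 (Ok.s1 16 (Ok.lf S314_343_364_512_ok c0)
  (Ok.lf S314_343_364_512_ok c7))
  (Ok.lf S343_372_364_512_ok c4))
  (Ok.lf S314_372_364_512_ok c8)))))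

end Vale.Agent.P098.Ck
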