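import Vale.Agent.P098.CkGd
import Vale.Agent.P098.CkOk
import Vale.Agent.P098.Sh.A15
import Vale.Agent.P098.Sh.A18
import Vale.Agent.P098.Sh.A21

namespace Vale.Agent.P098.Ck

theorem r220 :
    Ok Gd mult 128 136 96 128 384 512 169 198 364 512 ∧
    Ok Gd mult 136 144 96 128 384 512 169 198 364 512 ∧
    Ok Gd mult 144 160 96 128 384 512 169 198 364 512 ∧
    Ok Gd mult 160 176 96 128 384 512 169 198 364 512 :=
  have c0 : (band (go 16 Gd mult S169_198_364_512 (Tr.lf 13986465921 103132104 0) 136 144 96 128 480 512)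
  (go 16 Gd mult S169_198_364_512 (Tr.lf 13986465921 103124040 0) 152 160 96 128 480 512)) = true := by decide +kernel
  have c1 : (band (go 16 Gd mult S169_198_364_512 (Tr.lf 13986203777 99191880 0) 128 136 96 128 448 480)
  (band (go 16 Gd mult S169_198_364_512 (Tr.lf 13986203777 107449416 0) 148 152 96 128 448 480)
  (go 16 Gd mult S169_198_364_512 (Tr.lf 13986203777 99191880 0) 136 144 96 128 448 480))) = true := by decide +kernel
  have c2 : (band (go 16 Gd mult S169_198_364_512 (Tr.lf 13986465857 103132104 0) 128 136 96 128 480 512)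
  (band (go 16 Gd mult S169_198_364_512 (Tr.lf 13986465857 103132104 0) 144 148 96 128 480 512)
  (go 16 Gd mult S169_198_364_512 (Tr.lf 13986465857 103124040 0) 148 152 96 128 480 512))) = true := by decide +kernel
  have c3 : (go 16 Gd mult S169_198_364_512 (Tr.lf 13986203777 107449416 0) 144 148 96 128 448 480) = true := by decide +kernel
  have c4 : (go 16 Gd mult S169_198_364_512 (Tr.lf 13986465857 107449416 0) 152 160 96 128 448 480) = true := by decide +kernel
  have c5 : (band (go 16 Gd mult S183_198_364_512 (Tr.lf 13986449537 103255112 0) 160 176 96 128 448 480)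
  (go 16 Gd mult S183_198_364_512 (Tr.lf 13986449473 103390152 0) 160 176 96 128 480 512)) = true := by decide +kernel
  have c6 : (go 16 Gd mult S169_183_364_512 (Tr.lf 9682831425 99454023 0) 160 176 96 128 448 512) = true := by decide +kernel
  have c7 : (band (go 16 Gd mult S169_198_364_512 (Tr.lf 9145828417 99450055 0) 152 160 96 128 384 448)
  (band (go 16 Gd mult S169_198_364_512 (Tr.lf 9145828417 99450055 0) 160 176 96 128 384 448)
  (band (go 16 Gd mult S169_198_364_512 (Tr.lf 9136391201 99183559 0) 128 136 96 128 384 448)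
  (band (go 16 Gd mult S169_198_364_512 (Tr.lf 9136391201 99441607 0) 136 144 96 128 384 448)
  (band (go 16 Gd mult S169_198_364_512 (Tr.lf 9136391201 99441607 0) 144 148 96 128 384 448)
  (go 16 Gd mult S169_198_364_512 (Tr.lf 9144779809 99449799 0) 148 152 96 128 384 448)))))) = true := by decide +kernel
  (And.intro (Ok.s2 448 (Ok.lf S169_198_364_512_ok (bl (br (br c7))))
  (Ok.s2 480 (Ok.lf S169_198_364_512_ok (bl c1))
  (Ok.lf S169_198_364_512_ok (bl c2))))
  (And.intro (Ok.s2 448 (Ok.lf S169_198_364_512_ok (bl (br (br (br c7)))))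
  (Ok.s2 480 (Ok.lf S169_198_364_512_ok (br (br c1)))
  (Ok.lf S169_198_364_512_ok (bl c0))))
  (And.intro (Ok.s0 152 (Ok.s0 148 (Ok.s2 448 (Ok.lf S169_198_364_512_ok (bl (br (br (br (br c7))))))
  (Ok.s2 480 (Ok.lf S169_198_364_512_ok c3)
  (Ok.lf S169_198_364_512_ok (bl (br c2)))))
  (Ok.s2 448 (Ok.lf S169_198_364_512_ok (br (br (br (br (br c7))))))
  (Ok.s2 480 (Ok.lf S169_198_364_512_ok (bl (br c1)))
  (Ok.lf S169_198_364_512_ok (br (br c2))))))
  (Ok.s2 448 (Ok.lf S169_198_364_512_ok (bl c7))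
  (Ok.s2 480 (Ok.lf S169_198_364_512_ok c4)
  (Ok.lf S169_198_364_512_ok (br c0)))))
  (Ok.s2 448 (Ok.lf S169_198_364_512_ok (bl (br c7)))
  (Ok.s3 183 (Ok.lf S169_183_364_512_ok c6)
  (Ok.s2 480 (Ok.lf S183_198_364_512_ok (bl c5))
  (Ok.lf S183_198_364_512_ok (br c5))))))))

end Vale.Agent.P098.Ck
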