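import Vale.Agent.P098.CkGd
import Vale.Agent.P098.CkOk
import Vale.Agent.P098.Sh.A18

namespace Vale.Agent.P098.Ck

theorem r221 :
    Ok Gd mult 176 180 96 128 384 512 169 198 364 512 ∧
    Ok Gd mult 180 184 96 128 384 512 169 198 364 512 ∧
    Ok Gd mult 184 186 96 128 384 512 169 198 364 512 ∧
    Ok Gd mult 186 188 96 112 384 512 169 198 364 512 :=
  have c0 : (band (go 16 Gd mult S169_198_364_512 (Tr.lf 13986465921 103255112 0) 176 180 96 128 448 480)
  (go 16 Gd mult S169_198_364_512 (Tr.lf 13986465857 103124040 0) 176 180 96 128 480 512)) = true := by decide +kernel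
  have c1 : (band (go 16 Gd mult S169_198_364_512 (Tr.lf 13986465857 103521224 0) 180 182 96 128 448 480)
  (band (go 16 Gd mult S169_198_364_512 (Tr.lf 13986465857 103124040 0) 180 182 96 128 480 512)
  (go 16 Gd mult S169_198_364_512 (Tr.lf 13986465857 103521224 0) 182 184 112 128 448 480))) = true := by decide +kernel
  have c2 : (band (go 16 Gd mult S169_198_364_512 (Tr.lf 13986465825 98929736 0) 182 184 96 112 480 512)
  (band (go 16 Gd mult S169_198_364_512 (Tr.lf 13986465825 103124040 0) 182 184 112 128 480 512)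
  (band (go 16 Gd mult S169_198_364_512 (Tr.lf 13986465825 98929736 0) 184 186 96 112 480 512)
  (go 16 Gd mult S169_198_364_512 (Tr.lf 13986465825 103124040 0) 184 186 112 128 480 512)))) = true := by decide +kernel
  have c3 : (go 16 Gd mult S169_198_364_512 (Tr.lf 13986465825 98929736 0) 186 188 96 112 480 512) = true := by decide +kernel
  have c4 : (band (go 16 Gd mult S169_198_364_512 (Tr.lf 13986203713 103521224 0) 184 186 96 112 448 480)
  (band (go 16 Gd mult S169_198_364_512 (Tr.lf 13986203713 103521224 0) 186 188 96 112 448 480)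
  (band (go 16 Gd mult S169_198_364_512 (Tr.lf 13986203681 103521224 0) 184 186 112 128 448 480)
  (go 16 Gd mult S169_198_364_512 (Tr.lf 13986203681 103521224 0) 182 184 96 112 448 480)))) = true := by decide +kernel
  have c5 : (band (go 16 Gd mult S169_198_364_512 (Tr.lf 9145828417 107707591 0) 176 180 96 128 384 448)
  (band (go 16 Gd mult S169_198_364_512 (Tr.lf 9145828417 107707591 0) 180 182 96 128 384 448)
  (band (go 16 Gd mult S169_198_364_512 (Tr.lf 9145828385 107707591 0) 182 184 112 128 384 448)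
  (band (go 16 Gd mult S169_198_364_512 (Tr.lf 9145828385 103513287 0) 184 186 112 128 384 448)
  (go 16 Gd mult S169_198_364_512 (Tr.lf 9136391185 99310535 0) 186 188 96 112 384 448))))) = true := by decide +kernel
  have c6 : (band (go 16 Gd mult S169_198_364_512 (Tr.lf 4841415697 107969733 0) 182 184 96 112 384 448)
  (go 16 Gd mult S169_198_364_512 (Tr.lf 9136382993 99310535 0) 184 186 96 112 384 448)) = true := by decide +kernel
  (And.intro (Ok.s2 448 (Ok.lf S169_198_364_512_ok (bl c5))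
  (Ok.s2 480 (Ok.lf S169_198_364_512_ok (bl c0))
  (Ok.lf S169_198_364_512_ok (br c0))))
  (And.intro (Ok.s0 182 (Ok.s2 448 (Ok.lf S169_198_364_512_ok (bl (br c5)))
  (Ok.s2 480 (Ok.lf S169_198_364_512_ok (bl c1))
  (Ok.lf S169_198_364_512_ok (bl (br c1)))))
  (Ok.s1 112 (Ok.s2 448 (Ok.lf S169_198_364_512_ok (bl c6))
  (Ok.s2 480 (Ok.lf S169_198_364_512_ok (br (br (br c4))))
  (Ok.lf S169_198_364_512_ok (bl c2))))
  (Ok.s2 448 (Ok.lf S169_198_364_512_ok (bl (br (br c5))))
  (Ok.s2 480 (Ok.lf S169_198_364_512_ok (br (br c1)))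
  (Ok.lf S169_198_364_512_ok (bl (br c2)))))))
  (And.intro (Ok.s1 112 (Ok.s2 448 (Ok.lf S169_198_364_512_ok (br c6))
  (Ok.s2 480 (Ok.lf S169_198_364_512_ok (bl c4))
  (Ok.lf S169_198_364_512_ok (bl (br (br c2))))))
  (Ok.s2 448 (Ok.lf S169_198_364_512_ok (bl (br (br (br c5)))))
  (Ok.s2 480 (Ok.lf S169_198_364_512_ok (bl (br (br c4))))
  (Ok.lf S169_198_364_512_ok (br (br (br c2)))))))
  (Ok.s2 448 (Ok.lf S169_198_364_512_ok (br (br (br (br c5)))))
  (Ok.s2 480 (Ok.lf S169_198_364_512_ok (bl (br c4)))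
  (Ok.lf S169_198_364_512_ok c3))))))

end Vale.Agent.P098.Ck
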