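import Vale.Agent.P098.CkGd
import Vale.Agent.P098.CkOk
import Vale.Agent.P098.Sh.A18

namespace Vale.Agent.P098.Ck

theorem r222 :
    Ok Gd mult 186 188 112 128 384 512 169 198 364 512 ∧
    Ok Gd mult 188 192 96 128 384 512 169 198 364 512 ∧
    Ok Gd mult 192 224 96 112 384 512 169 198 364 512 :=
  have c0 : (band (go 16 Gd mult S169_198_364_512 (Tr.lf 13986465858 98929736 0) 192 208 96 112 480 512)
  (go 16 Gd mult S169_198_364_512 (Tr.lf 13986465858 98929481 0) 208 224 96 112 480 512)) = true := by decide +kernel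
  have c1 : (band (go 16 Gd mult S169_198_364_512 (Tr.lf 13986465857 98929736 0) 190 192 96 112 480 512)
  (band (go 16 Gd mult S169_198_364_512 (Tr.lf 13986465857 103521224 0) 192 208 96 112 448 480)
  (go 16 Gd mult S169_198_364_512 (Tr.lf 13986465857 107584456 0) 208 224 96 112 448 480))) = true := by decide +kernel
  have c2 : (band (go 16 Gd mult S169_198_364_512 (Tr.lf 13986465825 103521224 0) 186 188 112 128 448 480)
  (band (go 16 Gd mult S169_198_364_512 (Tr.lf 13986465825 94866504 0) 186 188 112 128 480 512)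
  (band (go 16 Gd mult S169_198_364_512 (Tr.lf 13986465825 98929736 0) 188 190 96 112 480 512)
  (go 16 Gd mult S169_198_364_512 (Tr.lf 13986465825 103521224 0) 188 190 112 128 448 480)))) = true := by decide +kernel
  have c3 : (band (go 16 Gd mult S169_198_364_512 (Tr.lf 13986465825 94866504 0) 188 190 112 128 480 512)
  (band (go 16 Gd mult S169_198_364_512 (Tr.lf 13986465825 103521224 0) 190 192 96 112 448 480)
  (band (go 16 Gd mult S169_198_364_512 (Tr.lf 13986465825 103521224 0) 190 192 112 128 448 480)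
  (go 16 Gd mult S169_198_364_512 (Tr.lf 13986465825 94866504 0) 190 192 112 128 480 512)))) = true := by decide +kernel
  have c4 : (go 16 Gd mult S169_198_364_512 (Tr.lf 13986203713 103521224 0) 188 190 96 112 448 480) = true := by decide +kernel
  have c5 : (band (go 16 Gd mult S169_198_364_512 (Tr.lf 9145959457 107707591 0) 188 190 112 128 384 448)
  (go 16 Gd mult S169_198_364_512 (Tr.lf 9145959457 107715655 0) 190 192 112 128 384 448)) = true := by decide +kernel
  have c6 : (band (go 16 Gd mult S169_198_364_512 (Tr.lf 9145828385 103513287 0) 186 188 112 128 384 448)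
  (band (go 16 Gd mult S169_198_364_512 (Tr.lf 9145828385 99318983 0) 208 224 96 112 384 448)
  (band (go 16 Gd mult S169_198_364_512 (Tr.lf 9144779793 99318727 0) 188 190 96 112 384 448)
  (band (go 16 Gd mult S169_198_364_512 (Tr.lf 9144779793 99318727 0) 190 192 96 112 384 448)
  (go 16 Gd mult S169_198_364_512 (Tr.lf 9145828369 99318983 0) 192 208 96 112 384 448))))) = true := by decide +kernel
  (And.intro (Ok.s2 448 (Ok.lf S169_198_364_512_ok (bl c6))
  (Ok.s2 480 (Ok.lf S169_198_364_512_ok (bl c2))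
  (Ok.lf S169_198_364_512_ok (bl (br c2)))))
  (And.intro (Ok.s0 190 (Ok.s1 112 (Ok.s2 448 (Ok.lf S169_198_364_512_ok (bl (br (br c6))))
  (Ok.s2 480 (Ok.lf S169_198_364_512_ok c4)
  (Ok.lf S169_198_364_512_ok (bl (br (br c2))))))
  (Ok.s2 448 (Ok.lf S169_198_364_512_ok (bl c5))
  (Ok.s2 480 (Ok.lf S169_198_364_512_ok (br (br (br c2))))
  (Ok.lf S169_198_364_512_ok (bl c3)))))
  (Ok.s1 112 (Ok.s2 448 (Ok.lf S169_198_364_512_ok (bl (br (br (br c6)))))
  (Ok.s2 480 (Ok.lf S169_198_364_512_ok (bl (br c3)))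
  (Ok.lf S169_198_364_512_ok (bl c1))))
  (Ok.s2 448 (Ok.lf S169_198_364_512_ok (br c5))
  (Ok.s2 480 (Ok.lf S169_198_364_512_ok (bl (br (br c3))))
  (Ok.lf S169_198_364_512_ok (br (br (br c3))))))))
  (Ok.s0 208 (Ok.s2 448 (Ok.lf S169_198_364_512_ok (br (br (br (br c6)))))
  (Ok.s2 480 (Ok.lf S169_198_364_512_ok (bl (br c1)))
  (Ok.lf S169_198_364_512_ok (bl c0))))
  (Ok.s2 448 (Ok.lf S169_198_364_512_ok (bl (br c6)))
  (Ok.s2 480 (Ok.lf S169_198_364_512_ok (br (br c1)))
  (Ok.lf S169_198_364_512_ok (br c0)))))))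

end Vale.Agent.P098.Ck
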