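import Vale.Agent.P098.CkGd
import Vale.Agent.P098.CkOk
import Vale.Agent.P098.Sh.A10
import Vale.Agent.P098.Sh.A15
import Vale.Agent.P098.Sh.A18
import Vale.Agent.P098.Sh.A19
import Vale.Agent.P098.Sh.A21

namespace Vale.Agent.P098.Ck

theorem r223 :
    Ok Gd mult 192 224 112 120 384 512 169 198 364 512 ∧
    Ok Gd mult 192 224 120 128 384 512 169 198 364 512 ∧
    Ok Gd mult 224 256 96 128 384 512 169 198 364 512 ∧
    Ok Gd mult 128 256 64 128 384 512 140 169 512 660 ∧
    Ok Gd mult 128 192 64 96 384 512 169 198 512 660 :=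
  have c0 : (band (go 16 Gd mult S169_198_364_512 (Tr.lf 13986464898 103385929 0) 224 256 96 128 416 448)
  (band (go 16 Gd mult S169_198_364_512 (Tr.lf 13986465826 103521224 0) 192 224 112 120 448 480)
  (go 16 Gd mult S169_198_364_512 (Tr.lf 13986465826 94866249 0) 192 224 112 120 480 512))) = true := by decide +kernel
  have c1 : (band (go 16 Gd mult S140_169_512_660 (Tr.lf 9145960520 103390279 0) 128 256 96 128 384 448)
  (band (go 16 Gd mult S140_169_512_660 (Tr.lf 9145960516 99322951 0) 128 256 64 96 448 480)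
  (go 16 Gd mult S140_169_512_660 (Tr.lf 9145959496 99331270 0) 128 256 96 128 448 480))) = true := by decide +kernel
  have c2 : (go 16 Gd mult S140_169_512_660 (Tr.lf 9682847812 103517255 0) 128 256 64 96 480 512) = true := by decide +kernel
  have c3 : (go 16 Gd mult S169_198_512_660 (Tr.lf 13977815108 99052616 0) 128 192 64 96 480 512) = true := by decide +kernel
  have c4 : (band (go 16 Gd mult S169_198_364_512 (Tr.lf 13986465826 99326920 0) 192 224 120 128 448 480)
  (go 16 Gd mult S169_198_364_512 (Tr.lf 13986465810 94866249 0) 192 224 120 128 480 512)) = true := by decide +kernel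
  have c5 : (band (go 16 Gd mult S183_198_364_512 (Tr.lf 13986449474 99326920 0) 224 256 96 128 448 480)
  (band (go 16 Gd mult S169_183_364_512 (Tr.lf 13986179138 103390152 0) 224 256 96 128 448 480)
  (band (go 16 Gd mult S183_198_364_512 (Tr.lf 13986449474 94866249 0) 224 256 96 128 480 512)
  (go 16 Gd mult S169_183_364_512 (Tr.lf 13977798721 94858057 0) 224 256 96 128 480 512)))) = true := by decide +kernel
  have c6 : (band (go 16 Gd mult S140_169_512_660 (Tr.lf 9145959492 94993352 0) 128 256 64 96 384 448)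
  (go 16 Gd mult S140_169_512_660 (Tr.lf 9145959492 95128647 0) 128 256 96 128 480 512)) = true := by decide +kernel
  have c7 : (go 16 Gd mult S169_198_364_512 (Tr.lf 13440944146 99056457 0) 192 224 120 128 384 448) = true := by decide +kernel
  have c8 : (go 16 Gd mult S169_198_512_660 (Tr.lf 9145959490 99195975 0) 128 192 64 96 448 480) = true := by decide +kernel
  have c9 : (band (go 16 Gd mult S169_198_364_512 (Tr.lf 9145960465 103521351 0) 192 224 112 120 384 448)
  (go 16 Gd mult S169_198_364_512 (Tr.lf 9145958977 103513287 0) 224 256 96 128 384 416)) = true := by decide +kernel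
  have c10 : (go 16 Gd mult S169_198_512_660 (Tr.lf 4841415713 103775174 0) 128 192 64 96 384 448) = true := by decide +kernel
  (And.intro (Ok.s2 448 (Ok.lf S169_198_364_512_ok (bl c9))
  (Ok.s2 480 (Ok.lf S169_198_364_512_ok (bl (br c0)))
  (Ok.lf S169_198_364_512_ok (br (br c0)))))
  (And.intro (Ok.s2 448 (Ok.lf S169_198_364_512_ok c7)
  (Ok.s2 480 (Ok.lf S169_198_364_512_ok (bl c4))
  (Ok.lf S169_198_364_512_ok (br c4))))
  (And.intro (Ok.s2 448 (Ok.s2 416 (Ok.lf S169_198_364_512_ok (br c9))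
  (Ok.lf S169_198_364_512_ok (bl c0)))
  (Ok.s3 183 (Ok.s2 480 (Ok.lf S169_183_364_512_ok (bl (br c5)))
  (Ok.lf S169_183_364_512_ok (br (br (br c5)))))
  (Ok.s2 480 (Ok.lf S183_198_364_512_ok (bl c5))
  (Ok.lf S183_198_364_512_ok (bl (br (br c5)))))))
  (And.intro (Ok.s2 448 (Ok.s1 96 (Ok.lf S140_169_512_660_ok (bl c6))
  (Ok.lf S140_169_512_660_ok (bl c1)))
  (Ok.s2 480 (Ok.s1 96 (Ok.lf S140_169_512_660_ok (bl (br c1)))
  (Ok.lf S140_169_512_660_ok (br (br c1))))
  (Ok.s1 96 (Ok.lf S140_169_512_660_ok c2)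
  (Ok.lf S140_169_512_660_ok (br c6)))))
  (Ok.s2 448 (Ok.lf S169_198_512_660_ok c10)
  (Ok.s2 480 (Ok.lf S169_198_512_660_ok c8)
  (Ok.lf S169_198_512_660_ok c3)))))))

end Vale.Agent.P098.Ck
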