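import Vale.Agent.P098.CkGd
import Vale.Agent.P098.CkOk
import Vale.Agent.P098.Sh.A10
import Vale.Agent.P098.Sh.A19

namespace Vale.Agent.P098.Ck

theorem r224 :
    Ok Gd mult 128 192 96 128 384 512 169 198 512 660 ∧
    Ok Gd mult 192 256 64 128 384 512 169 198 512 660 ∧
    Ok Gd mult 128 256 64 128 384 512 140 198 660 808 :=
  have c0 : (go 16 Gd mult S169_198_512_660 (Tr.lf 13441206402 94853834 0) 192 224 64 128 384 448) = true := by decide +kernel
  have c1 : (go 16 Gd mult S169_198_512_660 (Tr.lf 13978077314 99052616 0) 224 256 64 128 448 480) = true := by decide +kernel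
  have c2 : (go 16 Gd mult S169_198_512_660 (Tr.lf 13449595010 90671945 0) 224 256 64 128 480 512) = true := by decide +kernel
  have c3 : (go 16 Gd mult S169_198_660_808 (Tr.lf 9682847876 95132743 9813667847213481459712) 128 256 64 128 480 512) = true := by decide +kernel
  have c4 : (band (go 16 Gd mult S169_198_512_660 (Tr.lf 13440944258 94858057 0) 192 224 64 128 448 480)
  (band (go 16 Gd mult S169_198_512_660 (Tr.lf 13977815106 103115848 0) 192 224 64 96 480 512)
  (go 16 Gd mult S169_198_512_660 (Tr.lf 13440943172 94989384 0) 128 192 96 128 448 480))) = true := by decide +kernel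
  have c5 : (go 16 Gd mult S169_198_512_660 (Tr.lf 13978077250 99056457 0) 224 256 96 128 384 448) = true := by decide +kernel
  have c6 : (go 16 Gd mult S169_198_660_808 (Tr.lf 9145975940 103390279 0) 128 256 64 128 448 480) = true := by decide +kernel
  have c7 : (band (go 16 Gd mult S169_198_512_660 (Tr.lf 13440927812 90664008 0) 128 192 96 128 480 512)
  (band (go 16 Gd mult S169_198_512_660 (Tr.lf 13440927810 94726985 0) 192 224 96 128 480 512)
  (go 16 Gd mult S169_198_512_660 (Tr.lf 9145959490 99450055 0) 128 192 96 128 384 448))) = true := by decide +kernel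
  have c8 : (band (go 16 Gd mult S140_169_660_808 (Tr.lf 9145960516 103390279 0) 128 256 96 128 384 448)
  (band (go 16 Gd mult S169_198_660_808 (Tr.lf 9145960516 99450055 0) 128 256 96 128 384 448)
  (band (go 16 Gd mult S140_169_660_808 (Tr.lf 9145960516 99322951 0) 128 256 64 96 448 512)
  (go 16 Gd mult S169_198_660_808 (Tr.lf 9136522276 95115976 0) 128 256 64 96 384 448)))) = true := by decide +kernel
  have c9 : (go 16 Gd mult S140_169_660_808 (Tr.lf 9145960516 99322951 0) 128 256 96 128 448 512) = true := by decide +kernel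
  have c10 : (go 16 Gd mult S140_169_660_808 (Tr.lf 9137439812 94985160 0) 128 256 64 96 384 448) = true := by decide +kernel
  have c11 : (go 16 Gd mult S169_198_512_660 (Tr.lf 9145828417 99187911 0) 224 256 64 96 384 448) = true := by decide +kernel
  (And.intro (Ok.s2 448 (Ok.lf S169_198_512_660_ok (br (br c7)))
  (Ok.s2 480 (Ok.lf S169_198_512_660_ok (br (br c4)))
  (Ok.lf S169_198_512_660_ok (bl c7))))
  (And.intro (Ok.s0 224 (Ok.s2 448 (Ok.lf S169_198_512_660_ok c0)
  (Ok.s2 480 (Ok.lf S169_198_512_660_ok (bl c4))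
  (Ok.s1 96 (Ok.lf S169_198_512_660_ok (bl (br c4)))
  (Ok.lf S169_198_512_660_ok (bl (br c7))))))
  (Ok.s2 448 (Ok.s1 96 (Ok.lf S169_198_512_660_ok c11)
  (Ok.lf S169_198_512_660_ok c5))
  (Ok.s2 480 (Ok.lf S169_198_512_660_ok c1)
  (Ok.lf S169_198_512_660_ok c2))))
  (Ok.s3 169 (Ok.s2 448 (Ok.s1 96 (Ok.lf S140_169_660_808_ok c10)
  (Ok.lf S140_169_660_808_ok (bl c8)))
  (Ok.s1 96 (Ok.lf S140_169_660_808_ok (bl (br (br c8))))
  (Ok.lf S140_169_660_808_ok c9)))
  (Ok.s2 448 (Ok.s1 96 (Ok.lf S169_198_660_808_ok (br (br (br c8))))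
  (Ok.lf S169_198_660_808_ok (bl (br c8))))
  (Ok.s2 480 (Ok.lf S169_198_660_808_ok c6)
  (Ok.lf S169_198_660_808_ok c3))))))

end Vale.Agent.P098.Ck
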