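import Vale.Agent.P098.CkGd
import Vale.Agent.P098.CkOk
import Vale.Agent.P098.Sh.A23
import Vale.Agent.P098.Sh.A25
import Vale.Agent.P098.Sh.A30
import Vale.Agent.P098.Sh.A31
import Vale.Agent.P098.Sh.A34
import Vale.Agent.P098.Sh.A39

namespace Vale.Agent.P098.Ck

theorem r226 :
    Ok Gd mult 128 256 64 128 496 512 198 212 216 364 ∧
    Ok Gd mult 128 256 64 128 496 512 212 227 216 364 ∧
    Ok Gd mult 128 256 64 128 384 512 227 256 216 364 ∧
    Ok Gd mult 128 256 64 80 384 512 198 227 364 401 :=
  have c0 : (band (go 16 Gd mult S212_227_216_364 (Tr.lf 13986464840 107453384 6151014570199233240905023488) 128 256 96 128 496 512)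
  (go 16 Gd mult S198_212_216_290 (Tr.lf 13986186312 99187784 6109911092332335848965013504) 128 256 96 128 496 512)) = true := by decide +kernel
  have c1 : (go 16 Gd mult S227_241_216_364 (Tr.lf 4303898756 107842628 31211890973459590676527) 128 256 64 128 480 512) = true := by decide +kernel
  have c2 : (go 16 Gd mult S241_256_216_364 (Tr.lf 9211226244 99580615 65504388206202179289542) 128 256 64 128 448 512) = true := by decide +kernel
  have c3 : (band (go 16 Gd mult S198_227_364_401 (Tr.lf 9144797256 103644230 13558365057152708509696) 128 192 64 80 480 512)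
  (go 16 Gd mult S198_227_364_401 (Tr.lf 9144797252 107715526 0) 192 256 64 80 480 512)) = true := by decide +kernel
  have c4 : (go 16 Gd mult S198_212_216_364 (Tr.lf 9145174084 99326918 0) 192 256 64 96 496 512) = true := by decide +kernel
  have c5 : (band (go 16 Gd mult S212_227_290_364 (Tr.lf 13986187336 107580360 11234067140889116934144) 128 256 64 96 496 512)
  (go 16 Gd mult S212_227_216_290 (Tr.lf 13449315400 94997448 3744689046963038978048) 128 256 64 96 496 512)) = true := by decide +kernel
  have c6 : (band (go 16 Gd mult S198_212_216_290 (Tr.lf 13987235908 103386312 17856448263350845964317) 128 192 64 96 496 512)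
  (band (go 16 Gd mult S198_212_290_364 (Tr.lf 9145960516 99585222 10699111564495296659456) 128 192 64 96 496 512)
  (go 16 Gd mult S198_212_290_364 (Tr.lf 9144910920 99449926 6053091578810448277753823232) 128 256 96 128 496 512))) = true := by decide +kernel
  have c7 : (band (go 16 Gd mult S227_241_216_364 (Tr.lf 9144902788 107576263 0) 128 256 64 128 448 480)
  (band (go 16 Gd mult S227_241_216_364 (Tr.lf 8608031812 95120200 0) 128 256 64 128 384 448)
  (go 16 Gd mult S241_256_216_364 (Tr.lf 4303492162 99576646 0) 128 256 64 128 384 448))) = true := by decide +kernel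
  have c8 : (go 16 Gd mult S198_227_364_401 (Tr.lf 13449135138 94866249 0) 192 256 64 80 448 480) = true := by decide +kernel
  have c9 : (go 16 Gd mult S198_227_364_401 (Tr.lf 9144705553 94993351 0) 128 192 64 80 448 480) = true := by decide +kernel
  have c10 : (band (go 16 Gd mult S198_227_364_401 (Tr.lf 4304474641 99449798 0) 192 256 64 80 384 448)
  (go 16 Gd mult S198_227_364_401 (Tr.lf 9507089 104045764 0) 128 192 64 80 384 448)) = true := by decide +kernel
  (And.intro (Ok.s1 96 (Ok.s0 192 (Ok.s4 290 (Ok.lf S198_212_216_290_ok (bl c6))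
  (Ok.lf S198_212_290_364_ok (bl (br c6))))
  (Ok.lf S198_212_216_364_ok c4))
  (Ok.s4 290 (Ok.lf S198_212_216_290_ok (br c0))
  (Ok.lf S198_212_290_364_ok (br (br c6)))))
  (And.intro (Ok.s1 96 (Ok.s4 290 (Ok.lf S212_227_216_290_ok (br c5))
  (Ok.lf S212_227_290_364_ok (bl c5)))
  (Ok.lf S212_227_216_364_ok (bl c0)))
  (And.intro (Ok.s3 241 (Ok.s2 448 (Ok.lf S227_241_216_364_ok (bl (br c7)))
  (Ok.s2 480 (Ok.lf S227_241_216_364_ok (bl c7))
  (Ok.lf S227_241_216_364_ok c1)))
  (Ok.s2 448 (Ok.lf S241_256_216_364_ok (br (br c7)))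
  (Ok.lf S241_256_216_364_ok c2)))
  (Ok.s0 192 (Ok.s2 448 (Ok.lf S198_227_364_401_ok (br c10))
  (Ok.s2 480 (Ok.lf S198_227_364_401_ok c9)
  (Ok.lf S198_227_364_401_ok (bl c3))))
  (Ok.s2 448 (Ok.lf S198_227_364_401_ok (bl c10))
  (Ok.s2 480 (Ok.lf S198_227_364_401_ok c8)
  (Ok.lf S198_227_364_401_ok (br c3))))))))

end Vale.Agent.P098.Ck
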