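import Vale.Agent.P098.CkGd
import Vale.Agent.P098.CkOk
import Vale.Agent.P098.Sh.A23
import Vale.Agent.P098.Sh.A24
import Vale.Agent.P098.Sh.A25
import Vale.Agent.P098.Sh.A26
import Vale.Agent.P098.Sh.A31

namespace Vale.Agent.P098.Ck

theorem r227 :
    Ok Gd mult 128 192 80 96 384 512 198 227 364 401 ∧
    Ok Gd mult 192 256 80 96 384 512 198 227 364 401 ∧
    Ok Gd mult 128 256 64 96 384 512 198 227 401 438 :=
  have c0 : (band (go 16 Gd mult S198_227_401_438 (Tr.lf 13987121224 99061064 15882654810238248550400) 128 192 64 80 480 512)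
  (band (go 16 Gd mult S198_227_401_438 (Tr.lf 13986072612 99191625 0) 192 256 80 96 448 480)
  (go 16 Gd mult S198_227_364_401 (Tr.lf 13986072612 99191625 0) 192 256 80 96 448 480))) = true := by decide +kernel
  have c1 : (band (go 16 Gd mult S198_227_364_401 (Tr.lf 13986072644 107453384 0) 192 256 80 96 480 512)
  (band (go 16 Gd mult S198_227_401_438 (Tr.lf 13986072612 103390152 0) 192 256 80 96 480 512)
  (go 16 Gd mult S198_227_401_438 (Tr.lf 9144797220 103652294 0) 192 256 64 80 480 512))) = true := by decide +kernel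
  have c2 : (band (go 16 Gd mult S198_212_401_438 (Tr.lf 9144780868 103652294 8928224132006135463965) 128 192 80 96 480 512)
  (band (go 16 Gd mult S212_227_401_438 (Tr.lf 9144780868 99589062 23704066134918637289472) 128 192 80 96 480 512)
  (band (go 16 Gd mult S198_212_364_401 (Tr.lf 13986056228 103390152 6603934378388019478528) 128 192 80 96 480 512)
  (go 16 Gd mult S212_227_364_401 (Tr.lf 13986056228 107584456 16417602225601500938240) 128 192 80 96 480 512)))) = true := by decide +kernel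
  have c3 : (go 16 Gd mult S198_227_401_438 (Tr.lf 13440746530 86600521 0) 192 256 64 80 448 480) = true := by decide +kernel
  have c4 : (band (go 16 Gd mult S198_227_364_401 (Tr.lf 9145762850 103390279 0) 128 192 80 96 448 480)
  (band (go 16 Gd mult S198_227_401_438 (Tr.lf 9145762850 103390279 0) 128 192 80 96 448 480)
  (go 16 Gd mult S198_227_401_438 (Tr.lf 9144713745 99187655 0) 128 192 64 80 448 480))) = true := by decide +kernel
  have c5 : (band (go 16 Gd mult S198_227_364_401 (Tr.lf 4304478737 99453894 0) 128 192 80 96 384 448)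
  (band (go 16 Gd mult S198_227_401_438 (Tr.lf 4304474641 99322822 0) 128 192 80 96 384 448)
  (band (go 16 Gd mult S198_227_364_401 (Tr.lf 4304478737 95259590 0) 192 256 80 96 384 448)
  (band (go 16 Gd mult S198_227_401_438 (Tr.lf 4304478737 103775429 0) 192 256 80 96 384 448)
  (band (go 16 Gd mult S198_227_401_438 (Tr.lf 4304474641 99449798 0) 192 256 64 80 384 448)
  (go 16 Gd mult S198_227_401_438 (Tr.lf 9507089 104045764 0) 128 192 64 80 384 448)))))) = true := by decide +kernel
  (And.intro (Ok.s2 448 (Ok.lf S198_227_364_401_ok (bl c5))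
  (Ok.s2 480 (Ok.lf S198_227_364_401_ok (bl c4))
  (Ok.s3 212 (Ok.lf S198_212_364_401_ok (bl (br (br c2))))
  (Ok.lf S212_227_364_401_ok (br (br (br c2)))))))
  (And.intro (Ok.s2 448 (Ok.lf S198_227_364_401_ok (bl (br (br c5))))
  (Ok.s2 480 (Ok.lf S198_227_364_401_ok (br (br c0)))
  (Ok.lf S198_227_364_401_ok (bl c1))))
  (Ok.s1 80 (Ok.s0 192 (Ok.s2 448 (Ok.lf S198_227_401_438_ok (br (br (br (br (br c5))))))
  (Ok.s2 480 (Ok.lf S198_227_401_438_ok (br (br c4)))
  (Ok.lf S198_227_401_438_ok (bl c0))))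
  (Ok.s2 448 (Ok.lf S198_227_401_438_ok (bl (br (br (br (br c5))))))
  (Ok.s2 480 (Ok.lf S198_227_401_438_ok c3)
  (Ok.lf S198_227_401_438_ok (br (br c1))))))
  (Ok.s0 192 (Ok.s2 448 (Ok.lf S198_227_401_438_ok (bl (br c5)))
  (Ok.s2 480 (Ok.lf S198_227_401_438_ok (bl (br c4)))
  (Ok.s3 212 (Ok.lf S198_212_401_438_ok (bl c2))
  (Ok.lf S212_227_401_438_ok (bl (br c2))))))
  (Ok.s2 448 (Ok.lf S198_227_401_438_ok (bl (br (br (br c5)))))
  (Ok.s2 480 (Ok.lf S198_227_401_438_ok (bl (br c0)))
  (Ok.lf S198_227_401_438_ok (bl (br c1)))))))))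

end Vale.Agent.P098.Ck
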