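import Vale.Agent.P098.CkGd
import Vale.Agent.P098.CkOk
import Vale.Agent.P098.Sh.A24
import Vale.Agent.P098.Sh.A26
import Vale.Agent.P098.Sh.A32

namespace Vale.Agent.P098.Ck

theorem r228 :
    Ok Gd mult 128 192 64 80 384 512 198 227 438 475 ∧
    Ok Gd mult 192 256 64 80 384 512 198 227 438 475 ∧
    Ok Gd mult 128 256 80 96 384 512 198 227 438 475 ∧
    Ok Gd mult 128 192 64 80 384 512 198 227 475 512 :=
  have c0 : (band (go 16 Gd mult S198_227_475_512 (Tr.lf 9144928328 103517254 24257476619702384984111) 128 192 64 80 480 512)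
  (go 16 Gd mult S198_227_438_475 (Tr.lf 13986072644 103255112 19073941534990000979968) 128 192 64 80 480 512)) = true := by decide +kernel
  have c1 : (band (go 16 Gd mult S212_227_438_475 (Tr.lf 9143748676 103525062 56022761752186620739613) 128 160 80 96 480 512)
  (go 16 Gd mult S198_212_438_475 (Tr.lf 13986056226 107584456 22486581025851943419904) 128 160 80 96 480 512)) = true := by decide +kernel
  have c2 : (band (go 16 Gd mult S198_227_438_475 (Tr.lf 9144797220 103652294 0) 192 256 64 80 480 512)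
  (band (go 16 Gd mult S198_227_438_475 (Tr.lf 13986072612 107584456 0) 192 256 80 96 480 512)
  (band (go 16 Gd mult S198_227_438_475 (Tr.lf 9143748642 107846342 6050545285500638330909) 160 192 80 96 480 512)
  (go 16 Gd mult S198_227_438_475 (Tr.lf 13986071588 99191625 0) 192 256 80 96 448 480)))) = true := by decide +kernel
  have c3 : (go 16 Gd mult S198_227_438_475 (Tr.lf 9145779234 99454023 0) 192 256 64 80 448 480) = true := by decide +kernel
  have c4 : (go 16 Gd mult S198_227_438_475 (Tr.lf 9145762833 103390279 0) 160 192 80 96 448 480) = true := by decide +kernel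
  have c5 : (band (go 16 Gd mult S198_227_438_475 (Tr.lf 9144705554 99187655 0) 128 192 64 80 448 480)
  (band (go 16 Gd mult S198_227_475_512 (Tr.lf 9144705553 99187655 0) 128 192 64 80 448 480)
  (band (go 16 Gd mult S198_227_438_475 (Tr.lf 4304478737 99581125 0) 192 256 80 96 384 448)
  (go 16 Gd mult S198_227_438_475 (Tr.lf 9144705553 103390023 0) 128 160 80 96 448 480)))) = true := by decide +kernel
  have c6 : (band (go 16 Gd mult S198_227_438_475 (Tr.lf 4304474641 99449798 0) 192 256 64 80 384 448)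
  (band (go 16 Gd mult S198_227_438_475 (Tr.lf 4304474641 99581125 0) 160 192 80 96 384 448)
  (band (go 16 Gd mult S198_227_438_475 (Tr.lf 9507089 104045764 0) 128 192 64 80 384 448)
  (band (go 16 Gd mult S198_227_475_512 (Tr.lf 9507089 104045764 0) 128 192 64 80 384 448)
  (go 16 Gd mult S198_227_438_475 (Tr.lf 4304474385 99580870 0) 128 160 80 96 384 448))))) = true := by decide +kernel
  (And.intro (Ok.s2 448 (Ok.lf S198_227_438_475_ok (bl (br (br c6))))
  (Ok.s2 480 (Ok.lf S198_227_438_475_ok (bl c5))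
  (Ok.lf S198_227_438_475_ok (br c0))))
  (And.intro (Ok.s2 448 (Ok.lf S198_227_438_475_ok (bl c6))
  (Ok.s2 480 (Ok.lf S198_227_438_475_ok c3)
  (Ok.lf S198_227_438_475_ok (bl c2))))
  (And.intro (Ok.s0 192 (Ok.s0 160 (Ok.s2 448 (Ok.lf S198_227_438_475_ok (br (br (br (br c6)))))
  (Ok.s2 480 (Ok.lf S198_227_438_475_ok (br (br (br c5))))
  (Ok.s3 212 (Ok.lf S198_212_438_475_ok (br c1))
  (Ok.lf S212_227_438_475_ok (bl c1)))))
  (Ok.s2 448 (Ok.lf S198_227_438_475_ok (bl (br c6)))
  (Ok.s2 480 (Ok.lf S198_227_438_475_ok c4)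
  (Ok.lf S198_227_438_475_ok (bl (br (br c2)))))))
  (Ok.s2 448 (Ok.lf S198_227_438_475_ok (bl (br (br c5))))
  (Ok.s2 480 (Ok.lf S198_227_438_475_ok (br (br (br c2))))
  (Ok.lf S198_227_438_475_ok (bl (br c2))))))
  (Ok.s2 448 (Ok.lf S198_227_475_512_ok (bl (br (br (br c6)))))
  (Ok.s2 480 (Ok.lf S198_227_475_512_ok (bl (br c5)))
  (Ok.lf S198_227_475_512_ok (bl c0)))))))

end Vale.Agent.P098.Ck
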