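import Vale.Agent.P098.CkGd
import Vale.Agent.P098.CkOk
import Vale.Agent.P098.Sh.A48
import Vale.Agent.P098.Sh.A49
import Vale.Agent.P098.Sh.A51

namespace Vale.Agent.P098.Ck

theorem r23 :
    Ok Gd mult 0 128 0 64 480 496 314 372 364 512 ∧
    Ok Gd mult 0 128 0 64 496 512 314 372 364 512 ∧
    Ok Gd mult 0 128 0 32 384 512 314 343 512 660 :=
  have c0 : (band (go 16 Gd mult S314_343_364_512 (Tr.lf 4841833604 103644102 0) 0 128 0 16 480 496)
  (go 16 Gd mult S314_343_364_512 (Tr.lf 4841833028 103652421 0) 0 128 16 32 480 496)) = true := by decide +kernel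
  have c1 : (band (go 16 Gd mult S314_343_512_586 (Tr.lf 4841572482 99445830 0) 0 32 0 32 448 512)
  (go 16 Gd mult S314_343_586_660 (Tr.lf 4849830017 103390023 0) 0 32 0 32 448 512)) = true := by decide +kernel
  have c2 : (band (go 16 Gd mult S314_343_512_660 (Tr.lf 4851009666 99454278 0) 64 128 0 32 448 512)
  (go 16 Gd mult S314_343_512_660 (Tr.lf 4851009665 103648582 0) 32 64 0 32 448 512)) = true := by decide +kernel
  have c3 : (go 16 Gd mult S343_372_364_512 (Tr.lf 4841571460 103648070 0) 0 128 0 32 480 496) = true := by decide +kernel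
  have c4 : (band (go 16 Gd mult S314_343_364_512 (Tr.lf 4840522372 107838150 0) 0 128 0 32 496 504)
  (band (go 16 Gd mult S343_372_364_512 (Tr.lf 5387862404 99326919 0) 0 128 0 32 496 504)
  (band (go 16 Gd mult S314_343_364_512 (Tr.lf 4849959556 99331014 0) 0 128 0 32 504 512)
  (band (go 16 Gd mult S343_372_364_512 (Tr.lf 4850991492 99454150 0) 0 128 0 32 504 512)
  (go 16 Gd mult S343_372_364_512 (Tr.lf 4842603074 107707590 0) 0 128 32 64 480 496))))) = true := by decide +kernel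
  have c5 : (go 16 Gd mult S314_343_512_660 (Tr.lf 4849943617 107846598 0) 64 128 0 32 384 448) = true := by decide +kernel
  have c6 : (band (go 16 Gd mult S314_343_364_512 (Tr.lf 4849943106 107977670 0) 0 128 32 64 480 496)
  (band (go 16 Gd mult S314_343_364_512 (Tr.lf 4849942850 107846598 0) 0 128 32 64 504 512)
  (band (go 16 Gd mult S343_372_364_512 (Tr.lf 4842602818 99577030 0) 0 128 32 64 504 512)
  (band (go 16 Gd mult S314_343_364_512 (Tr.lf 4849942850 103783366 0) 0 128 32 64 496 504)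
  (go 16 Gd mult S343_372_364_512 (Tr.lf 4842602818 103771334 0) 0 128 32 64 496 504))))) = true := by decide +kernel
  have c7 : (band (go 16 Gd mult S314_343_512_660 (Tr.lf 4841423937 107838406 0) 0 32 0 32 384 448)
  (go 16 Gd mult S314_343_512_660 (Tr.lf 4849812545 103652294 0) 32 64 0 32 384 448)) = true := by decide +kernel
  (And.intro (Ok.s1 32 (Ok.s3 343 (Ok.s1 16 (Ok.lf S314_343_364_512_ok (bl c0))
  (Ok.lf S314_343_364_512_ok (br c0)))
  (Ok.lf S343_372_364_512_ok c3))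
  (Ok.s3 343 (Ok.lf S314_343_364_512_ok (bl c6))
  (Ok.lf S343_372_364_512_ok (br (br (br (br c4)))))))
  (And.intro (Ok.s2 504 (Ok.s1 32 (Ok.s3 343 (Ok.lf S314_343_364_512_ok (bl c4))
  (Ok.lf S343_372_364_512_ok (bl (br c4))))
  (Ok.s3 343 (Ok.lf S314_343_364_512_ok (bl (br (br (br c6)))))
  (Ok.lf S343_372_364_512_ok (br (br (br (br c6)))))))
  (Ok.s1 32 (Ok.s3 343 (Ok.lf S314_343_364_512_ok (bl (br (br c4))))
  (Ok.lf S343_372_364_512_ok (bl (br (br (br c4))))))
  (Ok.s3 343 (Ok.lf S314_343_364_512_ok (bl (br c6)))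
  (Ok.lf S343_372_364_512_ok (bl (br (br c6)))))))
  (Ok.s0 64 (Ok.s0 32 (Ok.s2 448 (Ok.lf S314_343_512_660_ok (bl c7))
  (Ok.s4 586 (Ok.lf S314_343_512_586_ok (bl c1))
  (Ok.lf S314_343_586_660_ok (br c1))))
  (Ok.s2 448 (Ok.lf S314_343_512_660_ok (br c7))
  (Ok.lf S314_343_512_660_ok (br c2))))
  (Ok.s2 448 (Ok.lf S314_343_512_660_ok c5)
  (Ok.lf S314_343_512_660_ok (bl c2))))))

end Vale.Agent.P098.Ck
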