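import Vale.Agent.P098.CkGd
import Vale.Agent.P098.CkOk
import Vale.Agent.P098.Sh.A23
import Vale.Agent.P098.Sh.A24
import Vale.Agent.P098.Sh.A26
import Vale.Agent.P098.Sh.A31
import Vale.Agent.P098.Sh.A32
import Vale.Agent.P098.Sh.A35
import Vale.Agent.P098.Sh.A37
import Vale.Agent.P098.Sh.A39

namespace Vale.Agent.P098.Ck

theorem r230 :
    Ok Gd mult 160 192 96 128 496 512 198 227 438 512 ∧
    Ok Gd mult 192 256 96 128 384 512 198 227 364 512 ∧
    Ok Gd mult 128 256 64 128 384 448 227 256 364 512 ∧
    Ok Gd mult 128 256 64 128 448 480 227 256 364 512 ∧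
    Ok Gd mult 128 192 64 128 480 512 227 256 364 512 :=
  have c0 : (go 16 Gd mult S212_227_364_512 (Tr.lf 13449595010 94997576 0) 224 256 96 128 448 512) = true := by decide +kernel
  have c1 : (band (go 16 Gd mult S198_212_364_512 (Tr.lf 13986449538 103390152 0) 192 224 96 128 480 512)
  (band (go 16 Gd mult S212_227_364_512 (Tr.lf 13986449474 107584456 0) 192 224 96 128 480 512)
  (go 16 Gd mult S198_212_364_512 (Tr.lf 13986449474 107449416 0) 192 224 96 128 448 480))) = true := by decide +kernel
  have c2 : (go 16 Gd mult S198_227_364_512 (Tr.lf 13986464898 103250889 0) 224 256 96 128 416 448) = true := by decide +kernel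
  have c3 : (band (go 16 Gd mult S198_212_364_512 (Tr.lf 13986449538 103382088 0) 224 256 96 128 480 512)
  (go 16 Gd mult S198_212_364_512 (Tr.lf 13986449474 103513160 0) 224 256 96 128 448 480)) = true := by decide +kernel
  have c4 : (go 16 Gd mult S227_256_364_512 (Tr.lf 13440156292 94989128 55137318036442403831837) 128 192 64 128 488 496) = true := by decide +kernel
  have c5 : (go 16 Gd mult S227_256_364_512 (Tr.lf 9144927364 99449799 0) 128 256 64 128 448 480) = true := by decide +kernel
  have c6 : (go 16 Gd mult S227_241_364_512 (Tr.lf 14043071556 103774919 5922704586801455771896774685) 128 192 96 128 496 512) = true := by decide +kernel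
  have c7 : (band (go 16 Gd mult S212_227_438_512 (Tr.lf 9144910978 99716293 29441003541640444379136) 160 192 96 128 496 512)
  (go 16 Gd mult S198_212_438_512 (Tr.lf 9144910914 99457990 0) 160 192 96 128 496 512)) = true := by decide +kernel
  have c8 : (go 16 Gd mult S212_227_364_512 (Tr.lf 13986448450 103386184 0) 192 224 96 128 448 480) = true := by decide +kernel
  have c9 : (band (go 16 Gd mult S227_256_364_512 (Tr.lf 4312024132 103779142 0) 128 256 64 128 384 448)
  (go 16 Gd mult S227_256_364_512 (Tr.lf 9144910212 99326791 0) 128 192 64 128 480 488)) = true := by decide +kernel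
  have c10 : (go 16 Gd mult S227_241_364_512 (Tr.lf 8606991428 95394502 147555505845602703376384) 128 192 64 96 496 512) = true := by decide +kernel
  have c11 : (band (go 16 Gd mult S198_212_364_512 (Tr.lf 13440919618 94985161 0) 192 224 96 128 384 448)
  (go 16 Gd mult S212_227_364_512 (Tr.lf 9144902689 107580359 0) 192 224 96 128 384 448)) = true := by decide +kernel
  have c12 : (go 16 Gd mult S241_256_364_512 (Tr.lf 9143853698 107711302 6353197618308676830602723328) 128 192 64 128 496 512) = true := by decide +kernel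
  have c13 : (go 16 Gd mult S198_227_364_512 (Tr.lf 9144779297 103644103 0) 224 256 96 128 384 416) = true := by decide +kernel
  (And.intro (Ok.s3 212 (Ok.lf S198_212_438_512_ok (br c7))
  (Ok.lf S212_227_438_512_ok (bl c7)))
  (And.intro (Ok.s0 224 (Ok.s3 212 (Ok.s2 448 (Ok.lf S198_212_364_512_ok (bl c11))
  (Ok.s2 480 (Ok.lf S198_212_364_512_ok (br (br c1)))
  (Ok.lf S198_212_364_512_ok (bl c1))))
  (Ok.s2 448 (Ok.lf S212_227_364_512_ok (br c11))
  (Ok.s2 480 (Ok.lf S212_227_364_512_ok c8)
  (Ok.lf S212_227_364_512_ok (bl (br c1))))))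
  (Ok.s2 448 (Ok.s2 416 (Ok.lf S198_227_364_512_ok c13)
  (Ok.lf S198_227_364_512_ok c2))
  (Ok.s3 212 (Ok.s2 480 (Ok.lf S198_212_364_512_ok (br c3))
  (Ok.lf S198_212_364_512_ok (bl c3)))
  (Ok.lf S212_227_364_512_ok c0))))
  (And.intro (Ok.lf S227_256_364_512_ok (bl c9))
  (And.intro (Ok.lf S227_256_364_512_ok c5)
  (Ok.s2 496 (Ok.s2 488 (Ok.lf S227_256_364_512_ok (br c9))
  (Ok.lf S227_256_364_512_ok c4))
  (Ok.s3 241 (Ok.s1 96 (Ok.lf S227_241_364_512_ok c10)
  (Ok.lf S227_241_364_512_ok c6))
  (Ok.lf S241_256_364_512_ok c12)))))))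

end Vale.Agent.P098.Ck
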