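import Vale.Agent.P098.CkGd
import Vale.Agent.P098.CkOk
import Vale.Agent.P098.Sh.A24
import Vale.Agent.P098.Sh.A27
import Vale.Agent.P098.Sh.A32
import Vale.Agent.P098.Sh.A37

namespace Vale.Agent.P098.Ck

theorem r231 :
    Ok Gd mult 192 256 64 128 480 512 227 256 364 512 ∧
    Ok Gd mult 128 256 64 128 384 448 198 256 512 660 ∧
    Ok Gd mult 128 256 64 128 448 480 198 256 512 660 ∧
    Ok Gd mult 128 256 64 128 480 496 198 256 512 660 ∧
    Ok Gd mult 128 256 64 96 496 504 198 256 512 660 ∧
    Ok Gd mult 128 192 96 112 496 504 198 227 512 660 :=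
  have c0 : (band (go 16 Gd mult S198_212_512_660 (Tr.lf 9146221704 99318983 0) 128 256 64 128 448 480)
  (band (go 16 Gd mult S227_256_512_660 (Tr.lf 9143861892 99191495 0) 128 256 64 128 448 480)
  (go 16 Gd mult S227_256_512_660 (Tr.lf 9144910466 103513031 0) 192 256 64 128 480 496))) = true := by decide +kernel
  have c1 : (band (go 16 Gd mult S227_256_512_660 (Tr.lf 13440156804 86596297 55469367592955819130927) 128 192 64 128 480 496)
  (go 16 Gd mult S227_256_512_660 (Tr.lf 9145188932 103513031 0) 128 256 64 96 496 504)) = true := by decide +kernel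
  have c2 : (go 16 Gd mult S227_256_364_512 (Tr.lf 4303914114 103910213 12672913179304181891149) 192 256 64 128 480 512) = true := by decide +kernel
  have c3 : (go 16 Gd mult S212_227_512_660 (Tr.lf 9144910984 103513031 0) 128 256 64 128 448 480) = true := by decide +kernel
  have c4 : (go 16 Gd mult S198_227_512_660 (Tr.lf 13449593924 94739528 0) 128 256 64 96 480 496) = true := by decide +kernel
  have c5 : (band (go 16 Gd mult S198_212_512_660 (Tr.lf 13977011272 107449032 15882659877195851235328) 128 256 96 128 480 496)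
  (band (go 16 Gd mult S212_227_512_660 (Tr.lf 13985399880 103393992 43884812353926516768797) 128 256 96 128 480 496)
  (go 16 Gd mult S198_212_512_660 (Tr.lf 9145172516 99589062 39586712784053303508992) 128 192 96 112 496 504))) = true := by decide +kernel
  have c6 : (band (go 16 Gd mult S198_212_512_660 (Tr.lf 13440919624 94727113 0) 128 256 96 128 384 448)
  (go 16 Gd mult S212_227_512_660 (Tr.lf 9144902692 99322823 0) 128 256 96 128 384 448)) = true := by decide +kernel
  have c7 : (band (go 16 Gd mult S198_227_512_586 (Tr.lf 13976765000 103254728 0) 128 256 64 96 496 504)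
  (go 16 Gd mult S198_227_586_660 (Tr.lf 13976633924 99183432 0) 128 256 64 96 496 504)) = true := by decide +kernel
  have c8 : (go 16 Gd mult S212_227_512_660 (Tr.lf 18281415748 99056585 77974395362469155242013) 128 192 96 112 496 504) = true := by decide +kernel
  have c9 : (go 16 Gd mult S227_256_512_660 (Tr.lf 4303627330 103647942 0) 128 256 64 128 384 448) = true := by decide +kernel
  have c10 : (go 16 Gd mult S198_227_512_660 (Tr.lf 4304552994 95259590 0) 128 256 64 96 384 448) = true := by decide +kernel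
  (And.intro (Ok.lf S227_256_364_512_ok c2)
  (And.intro (Ok.s3 227 (Ok.s1 96 (Ok.lf S198_227_512_660_ok c10)
  (Ok.s3 212 (Ok.lf S198_212_512_660_ok (bl c6))
  (Ok.lf S212_227_512_660_ok (br c6))))
  (Ok.lf S227_256_512_660_ok c9))
  (And.intro (Ok.s3 227 (Ok.s3 212 (Ok.lf S198_212_512_660_ok (bl c0))
  (Ok.lf S212_227_512_660_ok c3))
  (Ok.lf S227_256_512_660_ok (bl (br c0))))
  (And.intro (Ok.s3 227 (Ok.s1 96 (Ok.lf S198_227_512_660_ok c4)
  (Ok.s3 212 (Ok.lf S198_212_512_660_ok (bl c5))
  (Ok.lf S212_227_512_660_ok (bl (br c5)))))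
  (Ok.s0 192 (Ok.lf S227_256_512_660_ok (bl c1))
  (Ok.lf S227_256_512_660_ok (br (br c0)))))
  (And.intro (Ok.s3 227 (Ok.s4 586 (Ok.lf S198_227_512_586_ok (bl c7))
  (Ok.lf S198_227_586_660_ok (br c7)))
  (Ok.lf S227_256_512_660_ok (br c1)))
  (Ok.s3 212 (Ok.lf S198_212_512_660_ok (br (br c5)))
  (Ok.lf S212_227_512_660_ok c8)))))))

end Vale.Agent.P098.Ck
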