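import Vale.Agent.P098.CkGd
import Vale.Agent.P098.CkOk
import Vale.Agent.P098.Sh.A24
import Vale.Agent.P098.Sh.A27
import Vale.Agent.P098.Sh.A32
import Vale.Agent.P098.Sh.A35
import Vale.Agent.P098.Sh.A37
import Vale.Agent.P098.Sh.A38
import Vale.Agent.P098.Sh.A39

namespace Vale.Agent.P098.Ck

theorem r232 :
    Ok Gd mult 128 192 112 128 496 504 198 227 512 660 ∧
    Ok Gd mult 128 192 96 128 496 504 227 256 512 660 ∧
    Ok Gd mult 192 256 96 128 496 504 198 256 512 660 ∧
    Ok Gd mult 128 256 64 128 504 512 198 256 512 660 ∧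
    Ok Gd mult 128 256 64 128 384 448 198 256 660 808 ∧
    Ok Gd mult 128 256 64 128 448 480 198 256 660 808 :=
  have c0 : (band (go 16 Gd mult S198_227_512_586 (Tr.lf 13977027208 107576008 9272678394429626289643061248) 128 256 96 128 504 508)
  (go 16 Gd mult S198_227_586_660 (Tr.lf 13976764744 103254728 9420264927698760972485263360) 128 256 96 128 504 508)) = true := by decide +kernel
  have c1 : (band (go 16 Gd mult S198_227_512_586 (Tr.lf 18817253960 99064393 5104176896559380333691142173) 128 192 112 128 496 500)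
  (band (go 16 Gd mult S198_227_586_660 (Tr.lf 18280120900 94870089 4613417964781740496154263677) 128 192 112 128 496 500)
  (go 16 Gd mult S198_227_586_660 (Tr.lf 13986201892 95132616 6359200705339095982566014976) 128 192 112 128 500 504))) = true := by decide +kernel
  have c2 : (band (go 16 Gd mult S227_241_512_660 (Tr.lf 13440139912 90794824 7669862735043706990385692672) 128 256 64 128 504 512)
  (go 16 Gd mult S241_256_512_660 (Tr.lf 9143853380 99453511 7597558784738674663323860992) 128 256 64 128 504 512)) = true := by decide +kernel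
  have c3 : (go 16 Gd mult S198_227_512_586 (Tr.lf 18280120904 94730953 6652895781848692334585184303) 128 192 112 128 500 504) = true := by decide +kernel
  have c4 : (band (go 16 Gd mult S198_227_660_808 (Tr.lf 9144910980 103385800 0) 128 256 64 128 384 448)
  (band (go 16 Gd mult S227_256_660_808 (Tr.lf 4303495746 99580614 0) 128 256 64 128 384 448)
  (band (go 16 Gd mult S198_227_660_808 (Tr.lf 9136522372 103504839 0) 128 256 64 128 448 480)
  (go 16 Gd mult S227_256_660_808 (Tr.lf 4303635010 99453893 0) 128 256 64 128 448 480)))) = true := by decide +kernel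
  have c5 : (band (go 16 Gd mult S198_212_512_660 (Tr.lf 9145172296 95394758 52278072704892869279791) 128 256 64 96 504 508)
  (band (go 16 Gd mult S212_227_512_660 (Tr.lf 13986447688 103263176 96716279178459179122717) 128 256 64 96 504 508)
  (band (go 16 Gd mult S212_227_512_660 (Tr.lf 13986447688 99326920 18109937720367843846343622656) 128 256 64 96 508 512)
  (go 16 Gd mult S198_212_512_660 (Tr.lf 13977010500 103381704 18091675351501151021696024605) 128 256 64 96 508 512)))) = true := by decide +kernel
  have c6 : (band (go 16 Gd mult S227_256_512_586 (Tr.lf 13976764996 103377736 5508073025079501614840020992) 128 192 96 128 496 504)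
  (go 16 Gd mult S227_256_586_660 (Tr.lf 13985153604 99322696 5117685262777117101244022784) 128 192 96 128 496 504)) = true := by decide +kernel
  have c7 : (band (go 16 Gd mult S198_227_512_660 (Tr.lf 13439894082 95124168 0) 192 256 96 128 496 504)
  (go 16 Gd mult S227_256_512_660 (Tr.lf 9144910146 103648326 85463765293496352636928) 192 256 96 128 496 504)) = true := by decide +kernel
  have c8 : (go 16 Gd mult S198_227_512_660 (Tr.lf 9135341858 107969350 67047023515995687049937599295) 128 256 96 128 508 512) = true := by decide +kernel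
  (And.intro (Ok.s2 500 (Ok.s4 586 (Ok.lf S198_227_512_586_ok (bl c1))
  (Ok.lf S198_227_586_660_ok (bl (br c1))))
  (Ok.s4 586 (Ok.lf S198_227_512_586_ok c3)
  (Ok.lf S198_227_586_660_ok (br (br c1)))))
  (And.intro (Ok.s4 586 (Ok.lf S227_256_512_586_ok (bl c6))
  (Ok.lf S227_256_586_660_ok (br c6)))
  (And.intro (Ok.s3 227 (Ok.lf S198_227_512_660_ok (bl c7))
  (Ok.lf S227_256_512_660_ok (br c7)))
  (And.intro (Ok.s3 227 (Ok.s1 96 (Ok.s2 508 (Ok.s3 212 (Ok.lf S198_212_512_660_ok (bl c5))
  (Ok.lf S212_227_512_660_ok (bl (br c5))))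
  (Ok.s3 212 (Ok.lf S198_212_512_660_ok (br (br (br c5))))
  (Ok.lf S212_227_512_660_ok (bl (br (br c5))))))
  (Ok.s2 508 (Ok.s4 586 (Ok.lf S198_227_512_586_ok (bl c0))
  (Ok.lf S198_227_586_660_ok (br c0)))
  (Ok.lf S198_227_512_660_ok c8)))
  (Ok.s3 241 (Ok.lf S227_241_512_660_ok (bl c2))
  (Ok.lf S241_256_512_660_ok (br c2))))
  (And.intro (Ok.s3 227 (Ok.lf S198_227_660_808_ok (bl c4))
  (Ok.lf S227_256_660_808_ok (bl (br c4))))
  (Ok.s3 227 (Ok.lf S198_227_660_808_ok (bl (br (br c4))))
  (Ok.lf S227_256_660_808_ok (br (br (br c4))))))))))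

end Vale.Agent.P098.Ck
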