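import Vale.Agent.P098.CkGd
import Vale.Agent.P098.CkOk
import Vale.Agent.P098.Sh.A25
import Vale.Agent.P098.Sh.A27
import Vale.Agent.P098.Sh.A30
import Vale.Agent.P098.Sh.A33
import Vale.Agent.P098.Sh.A36
import Vale.Agent.P098.Sh.A38
import Vale.Agent.P098.Sh.A40

namespace Vale.Agent.P098.Ck

theorem r233 :
    Ok Gd mult 128 256 64 128 480 496 198 256 660 808 ∧
    Ok Gd mult 128 256 64 128 496 512 198 227 660 808 ∧
    Ok Gd mult 128 256 64 128 496 504 227 256 660 808 :=
  have c0 : (band (go 16 Gd mult S227_256_660_808 (Tr.lf 13440156744 94862152 249990275686911843500205) 128 256 96 128 480 496)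
  (go 16 Gd mult S227_256_660_808 (Tr.lf 13985415556 99322696 5050060513573821939045105896) 128 192 96 128 496 500)) = true := by decide +kernel
  have c1 : (go 16 Gd mult S219_227_660_808 (Tr.lf 18281415304 90799049 5127355783890318596583194624) 128 192 96 128 496 504) = true := by decide +kernel
  have c2 : (band (go 16 Gd mult S198_212_660_808 (Tr.lf 13986448456 95005640 127042726435637681979392) 128 256 64 96 496 512)
  (go 16 Gd mult S198_212_660_808 (Tr.lf 13978059844 99060680 5175561516480011197829087232) 128 256 96 128 496 512)) = true := by decide +kernel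
  have c3 : (go 16 Gd mult S241_256_660_808 (Tr.lf 9144123784 99318471 6872263023527207830028288000) 128 256 64 128 500 504) = true := by decide +kernel
  have c4 : (go 16 Gd mult S198_227_660_808 (Tr.lf 13440156228 99183432 76203499769696748568576) 128 192 96 128 480 496) = true := by decide +kernel
  have c5 : (band (go 16 Gd mult S212_227_660_808 (Tr.lf 13985399368 94997320 345618196965022159077376) 128 256 64 96 504 512)
  (go 16 Gd mult S212_227_660_808 (Tr.lf 9145172552 103517254 9349050349865001562994114560) 128 256 96 128 504 512)) = true := by decide +kernel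
  have c6 : (go 16 Gd mult S227_241_660_808 (Tr.lf 13977010504 99183432 5499906134969236332472172544) 128 256 96 128 500 504) = true := by decide +kernel
  have c7 : (go 16 Gd mult S212_219_660_808 (Tr.lf 13977002568 103512776 5152659201182970062244413469) 128 256 96 128 496 504) = true := by decide +kernel
  have c8 : (band (go 16 Gd mult S198_227_660_808 (Tr.lf 9144910404 99327046 0) 128 256 64 96 480 496)
  (band (go 16 Gd mult S227_256_660_808 (Tr.lf 4840505634 108100549 0) 128 256 64 96 480 496)
  (band (go 16 Gd mult S198_227_660_808 (Tr.lf 9144910370 99454022 0) 192 256 96 128 480 496)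
  (band (go 16 Gd mult S227_256_660_808 (Tr.lf 9135472930 103504583 0) 128 256 64 96 496 500)
  (go 16 Gd mult S227_256_660_808 (Tr.lf 9143861538 95132486 0) 192 256 96 128 496 500))))) = true := by decide +kernel
  have c9 : (band (go 16 Gd mult S212_219_660_808 (Tr.lf 9681772868 99326791 0) 128 256 64 96 496 504)
  (go 16 Gd mult S219_227_660_808 (Tr.lf 9144901956 103648326 0) 128 256 64 96 496 504)) = true := by decide +kernel
  have c10 : (go 16 Gd mult S227_241_660_808 (Tr.lf 9144901924 99327046 0) 128 256 64 96 500 504) = true := by decide +kernel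
  have c11 : (go 16 Gd mult S219_227_660_808 (Tr.lf 9144897826 103783366 163438152493066627317760) 192 256 96 128 496 504) = true := by decide +kernel
  (And.intro (Ok.s3 227 (Ok.s1 96 (Ok.lf S198_227_660_808_ok (bl c8))
  (Ok.s0 192 (Ok.lf S198_227_660_808_ok c4)
  (Ok.lf S198_227_660_808_ok (bl (br (br c8))))))
  (Ok.s1 96 (Ok.lf S227_256_660_808_ok (bl (br c8)))
  (Ok.lf S227_256_660_808_ok (bl c0))))
  (And.intro (Ok.s3 212 (Ok.s1 96 (Ok.lf S198_212_660_808_ok (bl c2))
  (Ok.lf S198_212_660_808_ok (br c2)))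
  (Ok.s2 504 (Ok.s3 219 (Ok.s1 96 (Ok.lf S212_219_660_808_ok (bl c9))
  (Ok.lf S212_219_660_808_ok c7))
  (Ok.s1 96 (Ok.lf S219_227_660_808_ok (br c9))
  (Ok.s0 192 (Ok.lf S219_227_660_808_ok c1)
  (Ok.lf S219_227_660_808_ok c11))))
  (Ok.s1 96 (Ok.lf S212_227_660_808_ok (bl c5))
  (Ok.lf S212_227_660_808_ok (br c5)))))
  (Ok.s2 500 (Ok.s1 96 (Ok.lf S227_256_660_808_ok (bl (br (br (br c8)))))
  (Ok.s0 192 (Ok.lf S227_256_660_808_ok (br c0))
  (Ok.lf S227_256_660_808_ok (br (br (br (br c8)))))))
  (Ok.s3 241 (Ok.s1 96 (Ok.lf S227_241_660_808_ok c10)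
  (Ok.lf S227_241_660_808_ok c6))
  (Ok.lf S241_256_660_808_ok c3)))))

end Vale.Agent.P098.Ck
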