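import Vale.Agent.P098.CkGd
import Vale.Agent.P098.CkOk
import Vale.Agent.P098.Sh.A36
import Vale.Agent.P098.Sh.A40
import Vale.Agent.P098.Sh.A41
import Vale.Agent.P098.Sh.A42
import Vale.Agent.P098.Sh.A43
import Vale.Agent.P098.Sh.A44
import Vale.Agent.P098.Sh.A45
import Vale.Agent.P098.Sh.A46

namespace Vale.Agent.P098.Ck

theorem r234 :
    Ok Gd mult 128 256 64 128 504 512 227 256 660 808 ∧
    Ok Gd mult 128 256 64 128 384 512 256 314 216 512 ∧
    Ok Gd mult 128 256 64 128 384 512 256 314 512 660 ∧
    Ok Gd mult 128 256 64 128 384 448 256 314 660 808 ∧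
    Ok Gd mult 128 256 64 128 448 480 256 314 660 808 ∧
    Ok Gd mult 128 256 64 128 480 496 256 314 660 808 :=
  have c0 : (band (go 16 Gd mult S256_285_660_808 (Tr.lf 9144140424 94997191 575925804888184791564317) 128 256 64 128 480 496)
  (band (go 16 Gd mult S285_314_660_808 (Tr.lf 9143861892 99318216 773084597385093598674944) 128 256 64 128 480 496)
  (go 16 Gd mult S285_314_512_660 (Tr.lf 4303503682 95386310 576829687184897679032349) 128 256 64 128 480 496))) = true := by decide +kernel
  have c1 : (band (go 16 Gd mult S256_285_216_364 (Tr.lf 4907878532 108235462 184153846087842453783311) 128 256 64 128 384 512)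
  (go 16 Gd mult S285_314_216_364 (Tr.lf 9717826 104041541 181626650312518569820160) 128 256 64 128 384 512)) = true := by decide +kernel
  have c2 : (band (go 16 Gd mult S256_285_364_512 (Tr.lf 9135474820 99310279 308669368585381927197212) 128 256 64 128 448 512)
  (go 16 Gd mult S285_314_364_512 (Tr.lf 4303627330 107838150 420032362558366490296367) 128 256 64 128 448 512)) = true := by decide +kernel
  have c3 : (band (go 16 Gd mult S256_314_660_808 (Tr.lf 9733252 108113092 0) 128 256 64 128 448 480)
  (band (go 16 Gd mult S256_314_512_660 (Tr.lf 4303520322 103643846 0) 128 256 64 128 448 480)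
  (band (go 16 Gd mult S256_314_512_660 (Tr.lf 9602114 108362821 0) 128 256 64 128 384 448)
  (band (go 16 Gd mult S256_314_660_808 (Tr.lf 8553026 104045508 0) 128 256 64 128 384 448)
  (go 16 Gd mult S256_314_364_512 (Tr.lf 4303504450 99580614 0) 128 256 64 128 384 448))))) = true := by decide +kernel
  have c4 : (band (go 16 Gd mult S227_241_660_808 (Tr.lf 9145172612 95390790 7533423624558547210713694208) 128 256 64 128 504 512)
  (go 16 Gd mult S241_256_660_808 (Tr.lf 9144115588 99318471 7452663742110358646319742976) 128 256 64 128 504 512)) = true := by decide +kernel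
  have c5 : (band (go 16 Gd mult S256_285_512_660 (Tr.lf 9143861828 95124167 6412901520074161848433246208) 128 256 64 128 496 512)
  (go 16 Gd mult S285_314_512_660 (Tr.lf 4840505668 103774918 6413006611175150849785593951) 128 256 64 128 496 512)) = true := by decide +kernel
  have c6 : (go 16 Gd mult S256_285_512_660 (Tr.lf 9135341860 103631559 513280653850968273720335) 128 256 96 128 480 496) = true := by decide +kernel
  have c7 : (go 16 Gd mult S256_285_512_660 (Tr.lf 4303495442 95386565 0) 128 256 64 96 480 496) = true := by decide +kernel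
  (And.intro (Ok.s3 241 (Ok.lf S227_241_660_808_ok (bl c4))
  (Ok.lf S241_256_660_808_ok (br c4)))
  (And.intro (Ok.s4 364 (Ok.s3 285 (Ok.lf S256_285_216_364_ok (bl c1))
  (Ok.lf S285_314_216_364_ok (br c1)))
  (Ok.s2 448 (Ok.lf S256_314_364_512_ok (br (br (br (br c3)))))
  (Ok.s3 285 (Ok.lf S256_285_364_512_ok (bl c2))
  (Ok.lf S285_314_364_512_ok (br c2)))))
  (And.intro (Ok.s2 448 (Ok.lf S256_314_512_660_ok (bl (br (br c3))))
  (Ok.s2 480 (Ok.lf S256_314_512_660_ok (bl (br c3)))
  (Ok.s2 496 (Ok.s3 285 (Ok.s1 96 (Ok.lf S256_285_512_660_ok c7)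
  (Ok.lf S256_285_512_660_ok c6))
  (Ok.lf S285_314_512_660_ok (br (br c0))))
  (Ok.s3 285 (Ok.lf S256_285_512_660_ok (bl c5))
  (Ok.lf S285_314_512_660_ok (br c5))))))
  (And.intro (Ok.lf S256_314_660_808_ok (bl (br (br (br c3)))))
  (And.intro (Ok.lf S256_314_660_808_ok (bl c3))
  (Ok.s3 285 (Ok.lf S256_285_660_808_ok (bl c0))
  (Ok.lf S285_314_660_808_ok (bl (br c0)))))))))

end Vale.Agent.P098.Ck
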