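import Vale.Agent.P098.CkGd
import Vale.Agent.P098.CkOk
import Vale.Agent.P098.Sh.A42
import Vale.Agent.P098.Sh.A46
import Vale.Agent.P098.Sh.A47
import Vale.Agent.P098.Sh.A48
import Vale.Agent.P098.Sh.A49
import Vale.Agent.P098.Sh.A50
import Vale.Agent.P098.Sh.A51
import Vale.Agent.P098.Sh.A52
import Vale.Agent.P098.Sh.A54
import Vale.Agent.P098.Sh.A56

namespace Vale.Agent.P098.Ck

theorem r235 :
    Ok Gd mult 128 256 64 128 496 512 256 314 660 808 ∧
    Ok Gd mult 128 256 64 128 384 512 314 372 216 808 ∧
    Ok Gd mult 128 256 64 128 384 512 372 430 216 364 :=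
  have c0 : (band (go 16 Gd mult S343_372_216_364 (Tr.lf 1161070724 99458120 125622327165970913689600) 128 256 64 128 384 512)
  (band (go 16 Gd mult S314_343_216_364 (Tr.lf 623134786 108232006 140601083346555984936960) 128 256 64 128 384 512)
  (go 16 Gd mult S314_343_364_512 (Tr.lf 9586754 112434372 153624484663131799289856) 128 256 64 128 384 512))) = true := by decide +kernel
  have c1 : (band (go 16 Gd mult S314_372_660_808 (Tr.lf 547653764 103783494 0) 128 256 64 128 384 448)
  (go 16 Gd mult S314_372_512_660 (Tr.lf 547652738 103783494 0) 128 256 64 128 384 448)) = true := by decide +kernel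
  have c2 : (band (go 16 Gd mult S372_430_216_364 (Tr.lf 5380540548 103640136 0) 128 256 64 128 384 448)
  (go 16 Gd mult S343_372_364_512 (Tr.lf 547496514 108104774 0) 128 256 64 128 384 448)) = true := by decide +kernel
  have c3 : (band (go 16 Gd mult S256_285_660_808 (Tr.lf 9144140168 94997191 6309019566266782046566219776) 128 256 64 128 496 504)
  (go 16 Gd mult S285_314_660_808 (Tr.lf 9145188740 94997192 6309116614587353832517271552) 128 256 64 128 496 504)) = true := by decide +kernel
  have c4 : (band (go 16 Gd mult S314_343_660_808 (Tr.lf 4841556100 99572806 616600867482968810061824) 128 256 64 128 448 512)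
  (band (go 16 Gd mult S343_372_660_808 (Tr.lf 547637380 99716166 333480239364521274114048) 128 256 64 128 448 512)
  (go 16 Gd mult S343_372_364_512 (Tr.lf 1161053314 99585096 270503055124171382063104) 128 256 64 128 448 512))) = true := by decide +kernel
  have c5 : (band (go 16 Gd mult S256_285_660_808 (Tr.lf 9145188740 94997192 7375616137779795613221650461) 128 256 64 128 504 512)
  (go 16 Gd mult S285_314_660_808 (Tr.lf 9145188740 94989128 7375644711786365789317103663) 128 256 64 128 504 512)) = true := by decide +kernel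
  have c6 : (band (go 16 Gd mult S372_401_216_364 (Tr.lf 548684932 107977416 211067645743890664783872) 128 256 64 128 448 512)
  (band (go 16 Gd mult S343_372_512_660 (Tr.lf 547636354 99716166 308337327192055155261440) 128 256 64 128 448 512)
  (go 16 Gd mult S314_343_512_660 (Tr.lf 546587716 103652421 446079165258407939670016) 128 256 64 128 448 512))) = true := by decide +kernel
  have c7 : (go 16 Gd mult S401_430_216_364 (Tr.lf 1085555844 95128647 351336687662433721909248) 128 256 64 128 480 512) = true := by decide +kernel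
  have c8 : (go 16 Gd mult S401_430_216_364 (Tr.lf 5380391554 99318983 0) 128 256 64 128 448 480) = true := by decide +kernel
  (And.intro (Ok.s2 504 (Ok.s3 285 (Ok.lf S256_285_660_808_ok (bl c3))
  (Ok.lf S285_314_660_808_ok (br c3)))
  (Ok.s3 285 (Ok.lf S256_285_660_808_ok (bl c5))
  (Ok.lf S285_314_660_808_ok (br c5))))
  (And.intro (Ok.s4 512 (Ok.s4 364 (Ok.s3 343 (Ok.lf S314_343_216_364_ok (bl (br c0)))
  (Ok.lf S343_372_216_364_ok (bl c0)))
  (Ok.s3 343 (Ok.lf S314_343_364_512_ok (br (br c0)))
  (Ok.s2 448 (Ok.lf S343_372_364_512_ok (br c2))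
  (Ok.lf S343_372_364_512_ok (br (br c4))))))
  (Ok.s4 660 (Ok.s2 448 (Ok.lf S314_372_512_660_ok (br c1))
  (Ok.s3 343 (Ok.lf S314_343_512_660_ok (br (br c6)))
  (Ok.lf S343_372_512_660_ok (bl (br c6)))))
  (Ok.s2 448 (Ok.lf S314_372_660_808_ok (bl c1))
  (Ok.s3 343 (Ok.lf S314_343_660_808_ok (bl c4))
  (Ok.lf S343_372_660_808_ok (bl (br c4)))))))
  (Ok.s2 448 (Ok.lf S372_430_216_364_ok (bl c2))
  (Ok.s3 401 (Ok.lf S372_401_216_364_ok (bl c6))
  (Ok.s2 480 (Ok.lf S401_430_216_364_ok c8)
  (Ok.lf S401_430_216_364_ok c7))))))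

end Vale.Agent.P098.Ck
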