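import Vale.Agent.P098.CkGd
import Vale.Agent.P098.CkOk
import Vale.Agent.P098.Sh.A54
import Vale.Agent.P098.Sh.A56
import Vale.Agent.P098.Sh.A57

namespace Vale.Agent.P098.Ck

theorem r236 :
    Ok Gd mult 128 256 64 128 384 512 372 430 364 512 ∧
    Ok Gd mult 128 256 64 128 384 512 372 430 512 808 :=
  have c0 : (band (go 16 Gd mult S372_401_660_808 (Tr.lf 1085573252 99445959 575040353009747852525568) 128 256 64 128 480 512)
  (go 16 Gd mult S372_401_512_660 (Tr.lf 1085441156 99445959 526304055193554410012672) 128 256 64 128 480 512)) = true := by decide +kernel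
  have c1 : (go 16 Gd mult S372_401_364_512 (Tr.lf 1085556868 91061192 226064848667007552323584) 128 256 64 128 448 512) = true := by decide +kernel
  have c2 : (go 16 Gd mult S401_430_660_808 (Tr.lf 1086620804 91061065 6295960470500960475142946816) 128 256 64 128 496 512) = true := by decide +kernel
  have c3 : (go 16 Gd mult S401_430_364_512 (Tr.lf 5380408452 103509191 380777691188668118597632) 128 256 64 128 480 512) = true := by decide +kernel
  have c4 : (go 16 Gd mult S401_430_512_660 (Tr.lf 5389976644 99330889 456759830049920101908480) 128 256 96 128 480 512) = true := by decide +kernel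
  have c5 : (go 16 Gd mult S401_430_660_808 (Tr.lf 5380407940 99314887 0) 128 256 64 128 480 496) = true := by decide +kernel
  have c6 : (go 16 Gd mult S401_430_512_660 (Tr.lf 1086489668 95124297 1020529222431374447738880) 128 256 64 96 480 512) = true := by decide +kernel
  have c7 : (band (go 16 Gd mult S372_401_660_808 (Tr.lf 4842472580 103775430 0) 128 256 64 128 384 448)
  (band (go 16 Gd mult S401_430_660_808 (Tr.lf 5380392068 95251528 0) 128 256 64 128 384 448)
  (band (go 16 Gd mult S401_430_512_660 (Tr.lf 5380326532 95251528 0) 128 256 64 128 384 448)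
  (band (go 16 Gd mult S372_401_512_660 (Tr.lf 4842472578 103775430 0) 128 256 64 128 384 448)
  (band (go 16 Gd mult S401_430_364_512 (Tr.lf 5380326530 95259592 0) 128 256 64 128 384 448)
  (go 16 Gd mult S372_401_364_512 (Tr.lf 547505218 103910470 0) 128 256 64 128 384 448)))))) = true := by decide +kernel
  have c8 : (band (go 16 Gd mult S401_430_660_808 (Tr.lf 5380392068 99318983 0) 128 256 64 128 448 480)
  (band (go 16 Gd mult S401_430_364_512 (Tr.lf 5380391556 99318983 0) 128 256 64 128 448 480)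
  (band (go 16 Gd mult S401_430_512_660 (Tr.lf 5380391556 99318983 0) 128 256 64 128 448 480)
  (band (go 16 Gd mult S372_401_660_808 (Tr.lf 548553348 103914184 0) 128 256 64 128 448 480)
  (go 16 Gd mult S372_401_512_660 (Tr.lf 548553346 103914184 0) 128 256 64 128 448 480))))) = true := by decide +kernel
  (And.intro (Ok.s2 448 (Ok.s3 401 (Ok.lf S372_401_364_512_ok (br (br (br (br (br c7))))))
  (Ok.lf S401_430_364_512_ok (bl (br (br (br (br c7)))))))
  (Ok.s3 401 (Ok.lf S372_401_364_512_ok c1)
  (Ok.s2 480 (Ok.lf S401_430_364_512_ok (bl (br c8)))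
  (Ok.lf S401_430_364_512_ok c3))))
  (Ok.s4 660 (Ok.s2 448 (Ok.s3 401 (Ok.lf S372_401_512_660_ok (bl (br (br (br c7)))))
  (Ok.lf S401_430_512_660_ok (bl (br (br c7)))))
  (Ok.s2 480 (Ok.s3 401 (Ok.lf S372_401_512_660_ok (br (br (br (br c8)))))
  (Ok.lf S401_430_512_660_ok (bl (br (br c8)))))
  (Ok.s3 401 (Ok.lf S372_401_512_660_ok (br c0))
  (Ok.s1 96 (Ok.lf S401_430_512_660_ok c6)
  (Ok.lf S401_430_512_660_ok c4)))))
  (Ok.s2 448 (Ok.s3 401 (Ok.lf S372_401_660_808_ok (bl c7))
  (Ok.lf S401_430_660_808_ok (bl (br c7))))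
  (Ok.s3 401 (Ok.s2 480 (Ok.lf S372_401_660_808_ok (bl (br (br (br c8)))))
  (Ok.lf S372_401_660_808_ok (bl c0)))
  (Ok.s2 480 (Ok.lf S401_430_660_808_ok (bl c8))
  (Ok.s2 496 (Ok.lf S401_430_660_808_ok c5)
  (Ok.lf S401_430_660_808_ok c2)))))))

end Vale.Agent.P098.Ck
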