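import Vale.Agent.P098.CkGd
import Vale.Agent.P098.CkOk
import Vale.Agent.P098.Sh.A0
import Vale.Agent.P098.Sh.A58
import Vale.Agent.P098.Sh.A59

namespace Vale.Agent.P098.Ck

theorem r237 :
    Ok Gd mult 128 256 64 128 384 512 430 488 216 364 ∧
    Ok Gd mult 128 256 64 128 384 512 430 488 364 512 ∧
    Ok Gd mult 128 256 64 128 384 512 430 488 512 808 ∧
    Ok Gd mult 128 256 128 192 0 128 24 82 216 364 :=
  have c0 : (go 16 Gd mult S430_459_216_364 (Tr.lf 5380409480 91188168 189116020243670325067776) 128 256 64 128 448 512) = true := by decide +kernel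
  have c1 : (band (go 16 Gd mult S430_459_660_808 (Tr.lf 5918328968 78339145 440010186390193934696448) 128 256 64 128 480 512)
  (band (go 16 Gd mult S459_488_512_660 (Tr.lf 1152468100 83065927 216232734032023461625856) 128 256 64 128 480 512)
  (go 16 Gd mult S459_488_660_808 (Tr.lf 1152468100 83065927 216232734032023434952704) 128 256 64 128 480 512))) = true := by decide +kernel
  have c2 : (band (go 16 Gd mult S459_488_216_364 (Tr.lf 1152485512 87133255 194852957650593995620352) 128 256 64 128 448 512)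
  (go 16 Gd mult S459_488_364_512 (Tr.lf 1152485512 87133255 192547114641380299767808) 128 256 64 128 448 512)) = true := by decide +kernel
  have c3 : (go 16 Gd mult S430_459_512_660 (Tr.lf 5918327944 82533449 384540826960549316067328) 128 256 64 128 480 512) = true := by decide +kernel
  have c4 : (band (go 16 Gd mult S24_82_216_364 (Tr.lf 12886050888 86854343 0) 128 256 128 160 0 128)
  (band (go 16 Gd mult S24_82_216_364 (Tr.lf 17181017160 95111752 0) 128 256 160 192 0 64)
  (go 16 Gd mult S24_82_216_364 (Tr.lf 17718936648 95234761 0) 128 256 160 192 64 128))) = true := by decide +kernel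
  have c5 : (band (go 16 Gd mult S430_459_364_512 (Tr.lf 1085442116 90930247 625879579748552906113024) 128 256 64 96 448 512)
  (go 16 Gd mult S430_459_364_512 (Tr.lf 5381457988 95251401 206419066210897515839488) 128 256 96 128 448 512)) = true := by decide +kernel
  have c6 : (band (go 16 Gd mult S430_488_660_808 (Tr.lf 5372019844 90922183 0) 128 256 64 128 448 480)
  (band (go 16 Gd mult S430_488_512_660 (Tr.lf 5371954308 90922183 0) 128 256 64 128 448 480)
  (band (go 16 Gd mult S430_488_512_660 (Tr.lf 5371954308 99314632 0) 128 256 64 128 384 448)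
  (go 16 Gd mult S430_488_660_808 (Tr.lf 5380342916 99322824 0) 128 256 64 128 384 448)))) = true := by decide +kernel
  have c7 : (band (go 16 Gd mult S430_488_216_364 (Tr.lf 5371954306 95120328 0) 128 256 64 128 384 448)
  (go 16 Gd mult S430_488_364_512 (Tr.lf 5371954306 95120328 0) 128 256 64 128 384 448)) = true := by decide +kernel
  (And.intro (Ok.s2 448 (Ok.lf S430_488_216_364_ok (bl c7))
  (Ok.s3 459 (Ok.lf S430_459_216_364_ok c0)
  (Ok.lf S459_488_216_364_ok (bl c2))))
  (And.intro (Ok.s2 448 (Ok.lf S430_488_364_512_ok (br c7))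
  (Ok.s3 459 (Ok.s1 96 (Ok.lf S430_459_364_512_ok (bl c5))
  (Ok.lf S430_459_364_512_ok (br c5)))
  (Ok.lf S459_488_364_512_ok (br c2))))
  (And.intro (Ok.s4 660 (Ok.s2 448 (Ok.lf S430_488_512_660_ok (bl (br (br c6))))
  (Ok.s2 480 (Ok.lf S430_488_512_660_ok (bl (br c6)))
  (Ok.s3 459 (Ok.lf S430_459_512_660_ok c3)
  (Ok.lf S459_488_512_660_ok (bl (br c1))))))
  (Ok.s2 448 (Ok.lf S430_488_660_808_ok (br (br (br c6))))
  (Ok.s2 480 (Ok.lf S430_488_660_808_ok (bl c6))
  (Ok.s3 459 (Ok.lf S430_459_660_808_ok (bl c1))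
  (Ok.lf S459_488_660_808_ok (br (br c1)))))))
  (Ok.s1 160 (Ok.lf S24_82_216_364_ok (bl c4))
  (Ok.s2 64 (Ok.lf S24_82_216_364_ok (bl (br c4)))
  (Ok.lf S24_82_216_364_ok (br (br c4))))))))

end Vale.Agent.P098.Ck
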