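import Vale.Agent.P098.CkGd
import Vale.Agent.P098.CkOk
import Vale.Agent.P098.Sh.A0
import Vale.Agent.P098.Sh.A1
import Vale.Agent.P098.Sh.A2
import Vale.Agent.P098.Sh.A4
import Vale.Agent.P098.Sh.A5

namespace Vale.Agent.P098.Ck

theorem r238 :
    Ok Gd mult 128 256 128 192 0 128 24 82 364 512 ∧
    Ok Gd mult 128 256 128 192 0 128 24 82 512 808 ∧
    Ok Gd mult 128 256 128 192 0 128 82 140 216 512 :=
  have c0 : (band (go 16 Gd mult S111_140_216_364 (Tr.lf 17181198472 91048520 0) 192 256 128 192 0 64)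
  (go 16 Gd mult S111_140_364_512 (Tr.lf 17181066376 90921544 0) 192 256 128 192 0 64)) = true := by decide +kernel
  have c1 : (band (go 16 Gd mult S111_140_216_364 (Tr.lf 17727521928 95115977 0) 192 256 128 192 64 128)
  (go 16 Gd mult S111_140_364_512 (Tr.lf 13432538244 103906247 0) 192 256 128 192 64 128)) = true := by decide +kernel
  have c2 : (band (go 16 Gd mult S24_82_364_512 (Tr.lf 12886050888 90790599 0) 128 256 128 160 0 128)
  (band (go 16 Gd mult S24_82_660_808 (Tr.lf 12886050888 90790599 0) 128 256 128 160 0 128)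
  (band (go 16 Gd mult S24_82_512_660 (Tr.lf 12886034504 86854343 0) 128 256 128 160 0 128)
  (go 16 Gd mult S24_82_512_660 (Tr.lf 17181000776 95111752 0) 128 256 160 192 0 64)))) = true := by decide +kernel
  have c3 : (go 16 Gd mult S82_140_364_512 (Tr.lf 9128020098 103902022 0) 128 192 128 192 0 128) = true := by decide +kernel
  have c4 : (band (go 16 Gd mult S82_111_216_364 (Tr.lf 17181066376 95103433 0) 128 256 128 192 0 64)
  (go 16 Gd mult S82_111_216_364 (Tr.lf 13432407176 103643848 0) 128 256 128 192 64 128)) = true := by decide +kernel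
  have c5 : (go 16 Gd mult S82_111_364_512 (Tr.lf 17181067396 91040201 0) 192 256 128 192 0 128) = true := by decide +kernel
  have c6 : (band (go 16 Gd mult S24_82_364_512 (Tr.lf 17718936648 95234761 0) 128 256 160 192 64 128)
  (band (go 16 Gd mult S24_82_660_808 (Tr.lf 17718936648 95234761 0) 128 256 160 192 64 128)
  (go 16 Gd mult S24_82_512_660 (Tr.lf 17718936648 95234761 0) 128 256 160 192 64 128))) = true := by decide +kernel
  have c7 : (band (go 16 Gd mult S24_82_364_512 (Tr.lf 17181000776 95111752 0) 128 256 160 192 0 64)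
  (go 16 Gd mult S24_82_660_808 (Tr.lf 17181000776 95111752 0) 128 256 160 192 0 64)) = true := by decide +kernel
  have c8 : (go 16 Gd mult S111_140_216_364 (Tr.lf 4834214466 95648965 0) 128 192 128 192 0 64) = true := by decide +kernel
  have c9 : (go 16 Gd mult S111_140_216_364 (Tr.lf 9128002114 103779014 0) 128 192 128 192 64 128) = true := by decide +kernel
  (And.intro (Ok.s1 160 (Ok.lf S24_82_364_512_ok (bl c2))
  (Ok.s2 64 (Ok.lf S24_82_364_512_ok (bl c7))
  (Ok.lf S24_82_364_512_ok (bl c6))))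
  (And.intro (Ok.s4 660 (Ok.s1 160 (Ok.lf S24_82_512_660_ok (bl (br (br c2))))
  (Ok.s2 64 (Ok.lf S24_82_512_660_ok (br (br (br c2))))
  (Ok.lf S24_82_512_660_ok (br (br c6)))))
  (Ok.s1 160 (Ok.lf S24_82_660_808_ok (bl (br c2)))
  (Ok.s2 64 (Ok.lf S24_82_660_808_ok (br c7))
  (Ok.lf S24_82_660_808_ok (bl (br c6))))))
  (Ok.s4 364 (Ok.s3 111 (Ok.s2 64 (Ok.lf S82_111_216_364_ok (bl c4))
  (Ok.lf S82_111_216_364_ok (br c4)))
  (Ok.s2 64 (Ok.s0 192 (Ok.lf S111_140_216_364_ok c8)
  (Ok.lf S111_140_216_364_ok (bl c0)))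
  (Ok.s0 192 (Ok.lf S111_140_216_364_ok c9)
  (Ok.lf S111_140_216_364_ok (bl c1)))))
  (Ok.s0 192 (Ok.lf S82_140_364_512_ok c3)
  (Ok.s3 111 (Ok.lf S82_111_364_512_ok c5)
  (Ok.s2 64 (Ok.lf S111_140_364_512_ok (br c0))
  (Ok.lf S111_140_364_512_ok (br c1))))))))

end Vale.Agent.P098.Ck
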