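import Vale.Agent.P098.CkGd
import Vale.Agent.P098.CkOk
import Vale.Agent.P098.Sh.A12
import Vale.Agent.P098.Sh.A14
import Vale.Agent.P098.Sh.A17
import Vale.Agent.P098.Sh.A20
import Vale.Agent.P098.Sh.A3
import Vale.Agent.P098.Sh.A4
import Vale.Agent.P098.Sh.A5
import Vale.Agent.P098.Sh.A6
import Vale.Agent.P098.Sh.A7

namespace Vale.Agent.P098.Ck

theorem r239 :
    Ok Gd mult 128 256 128 192 0 128 82 140 512 660 ∧
    Ok Gd mult 128 256 128 192 0 128 82 140 660 808 ∧
    Ok Gd mult 128 256 128 192 0 128 140 198 216 364 :=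
  have c0 : (band (go 16 Gd mult S82_140_512_660 (Tr.lf 17181083784 95115848 0) 192 256 128 192 0 64)
  (band (go 16 Gd mult S82_140_512_660 (Tr.lf 8591148098 103902277 0) 128 192 128 192 0 64)
  (go 16 Gd mult S140_154_216_364 (Tr.lf 8591123010 104041413 0) 128 192 128 192 0 64))) = true := by decide +kernel
  have c1 : (band (go 16 Gd mult S154_169_216_364 (Tr.lf 17181198472 82520777 0) 128 256 128 192 0 64)
  (go 16 Gd mult S169_183_216_364 (Tr.lf 12885173384 91314632 0) 128 256 128 192 0 64)) = true := by decide +kernel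
  have c2 : (band (go 16 Gd mult S82_140_660_808 (Tr.lf 17181083720 82258505 0) 128 256 128 160 0 64)
  (go 16 Gd mult S82_140_660_808 (Tr.lf 17181082696 86592200 0) 128 256 160 192 0 64)) = true := by decide +kernel
  have c3 : (go 16 Gd mult S140_154_216_364 (Tr.lf 17181190280 91052616 0) 192 256 128 192 0 64) = true := by decide +kernel
  have c4 : (band (go 16 Gd mult S140_154_216_364 (Tr.lf 17727506504 86465098 0) 128 256 128 160 64 128)
  (go 16 Gd mult S140_154_216_364 (Tr.lf 17727505480 90790729 0) 128 256 160 192 64 128)) = true := by decide +kernel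
  have c5 : (band (go 16 Gd mult S169_198_216_364 (Tr.lf 12894880900 95513416 0) 192 256 128 192 64 128)
  (go 16 Gd mult S154_169_216_364 (Tr.lf 13432538244 103906375 0) 192 256 128 192 64 128)) = true := by decide +kernel
  have c6 : (band (go 16 Gd mult S111_140_512_660 (Tr.lf 13432407176 99576648 0) 128 256 128 192 64 128)
  (band (go 16 Gd mult S111_140_660_808 (Tr.lf 13431358600 99576392 0) 128 256 128 192 64 128)
  (band (go 16 Gd mult S82_111_512_660 (Tr.lf 13432341640 99572552 0) 128 256 128 192 64 128)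
  (go 16 Gd mult S82_111_660_808 (Tr.lf 13422961800 99564104 0) 128 256 128 192 64 128)))) = true := by decide +kernel
  have c7 : (go 16 Gd mult S183_198_216_364 (Tr.lf 12885173320 95246920 0) 128 256 128 192 0 64) = true := by decide +kernel
  have c8 : (band (go 16 Gd mult S169_198_216_364 (Tr.lf 8591131202 99704006 0) 128 192 128 192 64 128)
  (go 16 Gd mult S154_169_216_364 (Tr.lf 8591123010 103902150 0) 128 192 128 192 64 128)) = true := by decide +kernel
  (And.intro (Ok.s2 64 (Ok.s0 192 (Ok.lf S82_140_512_660_ok (bl (br c0)))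
  (Ok.lf S82_140_512_660_ok (bl c0)))
  (Ok.s3 111 (Ok.lf S82_111_512_660_ok (bl (br (br c6))))
  (Ok.lf S111_140_512_660_ok (bl c6))))
  (And.intro (Ok.s2 64 (Ok.s1 160 (Ok.lf S82_140_660_808_ok (bl c2))
  (Ok.lf S82_140_660_808_ok (br c2)))
  (Ok.s3 111 (Ok.lf S82_111_660_808_ok (br (br (br c6))))
  (Ok.lf S111_140_660_808_ok (bl (br c6)))))
  (Ok.s2 64 (Ok.s3 169 (Ok.s3 154 (Ok.s0 192 (Ok.lf S140_154_216_364_ok (br (br c0)))
  (Ok.lf S140_154_216_364_ok c3))
  (Ok.lf S154_169_216_364_ok (bl c1)))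
  (Ok.s3 183 (Ok.lf S169_183_216_364_ok (br c1))
  (Ok.lf S183_198_216_364_ok c7)))
  (Ok.s3 169 (Ok.s3 154 (Ok.s1 160 (Ok.lf S140_154_216_364_ok (bl c4))
  (Ok.lf S140_154_216_364_ok (br c4)))
  (Ok.s0 192 (Ok.lf S154_169_216_364_ok (br c8))
  (Ok.lf S154_169_216_364_ok (br c5))))
  (Ok.s0 192 (Ok.lf S169_198_216_364_ok (bl c8))
  (Ok.lf S169_198_216_364_ok (bl c5)))))))

end Vale.Agent.P098.Ck
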