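import Vale.Agent.P098.CkGd
import Vale.Agent.P098.CkOk
import Vale.Agent.P098.Sh.A48
import Vale.Agent.P098.Sh.A49
import Vale.Agent.P098.Sh.A50
import Vale.Agent.P098.Sh.A52

namespace Vale.Agent.P098.Ck

theorem r24 :
    Ok Gd mult 0 64 0 32 384 512 343 372 512 660 ∧
    Ok Gd mult 64 128 0 32 384 512 343 372 512 660 ∧
    Ok Gd mult 0 128 32 64 384 512 314 372 512 660 ∧
    Ok Gd mult 0 128 0 64 384 448 314 372 660 808 ∧
    Ok Gd mult 0 128 0 64 448 480 314 343 660 808 ∧
    Ok Gd mult 0 128 0 64 480 496 314 343 660 808 :=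
  have c0 : (go 16 Gd mult S343_372_512_660 (Tr.lf 9683110018 94862280 0) 0 32 0 32 480 512) = true := by decide +kernel
  have c1 : (go 16 Gd mult S343_372_512_660 (Tr.lf 4851009668 103652550 64416030305518308294656) 0 128 32 64 448 512) = true := by decide +kernel
  have c2 : (band (go 16 Gd mult S343_372_512_660 (Tr.lf 9682847874 103385928 0) 0 32 0 32 448 480)
  (go 16 Gd mult S343_372_512_660 (Tr.lf 4851009666 103648454 0) 64 128 0 32 448 512)) = true := by decide +kernel
  have c3 : (go 16 Gd mult S314_343_660_808 (Tr.lf 9145188996 94989128 0) 0 128 0 32 480 496) = true := by decide +kernel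
  have c4 : (go 16 Gd mult S314_343_512_660 (Tr.lf 9144927364 99318727 41578961142549351235613) 0 128 32 64 480 512) = true := by decide +kernel
  have c5 : (band (go 16 Gd mult S314_343_660_808 (Tr.lf 4849960068 103656390 0) 0 128 0 64 384 448)
  (go 16 Gd mult S314_343_660_808 (Tr.lf 4851008580 103656646 0) 0 128 0 16 448 480)) = true := by decide +kernel
  have c6 : (go 16 Gd mult S343_372_660_808 (Tr.lf 4851008642 111914054 0) 0 128 0 32 384 448) = true := by decide +kernel
  have c7 : (band (go 16 Gd mult S343_372_512_660 (Tr.lf 4850993281 103390406 0) 32 64 0 32 448 512)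
  (go 16 Gd mult S343_372_512_660 (Tr.lf 4850992193 103656518 0) 64 128 0 32 384 448)) = true := by decide +kernel
  have c8 : (band (go 16 Gd mult S314_343_660_808 (Tr.lf 9144910468 99318727 0) 0 128 32 64 480 496)
  (band (go 16 Gd mult S314_343_660_808 (Tr.lf 9144910916 94997447 0) 0 128 32 64 448 480)
  (band (go 16 Gd mult S314_343_512_660 (Tr.lf 4841554500 103648198 0) 0 128 32 64 448 480)
  (go 16 Gd mult S314_343_660_808 (Tr.lf 9144910916 95124423 0) 0 128 16 32 448 480)))) = true := by decide +kernel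
  have c9 : (band (go 16 Gd mult S314_372_512_660 (Tr.lf 546473026 103652421 0) 0 128 32 64 384 448)
  (go 16 Gd mult S343_372_660_808 (Tr.lf 546456098 108100677 0) 0 128 32 64 384 448)) = true := by decide +kernel
  have c10 : (band (go 16 Gd mult S343_372_512_660 (Tr.lf 4850861121 103656518 0) 32 64 0 32 384 448)
  (go 16 Gd mult S343_372_512_660 (Tr.lf 4842472001 99454277 0) 0 32 0 32 384 448)) = true := by decide +kernel
  (And.intro (Ok.s0 32 (Ok.s2 448 (Ok.lf S343_372_512_660_ok (br c10))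
  (Ok.s2 480 (Ok.lf S343_372_512_660_ok (bl c2))
  (Ok.lf S343_372_512_660_ok c0)))
  (Ok.s2 448 (Ok.lf S343_372_512_660_ok (bl c10))
  (Ok.lf S343_372_512_660_ok (bl c7))))
  (And.intro (Ok.s2 448 (Ok.lf S343_372_512_660_ok (br c7))
  (Ok.lf S343_372_512_660_ok (br c2)))
  (And.intro (Ok.s2 448 (Ok.lf S314_372_512_660_ok (bl c9))
  (Ok.s3 343 (Ok.s2 480 (Ok.lf S314_343_512_660_ok (bl (br (br c8))))
  (Ok.lf S314_343_512_660_ok c4))
  (Ok.lf S343_372_512_660_ok c1)))
  (And.intro (Ok.s3 343 (Ok.lf S314_343_660_808_ok (bl c5))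
  (Ok.s1 32 (Ok.lf S343_372_660_808_ok c6)
  (Ok.lf S343_372_660_808_ok (br c9))))
  (And.intro (Ok.s1 32 (Ok.s1 16 (Ok.lf S314_343_660_808_ok (br c5))
  (Ok.lf S314_343_660_808_ok (br (br (br c8)))))
  (Ok.lf S314_343_660_808_ok (bl (br c8))))
  (Ok.s1 32 (Ok.lf S314_343_660_808_ok c3)
  (Ok.lf S314_343_660_808_ok (bl c8))))))))

end Vale.Agent.P098.Ck
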