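import Vale.Agent.P098.CkGd
import Vale.Agent.P098.CkOk
import Vale.Agent.P098.Sh.A10
import Vale.Agent.P098.Sh.A12
import Vale.Agent.P098.Sh.A18
import Vale.Agent.P098.Sh.A19
import Vale.Agent.P098.Sh.A7

namespace Vale.Agent.P098.Ck

theorem r240 :
    Ok Gd mult 128 256 128 192 0 64 140 169 364 512 ∧
    Ok Gd mult 128 256 128 192 0 64 169 198 364 512 ∧
    Ok Gd mult 128 256 128 192 64 128 140 198 364 512 ∧
    Ok Gd mult 128 256 128 192 0 128 140 198 512 660 ∧
    Ok Gd mult 128 256 128 192 0 128 140 169 660 808 :=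
  have c0 : (band (go 16 Gd mult S169_198_364_512 (Tr.lf 17180149892 91175369 0) 192 256 128 192 0 64)
  (go 16 Gd mult S169_198_512_660 (Tr.lf 17180148872 91179592 0) 192 256 128 192 0 64)) = true := by decide +kernel
  have c1 : (band (go 16 Gd mult S140_154_364_512 (Tr.lf 13432538248 103635912 0) 128 256 128 192 64 128)
  (go 16 Gd mult S169_198_364_512 (Tr.lf 12894618760 99310536 0) 128 256 128 192 64 128)) = true := by decide +kernel
  have c2 : (band (go 16 Gd mult S140_169_512_660 (Tr.lf 17181198408 82389705 0) 128 256 128 160 0 64)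
  (band (go 16 Gd mult S140_154_364_512 (Tr.lf 17181190216 82262601 0) 128 256 128 160 0 64)
  (go 16 Gd mult S154_169_364_512 (Tr.lf 17181190216 82389705 0) 128 256 128 160 0 64))) = true := by decide +kernel
  have c3 : (band (go 16 Gd mult S140_169_512_660 (Tr.lf 13431489672 99576520 0) 128 256 128 192 64 128)
  (go 16 Gd mult S169_198_512_660 (Tr.lf 12886230152 95243080 0) 128 256 128 192 64 128)) = true := by decide +kernel
  have c4 : (band (go 16 Gd mult S140_169_660_808 (Tr.lf 13431489672 103639752 0) 128 256 128 192 64 128)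
  (band (go 16 Gd mult S154_169_364_512 (Tr.lf 12894610568 91187912 0) 128 256 128 192 64 128)
  (go 16 Gd mult S154_169_364_512 (Tr.lf 17181189192 82528841 0) 128 256 160 192 0 64))) = true := by decide +kernel
  have c5 : (go 16 Gd mult S140_169_660_808 (Tr.lf 17180140680 91179464 0) 192 256 128 192 0 64) = true := by decide +kernel
  have c6 : (band (go 16 Gd mult S140_169_512_660 (Tr.lf 17181197384 82528841 0) 128 256 160 192 0 64)
  (go 16 Gd mult S140_154_364_512 (Tr.lf 17181058120 86587977 0) 128 256 160 192 0 64)) = true := by decide +kernel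
  have c7 : (band (go 16 Gd mult S169_198_364_512 (Tr.lf 8590074434 104033349 0) 128 192 128 192 0 64)
  (band (go 16 Gd mult S169_198_512_660 (Tr.lf 8590074402 108231621 0) 128 192 128 192 0 64)
  (go 16 Gd mult S140_169_660_808 (Tr.lf 8590008866 104037189 0) 128 192 128 192 0 64))) = true := by decide +kernel
  (And.intro (Ok.s3 154 (Ok.s1 160 (Ok.lf S140_154_364_512_ok (bl (br c2)))
  (Ok.lf S140_154_364_512_ok (br c6)))
  (Ok.s1 160 (Ok.lf S154_169_364_512_ok (br (br c2)))
  (Ok.lf S154_169_364_512_ok (br (br c4)))))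
  (And.intro (Ok.s0 192 (Ok.lf S169_198_364_512_ok (bl c7))
  (Ok.lf S169_198_364_512_ok (bl c0)))
  (And.intro (Ok.s3 169 (Ok.s3 154 (Ok.lf S140_154_364_512_ok (bl c1))
  (Ok.lf S154_169_364_512_ok (bl (br c4))))
  (Ok.lf S169_198_364_512_ok (br c1)))
  (And.intro (Ok.s2 64 (Ok.s3 169 (Ok.s1 160 (Ok.lf S140_169_512_660_ok (bl c2))
  (Ok.lf S140_169_512_660_ok (bl c6)))
  (Ok.s0 192 (Ok.lf S169_198_512_660_ok (bl (br c7)))
  (Ok.lf S169_198_512_660_ok (br c0))))
  (Ok.s3 169 (Ok.lf S140_169_512_660_ok (bl c3))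
  (Ok.lf S169_198_512_660_ok (br c3))))
  (Ok.s2 64 (Ok.s0 192 (Ok.lf S140_169_660_808_ok (br (br c7)))
  (Ok.lf S140_169_660_808_ok c5))
  (Ok.lf S140_169_660_808_ok (bl c4)))))))

end Vale.Agent.P098.Ck
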