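import Vale.Agent.P098.CkGd
import Vale.Agent.P098.CkOk
import Vale.Agent.P098.Sh.A19
import Vale.Agent.P098.Sh.A25
import Vale.Agent.P098.Sh.A26
import Vale.Agent.P098.Sh.A27
import Vale.Agent.P098.Sh.A28
import Vale.Agent.P098.Sh.A29
import Vale.Agent.P098.Sh.A36
import Vale.Agent.P098.Sh.A37

namespace Vale.Agent.P098.Ck

theorem r241 :
    Ok Gd mult 128 256 128 192 0 128 169 198 660 808 ∧
    Ok Gd mult 128 256 128 192 0 128 198 256 216 512 ∧
    Ok Gd mult 128 256 128 192 0 128 198 256 512 660 :=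
  have c0 : (go 16 Gd mult S198_227_216_364 (Tr.lf 17726457992 99175114 0) 128 256 128 192 0 128) = true := by decide +kernel
  have c1 : (band (go 16 Gd mult S169_198_660_808 (Tr.lf 17180148872 90917448 0) 192 256 128 192 0 64)
  (band (go 16 Gd mult S227_256_438_512 (Tr.lf 17180017800 95111880 0) 192 256 128 192 0 64)
  (go 16 Gd mult S198_227_364_512 (Tr.lf 12885181572 99572551 0) 192 256 128 192 0 64))) = true := by decide +kernel
  have c2 : (band (go 16 Gd mult S198_227_512_660 (Tr.lf 17180149892 95373896 0) 224 256 128 192 0 64)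
  (band (go 16 Gd mult S227_256_512_660 (Tr.lf 17180148868 95374151 0) 224 256 128 192 0 64)
  (band (go 16 Gd mult S198_227_512_660 (Tr.lf 12885181506 99572423 0) 224 256 128 192 64 128)
  (go 16 Gd mult S227_256_512_660 (Tr.lf 12885173314 95378119 0) 224 256 128 192 64 128)))) = true := by decide +kernel
  have c3 : (band (go 16 Gd mult S227_256_216_364 (Tr.lf 17792518184 95373770 0) 128 256 160 192 0 128)
  (go 16 Gd mult S227_256_216_364 (Tr.lf 17792518180 95242698 0) 128 256 128 160 0 128)) = true := by decide +kernel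
  have c4 : (band (go 16 Gd mult S198_256_364_512 (Tr.lf 8590231618 104029126 0) 128 192 128 192 0 128)
  (band (go 16 Gd mult S198_256_512_660 (Tr.lf 8590231618 103902022 0) 128 192 128 192 0 128)
  (band (go 16 Gd mult S169_198_660_808 (Tr.lf 8590074914 107961158 0) 128 192 128 192 0 128)
  (go 16 Gd mult S198_256_512_660 (Tr.lf 12885198914 103635655 0) 192 224 128 192 0 128)))) = true := by decide +kernel
  have c5 : (band (go 16 Gd mult S198_227_364_512 (Tr.lf 12885181508 95377992 0) 192 256 128 192 64 128)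
  (band (go 16 Gd mult S227_256_364_512 (Tr.lf 12885181508 99572296 0) 192 256 128 192 64 128)
  (go 16 Gd mult S169_198_660_808 (Tr.lf 12894618180 99576775 0) 192 256 128 192 64 128))) = true := by decide +kernel
  have c6 : (go 16 Gd mult S227_256_364_438 (Tr.lf 17792386116 99580361 0) 192 256 128 192 0 64) = true := by decide +kernel
  (And.intro (Ok.s0 192 (Ok.lf S169_198_660_808_ok (bl (br (br c4))))
  (Ok.s2 64 (Ok.lf S169_198_660_808_ok (bl c1))
  (Ok.lf S169_198_660_808_ok (br (br c5)))))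
  (And.intro (Ok.s4 364 (Ok.s3 227 (Ok.lf S198_227_216_364_ok c0)
  (Ok.s1 160 (Ok.lf S227_256_216_364_ok (br c3))
  (Ok.lf S227_256_216_364_ok (bl c3))))
  (Ok.s0 192 (Ok.lf S198_256_364_512_ok (bl c4))
  (Ok.s3 227 (Ok.s2 64 (Ok.lf S198_227_364_512_ok (br (br c1)))
  (Ok.lf S198_227_364_512_ok (bl c5)))
  (Ok.s2 64 (Ok.s4 438 (Ok.lf S227_256_364_438_ok c6)
  (Ok.lf S227_256_438_512_ok (bl (br c1))))
  (Ok.lf S227_256_364_512_ok (bl (br c5)))))))
  (Ok.s0 192 (Ok.lf S198_256_512_660_ok (bl (br c4)))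
  (Ok.s0 224 (Ok.lf S198_256_512_660_ok (br (br (br c4))))
  (Ok.s3 227 (Ok.s2 64 (Ok.lf S198_227_512_660_ok (bl c2))
  (Ok.lf S198_227_512_660_ok (bl (br (br c2)))))
  (Ok.s2 64 (Ok.lf S227_256_512_660_ok (bl (br c2)))
  (Ok.lf S227_256_512_660_ok (br (br (br c2))))))))))

end Vale.Agent.P098.Ck
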