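import Vale.Agent.P098.CkGd
import Vale.Agent.P098.CkOk
import Vale.Agent.P098.Sh.A27
import Vale.Agent.P098.Sh.A29
import Vale.Agent.P098.Sh.A38
import Vale.Agent.P098.Sh.A41
import Vale.Agent.P098.Sh.A42
import Vale.Agent.P098.Sh.A43
import Vale.Agent.P098.Sh.A44
import Vale.Agent.P098.Sh.A45
import Vale.Agent.P098.Sh.A46

namespace Vale.Agent.P098.Ck

theorem r242 :
    Ok Gd mult 128 256 128 192 0 128 198 256 660 808 ∧
    Ok Gd mult 128 256 128 192 0 128 256 314 216 512 ∧
    Ok Gd mult 128 256 128 192 0 128 256 314 512 660 ∧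
    Ok Gd mult 128 192 128 192 0 128 256 314 660 808 :=
  have c0 : (go 16 Gd mult S256_285_216_364 (Tr.lf 12885444740 95509064 0) 192 256 128 192 0 128) = true := by decide +kernel
  have c1 : (band (go 16 Gd mult S256_285_364_512 (Tr.lf 17180411016 91048648 0) 192 256 128 192 0 64)
  (go 16 Gd mult S285_314_216_364 (Tr.lf 17180148868 91175624 0) 192 256 128 192 0 64)) = true := by decide +kernel
  have c2 : (go 16 Gd mult S256_285_512_660 (Tr.lf 17180411016 95242824 0) 192 256 128 192 0 64) = true := by decide +kernel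
  have c3 : (band (go 16 Gd mult S256_314_660_808 (Tr.lf 12885198980 99433159 0) 128 192 128 192 0 128)
  (go 16 Gd mult S256_314_512_660 (Tr.lf 8590230596 108092230 0) 128 192 128 192 0 128)) = true := by decide +kernel
  have c4 : (band (go 16 Gd mult S198_256_660_808 (Tr.lf 8590231620 107961158 0) 128 192 128 192 0 128)
  (band (go 16 Gd mult S256_314_216_364 (Tr.lf 8590230594 107965382 0) 128 192 128 192 0 128)
  (go 16 Gd mult S256_314_364_512 (Tr.lf 8590230594 103898054 0) 128 192 128 192 0 128))) = true := by decide +kernel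
  have c5 : (band (go 16 Gd mult S198_227_660_808 (Tr.lf 17180148872 95111752 0) 192 256 128 192 0 64)
  (band (go 16 Gd mult S227_256_660_808 (Tr.lf 17180148872 86981192 0) 192 256 128 192 0 64)
  (go 16 Gd mult S198_227_660_808 (Tr.lf 12885181508 99568327 0) 192 256 128 192 64 128))) = true := by decide +kernel
  have c6 : (band (go 16 Gd mult S285_314_364_512 (Tr.lf 17180148872 86858312 0) 192 256 128 192 0 64)
  (band (go 16 Gd mult S285_314_512_660 (Tr.lf 17180148872 86981192 0) 192 256 128 192 0 64)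
  (go 16 Gd mult S285_314_512_660 (Tr.lf 12893569604 95382215 0) 192 256 128 192 64 128))) = true := by decide +kernel
  have c7 : (band (go 16 Gd mult S285_314_216_364 (Tr.lf 12885181508 99568455 0) 192 256 128 192 64 128)
  (band (go 16 Gd mult S256_285_364_512 (Tr.lf 17792508996 103762505 0) 192 256 128 192 64 128)
  (band (go 16 Gd mult S285_314_364_512 (Tr.lf 12893561924 99580615 0) 192 256 128 192 64 128)
  (band (go 16 Gd mult S227_256_660_808 (Tr.lf 12893561412 99445447 0) 192 256 128 192 64 128)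
  (go 16 Gd mult S256_285_512_660 (Tr.lf 12885172804 95505095 0) 192 256 128 192 64 128))))) = true := by decide +kernel
  (And.intro (Ok.s0 192 (Ok.lf S198_256_660_808_ok (bl c4))
  (Ok.s3 227 (Ok.s2 64 (Ok.lf S198_227_660_808_ok (bl c5))
  (Ok.lf S198_227_660_808_ok (br (br c5))))
  (Ok.s2 64 (Ok.lf S227_256_660_808_ok (bl (br c5)))
  (Ok.lf S227_256_660_808_ok (bl (br (br (br c7))))))))
  (And.intro (Ok.s4 364 (Ok.s0 192 (Ok.lf S256_314_216_364_ok (bl (br c4)))
  (Ok.s3 285 (Ok.lf S256_285_216_364_ok c0)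
  (Ok.s2 64 (Ok.lf S285_314_216_364_ok (br c1))
  (Ok.lf S285_314_216_364_ok (bl c7)))))
  (Ok.s0 192 (Ok.lf S256_314_364_512_ok (br (br c4)))
  (Ok.s3 285 (Ok.s2 64 (Ok.lf S256_285_364_512_ok (bl c1))
  (Ok.lf S256_285_364_512_ok (bl (br c7))))
  (Ok.s2 64 (Ok.lf S285_314_364_512_ok (bl c6))
  (Ok.lf S285_314_364_512_ok (bl (br (br c7))))))))
  (And.intro (Ok.s0 192 (Ok.lf S256_314_512_660_ok (br c3))
  (Ok.s3 285 (Ok.s2 64 (Ok.lf S256_285_512_660_ok c2)
  (Ok.lf S256_285_512_660_ok (br (br (br (br c7))))))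
  (Ok.s2 64 (Ok.lf S285_314_512_660_ok (bl (br c6)))
  (Ok.lf S285_314_512_660_ok (br (br c6))))))
  (Ok.lf S256_314_660_808_ok (bl c3)))))

end Vale.Agent.P098.Ck
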