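import Vale.Agent.P098.CkGd
import Vale.Agent.P098.CkOk
import Vale.Agent.P098.Sh.A42
import Vale.Agent.P098.Sh.A46
import Vale.Agent.P098.Sh.A47
import Vale.Agent.P098.Sh.A48
import Vale.Agent.P098.Sh.A49
import Vale.Agent.P098.Sh.A51
import Vale.Agent.P098.Sh.A52

namespace Vale.Agent.P098.Ck

theorem r243 :
    Ok Gd mult 192 256 128 192 0 128 256 314 660 808 ∧
    Ok Gd mult 128 256 128 192 0 128 314 372 216 512 ∧
    Ok Gd mult 128 256 128 192 0 128 314 372 512 660 ∧
    Ok Gd mult 128 256 128 192 0 128 314 343 660 808 :=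
  have c0 : (go 16 Gd mult S314_343_216_364 (Tr.lf 17180149896 90913225 0) 192 256 128 192 0 128) = true := by decide +kernel
  have c1 : (band (go 16 Gd mult S256_285_660_808 (Tr.lf 17180411012 91171400 0) 192 256 128 192 0 64)
  (go 16 Gd mult S285_314_660_808 (Tr.lf 17180411012 95242696 0) 192 256 128 192 0 64)) = true := by decide +kernel
  have c2 : (go 16 Gd mult S343_372_216_364 (Tr.lf 17180149892 91044297 0) 192 256 128 192 0 128) = true := by decide +kernel
  have c3 : (band (go 16 Gd mult S314_343_364_512 (Tr.lf 17180148872 86985288 0) 192 256 128 192 0 64)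
  (band (go 16 Gd mult S314_343_512_660 (Tr.lf 17180148872 91048520 0) 192 256 128 192 0 64)
  (go 16 Gd mult S314_343_364_512 (Tr.lf 12894618692 95386567 0) 192 256 128 192 64 128))) = true := by decide +kernel
  have c4 : (band (go 16 Gd mult S343_372_364_512 (Tr.lf 17180017800 86858312 0) 192 256 128 192 0 64)
  (band (go 16 Gd mult S343_372_512_660 (Tr.lf 17180017800 95115848 0) 192 256 128 192 0 64)
  (band (go 16 Gd mult S314_343_660_808 (Tr.lf 17180148868 91175496 0) 192 256 128 192 0 64)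
  (go 16 Gd mult S343_372_364_512 (Tr.lf 12894487684 95517639 0) 192 256 128 192 64 128)))) = true := by decide +kernel
  have c5 : (band (go 16 Gd mult S343_372_512_660 (Tr.lf 12894487684 99580871 0) 192 256 128 192 64 128)
  (band (go 16 Gd mult S256_285_660_808 (Tr.lf 12893570116 99580487 0) 192 256 128 192 64 128)
  (band (go 16 Gd mult S285_314_660_808 (Tr.lf 12893570116 95386183 0) 192 256 128 192 64 128)
  (band (go 16 Gd mult S314_343_512_660 (Tr.lf 12894618692 95513543 0) 192 256 128 192 64 128)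
  (go 16 Gd mult S314_343_660_808 (Tr.lf 12893570116 95382215 0) 192 256 128 192 64 128))))) = true := by decide +kernel
  have c6 : (band (go 16 Gd mult S314_372_216_364 (Tr.lf 8590083138 104028998 0) 128 192 128 192 0 128)
  (band (go 16 Gd mult S314_372_364_512 (Tr.lf 8590083138 104028998 0) 128 192 128 192 0 128)
  (band (go 16 Gd mult S314_343_660_808 (Tr.lf 8590206018 107969477 0) 128 192 128 192 0 128)
  (band (go 16 Gd mult S314_343_512_660 (Tr.lf 8590074946 103897926 0) 128 192 128 192 0 128)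
  (go 16 Gd mult S343_372_512_660 (Tr.lf 8590009410 104028998 0) 128 192 128 192 0 128))))) = true := by decide +kernel
  (And.intro (Ok.s3 285 (Ok.s2 64 (Ok.lf S256_285_660_808_ok (bl c1))
  (Ok.lf S256_285_660_808_ok (bl (br c5))))
  (Ok.s2 64 (Ok.lf S285_314_660_808_ok (br c1))
  (Ok.lf S285_314_660_808_ok (bl (br (br c5))))))
  (And.intro (Ok.s4 364 (Ok.s0 192 (Ok.lf S314_372_216_364_ok (bl c6))
  (Ok.s3 343 (Ok.lf S314_343_216_364_ok c0)
  (Ok.lf S343_372_216_364_ok c2)))
  (Ok.s0 192 (Ok.lf S314_372_364_512_ok (bl (br c6)))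
  (Ok.s3 343 (Ok.s2 64 (Ok.lf S314_343_364_512_ok (bl c3))
  (Ok.lf S314_343_364_512_ok (br (br c3))))
  (Ok.s2 64 (Ok.lf S343_372_364_512_ok (bl c4))
  (Ok.lf S343_372_364_512_ok (br (br (br c4))))))))
  (And.intro (Ok.s3 343 (Ok.s0 192 (Ok.lf S314_343_512_660_ok (bl (br (br (br c6)))))
  (Ok.s2 64 (Ok.lf S314_343_512_660_ok (bl (br c3)))
  (Ok.lf S314_343_512_660_ok (bl (br (br (br c5)))))))
  (Ok.s0 192 (Ok.lf S343_372_512_660_ok (br (br (br (br c6)))))
  (Ok.s2 64 (Ok.lf S343_372_512_660_ok (bl (br c4)))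
  (Ok.lf S343_372_512_660_ok (bl c5)))))
  (Ok.s0 192 (Ok.lf S314_343_660_808_ok (bl (br (br c6))))
  (Ok.s2 64 (Ok.lf S314_343_660_808_ok (bl (br (br c4))))
  (Ok.lf S314_343_660_808_ok (br (br (br (br c5))))))))))

end Vale.Agent.P098.Ck
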