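import Vale.Agent.P098.CkGd
import Vale.Agent.P098.CkOk
import Vale.Agent.P098.Sh.A52
import Vale.Agent.P098.Sh.A54
import Vale.Agent.P098.Sh.A55
import Vale.Agent.P098.Sh.A56
import Vale.Agent.P098.Sh.A57

namespace Vale.Agent.P098.Ck

theorem r244 :
    Ok Gd mult 128 256 128 192 0 128 343 372 660 808 ∧
    Ok Gd mult 128 256 128 192 0 128 372 430 216 808 :=
  have c0 : (band (go 16 Gd mult S372_430_512_660 (Tr.lf 17180034184 91183433 0) 192 256 128 192 0 64)
  (go 16 Gd mult S343_372_660_808 (Tr.lf 17180148872 91179592 0) 192 256 128 192 0 64)) = true := by decide +kernel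
  have c1 : (band (go 16 Gd mult S372_401_512_660 (Tr.lf 12894488712 95382344 0) 128 256 128 192 64 128)
  (go 16 Gd mult S401_430_512_660 (Tr.lf 13431358600 107965256 0) 128 256 128 192 64 128)) = true := by decide +kernel
  have c2 : (go 16 Gd mult S401_430_660_808 (Tr.lf 13431376004 99716039 0) 192 256 128 192 0 128) = true := by decide +kernel
  have c3 : (band (go 16 Gd mult S372_401_216_364 (Tr.lf 12885051464 95373896 0) 128 256 160 192 0 128)
  (band (go 16 Gd mult S372_401_364_512 (Tr.lf 12885051464 95373896 0) 128 256 160 192 0 128)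
  (go 16 Gd mult S401_430_364_512 (Tr.lf 13422970952 99699528 0) 128 256 160 192 0 128))) = true := by decide +kernel
  have c4 : (band (go 16 Gd mult S372_401_364_512 (Tr.lf 12885051464 95242824 0) 128 256 128 160 0 128)
  (band (go 16 Gd mult S372_401_216_364 (Tr.lf 12885043272 95242824 0) 128 256 128 160 0 128)
  (band (go 16 Gd mult S401_430_364_512 (Tr.lf 13431359556 95382344 0) 128 256 128 160 0 128)
  (go 16 Gd mult S401_430_216_364 (Tr.lf 13431359524 103639880 0) 128 256 128 160 0 128)))) = true := by decide +kernel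
  have c5 : (band (go 16 Gd mult S343_372_660_808 (Tr.lf 12894618756 99580871 0) 192 256 128 192 64 128)
  (go 16 Gd mult S372_401_660_808 (Tr.lf 12894618756 99711943 0) 192 256 128 192 64 128)) = true := by decide +kernel
  have c6 : (go 16 Gd mult S401_430_216_364 (Tr.lf 13422970948 99699528 0) 128 256 160 192 0 128) = true := by decide +kernel
  have c7 : (go 16 Gd mult S372_401_660_808 (Tr.lf 17180017796 95246920 0) 192 256 128 192 0 64) = true := by decide +kernel
  have c8 : (band (go 16 Gd mult S372_430_660_808 (Tr.lf 8590099522 108096326 0) 128 192 128 192 0 128)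
  (go 16 Gd mult S343_372_660_808 (Tr.lf 8590074946 104028998 0) 128 192 128 192 0 128)) = true := by decide +kernel
  have c9 : (go 16 Gd mult S372_430_512_660 (Tr.lf 8590017058 103910341 0) 128 192 128 192 0 64) = true := by decide +kernel
  (And.intro (Ok.s0 192 (Ok.lf S343_372_660_808_ok (br c8))
  (Ok.s2 64 (Ok.lf S343_372_660_808_ok (br c0))
  (Ok.lf S343_372_660_808_ok (bl c5))))
  (Ok.s4 512 (Ok.s4 364 (Ok.s3 401 (Ok.s1 160 (Ok.lf S372_401_216_364_ok (bl (br c4)))
  (Ok.lf S372_401_216_364_ok (bl c3)))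
  (Ok.s1 160 (Ok.lf S401_430_216_364_ok (br (br (br c4))))
  (Ok.lf S401_430_216_364_ok c6)))
  (Ok.s1 160 (Ok.s3 401 (Ok.lf S372_401_364_512_ok (bl c4))
  (Ok.lf S401_430_364_512_ok (bl (br (br c4)))))
  (Ok.s3 401 (Ok.lf S372_401_364_512_ok (bl (br c3)))
  (Ok.lf S401_430_364_512_ok (br (br c3))))))
  (Ok.s4 660 (Ok.s2 64 (Ok.s0 192 (Ok.lf S372_430_512_660_ok c9)
  (Ok.lf S372_430_512_660_ok (bl c0)))
  (Ok.s3 401 (Ok.lf S372_401_512_660_ok (bl c1))
  (Ok.lf S401_430_512_660_ok (br c1))))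
  (Ok.s0 192 (Ok.lf S372_430_660_808_ok (bl c8))
  (Ok.s3 401 (Ok.s2 64 (Ok.lf S372_401_660_808_ok c7)
  (Ok.lf S372_401_660_808_ok (br c5)))
  (Ok.lf S401_430_660_808_ok c2))))))

end Vale.Agent.P098.Ck
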