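import Vale.Agent.P098.CkGd
import Vale.Agent.P098.CkOk
import Vale.Agent.P098.Sh.A1
import Vale.Agent.P098.Sh.A2
import Vale.Agent.P098.Sh.A3
import Vale.Agent.P098.Sh.A5

namespace Vale.Agent.P098.Ck

theorem r246 :
    Ok Gd mult 128 256 128 192 128 256 24 82 660 808 ∧
    Ok Gd mult 128 256 128 192 128 256 82 140 216 512 ∧
    Ok Gd mult 128 256 128 192 128 256 82 140 512 660 :=
  have c0 : (band (go 16 Gd mult S24_82_660_808 (Tr.lf 13961955464 99445704 0) 128 256 160 192 192 256)
  (go 16 Gd mult S24_82_660_808 (Tr.lf 13961954376 94981192 0) 128 256 128 160 192 256)) = true := by decide +kernel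
  have c1 : (band (go 16 Gd mult S82_111_216_364 (Tr.lf 13432554632 95251272 0) 128 256 128 192 192 256)
  (go 16 Gd mult S82_111_512_660 (Tr.lf 13432407176 95243208 0) 128 256 128 192 192 256)) = true := by decide +kernel
  have c2 : (band (go 16 Gd mult S111_140_364_512 (Tr.lf 13432555592 99310536 0) 128 256 160 192 128 256)
  (go 16 Gd mult S111_140_512_660 (Tr.lf 13432408136 99310536 0) 128 256 160 192 128 256)) = true := by decide +kernel
  have c3 : (go 16 Gd mult S24_82_660_808 (Tr.lf 13424034952 99572679 0) 128 256 160 192 128 192) = true := by decide +kernel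
  have c4 : (band (go 16 Gd mult S111_140_216_364 (Tr.lf 13432554628 99445576 0) 192 256 128 192 128 192)
  (go 16 Gd mult S111_140_216_364 (Tr.lf 13440943176 95132488 0) 128 256 160 192 192 256)) = true := by decide +kernel
  have c5 : (band (go 16 Gd mult S111_140_364_512 (Tr.lf 13432539208 94984905 0) 128 256 128 160 128 256)
  (band (go 16 Gd mult S82_111_364_512 (Tr.lf 13432408136 90786760 0) 128 256 128 160 128 256)
  (go 16 Gd mult S111_140_512_660 (Tr.lf 13432408132 99179209 0) 128 256 128 160 128 256))) = true := by decide +kernel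
  have c6 : (go 16 Gd mult S82_111_364_512 (Tr.lf 13424019528 95243335 0) 128 256 160 192 128 256) = true := by decide +kernel
  have c7 : (band (go 16 Gd mult S82_111_512_660 (Tr.lf 13432407176 95251272 0) 128 256 128 192 128 192)
  (go 16 Gd mult S82_111_216_364 (Tr.lf 13432406664 95378248 0) 128 256 128 192 128 192)) = true := by decide +kernel
  have c8 : (go 16 Gd mult S111_140_216_364 (Tr.lf 9137570884 103644103 0) 128 256 128 160 192 256) = true := by decide +kernel
  have c9 : (go 16 Gd mult S24_82_660_808 (Tr.lf 13423969348 90913608 0) 128 256 128 160 128 192) = true := by decide +kernel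
  have c10 : (go 16 Gd mult S111_140_216_364 (Tr.lf 9137439298 99716166 0) 128 192 128 192 128 192) = true := by decide +kernel
  (And.intro (Ok.s2 192 (Ok.s1 160 (Ok.lf S24_82_660_808_ok c9)
  (Ok.lf S24_82_660_808_ok c3))
  (Ok.s1 160 (Ok.lf S24_82_660_808_ok (br c0))
  (Ok.lf S24_82_660_808_ok (bl c0))))
  (And.intro (Ok.s4 364 (Ok.s2 192 (Ok.s3 111 (Ok.lf S82_111_216_364_ok (br c7))
  (Ok.s0 192 (Ok.lf S111_140_216_364_ok c10)
  (Ok.lf S111_140_216_364_ok (bl c4))))
  (Ok.s3 111 (Ok.lf S82_111_216_364_ok (bl c1))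
  (Ok.s1 160 (Ok.lf S111_140_216_364_ok c8)
  (Ok.lf S111_140_216_364_ok (br c4)))))
  (Ok.s3 111 (Ok.s1 160 (Ok.lf S82_111_364_512_ok (bl (br c5)))
  (Ok.lf S82_111_364_512_ok c6))
  (Ok.s1 160 (Ok.lf S111_140_364_512_ok (bl c5))
  (Ok.lf S111_140_364_512_ok (bl c2)))))
  (Ok.s3 111 (Ok.s2 192 (Ok.lf S82_111_512_660_ok (bl c7))
  (Ok.lf S82_111_512_660_ok (br c1)))
  (Ok.s1 160 (Ok.lf S111_140_512_660_ok (br (br c5)))
  (Ok.lf S111_140_512_660_ok (br c2))))))

end Vale.Agent.P098.Ck
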