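import Vale.Agent.P098.CkGd
import Vale.Agent.P098.CkOk
import Vale.Agent.P098.Sh.A10
import Vale.Agent.P098.Sh.A19
import Vale.Agent.P098.Sh.A25
import Vale.Agent.P098.Sh.A26
import Vale.Agent.P098.Sh.A27
import Vale.Agent.P098.Sh.A36
import Vale.Agent.P098.Sh.A37
import Vale.Agent.P098.Sh.A38

namespace Vale.Agent.P098.Ck

theorem r248 :
    Ok Gd mult 128 256 128 192 128 256 140 198 512 660 ∧
    Ok Gd mult 128 256 128 192 128 256 140 198 660 808 ∧
    Ok Gd mult 128 256 128 192 128 256 198 256 216 808 :=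
  have c0 : (band (go 16 Gd mult S169_198_660_808 (Tr.lf 9136523400 103779143 0) 128 256 128 192 128 256)
  (go 16 Gd mult S227_256_660_808 (Tr.lf 8598602884 99445447 0) 128 256 128 192 128 256)) = true := by decide +kernel
  have c1 : (go 16 Gd mult S198_227_364_512 (Tr.lf 13439895684 103774921 0) 192 256 128 192 128 256) = true := by decide +kernel
  have c2 : (go 16 Gd mult S227_256_364_512 (Tr.lf 12893571208 95111753 0) 128 256 128 192 128 256) = true := by decide +kernel
  have c3 : (band (go 16 Gd mult S140_169_512_660 (Tr.lf 13431490692 103631688 0) 192 256 128 192 128 256)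
  (band (go 16 Gd mult S140_169_512_660 (Tr.lf 9136522370 103775047 0) 128 192 128 192 128 256)
  (go 16 Gd mult S198_227_364_512 (Tr.lf 8598602818 99576647 0) 128 192 128 192 128 256))) = true := by decide +kernel
  have c4 : (band (go 16 Gd mult S169_198_512_660 (Tr.lf 13439895620 99453768 0) 128 256 160 192 128 256)
  (go 16 Gd mult S198_227_512_660 (Tr.lf 13439895620 99318728 0) 128 256 160 192 128 256)) = true := by decide +kernel
  have c5 : (go 16 Gd mult S198_227_216_364 (Tr.lf 13440156740 99453641 0) 128 256 160 192 192 256) = true := by decide +kernel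
  have c6 : (band (go 16 Gd mult S227_256_216_364 (Tr.lf 13505939588 103901769 0) 128 256 128 192 128 256)
  (go 16 Gd mult S227_256_512_660 (Tr.lf 12893571204 99178953 0) 128 256 128 192 128 256)) = true := by decide +kernel
  have c7 : (go 16 Gd mult S198_227_660_808 (Tr.lf 8598603908 103639751 0) 128 256 128 192 128 256) = true := by decide +kernel
  have c8 : (band (go 16 Gd mult S140_169_660_808 (Tr.lf 13431490628 103639752 0) 128 256 160 192 128 256)
  (band (go 16 Gd mult S140_169_660_808 (Tr.lf 9136522308 103643975 0) 128 256 128 160 128 256)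
  (band (go 16 Gd mult S169_198_512_660 (Tr.lf 8599651364 99576775 0) 128 256 128 160 128 256)
  (band (go 16 Gd mult S198_227_512_660 (Tr.lf 8598602788 99449543 0) 128 256 128 160 128 256)
  (go 16 Gd mult S198_227_216_364 (Tr.lf 8590214178 99699527 0) 128 256 128 160 128 256))))) = true := by decide +kernel
  have c9 : (go 16 Gd mult S198_227_216_364 (Tr.lf 8599651396 103910598 0) 128 256 160 192 128 192) = true := by decide +kernel
  (And.intro (Ok.s3 169 (Ok.s0 192 (Ok.lf S140_169_512_660_ok (bl (br c3)))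
  (Ok.lf S140_169_512_660_ok (bl c3)))
  (Ok.s1 160 (Ok.lf S169_198_512_660_ok (bl (br (br c8))))
  (Ok.lf S169_198_512_660_ok (bl c4))))
  (And.intro (Ok.s3 169 (Ok.s1 160 (Ok.lf S140_169_660_808_ok (bl (br c8)))
  (Ok.lf S140_169_660_808_ok (bl c8)))
  (Ok.lf S169_198_660_808_ok (bl c0)))
  (Ok.s4 512 (Ok.s4 364 (Ok.s3 227 (Ok.s1 160 (Ok.lf S198_227_216_364_ok (br (br (br (br c8)))))
  (Ok.s2 192 (Ok.lf S198_227_216_364_ok c9)
  (Ok.lf S198_227_216_364_ok c5)))
  (Ok.lf S227_256_216_364_ok (bl c6)))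
  (Ok.s3 227 (Ok.s0 192 (Ok.lf S198_227_364_512_ok (br (br c3)))
  (Ok.lf S198_227_364_512_ok c1))
  (Ok.lf S227_256_364_512_ok c2)))
  (Ok.s4 660 (Ok.s3 227 (Ok.s1 160 (Ok.lf S198_227_512_660_ok (bl (br (br (br c8)))))
  (Ok.lf S198_227_512_660_ok (br c4)))
  (Ok.lf S227_256_512_660_ok (br c6)))
  (Ok.s3 227 (Ok.lf S198_227_660_808_ok c7)
  (Ok.lf S227_256_660_808_ok (br c0)))))))

end Vale.Agent.P098.Ck
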