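import Vale.Agent.P098.CkGd
import Vale.Agent.P098.CkOk
import Vale.Agent.P098.Sh.A41
import Vale.Agent.P098.Sh.A42
import Vale.Agent.P098.Sh.A45
import Vale.Agent.P098.Sh.A46
import Vale.Agent.P098.Sh.A47
import Vale.Agent.P098.Sh.A48
import Vale.Agent.P098.Sh.A49
import Vale.Agent.P098.Sh.A51
import Vale.Agent.P098.Sh.A52

namespace Vale.Agent.P098.Ck

theorem r249 :
    Ok Gd mult 128 256 128 192 128 256 256 314 216 512 ∧
    Ok Gd mult 128 256 128 192 128 256 256 314 512 808 ∧
    Ok Gd mult 128 256 128 192 128 256 314 372 216 808 :=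
  have c0 : (band (go 16 Gd mult S314_343_216_364 (Tr.lf 12894619784 95242953 0) 128 256 128 192 128 256)
  (go 16 Gd mult S256_285_512_660 (Tr.lf 8598603844 103770823 0) 128 256 128 192 128 256)) = true := by decide +kernel
  have c1 : (band (go 16 Gd mult S256_285_216_364 (Tr.lf 8598603908 99707719 0) 128 256 128 192 128 256)
  (go 16 Gd mult S285_314_216_364 (Tr.lf 8598603908 99711687 0) 128 256 128 192 128 256)) = true := by decide +kernel
  have c2 : (band (go 16 Gd mult S256_285_364_512 (Tr.lf 13505939588 103905737 0) 128 256 128 192 128 256)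
  (go 16 Gd mult S285_314_364_512 (Tr.lf 8598603908 99580615 0) 128 256 128 192 128 256)) = true := by decide +kernel
  have c3 : (band (go 16 Gd mult S256_285_660_808 (Tr.lf 8598603908 103643974 0) 128 256 128 192 128 256)
  (go 16 Gd mult S285_314_660_808 (Tr.lf 8598603908 95386183 0) 128 256 128 192 128 256)) = true := by decide +kernel
  have c4 : (band (go 16 Gd mult S343_372_216_364 (Tr.lf 13431490692 103639625 0) 192 256 128 192 128 256)
  (go 16 Gd mult S343_372_660_808 (Tr.lf 13431490692 103508553 0) 192 256 128 192 128 256)) = true := by decide +kernel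
  have c5 : (band (go 16 Gd mult S314_343_364_512 (Tr.lf 12894619780 95111881 0) 128 256 128 192 128 256)
  (go 16 Gd mult S314_343_512_660 (Tr.lf 8598603908 99576519 0) 128 256 128 192 128 256)) = true := by decide +kernel
  have c6 : (go 16 Gd mult S343_372_364_512 (Tr.lf 13431490692 99445321 0) 192 256 128 192 128 256) = true := by decide +kernel
  have c7 : (band (go 16 Gd mult S314_343_660_808 (Tr.lf 8599652484 99445703 0) 128 256 128 192 128 256)
  (go 16 Gd mult S285_314_512_660 (Tr.lf 8598603844 99445447 0) 128 256 128 192 128 256)) = true := by decide +kernel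
  have c8 : (band (go 16 Gd mult S343_372_512_660 (Tr.lf 13431358600 99445576 0) 128 256 128 192 128 192)
  (go 16 Gd mult S343_372_512_660 (Tr.lf 9136391300 103902151 0) 128 256 128 192 192 256)) = true := by decide +kernel
  have c9 : (band (go 16 Gd mult S343_372_216_364 (Tr.lf 8590074946 95505095 0) 128 192 128 192 128 256)
  (band (go 16 Gd mult S343_372_660_808 (Tr.lf 8590074946 99834439 0) 128 192 128 192 128 256)
  (go 16 Gd mult S343_372_364_512 (Tr.lf 8590074946 103762631 0) 128 192 128 192 128 256))) = true := by decide +kernel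
  (And.intro (Ok.s4 364 (Ok.s3 285 (Ok.lf S256_285_216_364_ok (bl c1))
  (Ok.lf S285_314_216_364_ok (br c1)))
  (Ok.s3 285 (Ok.lf S256_285_364_512_ok (bl c2))
  (Ok.lf S285_314_364_512_ok (br c2))))
  (And.intro (Ok.s4 660 (Ok.s3 285 (Ok.lf S256_285_512_660_ok (br c0))
  (Ok.lf S285_314_512_660_ok (br c7)))
  (Ok.s3 285 (Ok.lf S256_285_660_808_ok (bl c3))
  (Ok.lf S285_314_660_808_ok (br c3))))
  (Ok.s4 512 (Ok.s4 364 (Ok.s3 343 (Ok.lf S314_343_216_364_ok (bl c0))
  (Ok.s0 192 (Ok.lf S343_372_216_364_ok (bl c9))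
  (Ok.lf S343_372_216_364_ok (bl c4))))
  (Ok.s3 343 (Ok.lf S314_343_364_512_ok (bl c5))
  (Ok.s0 192 (Ok.lf S343_372_364_512_ok (br (br c9)))
  (Ok.lf S343_372_364_512_ok c6))))
  (Ok.s4 660 (Ok.s3 343 (Ok.lf S314_343_512_660_ok (br c5))
  (Ok.s2 192 (Ok.lf S343_372_512_660_ok (bl c8))
  (Ok.lf S343_372_512_660_ok (br c8))))
  (Ok.s3 343 (Ok.lf S314_343_660_808_ok (bl c7))
  (Ok.s0 192 (Ok.lf S343_372_660_808_ok (bl (br c9)))
  (Ok.lf S343_372_660_808_ok (br c4))))))))

end Vale.Agent.P098.Ck
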