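import Vale.Agent.P098.CkGd
import Vale.Agent.P098.CkOk
import Vale.Agent.P098.Sh.A49
import Vale.Agent.P098.Sh.A51
import Vale.Agent.P098.Sh.A53
import Vale.Agent.P098.Sh.A54

namespace Vale.Agent.P098.Ck

theorem r25 :
    Ok Gd mult 0 64 0 64 496 512 314 343 660 808 ∧
    Ok Gd mult 64 128 0 64 496 512 314 343 660 808 ∧
    Ok Gd mult 0 128 0 64 448 512 343 372 660 808 ∧
    Ok Gd mult 0 128 0 64 384 448 372 430 216 364 :=
  have c0 : (go 16 Gd mult S357_372_660_808 (Tr.lf 9692547202 103124168 0) 0 32 0 32 480 512) = true := by decide +kernel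
  have c1 : (band (go 16 Gd mult S343_357_660_808 (Tr.lf 9683093634 99056329 0) 0 64 0 16 448 512)
  (go 16 Gd mult S343_357_660_808 (Tr.lf 4851255426 95132870 0) 64 128 0 32 448 512)) = true := by decide +kernel
  have c2 : (band (go 16 Gd mult S357_372_660_808 (Tr.lf 9692530818 107584584 0) 0 32 0 32 448 480)
  (go 16 Gd mult S357_372_660_808 (Tr.lf 5388126338 99453895 0) 64 128 0 32 448 512)) = true := by decide +kernel
  have c3 : (go 16 Gd mult S343_357_660_808 (Tr.lf 9682044996 103385672 0) 0 64 16 32 448 512) = true := by decide +kernel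
  have c4 : (go 16 Gd mult S343_357_660_808 (Tr.lf 9144912004 94862024 3744689111228634628221) 0 128 32 64 448 512) = true := by decide +kernel
  have c5 : (go 16 Gd mult S314_343_660_808 (Tr.lf 4850221442 99326791 0) 0 64 0 32 496 504) = true := by decide +kernel
  have c6 : (go 16 Gd mult S357_372_660_808 (Tr.lf 4850993281 99454150 26581758274481059528751) 0 32 32 64 448 512) = true := by decide +kernel
  have c7 : (go 16 Gd mult S372_430_216_364 (Tr.lf 1228047490 99851463 0) 0 128 0 64 384 448) = true := by decide +kernel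
  have c8 : (band (go 16 Gd mult S314_343_660_808 (Tr.lf 4849959298 99326791 314320713099803585423605760) 0 64 0 32 504 512)
  (go 16 Gd mult S314_343_660_808 (Tr.lf 9681797444 99326791 429643116220769166688256) 0 64 48 64 504 512)) = true := by decide +kernel
  have c9 : (band (go 16 Gd mult S357_372_660_808 (Tr.lf 4850985089 107846726 0) 32 64 0 32 448 512)
  (band (go 16 Gd mult S357_372_660_808 (Tr.lf 547629121 103783621 165762442246354030821376) 64 128 32 64 448 512)
  (go 16 Gd mult S357_372_660_808 (Tr.lf 547629121 103783621 80833632555055661973504) 32 64 32 64 448 512))) = true := by decide +kernel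
  have c10 : (band (go 16 Gd mult S314_343_660_808 (Tr.lf 9144910466 95124423 459065673018335901515776) 64 128 32 64 496 512)
  (band (go 16 Gd mult S314_343_660_808 (Tr.lf 4849942914 103783366 0) 0 64 32 64 496 504)
  (band (go 16 Gd mult S314_343_660_808 (Tr.lf 9144910146 99326791 30326447257178502856704) 0 64 32 48 504 512)
  (go 16 Gd mult S314_343_660_808 (Tr.lf 546587201 103783493 129355062698765321693560832) 64 128 0 32 496 512)))) = true := by decide +kernel
  (And.intro (Ok.s2 504 (Ok.s1 32 (Ok.lf S314_343_660_808_ok c5)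
  (Ok.lf S314_343_660_808_ok (bl (br c10))))
  (Ok.s1 32 (Ok.lf S314_343_660_808_ok (bl c8))
  (Ok.s1 48 (Ok.lf S314_343_660_808_ok (bl (br (br c10))))
  (Ok.lf S314_343_660_808_ok (br c8)))))
  (And.intro (Ok.s1 32 (Ok.lf S314_343_660_808_ok (br (br (br c10))))
  (Ok.lf S314_343_660_808_ok (bl c10)))
  (And.intro (Ok.s3 357 (Ok.s1 32 (Ok.s0 64 (Ok.s1 16 (Ok.lf S343_357_660_808_ok (bl c1))
  (Ok.lf S343_357_660_808_ok c3))
  (Ok.lf S343_357_660_808_ok (br c1)))
  (Ok.lf S343_357_660_808_ok c4))
  (Ok.s0 64 (Ok.s0 32 (Ok.s1 32 (Ok.s2 480 (Ok.lf S357_372_660_808_ok (bl c2))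
  (Ok.lf S357_372_660_808_ok c0))
  (Ok.lf S357_372_660_808_ok c6))
  (Ok.s1 32 (Ok.lf S357_372_660_808_ok (bl c9))
  (Ok.lf S357_372_660_808_ok (br (br c9)))))
  (Ok.s1 32 (Ok.lf S357_372_660_808_ok (br c2))
  (Ok.lf S357_372_660_808_ok (bl (br c9))))))
  (Ok.lf S372_430_216_364_ok c7))))

end Vale.Agent.P098.Ck
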