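import Vale.Agent.P098.CkGd
import Vale.Agent.P098.CkOk
import Vale.Agent.P098.Sh.A2
import Vale.Agent.P098.Sh.A3
import Vale.Agent.P098.Sh.A5
import Vale.Agent.P098.Sh.A6

namespace Vale.Agent.P098.Ck

theorem r253 :
    Ok Gd mult 128 256 128 192 256 384 111 140 216 364 ∧
    Ok Gd mult 128 256 128 192 256 384 82 140 364 512 ∧
    Ok Gd mult 128 256 128 192 256 384 82 140 512 660 ∧
    Ok Gd mult 128 256 128 192 256 320 82 140 660 808 :=
  have c0 : (go 16 Gd mult S82_111_364_512 (Tr.lf 13969295496 107568072 0) 128 256 128 192 320 384) = true := by decide +kernel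
  have c1 : (go 16 Gd mult S82_111_512_660 (Tr.lf 13969295496 99310536 0) 128 256 128 192 320 384) = true := by decide +kernel
  have c2 : (band (go 16 Gd mult S111_140_216_364 (Tr.lf 13977815112 99318473 0) 128 256 128 160 320 384)
  (go 16 Gd mult S111_140_512_660 (Tr.lf 13969409096 99052233 0) 128 256 128 160 320 384)) = true := by decide +kernel
  have c3 : (go 16 Gd mult S111_140_512_660 (Tr.lf 13969425544 99183305 0) 128 256 128 192 256 320) = true := by decide +kernel
  have c4 : (go 16 Gd mult S111_140_660_808 (Tr.lf 13432554632 99052233 0) 128 256 128 192 256 320) = true := by decide +kernel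
  have c5 : (band (go 16 Gd mult S82_111_364_512 (Tr.lf 13969294472 95374280 0) 128 256 128 192 256 320)
  (go 16 Gd mult S82_111_512_660 (Tr.lf 13969294472 99310536 0) 128 256 128 192 256 320)) = true := by decide +kernel
  have c6 : (band (go 16 Gd mult S111_140_364_512 (Tr.lf 13977684040 99060425 0) 128 256 128 160 320 384)
  (band (go 16 Gd mult S111_140_364_512 (Tr.lf 13977683016 103644104 0) 128 256 160 192 320 384)
  (go 16 Gd mult S111_140_512_660 (Tr.lf 13969409096 103635912 0) 128 256 160 192 320 384))) = true := by decide +kernel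
  have c7 : (band (go 16 Gd mult S111_140_216_364 (Tr.lf 13977814148 99449800 0) 192 256 128 192 256 320)
  (go 16 Gd mult S111_140_364_512 (Tr.lf 13977814148 99449800 0) 192 256 128 192 256 320)) = true := by decide +kernel
  have c8 : (go 16 Gd mult S111_140_216_364 (Tr.lf 13970474056 103636168 0) 128 256 160 192 320 384) = true := by decide +kernel
  have c9 : (band (go 16 Gd mult S111_140_216_364 (Tr.lf 9137570948 99580871 0) 128 192 128 192 256 320)
  (go 16 Gd mult S111_140_364_512 (Tr.lf 9137439876 103775175 0) 128 192 128 192 256 320)) = true := by decide +kernel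
  have c10 : (band (go 16 Gd mult S82_111_660_808 (Tr.lf 13969278024 94854088 0) 128 256 128 160 256 320)
  (go 16 Gd mult S82_111_660_808 (Tr.lf 13969278020 99576903 0) 128 256 160 192 256 320)) = true := by decide +kernel
  (And.intro (Ok.s2 320 (Ok.s0 192 (Ok.lf S111_140_216_364_ok (bl c9))
  (Ok.lf S111_140_216_364_ok (bl c7)))
  (Ok.s1 160 (Ok.lf S111_140_216_364_ok (bl c2))
  (Ok.lf S111_140_216_364_ok c8)))
  (And.intro (Ok.s2 320 (Ok.s3 111 (Ok.lf S82_111_364_512_ok (bl c5))
  (Ok.s0 192 (Ok.lf S111_140_364_512_ok (br c9))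
  (Ok.lf S111_140_364_512_ok (br c7))))
  (Ok.s3 111 (Ok.lf S82_111_364_512_ok c0)
  (Ok.s1 160 (Ok.lf S111_140_364_512_ok (bl c6))
  (Ok.lf S111_140_364_512_ok (bl (br c6))))))
  (And.intro (Ok.s2 320 (Ok.s3 111 (Ok.lf S82_111_512_660_ok (br c5))
  (Ok.lf S111_140_512_660_ok c3))
  (Ok.s3 111 (Ok.lf S82_111_512_660_ok c1)
  (Ok.s1 160 (Ok.lf S111_140_512_660_ok (br c2))
  (Ok.lf S111_140_512_660_ok (br (br c6))))))
  (Ok.s3 111 (Ok.s1 160 (Ok.lf S82_111_660_808_ok (bl c10))
  (Ok.lf S82_111_660_808_ok (br c10)))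
  (Ok.lf S111_140_660_808_ok c4)))))

end Vale.Agent.P098.Ck
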