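import Vale.Agent.P098.CkGd
import Vale.Agent.P098.CkOk
import Vale.Agent.P098.Sh.A10
import Vale.Agent.P098.Sh.A15
import Vale.Agent.P098.Sh.A18
import Vale.Agent.P098.Sh.A21
import Vale.Agent.P098.Sh.A9

namespace Vale.Agent.P098.Ck

theorem r255 :
    Ok Gd mult 128 256 128 192 256 384 140 169 364 512 ∧
    Ok Gd mult 128 256 128 192 256 384 169 198 364 512 ∧
    Ok Gd mult 128 256 128 192 256 384 140 169 512 660 :=
  have c0 : (band (go 16 Gd mult S140_169_364_512 (Tr.lf 13440944200 90798921 0) 128 256 128 160 320 384)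
  (go 16 Gd mult S140_169_364_512 (Tr.lf 9145975876 103652423 0) 128 256 128 160 256 320)) = true := by decide +kernel
  have c1 : (band (go 16 Gd mult S140_169_364_512 (Tr.lf 13440944200 95251528 0) 128 256 160 192 320 384)
  (go 16 Gd mult S140_169_364_512 (Tr.lf 13440943172 103382088 0) 128 256 160 192 256 320)) = true := by decide +kernel
  have c2 : (go 16 Gd mult S183_198_364_512 (Tr.lf 13449578568 99191753 0) 128 256 128 160 320 384) = true := by decide +kernel
  have c3 : (band (go 16 Gd mult S183_198_364_512 (Tr.lf 13986449540 99322825 0) 128 192 160 192 320 384)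
  (go 16 Gd mult S169_183_364_512 (Tr.lf 13440918596 99318856 0) 128 192 160 192 320 384)) = true := by decide +kernel
  have c4 : (band (go 16 Gd mult S183_198_364_512 (Tr.lf 13986449540 99322825 0) 192 256 160 192 320 384)
  (go 16 Gd mult S169_183_364_512 (Tr.lf 13440927812 95124552 0) 192 256 160 192 320 384)) = true := by decide +kernel
  have c5 : (band (go 16 Gd mult S140_169_512_660 (Tr.lf 13440944200 99056457 0) 128 256 128 160 320 384)
  (go 16 Gd mult S140_169_512_660 (Tr.lf 13440943172 99187784 0) 128 256 160 192 256 320)) = true := by decide +kernel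
  have c6 : (go 16 Gd mult S140_169_512_660 (Tr.lf 13440944200 99322824 0) 128 256 160 192 320 384) = true := by decide +kernel
  have c7 : (go 16 Gd mult S183_198_364_512 (Tr.lf 13986449476 95382601 0) 192 256 160 192 256 320) = true := by decide +kernel
  have c8 : (band (go 16 Gd mult S169_183_364_512 (Tr.lf 13449316424 94866377 0) 128 256 128 160 320 384)
  (go 16 Gd mult S169_183_364_512 (Tr.lf 13440926792 103386184 0) 128 256 160 192 256 320)) = true := by decide +kernel
  have c9 : (band (go 16 Gd mult S169_198_364_512 (Tr.lf 9145959492 99458247 0) 128 256 128 160 256 320)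
  (go 16 Gd mult S140_169_512_660 (Tr.lf 9145959492 103652423 0) 128 256 128 160 256 320)) = true := by decide +kernel
  have c10 : (go 16 Gd mult S183_198_364_512 (Tr.lf 9144902722 103910343 0) 128 192 160 192 256 320) = true := by decide +kernel
  (And.intro (Ok.s2 320 (Ok.s1 160 (Ok.lf S140_169_364_512_ok (br c0))
  (Ok.lf S140_169_364_512_ok (br c1)))
  (Ok.s1 160 (Ok.lf S140_169_364_512_ok (bl c0))
  (Ok.lf S140_169_364_512_ok (bl c1))))
  (And.intro (Ok.s2 320 (Ok.s1 160 (Ok.lf S169_198_364_512_ok (bl c9))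
  (Ok.s3 183 (Ok.lf S169_183_364_512_ok (br c8))
  (Ok.s0 192 (Ok.lf S183_198_364_512_ok c10)
  (Ok.lf S183_198_364_512_ok c7))))
  (Ok.s1 160 (Ok.s3 183 (Ok.lf S169_183_364_512_ok (bl c8))
  (Ok.lf S183_198_364_512_ok c2))
  (Ok.s3 183 (Ok.s0 192 (Ok.lf S169_183_364_512_ok (br c3))
  (Ok.lf S169_183_364_512_ok (br c4)))
  (Ok.s0 192 (Ok.lf S183_198_364_512_ok (bl c3))
  (Ok.lf S183_198_364_512_ok (bl c4))))))
  (Ok.s2 320 (Ok.s1 160 (Ok.lf S140_169_512_660_ok (br c9))
  (Ok.lf S140_169_512_660_ok (br c5)))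
  (Ok.s1 160 (Ok.lf S140_169_512_660_ok (bl c5))
  (Ok.lf S140_169_512_660_ok c6)))))

end Vale.Agent.P098.Ck
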