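import Vale.Agent.P098.CkGd
import Vale.Agent.P098.CkOk
import Vale.Agent.P098.Sh.A24
import Vale.Agent.P098.Sh.A25
import Vale.Agent.P098.Sh.A27
import Vale.Agent.P098.Sh.A32
import Vale.Agent.P098.Sh.A33
import Vale.Agent.P098.Sh.A37
import Vale.Agent.P098.Sh.A38
import Vale.Agent.P098.Sh.A41
import Vale.Agent.P098.Sh.A42
import Vale.Agent.P098.Sh.A44
import Vale.Agent.P098.Sh.A45
import Vale.Agent.P098.Sh.A46

namespace Vale.Agent.P098.Ck

theorem r259 :
    Ok Gd mult 128 256 160 192 256 384 198 227 512 660 ∧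
    Ok Gd mult 128 256 128 192 256 384 227 256 512 660 ∧
    Ok Gd mult 128 256 128 192 256 384 198 256 660 808 ∧
    Ok Gd mult 128 256 128 192 256 384 256 314 216 808 :=
  have c0 : (go 16 Gd mult S198_212_512_660 (Tr.lf 13978060872 99322952 0) 128 256 160 192 320 384) = true := by decide +kernel
  have c1 : (band (go 16 Gd mult S256_314_512_660 (Tr.lf 8598620292 103766727 0) 128 256 128 192 256 384)
  (go 16 Gd mult S256_285_216_364 (Tr.lf 8598603844 95251271 0) 128 256 128 192 256 384)) = true := by decide +kernel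
  have c2 : (band (go 16 Gd mult S198_212_660_808 (Tr.lf 13440133192 99191624 0) 128 256 160 192 256 384)
  (band (go 16 Gd mult S227_256_512_660 (Tr.lf 9143863364 103910087 0) 128 256 160 192 256 384)
  (go 16 Gd mult S212_227_660_808 (Tr.lf 9136515140 107842630 0) 128 256 160 192 256 384))) = true := by decide +kernel
  have c3 : (go 16 Gd mult S198_227_512_660 (Tr.lf 13441205316 103517256 0) 192 256 160 192 256 320) = true := by decide +kernel
  have c4 : (go 16 Gd mult S212_227_512_660 (Tr.lf 13440140360 95120328 0) 128 256 160 192 320 384) = true := by decide +kernel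
  have c5 : (band (go 16 Gd mult S198_227_660_808 (Tr.lf 9136523332 99445703 0) 128 256 128 160 256 384)
  (band (go 16 Gd mult S227_256_512_660 (Tr.lf 4303627300 104041413 0) 128 256 128 160 256 384)
  (go 16 Gd mult S227_256_660_808 (Tr.lf 4303496226 108100549 0) 128 256 128 160 256 384))) = true := by decide +kernel
  have c6 : (band (go 16 Gd mult S256_285_364_512 (Tr.lf 8598595652 95386311 0) 128 256 128 192 256 384)
  (band (go 16 Gd mult S285_314_216_364 (Tr.lf 4303627332 108108741 0) 128 256 128 192 256 384)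
  (band (go 16 Gd mult S285_314_364_512 (Tr.lf 4303627332 108235717 0) 128 256 128 192 256 384)
  (band (go 16 Gd mult S285_314_660_808 (Tr.lf 4303635522 108100549 0) 128 256 128 192 256 384)
  (go 16 Gd mult S256_285_660_808 (Tr.lf 8598463556 99310279 0) 128 256 128 192 256 384))))) = true := by decide +kernel
  have c7 : (go 16 Gd mult S227_256_660_808 (Tr.lf 8598602788 103775046 0) 128 256 160 192 256 384) = true := by decide +kernel
  have c8 : (go 16 Gd mult S198_227_512_660 (Tr.lf 9136521794 103902406 0) 128 192 160 192 256 320) = true := by decide +kernel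
  (And.intro (Ok.s2 320 (Ok.s0 192 (Ok.lf S198_227_512_660_ok c8)
  (Ok.lf S198_227_512_660_ok c3))
  (Ok.s3 212 (Ok.lf S198_212_512_660_ok c0)
  (Ok.lf S212_227_512_660_ok c4)))
  (And.intro (Ok.s1 160 (Ok.lf S227_256_512_660_ok (bl (br c5)))
  (Ok.lf S227_256_512_660_ok (bl (br c2))))
  (And.intro (Ok.s1 160 (Ok.s3 227 (Ok.lf S198_227_660_808_ok (bl c5))
  (Ok.lf S227_256_660_808_ok (br (br c5))))
  (Ok.s3 227 (Ok.s3 212 (Ok.lf S198_212_660_808_ok (bl c2))
  (Ok.lf S212_227_660_808_ok (br (br c2))))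
  (Ok.lf S227_256_660_808_ok c7)))
  (Ok.s4 512 (Ok.s4 364 (Ok.s3 285 (Ok.lf S256_285_216_364_ok (br c1))
  (Ok.lf S285_314_216_364_ok (bl (br c6))))
  (Ok.s3 285 (Ok.lf S256_285_364_512_ok (bl c6))
  (Ok.lf S285_314_364_512_ok (bl (br (br c6))))))
  (Ok.s4 660 (Ok.lf S256_314_512_660_ok (bl c1))
  (Ok.s3 285 (Ok.lf S256_285_660_808_ok (br (br (br (br c6)))))
  (Ok.lf S285_314_660_808_ok (bl (br (br (br c6)))))))))))

end Vale.Agent.P098.Ck
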