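import Vale.Agent.P098.CkGd
import Vale.Agent.P098.CkOk
import Vale.Agent.P098.Sh.A53
import Vale.Agent.P098.Sh.A54
import Vale.Agent.P098.Sh.A55
import Vale.Agent.P098.Sh.A56
import Vale.Agent.P098.Sh.A57

namespace Vale.Agent.P098.Ck

theorem r26 :
    Ok Gd mult 0 128 0 64 448 512 372 430 216 364 ∧
    Ok Gd mult 0 128 0 64 384 512 372 430 364 512 ∧
    Ok Gd mult 0 128 0 64 384 448 372 430 512 660 ∧
    Ok Gd mult 0 128 0 32 448 512 372 430 512 586 :=
  have c0 : (go 16 Gd mult S372_401_364_512 (Tr.lf 1085573252 95251655 378250487232616946728960) 0 128 32 64 480 512) = true := by decide +kernel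
  have c1 : (go 16 Gd mult S401_430_364_512 (Tr.lf 1152682116 95644998 791309980547532296552448) 0 128 32 64 480 512) = true := by decide +kernel
  have c2 : (band (go 16 Gd mult S372_401_364_512 (Tr.lf 1161070722 91196615 0) 0 128 0 32 480 512)
  (go 16 Gd mult S401_430_364_512 (Tr.lf 1152533570 99708230 0) 0 128 0 32 480 512)) = true := by decide +kernel
  have c3 : (band (go 16 Gd mult S372_430_512_660 (Tr.lf 4850878594 103652422 0) 0 128 0 32 384 448)
  (go 16 Gd mult S372_430_512_660 (Tr.lf 1160938018 95653063 0) 0 128 32 64 384 448)) = true := by decide +kernel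
  have c4 : (band (go 16 Gd mult S372_386_216_364 (Tr.lf 614738052 112561349 0) 0 128 0 64 448 512)
  (band (go 16 Gd mult S386_401_216_364 (Tr.lf 615655554 112438087 0) 0 128 0 64 448 512)
  (go 16 Gd mult S401_415_216_364 (Tr.lf 1152526466 103906375 0) 0 128 0 64 448 512))) = true := by decide +kernel
  have c5 : (band (go 16 Gd mult S372_430_364_512 (Tr.lf 547521668 107977925 0) 0 128 0 64 384 448)
  (go 16 Gd mult S372_430_364_512 (Tr.lf 1160938562 99716295 0) 0 128 32 64 448 480)) = true := by decide +kernel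
  have c6 : (band (go 16 Gd mult S372_386_512_586 (Tr.lf 9682700420 103381832 0) 0 128 0 32 448 512)
  (band (go 16 Gd mult S401_430_512_586 (Tr.lf 1152485506 99580999 0) 0 128 0 32 448 512)
  (go 16 Gd mult S386_401_512_586 (Tr.lf 1160857730 95525959 0) 0 128 0 32 448 512))) = true := by decide +kernel
  have c7 : (band (go 16 Gd mult S372_401_364_512 (Tr.lf 5387732098 103517127 0) 0 128 0 32 448 480)
  (go 16 Gd mult S401_430_364_512 (Tr.lf 547430978 107977797 0) 0 128 0 32 448 480)) = true := by decide +kernel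
  have c8 : (go 16 Gd mult S415_430_216_364 (Tr.lf 1152525442 95521990 618408648327039008374784) 0 128 0 64 480 512) = true := by decide +kernel
  have c9 : (go 16 Gd mult S415_430_216_364 (Tr.lf 1160843841 99847239 0) 0 128 0 64 448 480) = true := by decide +kernel
  (And.intro (Ok.s3 401 (Ok.s3 386 (Ok.lf S372_386_216_364_ok (bl c4))
  (Ok.lf S386_401_216_364_ok (bl (br c4))))
  (Ok.s3 415 (Ok.lf S401_415_216_364_ok (br (br c4)))
  (Ok.s2 480 (Ok.lf S415_430_216_364_ok c9)
  (Ok.lf S415_430_216_364_ok c8))))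
  (And.intro (Ok.s2 448 (Ok.lf S372_430_364_512_ok (bl c5))
  (Ok.s2 480 (Ok.s1 32 (Ok.s3 401 (Ok.lf S372_401_364_512_ok (bl c7))
  (Ok.lf S401_430_364_512_ok (br c7)))
  (Ok.lf S372_430_364_512_ok (br c5)))
  (Ok.s3 401 (Ok.s1 32 (Ok.lf S372_401_364_512_ok (bl c2))
  (Ok.lf S372_401_364_512_ok c0))
  (Ok.s1 32 (Ok.lf S401_430_364_512_ok (br c2))
  (Ok.lf S401_430_364_512_ok c1)))))
  (And.intro (Ok.s1 32 (Ok.lf S372_430_512_660_ok (bl c3))
  (Ok.lf S372_430_512_660_ok (br c3)))
  (Ok.s3 401 (Ok.s3 386 (Ok.lf S372_386_512_586_ok (bl c6))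
  (Ok.lf S386_401_512_586_ok (br (br c6))))
  (Ok.lf S401_430_512_586_ok (bl (br c6)))))))

end Vale.Agent.P098.Ck
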