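import Vale.Agent.P098.CkGd
import Vale.Agent.P098.CkOk
import Vale.Agent.P098.Sh.A47
import Vale.Agent.P098.Sh.A48
import Vale.Agent.P098.Sh.A49
import Vale.Agent.P098.Sh.A51
import Vale.Agent.P098.Sh.A52
import Vale.Agent.P098.Sh.A54
import Vale.Agent.P098.Sh.A56

namespace Vale.Agent.P098.Ck

theorem r260 :
    Ok Gd mult 128 256 128 192 256 384 314 372 216 512 ∧
    Ok Gd mult 128 256 128 192 256 384 314 372 512 808 ∧
    Ok Gd mult 128 256 128 192 256 384 372 430 216 512 :=
  have c0 : (band (go 16 Gd mult S401_430_216_364 (Tr.lf 13970344008 95120202 0) 128 256 160 192 320 384)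
  (go 16 Gd mult S401_430_364_512 (Tr.lf 13970344008 95120202 0) 128 256 160 192 320 384)) = true := by decide +kernel
  have c1 : (band (go 16 Gd mult S401_430_364_512 (Tr.lf 13970343048 99445578 0) 128 256 160 192 256 320)
  (go 16 Gd mult S401_430_216_364 (Tr.lf 13970474056 99445578 0) 128 256 160 192 256 320)) = true := by decide +kernel
  have c2 : (band (go 16 Gd mult S343_372_216_364 (Tr.lf 9136523396 95513288 0) 128 256 128 192 256 384)
  (band (go 16 Gd mult S343_372_660_808 (Tr.lf 9136523396 103770824 0) 128 256 128 192 256 384)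
  (go 16 Gd mult S314_343_512_660 (Tr.lf 4304554052 108104646 0) 128 256 128 192 256 384))) = true := by decide +kernel
  have c3 : (band (go 16 Gd mult S372_401_216_364 (Tr.lf 9137570952 99707848 0) 128 256 128 192 256 320)
  (go 16 Gd mult S372_401_364_512 (Tr.lf 9137570952 99707848 0) 128 256 128 192 256 320)) = true := by decide +kernel
  have c4 : (band (go 16 Gd mult S343_372_364_512 (Tr.lf 9136392324 95513288 0) 128 256 128 192 256 384)
  (band (go 16 Gd mult S343_372_512_660 (Tr.lf 9136392324 103770824 0) 128 256 128 192 256 384)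
  (band (go 16 Gd mult S314_343_216_364 (Tr.lf 8599651396 99576520 0) 128 256 128 192 256 384)
  (go 16 Gd mult S314_343_660_808 (Tr.lf 4304684100 103910597 0) 128 256 128 192 256 384)))) = true := by decide +kernel
  have c5 : (band (go 16 Gd mult S372_401_364_512 (Tr.lf 9137439880 99576776 0) 128 256 128 192 320 384)
  (go 16 Gd mult S372_401_216_364 (Tr.lf 9137570948 99576776 0) 128 256 128 192 320 384)) = true := by decide +kernel
  have c6 : (go 16 Gd mult S314_343_364_512 (Tr.lf 8599520324 95382216 0) 128 256 128 192 256 384) = true := by decide +kernel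
  have c7 : (band (go 16 Gd mult S401_430_364_512 (Tr.lf 9675293764 99445705 0) 128 256 128 160 320 384)
  (band (go 16 Gd mult S401_430_216_364 (Tr.lf 9675358788 99445705 0) 128 256 128 160 320 384)
  (band (go 16 Gd mult S401_430_216_364 (Tr.lf 9137439300 95382472 0) 128 256 128 160 256 320)
  (go 16 Gd mult S401_430_364_512 (Tr.lf 9137439300 95382472 0) 128 256 128 160 256 320)))) = true := by decide +kernel
  (And.intro (Ok.s4 364 (Ok.s3 343 (Ok.lf S314_343_216_364_ok (bl (br (br c4))))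
  (Ok.lf S343_372_216_364_ok (bl c2)))
  (Ok.s3 343 (Ok.lf S314_343_364_512_ok c6)
  (Ok.lf S343_372_364_512_ok (bl c4))))
  (And.intro (Ok.s4 660 (Ok.s3 343 (Ok.lf S314_343_512_660_ok (br (br c2)))
  (Ok.lf S343_372_512_660_ok (bl (br c4))))
  (Ok.s3 343 (Ok.lf S314_343_660_808_ok (br (br (br c4))))
  (Ok.lf S343_372_660_808_ok (bl (br c2)))))
  (Ok.s4 364 (Ok.s2 320 (Ok.s3 401 (Ok.lf S372_401_216_364_ok (bl c3))
  (Ok.s1 160 (Ok.lf S401_430_216_364_ok (bl (br (br c7))))
  (Ok.lf S401_430_216_364_ok (br c1))))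
  (Ok.s3 401 (Ok.lf S372_401_216_364_ok (br c5))
  (Ok.s1 160 (Ok.lf S401_430_216_364_ok (bl (br c7)))
  (Ok.lf S401_430_216_364_ok (bl c0)))))
  (Ok.s2 320 (Ok.s3 401 (Ok.lf S372_401_364_512_ok (br c3))
  (Ok.s1 160 (Ok.lf S401_430_364_512_ok (br (br (br c7))))
  (Ok.lf S401_430_364_512_ok (bl c1))))
  (Ok.s3 401 (Ok.lf S372_401_364_512_ok (bl c5))
  (Ok.s1 160 (Ok.lf S401_430_364_512_ok (bl c7))
  (Ok.lf S401_430_364_512_ok (br c0))))))))

end Vale.Agent.P098.Ck
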