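import Vale.Agent.P098.CkGd
import Vale.Agent.P098.CkOk
import Vale.Agent.P098.Sh.A0
import Vale.Agent.P098.Sh.A58
import Vale.Agent.P098.Sh.A59

namespace Vale.Agent.P098.Ck

theorem r262 :
    Ok Gd mult 128 256 128 192 256 384 430 488 364 512 ∧
    Ok Gd mult 128 256 128 192 256 384 430 488 512 808 ∧
    Ok Gd mult 128 256 128 192 384 512 24 82 216 512 :=
  have c0 : (go 16 Gd mult S430_488_512_660 (Tr.lf 9675376776 91061193 0) 128 256 128 160 256 384) = true := by decide +kernel
  have c1 : (go 16 Gd mult S430_488_660_808 (Tr.lf 9675376776 91061193 0) 128 256 128 160 256 384) = true := by decide +kernel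
  have c2 : (band (go 16 Gd mult S24_82_216_364 (Tr.lf 9129003144 103636166 0) 128 256 128 192 384 448)
  (go 16 Gd mult S24_82_364_512 (Tr.lf 9129003144 103636166 0) 128 256 128 192 384 448)) = true := by decide +kernel
  have c3 : (band (go 16 Gd mult S430_488_364_512 (Tr.lf 13961955460 95243337 0) 192 256 160 192 256 320)
  (go 16 Gd mult S430_488_364_512 (Tr.lf 13961955460 86723402 0) 192 256 160 192 320 384)) = true := by decide +kernel
  have c4 : (band (go 16 Gd mult S430_459_512_660 (Tr.lf 13970343048 86993738 0) 128 256 160 192 256 320)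
  (band (go 16 Gd mult S430_459_660_808 (Tr.lf 13970343048 95251274 0) 128 256 160 192 256 320)
  (go 16 Gd mult S459_488_512_660 (Tr.lf 13961872456 91048778 0) 128 256 160 192 256 320))) = true := by decide +kernel
  have c5 : (band (go 16 Gd mult S430_459_512_660 (Tr.lf 13970327688 86731594 0) 128 256 160 192 320 384)
  (go 16 Gd mult S430_459_660_808 (Tr.lf 13970327688 86731594 0) 128 256 160 192 320 384)) = true := by decide +kernel
  have c6 : (band (go 16 Gd mult S430_488_364_512 (Tr.lf 9666922628 86989769 0) 128 192 128 192 256 384)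
  (band (go 16 Gd mult S430_488_364_512 (Tr.lf 9666921538 95251528 0) 192 256 128 160 320 384)
  (go 16 Gd mult S430_488_364_512 (Tr.lf 9665872450 91053000 0) 192 256 128 160 256 320))) = true := by decide +kernel
  have c7 : (band (go 16 Gd mult S24_82_216_364 (Tr.lf 4842424452 108100933 0) 128 256 128 192 448 512)
  (go 16 Gd mult S24_82_364_512 (Tr.lf 4842424452 108100933 0) 128 256 128 192 448 512)) = true := by decide +kernel
  have c8 : (band (go 16 Gd mult S459_488_512_660 (Tr.lf 13961872520 86723402 0) 128 256 160 192 320 384)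
  (band (go 16 Gd mult S459_488_660_808 (Tr.lf 13961872520 86723402 0) 128 256 160 192 320 384)
  (go 16 Gd mult S459_488_660_808 (Tr.lf 13961872520 95243082 0) 128 256 160 192 256 320))) = true := by decide +kernel
  (And.intro (Ok.s0 192 (Ok.lf S430_488_364_512_ok (bl c6))
  (Ok.s2 320 (Ok.s1 160 (Ok.lf S430_488_364_512_ok (br (br c6)))
  (Ok.lf S430_488_364_512_ok (bl c3)))
  (Ok.s1 160 (Ok.lf S430_488_364_512_ok (bl (br c6)))
  (Ok.lf S430_488_364_512_ok (br c3)))))
  (And.intro (Ok.s4 660 (Ok.s1 160 (Ok.lf S430_488_512_660_ok c0)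
  (Ok.s2 320 (Ok.s3 459 (Ok.lf S430_459_512_660_ok (bl c4))
  (Ok.lf S459_488_512_660_ok (br (br c4))))
  (Ok.s3 459 (Ok.lf S430_459_512_660_ok (bl c5))
  (Ok.lf S459_488_512_660_ok (bl c8)))))
  (Ok.s1 160 (Ok.lf S430_488_660_808_ok c1)
  (Ok.s2 320 (Ok.s3 459 (Ok.lf S430_459_660_808_ok (bl (br c4)))
  (Ok.lf S459_488_660_808_ok (br (br c8))))
  (Ok.s3 459 (Ok.lf S430_459_660_808_ok (br c5))
  (Ok.lf S459_488_660_808_ok (bl (br c8)))))))
  (Ok.s4 364 (Ok.s2 448 (Ok.lf S24_82_216_364_ok (bl c2))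
  (Ok.lf S24_82_216_364_ok (bl c7)))
  (Ok.s2 448 (Ok.lf S24_82_364_512_ok (br c2))
  (Ok.lf S24_82_364_512_ok (br c7))))))

end Vale.Agent.P098.Ck
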