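import Vale.Agent.P098.CkGd
import Vale.Agent.P098.CkOk
import Vale.Agent.P098.Sh.A14
import Vale.Agent.P098.Sh.A20
import Vale.Agent.P098.Sh.A21
import Vale.Agent.P098.Sh.A3
import Vale.Agent.P098.Sh.A5
import Vale.Agent.P098.Sh.A6
import Vale.Agent.P098.Sh.A8

namespace Vale.Agent.P098.Ck

theorem r264 :
    Ok Gd mult 128 256 128 192 448 512 82 140 512 660 ∧
    Ok Gd mult 128 256 128 192 384 512 82 140 660 808 ∧
    Ok Gd mult 128 256 128 192 384 512 140 169 216 364 ∧
    Ok Gd mult 128 256 128 160 384 448 169 198 216 364 ∧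
    Ok Gd mult 128 256 160 192 384 448 169 183 216 364 :=
  have c0 : (go 16 Gd mult S111_140_660_808 (Tr.lf 9137571976 103648454 0) 128 256 128 192 384 448) = true := by decide +kernel
  have c1 : (go 16 Gd mult S169_183_216_364 (Tr.lf 13986449480 99195721 0) 128 256 128 160 384 448) = true := by decide +kernel
  have c2 : (go 16 Gd mult S183_198_216_290 (Tr.lf 13986187400 103517256 0) 128 256 128 160 416 448) = true := by decide +kernel
  have c3 : (go 16 Gd mult S169_183_216_364 (Tr.lf 13441189960 99187784 0) 128 256 160 192 384 448) = true := by decide +kernel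
  have c4 : (band (go 16 Gd mult S82_111_660_808 (Tr.lf 9137440904 99581126 0) 128 256 128 192 384 448)
  (band (go 16 Gd mult S82_111_660_808 (Tr.lf 9137440836 103377991 0) 128 256 128 192 448 512)
  (go 16 Gd mult S111_140_512_660 (Tr.lf 9137440900 99445831 0) 128 256 128 192 448 512))) = true := by decide +kernel
  have c5 : (band (go 16 Gd mult S140_169_216_364 (Tr.lf 13440944196 90795080 0) 192 256 128 160 384 448)
  (go 16 Gd mult S140_169_216_364 (Tr.lf 13440943176 95251528 0) 128 256 160 192 384 416)) = true := by decide +kernel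
  have c6 : (band (go 16 Gd mult S140_169_216_364 (Tr.lf 9145975940 99585095 0) 128 256 128 192 448 480)
  (go 16 Gd mult S140_169_216_364 (Tr.lf 9145975940 99454023 2028577525313347755156963328) 128 256 128 192 480 512)) = true := by decide +kernel
  have c7 : (band (go 16 Gd mult S183_198_216_364 (Tr.lf 13986448516 103390025 0) 192 256 128 160 384 416)
  (go 16 Gd mult S183_198_216_364 (Tr.lf 13441188930 99179465 0) 128 192 128 160 384 416)) = true := by decide +kernel
  have c8 : (go 16 Gd mult S183_198_290_364 (Tr.lf 13986186376 103517256 0) 128 256 128 160 416 448) = true := by decide +kernel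
  have c9 : (go 16 Gd mult S140_169_216_364 (Tr.lf 9145975876 99716422 0) 128 256 160 192 416 448) = true := by decide +kernel
  have c10 : (band (go 16 Gd mult S111_140_660_808 (Tr.lf 9137440836 103509063 0) 128 256 128 192 448 512)
  (go 16 Gd mult S82_111_512_660 (Tr.lf 9137375300 103377991 0) 128 256 128 192 448 512)) = true := by decide +kernel
  have c11 : (go 16 Gd mult S140_169_216_364 (Tr.lf 9145960514 99585095 0) 128 192 128 160 384 448) = true := by decide +kernel
  (And.intro (Ok.s3 111 (Ok.lf S82_111_512_660_ok (br c10))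
  (Ok.lf S111_140_512_660_ok (br (br c4))))
  (And.intro (Ok.s2 448 (Ok.s3 111 (Ok.lf S82_111_660_808_ok (bl c4))
  (Ok.lf S111_140_660_808_ok c0))
  (Ok.s3 111 (Ok.lf S82_111_660_808_ok (bl (br c4)))
  (Ok.lf S111_140_660_808_ok (bl c10))))
  (And.intro (Ok.s2 448 (Ok.s1 160 (Ok.s0 192 (Ok.lf S140_169_216_364_ok c11)
  (Ok.lf S140_169_216_364_ok (bl c5)))
  (Ok.s2 416 (Ok.lf S140_169_216_364_ok (br c5))
  (Ok.lf S140_169_216_364_ok c9)))
  (Ok.s2 480 (Ok.lf S140_169_216_364_ok (bl c6))
  (Ok.lf S140_169_216_364_ok (br c6))))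
  (And.intro (Ok.s3 183 (Ok.lf S169_183_216_364_ok c1)
  (Ok.s2 416 (Ok.s0 192 (Ok.lf S183_198_216_364_ok (br c7))
  (Ok.lf S183_198_216_364_ok (bl c7)))
  (Ok.s4 290 (Ok.lf S183_198_216_290_ok c2)
  (Ok.lf S183_198_290_364_ok c8))))
  (Ok.lf S169_183_216_364_ok c3)))))

end Vale.Agent.P098.Ck
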