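import Vale.Agent.P098.CkGd
import Vale.Agent.P098.CkOk
import Vale.Agent.P098.Sh.A14
import Vale.Agent.P098.Sh.A20
import Vale.Agent.P098.Sh.A21
import Vale.Agent.P098.Sh.A9

namespace Vale.Agent.P098.Ck

theorem r265 :
    Ok Gd mult 128 256 160 192 384 448 183 198 216 364 ∧
    Ok Gd mult 128 256 128 192 448 512 169 198 216 364 ∧
    Ok Gd mult 128 256 128 192 384 448 140 169 364 512 :=
  have c0 : (go 16 Gd mult S183_198_216_290 (Tr.lf 13986187400 111778888 0) 128 256 160 192 416 448) = true := by decide +kernel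
  have c1 : (go 16 Gd mult S183_198_216_290 (Tr.lf 13986187400 103386184 0) 128 256 128 160 448 480) = true := by decide +kernel
  have c2 : (go 16 Gd mult S183_198_290_364 (Tr.lf 13986187400 103386184 0) 128 256 128 160 448 480) = true := by decide +kernel
  have c3 : (band (go 16 Gd mult S183_198_216_364 (Tr.lf 13986449480 103517256 0) 128 256 160 176 448 480)
  (go 16 Gd mult S183_198_216_364 (Tr.lf 13441188418 86600776 0) 192 256 128 160 480 496)) = true := by decide +kernel
  have c4 : (go 16 Gd mult S140_169_364_512 (Tr.lf 13440944200 99314760 0) 128 256 160 192 384 448) = true := by decide +kernel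
  have c5 : (band (go 16 Gd mult S183_198_216_290 (Tr.lf 13986186376 99449801 0) 128 256 160 192 384 416)
  (go 16 Gd mult S183_198_290_364 (Tr.lf 13986186376 95255497 0) 128 256 160 192 384 416)) = true := by decide +kernel
  have c6 : (go 16 Gd mult S183_198_290_364 (Tr.lf 13986186376 107584584 0) 128 256 160 192 416 448) = true := by decide +kernel
  have c7 : (band (go 16 Gd mult S169_183_216_364 (Tr.lf 13986448456 99191880 0) 128 256 128 160 448 480)
  (go 16 Gd mult S169_183_216_364 (Tr.lf 13978059848 99187529 0) 128 256 160 192 448 480)) = true := by decide +kernel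
  have c8 : (go 16 Gd mult S169_183_216_364 (Tr.lf 13978060868 94989129 0) 128 256 128 160 480 512) = true := by decide +kernel
  have c9 : (go 16 Gd mult S183_198_216_364 (Tr.lf 13986448516 99068872 0) 128 192 128 160 480 496) = true := by decide +kernel
  have c10 : (go 16 Gd mult S140_169_364_512 (Tr.lf 13440944196 90795080 0) 192 256 128 160 384 448) = true := by decide +kernel
  have c11 : (go 16 Gd mult S140_169_364_512 (Tr.lf 9145960514 107842886 0) 128 192 128 160 384 448) = true := by decide +kernel
  have c12 : (go 16 Gd mult S183_198_216_364 (Tr.lf 13440926756 90799176 68908771718033862958252032) 128 256 176 192 448 480) = true := by decide +kernel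
  have c13 : (band (go 16 Gd mult S183_198_216_364 (Tr.lf 9144902212 99322695 20683071726919835913855959040) 128 256 128 160 496 512)
  (band (go 16 Gd mult S183_198_216_364 (Tr.lf 9136514082 99445575 3717446895314984712221491200) 128 256 160 192 480 512)
  (go 16 Gd mult S169_183_216_364 (Tr.lf 4841546274 108104773 2883288079780890581674229760) 128 256 160 192 480 512))) = true := by decide +kernel
  (And.intro (Ok.s2 416 (Ok.s4 290 (Ok.lf S183_198_216_290_ok (bl c5))
  (Ok.lf S183_198_290_364_ok (br c5)))
  (Ok.s4 290 (Ok.lf S183_198_216_290_ok c0)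
  (Ok.lf S183_198_290_364_ok c6)))
  (And.intro (Ok.s3 183 (Ok.s2 480 (Ok.s1 160 (Ok.lf S169_183_216_364_ok (bl c7))
  (Ok.lf S169_183_216_364_ok (br c7)))
  (Ok.s1 160 (Ok.lf S169_183_216_364_ok c8)
  (Ok.lf S169_183_216_364_ok (br (br c13)))))
  (Ok.s2 480 (Ok.s1 160 (Ok.s4 290 (Ok.lf S183_198_216_290_ok c1)
  (Ok.lf S183_198_290_364_ok c2))
  (Ok.s1 176 (Ok.lf S183_198_216_364_ok (bl c3))
  (Ok.lf S183_198_216_364_ok c12)))
  (Ok.s1 160 (Ok.s2 496 (Ok.s0 192 (Ok.lf S183_198_216_364_ok c9)
  (Ok.lf S183_198_216_364_ok (br c3)))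
  (Ok.lf S183_198_216_364_ok (bl c13)))
  (Ok.lf S183_198_216_364_ok (bl (br c13))))))
  (Ok.s1 160 (Ok.s0 192 (Ok.lf S140_169_364_512_ok c11)
  (Ok.lf S140_169_364_512_ok c10))
  (Ok.lf S140_169_364_512_ok c4))))

end Vale.Agent.P098.Ck
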