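import Vale.Agent.P098.CkGd
import Vale.Agent.P098.CkOk
import Vale.Agent.P098.Sh.A10
import Vale.Agent.P098.Sh.A15
import Vale.Agent.P098.Sh.A16
import Vale.Agent.P098.Sh.A18
import Vale.Agent.P098.Sh.A19
import Vale.Agent.P098.Sh.A21
import Vale.Agent.P098.Sh.A22
import Vale.Agent.P098.Sh.A9

namespace Vale.Agent.P098.Ck

theorem r267 :
    Ok Gd mult 128 192 160 192 448 512 169 198 364 512 ∧
    Ok Gd mult 192 256 160 192 384 512 169 198 364 512 ∧
    Ok Gd mult 128 256 128 192 384 448 140 198 512 660 ∧
    Ok Gd mult 128 256 128 192 448 512 140 198 512 586 :=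
  have c0 : (go 16 Gd mult S140_169_512_586 (Tr.lf 9145845896 99585095 0) 128 256 128 192 448 512) = true := by decide +kernel
  have c1 : (band (go 16 Gd mult S183_198_364_512 (Tr.lf 13986449540 103513288 0) 192 256 160 192 384 448)
  (go 16 Gd mult S169_183_364_512 (Tr.lf 13449316420 99454024 0) 192 256 160 192 384 448)) = true := by decide +kernel
  have c2 : (go 16 Gd mult S140_169_512_660 (Tr.lf 13440944200 99322824 0) 128 256 160 192 384 448) = true := by decide +kernel
  have c3 : (go 16 Gd mult S169_198_512_660 (Tr.lf 13441205320 103517128 0) 128 256 160 192 416 448) = true := by decide +kernel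
  have c4 : (go 16 Gd mult S169_198_512_586 (Tr.lf 13977814152 103509064 0) 128 256 128 192 448 480) = true := by decide +kernel
  have c5 : (go 16 Gd mult S169_198_512_586 (Tr.lf 9144797316 103648071 1424114615506033167803875328) 128 256 128 192 480 512) = true := by decide +kernel
  have c6 : (band (go 16 Gd mult S169_198_364_512 (Tr.lf 13986203716 99191880 0) 128 192 160 176 448 480)
  (go 16 Gd mult S169_198_364_512 (Tr.lf 13440943172 99314760 0) 192 256 160 192 448 480)) = true := by decide +kernel
  have c7 : (go 16 Gd mult S140_169_512_660 (Tr.lf 13440943176 99183688 0) 128 256 128 160 384 416) = true := by decide +kernel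
  have c8 : (band (go 16 Gd mult S169_198_512_660 (Tr.lf 13986464836 107711560 0) 192 256 128 160 384 416)
  (go 16 Gd mult S169_198_512_660 (Tr.lf 13978076228 95132871 0) 192 256 160 192 384 416)) = true := by decide +kernel
  have c9 : (band (go 16 Gd mult S183_198_512_660 (Tr.lf 13986448456 103517256 0) 128 256 128 160 416 448)
  (band (go 16 Gd mult S140_169_512_660 (Tr.lf 13440926792 90803144 0) 128 256 128 160 416 448)
  (go 16 Gd mult S169_183_512_660 (Tr.lf 13977797704 103377992 0) 128 256 128 160 416 448))) = true := by decide +kernel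
  have c10 : (go 16 Gd mult S169_198_512_660 (Tr.lf 13977814148 103648200 0) 128 192 160 192 384 416) = true := by decide +kernel
  have c11 : (go 16 Gd mult S169_198_512_660 (Tr.lf 13440926276 94993225 0) 128 192 128 160 384 416) = true := by decide +kernel
  have c12 : (band (go 16 Gd mult S169_198_364_512 (Tr.lf 13439878178 94997192 0) 128 192 176 192 448 480)
  (go 16 Gd mult S169_198_364_512 (Tr.lf 9136522274 99314503 2906257670353568535993647104) 128 192 160 192 480 512)) = true := by decide +kernel
  have c13 : (go 16 Gd mult S169_198_364_512 (Tr.lf 4841423393 108104773 3461154621556683327183781888) 192 256 160 192 480 512) = true := by decide +kernel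
  (And.intro (Ok.s2 480 (Ok.s1 176 (Ok.lf S169_198_364_512_ok (bl c6))
  (Ok.lf S169_198_364_512_ok (bl c12)))
  (Ok.lf S169_198_364_512_ok (br c12)))
  (And.intro (Ok.s2 448 (Ok.s3 183 (Ok.lf S169_183_364_512_ok (br c1))
  (Ok.lf S183_198_364_512_ok (bl c1)))
  (Ok.s2 480 (Ok.lf S169_198_364_512_ok (br c6))
  (Ok.lf S169_198_364_512_ok c13)))
  (And.intro (Ok.s3 169 (Ok.s1 160 (Ok.s2 416 (Ok.lf S140_169_512_660_ok c7)
  (Ok.lf S140_169_512_660_ok (bl (br c9))))
  (Ok.lf S140_169_512_660_ok c2))
  (Ok.s1 160 (Ok.s2 416 (Ok.s0 192 (Ok.lf S169_198_512_660_ok c11)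
  (Ok.lf S169_198_512_660_ok (bl c8)))
  (Ok.s3 183 (Ok.lf S169_183_512_660_ok (br (br c9)))
  (Ok.lf S183_198_512_660_ok (bl c9))))
  (Ok.s2 416 (Ok.s0 192 (Ok.lf S169_198_512_660_ok c10)
  (Ok.lf S169_198_512_660_ok (br c8)))
  (Ok.lf S169_198_512_660_ok c3))))
  (Ok.s3 169 (Ok.lf S140_169_512_586_ok c0)
  (Ok.s2 480 (Ok.lf S169_198_512_586_ok c4)
  (Ok.lf S169_198_512_586_ok c5))))))

end Vale.Agent.P098.Ck
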