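import Vale.Agent.P098.CkGd
import Vale.Agent.P098.CkOk
import Vale.Agent.P098.Sh.A23
import Vale.Agent.P098.Sh.A30
import Vale.Agent.P098.Sh.A31

namespace Vale.Agent.P098.Ck

theorem r269 :
    Ok Gd mult 128 256 160 192 384 448 198 227 216 290 ∧
    Ok Gd mult 128 256 160 192 384 448 198 227 290 364 ∧
    Ok Gd mult 128 192 128 192 448 512 198 212 216 364 :=
  have c0 : (go 16 Gd mult S198_212_216_290 (Tr.lf 18281415816 99056458 0) 128 256 160 192 384 416) = true := by decide +kernel
  have c1 : (go 16 Gd mult S212_227_216_290 (Tr.lf 13986448520 91192520 0) 128 256 160 192 384 416) = true := by decide +kernel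
  have c2 : (go 16 Gd mult S198_212_216_290 (Tr.lf 18281154696 103377738 0) 128 256 160 192 416 448) = true := by decide +kernel
  have c3 : (go 16 Gd mult S212_227_216_290 (Tr.lf 13986448520 103513288 0) 128 256 160 192 416 448) = true := by decide +kernel
  have c4 : (go 16 Gd mult S198_212_290_364 (Tr.lf 13986202760 99450056 0) 128 256 160 192 384 416) = true := by decide +kernel
  have c5 : (go 16 Gd mult S212_227_290_364 (Tr.lf 18281170056 99056458 0) 128 256 160 192 384 416) = true := by decide +kernel
  have c6 : (go 16 Gd mult S198_212_290_364 (Tr.lf 13986187400 103513288 0) 128 256 160 192 416 448) = true := by decide +kernel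
  have c7 : (go 16 Gd mult S212_227_290_364 (Tr.lf 13986186376 103513288 0) 128 256 160 192 416 448) = true := by decide +kernel
  have c8 : (band (go 16 Gd mult S198_212_216_290 (Tr.lf 13986187396 99449928 0) 128 192 128 160 448 480)
  (go 16 Gd mult S198_212_290_364 (Tr.lf 13986187396 99449928 0) 128 192 128 160 448 480)) = true := by decide +kernel
  have c9 : (band (go 16 Gd mult S198_212_216_364 (Tr.lf 13986449476 103644232 0) 128 192 160 176 448 480)
  (go 16 Gd mult S198_212_216_364 (Tr.lf 13986448516 107584456 261127977036759901736534016) 128 192 128 160 480 496)) = true := by decide +kernel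
  have c10 : (band (go 16 Gd mult S198_212_216_364 (Tr.lf 13440132130 99191496 816024928239874692926668800) 128 192 176 192 448 480)
  (go 16 Gd mult S198_212_216_364 (Tr.lf 9145164354 103386182 16320778328118117481349906479) 128 192 128 160 496 512)) = true := by decide +kernel
  have c11 : (go 16 Gd mult S198_212_216_364 (Tr.lf 9144902690 103775047 4262672439961182470013976576) 128 192 160 192 480 512) = true := by decide +kernel
  (And.intro (Ok.s2 416 (Ok.s3 212 (Ok.lf S198_212_216_290_ok c0)
  (Ok.lf S212_227_216_290_ok c1))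
  (Ok.s3 212 (Ok.lf S198_212_216_290_ok c2)
  (Ok.lf S212_227_216_290_ok c3)))
  (And.intro (Ok.s2 416 (Ok.s3 212 (Ok.lf S198_212_290_364_ok c4)
  (Ok.lf S212_227_290_364_ok c5))
  (Ok.s3 212 (Ok.lf S198_212_290_364_ok c6)
  (Ok.lf S212_227_290_364_ok c7)))
  (Ok.s2 480 (Ok.s1 160 (Ok.s4 290 (Ok.lf S198_212_216_290_ok (bl c8))
  (Ok.lf S198_212_290_364_ok (br c8)))
  (Ok.s1 176 (Ok.lf S198_212_216_364_ok (bl c9))
  (Ok.lf S198_212_216_364_ok (bl c10))))
  (Ok.s1 160 (Ok.s2 496 (Ok.lf S198_212_216_364_ok (br c9))
  (Ok.lf S198_212_216_364_ok (br c10)))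
  (Ok.lf S198_212_216_364_ok c11)))))

end Vale.Agent.P098.Ck
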