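import Vale.Agent.P098.CkGd
import Vale.Agent.P098.CkOk
import Vale.Agent.P098.Sh.A53
import Vale.Agent.P098.Sh.A54
import Vale.Agent.P098.Sh.A55
import Vale.Agent.P098.Sh.A56
import Vale.Agent.P098.Sh.A57

namespace Vale.Agent.P098.Ck

theorem r27 :
    Ok Gd mult 0 128 0 32 448 512 372 401 586 660 ∧
    Ok Gd mult 0 128 0 32 448 512 401 430 586 660 ∧
    Ok Gd mult 0 128 32 64 448 512 372 430 512 660 ∧
    Ok Gd mult 0 128 0 64 384 448 372 430 660 808 ∧
    Ok Gd mult 0 128 0 64 448 512 372 386 660 808 :=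
  have c0 : (go 16 Gd mult S372_401_586_660 (Tr.lf 5388929156 103644359 13004954574787027402752) 0 64 0 32 480 512) = true := by decide +kernel
  have c1 : (band (go 16 Gd mult S372_401_660_808 (Tr.lf 4851009668 99327174 0) 0 128 0 64 384 448)
  (go 16 Gd mult S401_430_660_808 (Tr.lf 1160856705 103787591 0) 0 128 0 64 384 448)) = true := by decide +kernel
  have c2 : (go 16 Gd mult S372_401_586_660 (Tr.lf 9682716804 103381832 0) 0 128 0 32 448 480) = true := by decide +kernel
  have c3 : (go 16 Gd mult S401_430_586_660 (Tr.lf 547522692 103652421 346503640716994425126912) 0 128 16 32 448 512) = true := by decide +kernel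
  have c4 : (band (go 16 Gd mult S372_386_660_808 (Tr.lf 9692530818 99322952 0) 0 32 0 32 480 512)
  (go 16 Gd mult S372_386_660_808 (Tr.lf 9692530817 99195976 0) 0 32 0 32 448 480)) = true := by decide +kernel
  have c5 : (go 16 Gd mult S372_430_512_660 (Tr.lf 1161069700 99716295 0) 0 128 32 64 448 480) = true := by decide +kernel
  have c6 : (go 16 Gd mult S401_430_512_660 (Tr.lf 5381588100 103509064 898153522317836358254592) 0 128 32 64 496 512) = true := by decide +kernel
  have c7 : (band (go 16 Gd mult S372_386_660_808 (Tr.lf 5387864194 107838407 0) 64 128 0 32 448 512)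
  (band (go 16 Gd mult S372_386_660_808 (Tr.lf 4852041857 99462215 183065488187493590237184) 0 32 32 64 448 512)
  (band (go 16 Gd mult S372_386_660_808 (Tr.lf 5387864193 99322823 0) 32 64 0 32 448 512)
  (go 16 Gd mult S372_386_660_808 (Tr.lf 547637314 103910597 380224288847301277908992) 64 128 32 64 448 512)))) = true := by decide +kernel
  have c8 : (band (go 16 Gd mult S386_401_512_660 (Tr.lf 5388911748 103652423 424127539756980712243200) 0 128 32 64 480 512)
  (go 16 Gd mult S372_386_512_660 (Tr.lf 4852032580 99589191 194299555337393548558336) 0 128 32 64 480 512)) = true := by decide +kernel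
  have c9 : (go 16 Gd mult S401_430_586_660 (Tr.lf 1160857666 95652935 0) 0 128 0 16 448 512) = true := by decide +kernel
  have c10 : (go 16 Gd mult S372_386_660_808 (Tr.lf 547629121 103910597 257811695174164693385216) 32 64 32 64 448 512) = true := by decide +kernel
  have c11 : (go 16 Gd mult S372_401_586_660 (Tr.lf 4850795649 99584839 0) 64 128 0 32 480 512) = true := by decide +kernel
  have c12 : (go 16 Gd mult S401_430_512_660 (Tr.lf 1161970242 103910472 0) 0 128 32 64 480 496) = true := by decide +kernel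
  (And.intro (Ok.s2 480 (Ok.lf S372_401_586_660_ok c2)
  (Ok.s0 64 (Ok.lf S372_401_586_660_ok c0)
  (Ok.lf S372_401_586_660_ok c11)))
  (And.intro (Ok.s1 16 (Ok.lf S401_430_586_660_ok c9)
  (Ok.lf S401_430_586_660_ok c3))
  (And.intro (Ok.s2 480 (Ok.lf S372_430_512_660_ok c5)
  (Ok.s3 401 (Ok.s3 386 (Ok.lf S372_386_512_660_ok (br c8))
  (Ok.lf S386_401_512_660_ok (bl c8)))
  (Ok.s2 496 (Ok.lf S401_430_512_660_ok c12)
  (Ok.lf S401_430_512_660_ok c6))))
  (And.intro (Ok.s3 401 (Ok.lf S372_401_660_808_ok (bl c1))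
  (Ok.lf S401_430_660_808_ok (br c1)))
  (Ok.s0 64 (Ok.s0 32 (Ok.s1 32 (Ok.s2 480 (Ok.lf S372_386_660_808_ok (br c4))
  (Ok.lf S372_386_660_808_ok (bl c4)))
  (Ok.lf S372_386_660_808_ok (bl (br c7))))
  (Ok.s1 32 (Ok.lf S372_386_660_808_ok (bl (br (br c7))))
  (Ok.lf S372_386_660_808_ok c10)))
  (Ok.s1 32 (Ok.lf S372_386_660_808_ok (bl c7))
  (Ok.lf S372_386_660_808_ok (br (br (br c7))))))))))

end Vale.Agent.P098.Ck
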