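import Vale.Agent.P098.CkGd
import Vale.Agent.P098.CkOk
import Vale.Agent.P098.Sh.A23
import Vale.Agent.P098.Sh.A24
import Vale.Agent.P098.Sh.A26
import Vale.Agent.P098.Sh.A31
import Vale.Agent.P098.Sh.A32
import Vale.Agent.P098.Sh.A37

namespace Vale.Agent.P098.Ck

theorem r271 :
    Ok Gd mult 128 192 128 192 384 448 198 227 364 438 ∧
    Ok Gd mult 128 192 128 192 384 448 227 256 364 438 ∧
    Ok Gd mult 128 192 128 192 384 448 198 256 438 512 ∧
    Ok Gd mult 128 192 128 192 448 480 198 256 364 512 ∧
    Ok Gd mult 128 192 128 160 480 496 198 256 364 512 :=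
  have c0 : (go 16 Gd mult S198_227_364_438 (Tr.lf 13986203780 99450056 0) 160 192 160 192 384 448) = true := by decide +kernel
  have c1 : (go 16 Gd mult S198_227_364_438 (Tr.lf 13986203780 107580488 0) 128 192 128 160 448 480) = true := by decide +kernel
  have c2 : (band (go 16 Gd mult S198_227_438_512 (Tr.lf 13977815172 99314760 0) 128 192 128 192 448 480)
  (go 16 Gd mult S227_256_364_512 (Tr.lf 9144910980 99458118 0) 128 192 128 192 448 480)) = true := by decide +kernel
  have c3 : (band (go 16 Gd mult S198_227_364_438 (Tr.lf 13986203778 107707592 0) 128 160 160 192 384 448)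
  (go 16 Gd mult S198_227_364_438 (Tr.lf 13986202756 103390280 0) 128 192 128 160 416 448)) = true := by decide +kernel
  have c4 : (band (go 16 Gd mult S227_256_364_438 (Tr.lf 13439764612 94989001 0) 128 192 128 192 384 448)
  (go 16 Gd mult S227_256_438_512 (Tr.lf 13439748228 90794697 0) 128 192 128 192 384 448)) = true := by decide +kernel
  have c5 : (band (go 16 Gd mult S198_212_438_512 (Tr.lf 13986187396 103513288 0) 128 192 160 192 384 448)
  (go 16 Gd mult S212_227_438_512 (Tr.lf 13449316420 99318984 0) 128 192 160 192 384 448)) = true := by decide +kernel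
  have c6 : (go 16 Gd mult S198_227_364_438 (Tr.lf 13986203716 99322952 0) 128 192 160 192 448 480) = true := by decide +kernel
  have c7 : (band (go 16 Gd mult S212_227_364_512 (Tr.lf 9144124548 103783110 9813667850499131441229) 128 192 128 160 480 496)
  (go 16 Gd mult S227_256_364_512 (Tr.lf 13440156740 99191496 71352006078311136493800) 128 192 128 160 480 496)) = true := by decide +kernel
  have c8 : (go 16 Gd mult S198_227_438_512 (Tr.lf 13986202692 103390280 0) 128 192 128 160 416 448) = true := by decide +kernel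
  have c9 : (go 16 Gd mult S198_212_364_512 (Tr.lf 13986448452 107584456 0) 128 192 128 160 480 496) = true := by decide +kernel
  have c10 : (band (go 16 Gd mult S198_227_364_438 (Tr.lf 13440812098 99052489 0) 128 192 128 160 384 416)
  (go 16 Gd mult S198_227_438_512 (Tr.lf 13440795204 94858185 0) 128 192 128 160 384 416)) = true := by decide +kernel
  (And.intro (Ok.s1 160 (Ok.s2 416 (Ok.lf S198_227_364_438_ok (bl c10))
  (Ok.lf S198_227_364_438_ok (br c3)))
  (Ok.s0 160 (Ok.lf S198_227_364_438_ok (bl c3))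
  (Ok.lf S198_227_364_438_ok c0)))
  (And.intro (Ok.lf S227_256_364_438_ok (bl c4))
  (And.intro (Ok.s3 227 (Ok.s1 160 (Ok.s2 416 (Ok.lf S198_227_438_512_ok (br c10))
  (Ok.lf S198_227_438_512_ok c8))
  (Ok.s3 212 (Ok.lf S198_212_438_512_ok (bl c5))
  (Ok.lf S212_227_438_512_ok (br c5))))
  (Ok.lf S227_256_438_512_ok (br c4)))
  (And.intro (Ok.s3 227 (Ok.s4 438 (Ok.s1 160 (Ok.lf S198_227_364_438_ok c1)
  (Ok.lf S198_227_364_438_ok c6))
  (Ok.lf S198_227_438_512_ok (bl c2)))
  (Ok.lf S227_256_364_512_ok (br c2)))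
  (Ok.s3 227 (Ok.s3 212 (Ok.lf S198_212_364_512_ok c9)
  (Ok.lf S212_227_364_512_ok (bl c7)))
  (Ok.lf S227_256_364_512_ok (br c7)))))))

end Vale.Agent.P098.Ck
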