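import Vale.Agent.P098.CkGd
import Vale.Agent.P098.CkOk
import Vale.Agent.P098.Sh.A23
import Vale.Agent.P098.Sh.A26
import Vale.Agent.P098.Sh.A31
import Vale.Agent.P098.Sh.A37

namespace Vale.Agent.P098.Ck

theorem r272 :
    Ok Gd mult 128 192 128 160 496 512 198 256 364 512 ∧
    Ok Gd mult 128 192 160 192 480 512 198 256 364 512 ∧
    Ok Gd mult 192 256 128 160 384 512 198 227 364 512 ∧
    Ok Gd mult 192 256 160 192 384 512 198 212 364 512 :=
  have c0 : (go 16 Gd mult S227_256_364_512 (Tr.lf 13977027716 107707080 21795906667320336884367884288) 128 192 128 160 496 512) = true := by decide +kernel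
  have c1 : (band (go 16 Gd mult S198_212_364_512 (Tr.lf 13986449538 107584329 0) 192 224 128 160 384 448)
  (band (go 16 Gd mult S212_227_364_512 (Tr.lf 13986449474 103513033 0) 192 224 128 160 384 448)
  (go 16 Gd mult S198_212_364_512 (Tr.lf 13986449474 99449928 0) 192 224 128 160 448 480))) = true := by decide +kernel
  have c2 : (band (go 16 Gd mult S198_227_364_512 (Tr.lf 13449594946 94866504 0) 192 224 128 160 480 512)
  (go 16 Gd mult S198_227_364_512 (Tr.lf 13977027652 103381704 21797101149339341798963675339) 128 192 128 144 496 504)) = true := by decide +kernel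
  have c3 : (band (go 16 Gd mult S198_212_364_512 (Tr.lf 13986449538 107584329 0) 224 256 128 160 384 448)
  (band (go 16 Gd mult S212_227_364_512 (Tr.lf 13449578562 95124425 0) 224 256 128 160 384 448)
  (go 16 Gd mult S198_212_364_512 (Tr.lf 13986449474 99191880 0) 224 256 128 160 448 480))) = true := by decide +kernel
  have c4 : (band (go 16 Gd mult S227_256_364_512 (Tr.lf 13440156740 103512776 3310212127478450886744735744) 128 192 160 192 480 512)
  (go 16 Gd mult S198_227_364_512 (Tr.lf 9144927298 103775302 3308846736375603053153222656) 128 192 160 192 480 512)) = true := by decide +kernel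
  have c5 : (band (go 16 Gd mult S198_212_364_512 (Tr.lf 13986448516 95255752 0) 192 256 160 192 384 416)
  (go 16 Gd mult S198_212_364_512 (Tr.lf 13986448516 99585096 0) 192 256 160 192 416 448)) = true := by decide +kernel
  have c6 : (go 16 Gd mult S198_212_364_512 (Tr.lf 13986448452 111905864 0) 192 256 160 192 448 480) = true := by decide +kernel
  have c7 : (go 16 Gd mult S198_227_364_512 (Tr.lf 9145189441 107711558 0) 224 256 128 160 480 512) = true := by decide +kernel
  have c8 : (band (go 16 Gd mult S212_227_364_512 (Tr.lf 13986448450 103386184 0) 192 224 128 160 448 480)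
  (go 16 Gd mult S212_227_364_512 (Tr.lf 13449577538 99449928 0) 224 256 128 160 448 480)) = true := by decide +kernel
  have c9 : (go 16 Gd mult S198_212_364_512 (Tr.lf 9136513569 103639879 3883069732602188909156237312) 192 256 160 192 480 512) = true := by decide +kernel
  have c10 : (go 16 Gd mult S198_227_364_512 (Tr.lf 9135341842 103513030 79104849645656272424192966523) 128 192 144 160 496 504) = true := by decide +kernel
  (And.intro (Ok.s3 227 (Ok.s2 504 (Ok.s1 144 (Ok.lf S198_227_364_512_ok (br c2))
  (Ok.lf S198_227_364_512_ok c10))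
  (Ok.out rfl))
  (Ok.lf S227_256_364_512_ok c0))
  (And.intro (Ok.s3 227 (Ok.lf S198_227_364_512_ok (br c4))
  (Ok.lf S227_256_364_512_ok (bl c4)))
  (And.intro (Ok.s0 224 (Ok.s2 448 (Ok.s3 212 (Ok.lf S198_212_364_512_ok (bl c1))
  (Ok.lf S212_227_364_512_ok (bl (br c1))))
  (Ok.s2 480 (Ok.s3 212 (Ok.lf S198_212_364_512_ok (br (br c1)))
  (Ok.lf S212_227_364_512_ok (bl c8)))
  (Ok.lf S198_227_364_512_ok (bl c2))))
  (Ok.s2 448 (Ok.s3 212 (Ok.lf S198_212_364_512_ok (bl c3))
  (Ok.lf S212_227_364_512_ok (bl (br c3))))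
  (Ok.s2 480 (Ok.s3 212 (Ok.lf S198_212_364_512_ok (br (br c3)))
  (Ok.lf S212_227_364_512_ok (br c8)))
  (Ok.lf S198_227_364_512_ok c7))))
  (Ok.s2 448 (Ok.s2 416 (Ok.lf S198_212_364_512_ok (bl c5))
  (Ok.lf S198_212_364_512_ok (br c5)))
  (Ok.s2 480 (Ok.lf S198_212_364_512_ok c6)
  (Ok.lf S198_212_364_512_ok c9))))))

end Vale.Agent.P098.Ck
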