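import Vale.Agent.P098.CkGd
import Vale.Agent.P098.CkOk
import Vale.Agent.P098.Sh.A24
import Vale.Agent.P098.Sh.A27
import Vale.Agent.P098.Sh.A31
import Vale.Agent.P098.Sh.A32
import Vale.Agent.P098.Sh.A35
import Vale.Agent.P098.Sh.A37
import Vale.Agent.P098.Sh.A38
import Vale.Agent.P098.Sh.A39

namespace Vale.Agent.P098.Ck

theorem r273 :
    Ok Gd mult 192 256 160 192 384 512 212 227 364 512 ∧
    Ok Gd mult 192 256 128 192 384 512 227 256 364 512 ∧
    Ok Gd mult 128 256 128 192 384 448 198 256 512 660 ∧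
    Ok Gd mult 128 256 128 192 448 480 198 256 512 660 :=
  have c0 : (go 16 Gd mult S227_256_364_512 (Tr.lf 9145190530 111909958 0) 192 256 128 192 448 512) = true := by decide +kernel
  have c1 : (band (go 16 Gd mult S198_227_512_586 (Tr.lf 13440944200 94858185 0) 128 256 128 160 384 448)
  (go 16 Gd mult S198_227_586_660 (Tr.lf 9144780872 103517127 0) 128 256 128 160 384 448)) = true := by decide +kernel
  have c2 : (band (go 16 Gd mult S198_227_586_660 (Tr.lf 13440944200 95124552 0) 128 256 160 192 384 448)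
  (go 16 Gd mult S212_227_512_586 (Tr.lf 13439748168 95124296 0) 128 256 160 192 384 448)) = true := by decide +kernel
  have c3 : (go 16 Gd mult S198_227_512_660 (Tr.lf 13441205320 95120456 0) 128 256 128 160 448 480) = true := by decide +kernel
  have c4 : (go 16 Gd mult S198_227_512_660 (Tr.lf 13441205320 99322824 0) 128 256 160 192 448 480) = true := by decide +kernel
  have c5 : (band (go 16 Gd mult S212_227_364_512 (Tr.lf 18281415812 99056458 0) 192 256 160 192 384 416)
  (go 16 Gd mult S212_227_364_512 (Tr.lf 13986448516 99318984 0) 192 256 160 192 416 448)) = true := by decide +kernel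
  have c6 : (go 16 Gd mult S227_256_364_512 (Tr.lf 13439895620 99441608 0) 192 256 160 192 384 448) = true := by decide +kernel
  have c7 : (go 16 Gd mult S198_212_512_586 (Tr.lf 13977798728 99318856 0) 128 256 160 192 384 448) = true := by decide +kernel
  have c8 : (band (go 16 Gd mult S227_241_512_660 (Tr.lf 13438829704 99056200 49953782951605465776128) 128 256 128 192 448 480)
  (go 16 Gd mult S241_256_512_660 (Tr.lf 9143854216 99457862 116897017195097428590592) 128 256 128 192 448 480)) = true := by decide +kernel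
  have c9 : (band (go 16 Gd mult S227_256_512_586 (Tr.lf 9143732356 107711175 0) 128 256 128 192 384 448)
  (go 16 Gd mult S227_256_586_660 (Tr.lf 9135342724 103508679 0) 128 256 128 192 384 448)) = true := by decide +kernel
  have c10 : (go 16 Gd mult S212_227_364_512 (Tr.lf 13986448452 111905864 0) 192 256 160 192 448 480) = true := by decide +kernel
  have c11 : (go 16 Gd mult S227_256_364_512 (Tr.lf 9144911938 107711431 0) 192 256 128 160 384 448) = true := by decide +kernel
  have c12 : (go 16 Gd mult S212_227_364_512 (Tr.lf 9143853602 103648070 3970112391614442209735081984) 192 256 160 192 480 512) = true := by decide +kernel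
  (And.intro (Ok.s2 448 (Ok.s2 416 (Ok.lf S212_227_364_512_ok (bl c5))
  (Ok.lf S212_227_364_512_ok (br c5)))
  (Ok.s2 480 (Ok.lf S212_227_364_512_ok c10)
  (Ok.lf S212_227_364_512_ok c12)))
  (And.intro (Ok.s2 448 (Ok.s1 160 (Ok.lf S227_256_364_512_ok c11)
  (Ok.lf S227_256_364_512_ok c6))
  (Ok.lf S227_256_364_512_ok c0))
  (And.intro (Ok.s4 586 (Ok.s3 227 (Ok.s1 160 (Ok.lf S198_227_512_586_ok (bl c1))
  (Ok.s3 212 (Ok.lf S198_212_512_586_ok c7)
  (Ok.lf S212_227_512_586_ok (br c2))))
  (Ok.lf S227_256_512_586_ok (bl c9)))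
  (Ok.s3 227 (Ok.s1 160 (Ok.lf S198_227_586_660_ok (br c1))
  (Ok.lf S198_227_586_660_ok (bl c2)))
  (Ok.lf S227_256_586_660_ok (br c9))))
  (Ok.s3 227 (Ok.s1 160 (Ok.lf S198_227_512_660_ok c3)
  (Ok.lf S198_227_512_660_ok c4))
  (Ok.s3 241 (Ok.lf S227_241_512_660_ok (bl c8))
  (Ok.lf S241_256_512_660_ok (br c8)))))))

end Vale.Agent.P098.Ck
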