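import Vale.Agent.P098.CkGd
import Vale.Agent.P098.CkOk
import Vale.Agent.P098.Sh.A27
import Vale.Agent.P098.Sh.A35
import Vale.Agent.P098.Sh.A36
import Vale.Agent.P098.Sh.A38
import Vale.Agent.P098.Sh.A39

namespace Vale.Agent.P098.Ck

theorem r275 :
    Ok Gd mult 128 256 128 192 480 496 227 256 586 660 ∧
    Ok Gd mult 128 256 128 192 496 512 227 256 512 660 ∧
    Ok Gd mult 128 256 128 192 384 448 198 256 660 808 ∧
    Ok Gd mult 128 256 128 192 448 480 198 227 660 808 ∧
    Ok Gd mult 128 256 128 192 448 480 227 241 660 808 :=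
  have c0 : (band (go 16 Gd mult S227_241_586_660 (Tr.lf 13976765576 99191496 32446782742883993326895235072) 128 256 128 160 496 512)
  (go 16 Gd mult S227_241_512_586 (Tr.lf 13439878216 99318472 32589329699459166855074152448) 128 256 128 160 496 512)) = true := by decide +kernel
  have c1 : (go 16 Gd mult S198_227_660_808 (Tr.lf 13439895624 99187528 0) 128 256 160 192 384 448) = true := by decide +kernel
  have c2 : (go 16 Gd mult S227_256_660_808 (Tr.lf 8598603908 99183303 0) 128 256 128 192 384 448) = true := by decide +kernel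
  have c3 : (band (go 16 Gd mult S198_227_660_808 (Tr.lf 13440156228 103513031 78859839078007213719599) 128 192 160 192 464 480)
  (go 16 Gd mult S227_241_660_808 (Tr.lf 13439091332 99457862 175244068700240740352095) 128 192 160 192 464 480)) = true := by decide +kernel
  have c4 : (go 16 Gd mult S241_256_512_660 (Tr.lf 9144115844 103648070 30727849256772650090507534336) 128 256 128 192 496 512) = true := by decide +kernel
  have c5 : (band (go 16 Gd mult S227_241_586_660 (Tr.lf 13985137284 103652040 972212255933376454209830912) 128 192 128 160 488 496)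
  (go 16 Gd mult S227_241_586_660 (Tr.lf 13439877700 99318727 109046728553369223257128960) 128 192 160 192 480 496)) = true := by decide +kernel
  have c6 : (band (go 16 Gd mult S198_227_660_808 (Tr.lf 9144910978 103779398 0) 192 256 128 192 448 480)
  (band (go 16 Gd mult S227_241_660_808 (Tr.lf 9135465090 103770950 71352006077108545650688) 192 256 128 192 448 480)
  (band (go 16 Gd mult S198_227_660_808 (Tr.lf 9144910916 107838407 0) 128 256 128 160 384 448)
  (band (go 16 Gd mult S198_227_660_808 (Tr.lf 8598602114 95382342 0) 128 192 128 192 448 464)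
  (band (go 16 Gd mult S198_227_660_808 (Tr.lf 13438829122 99191495 0) 128 192 128 160 464 480)
  (band (go 16 Gd mult S227_241_660_808 (Tr.lf 13438821442 90798664 0) 128 192 128 160 448 480)
  (go 16 Gd mult S227_241_660_808 (Tr.lf 12893561154 86731463 8928224131675422982221) 128 192 160 192 448 464))))))) = true := by decide +kernel
  have c7 : (go 16 Gd mult S241_256_586_660 (Tr.lf 13438689924 99183176 342408463496398560559307) 128 256 128 192 480 496) = true := by decide +kernel
  have c8 : (band (go 16 Gd mult S227_241_586_660 (Tr.lf 13438689604 99449543 144364219120850950946971) 128 192 128 160 480 488)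
  (go 16 Gd mult S227_241_586_660 (Tr.lf 9144771138 103656390 108835790034886354534400) 192 256 128 192 480 496)) = true := by decide +kernel
  have c9 : (go 16 Gd mult S227_241_512_660 (Tr.lf 4303491362 107973445 27169396417059899307133109336) 128 256 160 192 496 512) = true := by decide +kernel
  (And.intro (Ok.s3 241 (Ok.s0 192 (Ok.s1 160 (Ok.s2 488 (Ok.lf S227_241_586_660_ok (bl c8))
  (Ok.lf S227_241_586_660_ok (bl c5)))
  (Ok.lf S227_241_586_660_ok (br c5)))
  (Ok.lf S227_241_586_660_ok (br c8)))
  (Ok.lf S241_256_586_660_ok c7))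
  (And.intro (Ok.s3 241 (Ok.s1 160 (Ok.s4 586 (Ok.lf S227_241_512_586_ok (br c0))
  (Ok.lf S227_241_586_660_ok (bl c0)))
  (Ok.lf S227_241_512_660_ok c9))
  (Ok.lf S241_256_512_660_ok c4))
  (And.intro (Ok.s3 227 (Ok.s1 160 (Ok.lf S198_227_660_808_ok (bl (br (br c6))))
  (Ok.lf S198_227_660_808_ok c1))
  (Ok.lf S227_256_660_808_ok c2))
  (And.intro (Ok.s0 192 (Ok.s2 464 (Ok.lf S198_227_660_808_ok (bl (br (br (br c6)))))
  (Ok.s1 160 (Ok.lf S198_227_660_808_ok (bl (br (br (br (br c6))))))
  (Ok.lf S198_227_660_808_ok (bl c3))))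
  (Ok.lf S198_227_660_808_ok (bl c6)))
  (Ok.s0 192 (Ok.s1 160 (Ok.lf S227_241_660_808_ok (bl (br (br (br (br (br c6)))))))
  (Ok.s2 464 (Ok.lf S227_241_660_808_ok (br (br (br (br (br (br c6)))))))
  (Ok.lf S227_241_660_808_ok (br c3))))
  (Ok.lf S227_241_660_808_ok (bl (br c6))))))))

end Vale.Agent.P098.Ck
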