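import Vale.Agent.P098.CkGd
import Vale.Agent.P098.CkOk
import Vale.Agent.P098.Sh.A25
import Vale.Agent.P098.Sh.A27
import Vale.Agent.P098.Sh.A30
import Vale.Agent.P098.Sh.A33
import Vale.Agent.P098.Sh.A34
import Vale.Agent.P098.Sh.A38
import Vale.Agent.P098.Sh.A40

namespace Vale.Agent.P098.Ck

theorem r276 :
    Ok Gd mult 128 256 128 192 448 480 241 256 660 808 ∧
    Ok Gd mult 128 256 128 192 480 496 198 227 660 808 ∧
    Ok Gd mult 128 192 128 160 480 496 227 256 660 808 :=
  have c0 : (band (go 16 Gd mult S241_256_660_808 (Tr.lf 12902220424 94997191 264434076296626422415485) 128 256 160 192 464 480)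
  (band (go 16 Gd mult S241_256_660_808 (Tr.lf 13985399432 107838280 780275322692466318990376960) 128 192 128 160 488 496)
  (go 16 Gd mult S227_230_660_808 (Tr.lf 18280354436 99064393 859833196850067895291478141) 128 192 128 160 488 496))) = true := by decide +kernel
  have c1 : (go 16 Gd mult S198_227_660_808 (Tr.lf 13440156740 99318472 226968739082922323083389) 128 192 160 192 480 496) = true := by decide +kernel
  have c2 : (band (go 16 Gd mult S234_241_660_808 (Tr.lf 18280358536 103250633 804331223576900955094909023) 128 192 128 160 488 496)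
  (band (go 16 Gd mult S230_234_660_808 (Tr.lf 18280354440 99064393 835702641992366956631556096) 128 192 128 160 488 496)
  (band (go 16 Gd mult S219_227_660_734 (Tr.lf 18281144964 94870600 931091124532400522228924416) 128 192 128 160 488 496)
  (band (go 16 Gd mult S219_227_734_808 (Tr.lf 18280096388 95128137 880354941377652739530555439) 128 192 128 160 488 496)
  (go 16 Gd mult S234_241_660_808 (Tr.lf 13439082820 99449543 310661616945342558765151) 128 192 128 160 480 488))))) = true := by decide +kernel
  have c3 : (band (go 16 Gd mult S241_256_660_808 (Tr.lf 9135465096 99449670 120438792057249662500864) 128 256 128 192 448 464)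
  (go 16 Gd mult S241_256_660_808 (Tr.lf 8598593828 99318598 0) 128 256 128 160 464 480)) = true := by decide +kernel
  have c4 : (band (go 16 Gd mult S227_234_660_808 (Tr.lf 13440131716 95255495 239623218747012847435979) 128 192 128 160 480 488)
  (band (go 16 Gd mult S241_256_660_808 (Tr.lf 13439091012 99191495 379338845131763219431424) 128 192 128 160 480 488)
  (go 16 Gd mult S219_227_660_808 (Tr.lf 13440131652 95255495 165762442246354030821423) 128 192 128 160 480 488))) = true := by decide +kernel
  have c5 : (band (go 16 Gd mult S212_219_660_808 (Tr.lf 18280358980 99064393 142039929367563547443247) 128 192 128 160 480 496)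
  (go 16 Gd mult S198_212_660_808 (Tr.lf 13439869508 95132487 82254031824670890655791) 128 192 128 160 480 496)) = true := by decide +kernel
  have c6 : (band (go 16 Gd mult S198_227_660_808 (Tr.lf 9144910370 107977670 34071144466915866443823) 192 256 128 160 480 496)
  (go 16 Gd mult S198_227_660_808 (Tr.lf 9135472930 107711174 96716279178459179122765) 192 256 160 192 480 496)) = true := by decide +kernel
  (And.intro (Ok.s2 464 (Ok.lf S241_256_660_808_ok (bl c3))
  (Ok.s1 160 (Ok.lf S241_256_660_808_ok (br c3))
  (Ok.lf S241_256_660_808_ok (bl c0))))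
  (And.intro (Ok.s1 160 (Ok.s0 192 (Ok.s3 212 (Ok.lf S198_212_660_808_ok (br c5))
  (Ok.s3 219 (Ok.lf S212_219_660_808_ok (bl c5))
  (Ok.s2 488 (Ok.lf S219_227_660_808_ok (br (br c4)))
  (Ok.s4 734 (Ok.lf S219_227_660_734_ok (bl (br (br c2))))
  (Ok.lf S219_227_734_808_ok (bl (br (br (br c2)))))))))
  (Ok.lf S198_227_660_808_ok (bl c6)))
  (Ok.s0 192 (Ok.lf S198_227_660_808_ok c1)
  (Ok.lf S198_227_660_808_ok (br c6))))
  (Ok.s2 488 (Ok.s3 241 (Ok.s3 234 (Ok.lf S227_234_660_808_ok (bl c4))
  (Ok.lf S234_241_660_808_ok (br (br (br (br c2))))))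
  (Ok.lf S241_256_660_808_ok (bl (br c4))))
  (Ok.s3 241 (Ok.s3 234 (Ok.s3 230 (Ok.lf S227_230_660_808_ok (br (br c0)))
  (Ok.lf S230_234_660_808_ok (bl (br c2))))
  (Ok.lf S234_241_660_808_ok (bl c2)))
  (Ok.lf S241_256_660_808_ok (bl (br c0)))))))

end Vale.Agent.P098.Ck
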