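import Vale.Agent.P098.CkGd
import Vale.Agent.P098.CkOk
import Vale.Agent.P098.Sh.A40
import Vale.Agent.P098.Sh.A41
import Vale.Agent.P098.Sh.A42
import Vale.Agent.P098.Sh.A43
import Vale.Agent.P098.Sh.A44
import Vale.Agent.P098.Sh.A45
import Vale.Agent.P098.Sh.A46

namespace Vale.Agent.P098.Ck

theorem r278 :
    Ok Gd mult 128 256 128 192 384 512 256 314 364 512 ∧
    Ok Gd mult 128 256 128 192 384 512 256 314 512 660 ∧
    Ok Gd mult 128 256 128 192 384 448 256 314 660 808 ∧
    Ok Gd mult 128 256 128 192 448 480 256 314 660 808 ∧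
    Ok Gd mult 128 256 128 192 480 512 256 285 660 808 :=
  have c0 : (go 16 Gd mult S256_314_364_512 (Tr.lf 8598620292 90925767 0) 128 256 128 192 384 448) = true := by decide +kernel
  have c1 : (go 16 Gd mult S256_314_512_660 (Tr.lf 4303652996 107842501 0) 128 256 128 192 384 448) = true := by decide +kernel
  have c2 : (band (go 16 Gd mult S256_285_512_660 (Tr.lf 9143878792 99584583 635398099618925505413197) 128 256 128 192 480 512)
  (band (go 16 Gd mult S256_285_364_512 (Tr.lf 9135473220 103639878 2618892169797752664321163264) 128 256 128 192 480 512)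
  (go 16 Gd mult S285_314_512_660 (Tr.lf 4840505922 99580869 933645057802661535940637) 128 256 128 192 480 512))) = true := by decide +kernel
  have c3 : (go 16 Gd mult S256_314_660_808 (Tr.lf 8598620292 95124039 0) 128 256 128 192 384 448) = true := by decide +kernel
  have c4 : (band (go 16 Gd mult S256_270_660_808 (Tr.lf 13439091336 99183176 23471038267394936421895635051) 128 256 128 192 496 512)
  (go 16 Gd mult S270_285_660_808 (Tr.lf 9144115844 107834055 22433914427823370080048119808) 128 256 128 192 496 512)) = true := by decide +kernel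
  have c5 : (go 16 Gd mult S256_285_660_808 (Tr.lf 9144140164 107842374 1549332331763482469003689984) 128 192 128 192 488 496) = true := by decide +kernel
  have c6 : (band (go 16 Gd mult S256_285_660_808 (Tr.lf 12902220360 86731336 354527982515522753069085) 128 256 160 192 464 480)
  (band (go 16 Gd mult S256_285_660_808 (Tr.lf 13439091076 99183176 561481996115571332087808) 128 192 128 192 480 488)
  (go 16 Gd mult S256_285_660_808 (Tr.lf 9144124034 99584583 518464197098579538280477) 192 256 128 192 480 496))) = true := by decide +kernel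
  have c7 : (band (go 16 Gd mult S256_285_512_660 (Tr.lf 8598602372 91060807 192547114641380299768573) 128 256 128 192 448 480)
  (band (go 16 Gd mult S285_314_660_808 (Tr.lf 8598602372 95115975 453550096540296745582592) 128 256 128 192 448 480)
  (band (go 16 Gd mult S256_285_364_512 (Tr.lf 8598471236 95115975 17653534078540040898658) 128 256 128 192 448 480)
  (go 16 Gd mult S285_314_512_660 (Tr.lf 4303495748 99580869 347591998580909081100288) 128 256 128 192 448 480)))) = true := by decide +kernel
  have c8 : (go 16 Gd mult S285_314_364_512 (Tr.lf 4303627332 99580869 306898481154305810235547) 128 256 128 192 448 512) = true := by decide +kernel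
  have c9 : (band (go 16 Gd mult S256_285_660_808 (Tr.lf 8598602308 99318598 182161597727881822208000) 128 256 160 192 448 464)
  (go 16 Gd mult S256_285_660_808 (Tr.lf 8598602276 91052743 0) 128 256 128 160 448 480)) = true := by decide +kernel
  (And.intro (Ok.s2 448 (Ok.lf S256_314_364_512_ok c0)
  (Ok.s3 285 (Ok.s2 480 (Ok.lf S256_285_364_512_ok (bl (br (br c7))))
  (Ok.lf S256_285_364_512_ok (bl (br c2))))
  (Ok.lf S285_314_364_512_ok c8)))
  (And.intro (Ok.s2 448 (Ok.lf S256_314_512_660_ok c1)
  (Ok.s3 285 (Ok.s2 480 (Ok.lf S256_285_512_660_ok (bl c7))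
  (Ok.lf S256_285_512_660_ok (bl c2)))
  (Ok.s2 480 (Ok.lf S285_314_512_660_ok (br (br (br c7))))
  (Ok.lf S285_314_512_660_ok (br (br c2))))))
  (And.intro (Ok.lf S256_314_660_808_ok c3)
  (And.intro (Ok.s3 285 (Ok.s1 160 (Ok.lf S256_285_660_808_ok (br c9))
  (Ok.s2 464 (Ok.lf S256_285_660_808_ok (bl c9))
  (Ok.lf S256_285_660_808_ok (bl c6))))
  (Ok.lf S285_314_660_808_ok (bl (br c7))))
  (Ok.s2 496 (Ok.s0 192 (Ok.s2 488 (Ok.lf S256_285_660_808_ok (bl (br c6)))
  (Ok.lf S256_285_660_808_ok c5))
  (Ok.lf S256_285_660_808_ok (br (br c6))))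
  (Ok.s3 270 (Ok.lf S256_270_660_808_ok (bl c4))
  (Ok.lf S270_285_660_808_ok (br c4))))))))

end Vale.Agent.P098.Ck
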