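import Vale.Agent.P098.CkGd
import Vale.Agent.P098.CkOk
import Vale.Agent.P098.Sh.A46
import Vale.Agent.P098.Sh.A47
import Vale.Agent.P098.Sh.A48
import Vale.Agent.P098.Sh.A49
import Vale.Agent.P098.Sh.A51
import Vale.Agent.P098.Sh.A52

namespace Vale.Agent.P098.Ck

theorem r279 :
    Ok Gd mult 128 256 128 192 480 512 285 314 660 808 ∧
    Ok Gd mult 128 256 128 192 384 512 314 372 216 512 ∧
    Ok Gd mult 128 256 128 192 384 512 314 372 512 660 ∧
    Ok Gd mult 128 256 128 192 384 448 314 372 660 808 ∧
    Ok Gd mult 128 256 128 192 448 480 314 372 660 808 :=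
  have c0 : (band (go 16 Gd mult S314_372_364_512 (Tr.lf 4841572484 103910342 0) 128 256 128 192 384 448)
  (band (go 16 Gd mult S343_372_512_660 (Tr.lf 547505220 91335495 0) 128 256 128 192 384 448)
  (go 16 Gd mult S343_372_660_808 (Tr.lf 4842472516 95521735 0) 128 256 128 192 384 448))) = true := by decide +kernel
  have c1 : (band (go 16 Gd mult S314_372_216_364 (Tr.lf 4841571460 99847110 0) 128 256 128 192 384 448)
  (band (go 16 Gd mult S314_343_660_808 (Tr.lf 4304552514 99711942 0) 128 256 128 192 384 448)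
  (band (go 16 Gd mult S314_343_512_660 (Tr.lf 4304544322 103906246 0) 128 256 128 192 384 448)
  (band (go 16 Gd mult S314_343_660_808 (Tr.lf 4304552516 103644102 253200009282099538296832) 128 256 128 192 448 480)
  (band (go 16 Gd mult S314_343_512_660 (Tr.lf 4841415234 107969478 221434715865173144371200) 128 256 128 192 448 480)
  (go 16 Gd mult S343_372_660_808 (Tr.lf 4842603076 103775430 196070442759458824126464) 128 256 128 192 448 480)))))) = true := by decide +kernel
  have c2 : (band (go 16 Gd mult S343_372_512_660 (Tr.lf 557089924 103779272 1368498383429687310900462739) 128 256 128 192 480 512)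
  (band (go 16 Gd mult S343_372_364_512 (Tr.lf 547635780 103779398 1769859431058613773638304246) 128 256 128 192 480 512)
  (go 16 Gd mult S314_343_512_660 (Tr.lf 547504706 95521862 1204166717554359731814961) 128 256 128 192 480 512))) = true := by decide +kernel
  have c3 : (band (go 16 Gd mult S343_372_216_364 (Tr.lf 547636356 91331654 448052966812314188644352) 128 256 128 192 448 512)
  (band (go 16 Gd mult S314_343_364_512 (Tr.lf 4841555010 99711942 498301897664112550215680) 128 256 128 192 448 512)
  (go 16 Gd mult S314_343_216_364 (Tr.lf 4841415746 95517638 417173117226941509795840) 128 256 128 192 448 512))) = true := by decide +kernel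
  have c4 : (band (go 16 Gd mult S285_314_660_808 (Tr.lf 9143861892 103381703 22438869684556006514526519606) 128 256 128 192 496 512)
  (go 16 Gd mult S285_314_660_808 (Tr.lf 9143861828 103639751 859433806394128009789440) 128 256 128 192 480 496)) = true := by decide +kernel
  have c5 : (band (go 16 Gd mult S343_372_512_660 (Tr.lf 4842472004 99581126 178416908811850861248512) 128 256 128 192 448 480)
  (go 16 Gd mult S343_372_364_512 (Tr.lf 547504706 99589190 118999946038655871614976) 128 256 128 192 448 480)) = true := by decide +kernel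
  (And.intro (Ok.s2 496 (Ok.lf S285_314_660_808_ok (br c4))
  (Ok.lf S285_314_660_808_ok (bl c4)))
  (And.intro (Ok.s4 364 (Ok.s2 448 (Ok.lf S314_372_216_364_ok (bl c1))
  (Ok.s3 343 (Ok.lf S314_343_216_364_ok (br (br c3)))
  (Ok.lf S343_372_216_364_ok (bl c3))))
  (Ok.s2 448 (Ok.lf S314_372_364_512_ok (bl c0))
  (Ok.s3 343 (Ok.lf S314_343_364_512_ok (bl (br c3)))
  (Ok.s2 480 (Ok.lf S343_372_364_512_ok (br c5))
  (Ok.lf S343_372_364_512_ok (bl (br c2)))))))
  (And.intro (Ok.s2 448 (Ok.s3 343 (Ok.lf S314_343_512_660_ok (bl (br (br c1))))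
  (Ok.lf S343_372_512_660_ok (bl (br c0))))
  (Ok.s2 480 (Ok.s3 343 (Ok.lf S314_343_512_660_ok (bl (br (br (br (br c1))))))
  (Ok.lf S343_372_512_660_ok (bl c5)))
  (Ok.s3 343 (Ok.lf S314_343_512_660_ok (br (br c2)))
  (Ok.lf S343_372_512_660_ok (bl c2)))))
  (And.intro (Ok.s3 343 (Ok.lf S314_343_660_808_ok (bl (br c1)))
  (Ok.lf S343_372_660_808_ok (br (br c0))))
  (Ok.s3 343 (Ok.lf S314_343_660_808_ok (bl (br (br (br c1)))))
  (Ok.lf S343_372_660_808_ok (br (br (br (br (br c1)))))))))))

end Vale.Agent.P098.Ck
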