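import Vale.Agent.P098.CkGd
import Vale.Agent.P098.CkOk
import Vale.Agent.P098.Sh.A56
import Vale.Agent.P098.Sh.A57
import Vale.Agent.P098.Sh.A58
import Vale.Agent.P098.Sh.A59

namespace Vale.Agent.P098.Ck

theorem r28 :
    Ok Gd mult 0 128 0 64 448 480 386 401 660 808 ∧
    Ok Gd mult 0 128 0 64 480 512 386 401 660 808 ∧
    Ok Gd mult 0 128 0 64 448 512 401 430 660 808 ∧
    Ok Gd mult 0 128 0 64 384 512 430 488 216 512 :=
  have c0 : (band (go 16 Gd mult S401_415_660_808 (Tr.lf 5926847624 99060936 852811425271666280759296) 0 128 32 64 496 512)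
  (go 16 Gd mult S415_430_660_808 (Tr.lf 5381571716 99314760 1206472508488748507005238) 0 128 32 64 496 512)) = true := by decide +kernel
  have c1 : (band (go 16 Gd mult S430_459_364_512 (Tr.lf 1152551044 99847366 644123409565790123327488) 0 128 0 64 448 512)
  (band (go 16 Gd mult S430_459_216_364 (Tr.lf 1152534658 99847366 0) 0 128 0 64 448 512)
  (band (go 16 Gd mult S459_488_216_364 (Tr.lf 1152469122 108104902 0) 0 128 0 64 448 512)
  (go 16 Gd mult S459_488_364_512 (Tr.lf 1152469122 108104902 0) 0 128 0 64 448 512)))) = true := by decide +kernel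
  have c2 : (band (go 16 Gd mult S386_401_660_808 (Tr.lf 5388912770 103652423 391476802732264104394752) 0 64 32 64 480 512)
  (band (go 16 Gd mult S386_401_660_808 (Tr.lf 548685954 112171847 122412593673136584523776) 64 128 0 64 480 512)
  (band (go 16 Gd mult S386_401_660_808 (Tr.lf 5388911746 99454023 94724030818498547548160) 0 64 0 32 496 512)
  (go 16 Gd mult S386_401_660_808 (Tr.lf 9683878529 99191752 0) 0 64 0 32 480 496)))) = true := by decide +kernel
  have c3 : (band (go 16 Gd mult S401_415_660_808 (Tr.lf 548684932 103779398 363456198484299295490048) 0 128 0 32 496 512)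
  (go 16 Gd mult S415_430_660_808 (Tr.lf 548553860 99585094 921525546946234360528896) 0 128 0 32 496 512)) = true := by decide +kernel
  have c4 : (go 16 Gd mult S386_401_660_808 (Tr.lf 5387854978 103652167 0) 0 128 0 32 448 480) = true := by decide +kernel
  have c5 : (go 16 Gd mult S401_430_660_808 (Tr.lf 5387732098 107846471 0) 0 128 0 64 448 480) = true := by decide +kernel
  have c6 : (band (go 16 Gd mult S430_488_216_364 (Tr.lf 1698776193 95255625 0) 0 128 0 64 384 448)
  (go 16 Gd mult S430_488_364_512 (Tr.lf 1698776193 95255625 0) 0 128 0 64 384 448)) = true := by decide +kernel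
  have c7 : (band (go 16 Gd mult S401_415_660_808 (Tr.lf 5388771906 103648582 0) 0 128 0 32 480 496)
  (band (go 16 Gd mult S415_430_660_808 (Tr.lf 1152524609 99843270 0) 0 128 0 32 480 496)
  (band (go 16 Gd mult S401_415_660_808 (Tr.lf 4843512098 99187783 0) 0 128 32 64 480 496)
  (go 16 Gd mult S415_430_660_808 (Tr.lf 548479265 99458118 0) 0 128 32 64 480 496)))) = true := by decide +kernel
  have c8 : (go 16 Gd mult S386_401_660_808 (Tr.lf 547496482 107981893 0) 0 128 32 64 448 480) = true := by decide +kernel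
  (And.intro (Ok.s1 32 (Ok.lf S386_401_660_808_ok c4)
  (Ok.lf S386_401_660_808_ok c8))
  (And.intro (Ok.s0 64 (Ok.s1 32 (Ok.s2 496 (Ok.lf S386_401_660_808_ok (br (br (br c2))))
  (Ok.lf S386_401_660_808_ok (bl (br (br c2)))))
  (Ok.lf S386_401_660_808_ok (bl c2)))
  (Ok.lf S386_401_660_808_ok (bl (br c2))))
  (And.intro (Ok.s2 480 (Ok.lf S401_430_660_808_ok c5)
  (Ok.s3 415 (Ok.s1 32 (Ok.s2 496 (Ok.lf S401_415_660_808_ok (bl c7))
  (Ok.lf S401_415_660_808_ok (bl c3)))
  (Ok.s2 496 (Ok.lf S401_415_660_808_ok (bl (br (br c7))))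
  (Ok.lf S401_415_660_808_ok (bl c0))))
  (Ok.s1 32 (Ok.s2 496 (Ok.lf S415_430_660_808_ok (bl (br c7)))
  (Ok.lf S415_430_660_808_ok (br c3)))
  (Ok.s2 496 (Ok.lf S415_430_660_808_ok (br (br (br c7))))
  (Ok.lf S415_430_660_808_ok (br c0))))))
  (Ok.s4 364 (Ok.s2 448 (Ok.lf S430_488_216_364_ok (bl c6))
  (Ok.s3 459 (Ok.lf S430_459_216_364_ok (bl (br c1)))
  (Ok.lf S459_488_216_364_ok (bl (br (br c1))))))
  (Ok.s2 448 (Ok.lf S430_488_364_512_ok (br c6))
  (Ok.s3 459 (Ok.lf S430_459_364_512_ok (bl c1))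
  (Ok.lf S459_488_364_512_ok (br (br (br c1))))))))))

end Vale.Agent.P098.Ck
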