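import Vale.Agent.P098.CkGd
import Vale.Agent.P098.CkOk
import Vale.Agent.P098.Sh.A49
import Vale.Agent.P098.Sh.A52
import Vale.Agent.P098.Sh.A54
import Vale.Agent.P098.Sh.A56

namespace Vale.Agent.P098.Ck

theorem r280 :
    Ok Gd mult 128 256 128 192 480 512 314 372 660 808 ∧
    Ok Gd mult 128 256 128 192 384 512 372 430 216 512 :=
  have c0 : (band (go 16 Gd mult S401_430_216_364 (Tr.lf 5380539528 99449800 3509895623319162758488915968) 128 256 128 192 480 512)
  (go 16 Gd mult S372_401_216_364 (Tr.lf 1093944452 86748104 2817622503925476385684979712) 128 256 128 192 480 512)) = true := by decide +kernel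
  have c1 : (band (go 16 Gd mult S401_430_216_364 (Tr.lf 9675376712 95259720 0) 128 256 160 192 384 448)
  (go 16 Gd mult S401_430_364_512 (Tr.lf 9675376712 95259720 0) 128 256 160 192 384 448)) = true := by decide +kernel
  have c2 : (band (go 16 Gd mult S372_401_364_512 (Tr.lf 9137440900 99314632 0) 128 256 128 192 384 448)
  (band (go 16 Gd mult S372_401_216_364 (Tr.lf 9137570948 99314632 0) 128 256 128 192 384 448)
  (band (go 16 Gd mult S372_401_364_512 (Tr.lf 5380392068 95124552 114904768842657284751360) 128 256 128 192 448 480)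
  (go 16 Gd mult S401_430_364_512 (Tr.lf 9675375748 95124297 14529061460823264462897152) 128 256 128 192 448 480)))) = true := by decide +kernel
  have c3 : (band (go 16 Gd mult S401_430_364_512 (Tr.lf 5380407940 95255496 3491625451479733944476237824) 128 256 128 192 480 496)
  (band (go 16 Gd mult S372_401_364_512 (Tr.lf 5380391556 95386568 2731524355103249474684715008) 128 256 128 192 480 496)
  (band (go 16 Gd mult S343_372_660_808 (Tr.lf 547635780 99585094 1005644507703550043179974656) 128 256 128 192 480 496)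
  (band (go 16 Gd mult S314_343_660_808 (Tr.lf 546455874 95521861 853032786200550795378688) 128 256 128 192 480 496)
  (band (go 16 Gd mult S401_430_364_512 (Tr.lf 547521156 99847365 20940787941746676289192853504) 128 256 128 192 496 512)
  (go 16 Gd mult S372_401_364_512 (Tr.lf 615662212 104045511 26314666788324027552222151092) 128 256 128 192 496 512)))))) = true := by decide +kernel
  have c4 : (band (go 16 Gd mult S401_430_216_364 (Tr.lf 5380392068 86993992 47148106964970537813540864) 128 256 128 192 448 480)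
  (band (go 16 Gd mult S372_401_216_364 (Tr.lf 4843520644 103775176 69581118694355105742848) 128 256 128 192 448 480)
  (band (go 16 Gd mult S401_430_216_364 (Tr.lf 5380392004 91061320 0) 128 256 128 160 384 448)
  (go 16 Gd mult S401_430_364_512 (Tr.lf 5380392004 91061320 0) 128 256 128 160 384 448)))) = true := by decide +kernel
  have c5 : (band (go 16 Gd mult S343_372_660_808 (Tr.lf 547635780 103914438 32582957862820870883447409456) 128 256 128 192 496 512)
  (go 16 Gd mult S314_343_660_808 (Tr.lf 547504450 91458630 26159936403607908356828629808) 128 256 128 192 496 512)) = true := by decide +kernel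
  (And.intro (Ok.s2 496 (Ok.s3 343 (Ok.lf S314_343_660_808_ok (bl (br (br (br c3)))))
  (Ok.lf S343_372_660_808_ok (bl (br (br c3)))))
  (Ok.s3 343 (Ok.lf S314_343_660_808_ok (br c5))
  (Ok.lf S343_372_660_808_ok (bl c5))))
  (Ok.s4 364 (Ok.s2 448 (Ok.s3 401 (Ok.lf S372_401_216_364_ok (bl (br c2)))
  (Ok.s1 160 (Ok.lf S401_430_216_364_ok (bl (br (br c4))))
  (Ok.lf S401_430_216_364_ok (bl c1))))
  (Ok.s2 480 (Ok.s3 401 (Ok.lf S372_401_216_364_ok (bl (br c4)))
  (Ok.lf S401_430_216_364_ok (bl c4)))
  (Ok.s3 401 (Ok.lf S372_401_216_364_ok (br c0))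
  (Ok.lf S401_430_216_364_ok (bl c0)))))
  (Ok.s2 448 (Ok.s3 401 (Ok.lf S372_401_364_512_ok (bl c2))
  (Ok.s1 160 (Ok.lf S401_430_364_512_ok (br (br (br c4))))
  (Ok.lf S401_430_364_512_ok (br c1))))
  (Ok.s2 480 (Ok.s3 401 (Ok.lf S372_401_364_512_ok (bl (br (br c2))))
  (Ok.lf S401_430_364_512_ok (br (br (br c2)))))
  (Ok.s2 496 (Ok.s3 401 (Ok.lf S372_401_364_512_ok (bl (br c3)))
  (Ok.lf S401_430_364_512_ok (bl c3)))
  (Ok.s3 401 (Ok.lf S372_401_364_512_ok (br (br (br (br (br c3))))))
  (Ok.lf S401_430_364_512_ok (bl (br (br (br (br c3))))))))))))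

end Vale.Agent.P098.Ck
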