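import Vale.Agent.P098.CkGd
import Vale.Agent.P098.CkOk
import Vale.Agent.P098.Sh.A54
import Vale.Agent.P098.Sh.A57

namespace Vale.Agent.P098.Ck

theorem r281 :
    Ok Gd mult 128 256 128 192 384 448 372 430 512 660 ∧
    Ok Gd mult 128 256 128 192 448 512 372 430 512 660 ∧
    Ok Gd mult 128 256 128 192 384 448 372 430 660 808 ∧
    Ok Gd mult 128 192 128 192 448 480 372 401 660 808 :=
  have c0 : (band (go 16 Gd mult S401_430_512_660 (Tr.lf 13970344072 95116106 0) 128 256 160 192 384 448)
  (go 16 Gd mult S401_430_512_660 (Tr.lf 10213294724 94981321 3449561949711001296566222848) 128 192 128 192 480 496)) = true := by decide +kernel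
  have c1 : (band (go 16 Gd mult S401_430_660_808 (Tr.lf 13970344072 95116106 0) 128 256 160 192 384 448)
  (go 16 Gd mult S401_430_660_808 (Tr.lf 9675376708 99441609 0) 128 256 128 160 384 448)) = true := by decide +kernel
  have c2 : (go 16 Gd mult S401_430_512_660 (Tr.lf 10221814920 86731850 64416030305393754243072) 128 256 160 192 448 480) = true := by decide +kernel
  have c3 : (band (go 16 Gd mult S372_401_512_660 (Tr.lf 9674328196 99445704 0) 128 256 128 192 384 448)
  (go 16 Gd mult S372_401_512_660 (Tr.lf 1093829252 90938567 27281811188886610896181920826) 128 256 128 192 496 512)) = true := by decide +kernel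
  have c4 : (go 16 Gd mult S401_430_512_660 (Tr.lf 548700808 95652807 21257736153819368865119207723) 128 256 128 192 496 512) = true := by decide +kernel
  have c5 : (band (go 16 Gd mult S372_401_660_808 (Tr.lf 9675507780 99445705 0) 128 256 160 192 384 448)
  (go 16 Gd mult S372_401_660_808 (Tr.lf 9683894916 99322952 1205664822644022873881051136) 128 192 128 192 464 480)) = true := by decide +kernel
  have c6 : (band (go 16 Gd mult S372_401_512_660 (Tr.lf 5388927620 95259720 1342158000536062696248836096) 128 256 128 192 464 480)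
  (go 16 Gd mult S372_401_512_660 (Tr.lf 5388927620 95394760 2545487760528260451687989248) 128 256 128 192 480 496)) = true := by decide +kernel
  have c7 : (band (go 16 Gd mult S401_430_512_660 (Tr.lf 9675375684 99441609 0) 128 256 128 160 384 448)
  (band (go 16 Gd mult S372_401_660_808 (Tr.lf 5380392004 95255624 0) 128 256 128 160 384 448)
  (go 16 Gd mult S401_430_512_660 (Tr.lf 5380407938 95255496 3895292987947286627086237696) 192 256 128 192 480 496))) = true := by decide +kernel
  have c8 : (go 16 Gd mult S372_401_660_808 (Tr.lf 9675375234 103374024 0) 128 192 128 192 448 464) = true := by decide +kernel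
  have c9 : (go 16 Gd mult S372_401_512_660 (Tr.lf 5380391556 95124552 0) 128 256 128 192 448 464) = true := by decide +kernel
  have c10 : (go 16 Gd mult S401_430_512_660 (Tr.lf 5380392004 95128520 0) 128 256 128 160 448 480) = true := by decide +kernel
  (And.intro (Ok.s3 401 (Ok.lf S372_401_512_660_ok (bl c3))
  (Ok.s1 160 (Ok.lf S401_430_512_660_ok (bl c7))
  (Ok.lf S401_430_512_660_ok (bl c0))))
  (And.intro (Ok.s2 480 (Ok.s3 401 (Ok.s2 464 (Ok.lf S372_401_512_660_ok c9)
  (Ok.lf S372_401_512_660_ok (bl c6)))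
  (Ok.s1 160 (Ok.lf S401_430_512_660_ok c10)
  (Ok.lf S401_430_512_660_ok c2)))
  (Ok.s2 496 (Ok.s3 401 (Ok.lf S372_401_512_660_ok (br c6))
  (Ok.s0 192 (Ok.lf S401_430_512_660_ok (br c0))
  (Ok.lf S401_430_512_660_ok (br (br c7)))))
  (Ok.s3 401 (Ok.lf S372_401_512_660_ok (br c3))
  (Ok.lf S401_430_512_660_ok c4))))
  (And.intro (Ok.s1 160 (Ok.s3 401 (Ok.lf S372_401_660_808_ok (bl (br c7)))
  (Ok.lf S401_430_660_808_ok (br c1)))
  (Ok.s3 401 (Ok.lf S372_401_660_808_ok (bl c5))
  (Ok.lf S401_430_660_808_ok (bl c1))))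
  (Ok.s2 464 (Ok.lf S372_401_660_808_ok c8)
  (Ok.lf S372_401_660_808_ok (br c5))))))

end Vale.Agent.P098.Ck
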