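import Vale.Agent.P098.CkGd
import Vale.Agent.P098.CkOk
import Vale.Agent.P098.Sh.A10
import Vale.Agent.P098.Sh.A17
import Vale.Agent.P098.Sh.A18
import Vale.Agent.P098.Sh.A19
import Vale.Agent.P098.Sh.A25
import Vale.Agent.P098.Sh.A36
import Vale.Agent.P098.Sh.A9

namespace Vale.Agent.P098.Ck

theorem r285 :
    Ok Gd mult 128 256 192 256 0 128 169 198 216 364 ∧
    Ok Gd mult 128 256 192 256 0 128 140 198 364 512 ∧
    Ok Gd mult 128 256 192 256 0 128 140 198 512 808 ∧
    Ok Gd mult 128 256 192 256 0 128 198 256 216 364 :=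
  have c0 : (band (go 16 Gd mult S169_198_216_364 (Tr.lf 12885198920 103635783 0) 128 256 192 224 0 128)
  (go 16 Gd mult S169_198_364_512 (Tr.lf 12885182532 103770823 0) 128 256 192 224 0 128)) = true := by decide +kernel
  have c1 : (go 16 Gd mult S169_198_216_364 (Tr.lf 17726735432 103898056 0) 128 256 224 256 64 128) = true := by decide +kernel
  have c2 : (band (go 16 Gd mult S140_169_364_512 (Tr.lf 12885182600 99838535 0) 128 256 192 256 0 128)
  (go 16 Gd mult S169_198_660_808 (Tr.lf 12885173384 99703750 0) 128 256 192 256 0 128)) = true := by decide +kernel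
  have c3 : (go 16 Gd mult S169_198_512_660 (Tr.lf 12885182600 103771078 0) 128 256 192 256 0 128) = true := by decide +kernel
  have c4 : (go 16 Gd mult S198_227_216_364 (Tr.lf 17735125060 99322697 0) 128 256 192 224 0 128) = true := by decide +kernel
  have c5 : (go 16 Gd mult S227_256_216_290 (Tr.lf 22566700168 103512778 0) 128 256 224 256 64 128) = true := by decide +kernel
  have c6 : (band (go 16 Gd mult S140_169_512_660 (Tr.lf 12885051528 99838790 0) 128 256 192 256 0 128)
  (go 16 Gd mult S140_169_660_808 (Tr.lf 12885174408 95644486 0) 128 256 192 256 0 128)) = true := by decide +kernel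
  have c7 : (go 16 Gd mult S169_198_364_512 (Tr.lf 12894619720 107973830 0) 128 256 224 256 0 128) = true := by decide +kernel
  have c8 : (band (go 16 Gd mult S198_227_216_290 (Tr.lf 22566700104 107576010 0) 128 256 224 256 64 128)
  (go 16 Gd mult S198_227_290_364 (Tr.lf 22566700104 107834058 0) 128 256 224 256 64 128)) = true := by decide +kernel
  have c9 : (go 16 Gd mult S227_256_216_364 (Tr.lf 17734060100 99322441 0) 128 256 192 224 0 128) = true := by decide +kernel
  have c10 : (go 16 Gd mult S227_256_290_364 (Tr.lf 22566700104 107576010 0) 128 256 224 256 64 128) = true := by decide +kernel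
  have c11 : (band (go 16 Gd mult S198_227_216_364 (Tr.lf 22020375624 99445321 0) 128 256 224 256 0 64)
  (band (go 16 Gd mult S227_256_216_364 (Tr.lf 22020375624 103639625 0) 128 256 224 256 0 64)
  (go 16 Gd mult S169_198_216_364 (Tr.lf 22021424196 103504713 0) 128 256 224 256 0 64))) = true := by decide +kernel
  (And.intro (Ok.s1 224 (Ok.lf S169_198_216_364_ok (bl c0))
  (Ok.s2 64 (Ok.lf S169_198_216_364_ok (br (br c11)))
  (Ok.lf S169_198_216_364_ok c1)))
  (And.intro (Ok.s3 169 (Ok.lf S140_169_364_512_ok (bl c2))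
  (Ok.s1 224 (Ok.lf S169_198_364_512_ok (br c0))
  (Ok.lf S169_198_364_512_ok c7)))
  (And.intro (Ok.s4 660 (Ok.s3 169 (Ok.lf S140_169_512_660_ok (bl c6))
  (Ok.lf S169_198_512_660_ok c3))
  (Ok.s3 169 (Ok.lf S140_169_660_808_ok (br c6))
  (Ok.lf S169_198_660_808_ok (br c2))))
  (Ok.s3 227 (Ok.s1 224 (Ok.lf S198_227_216_364_ok c4)
  (Ok.s2 64 (Ok.lf S198_227_216_364_ok (bl c11))
  (Ok.s4 290 (Ok.lf S198_227_216_290_ok (bl c8))
  (Ok.lf S198_227_290_364_ok (br c8)))))
  (Ok.s1 224 (Ok.lf S227_256_216_364_ok c9)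
  (Ok.s2 64 (Ok.lf S227_256_216_364_ok (bl (br c11)))
  (Ok.s4 290 (Ok.lf S227_256_216_290_ok c5)
  (Ok.lf S227_256_290_364_ok c10))))))))

end Vale.Agent.P098.Ck
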