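import Vale.Agent.P098.CkGd
import Vale.Agent.P098.CkOk
import Vale.Agent.P098.Sh.A26
import Vale.Agent.P098.Sh.A27
import Vale.Agent.P098.Sh.A37
import Vale.Agent.P098.Sh.A38
import Vale.Agent.P098.Sh.A41
import Vale.Agent.P098.Sh.A45

namespace Vale.Agent.P098.Ck

theorem r286 :
    Ok Gd mult 128 256 192 256 0 128 198 256 364 512 ∧
    Ok Gd mult 128 256 192 256 0 128 198 256 512 808 ∧
    Ok Gd mult 128 256 192 256 0 128 256 314 216 512 :=
  have c0 : (go 16 Gd mult S198_227_364_512 (Tr.lf 22566946888 103508682 0) 128 256 224 256 0 128) = true := by decide +kernel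
  have c1 : (go 16 Gd mult S227_256_364_512 (Tr.lf 22566946888 107702986 0) 128 256 224 256 0 128) = true := by decide +kernel
  have c2 : (go 16 Gd mult S256_285_216_364 (Tr.lf 22565897352 99445194 0) 128 256 224 256 64 128) = true := by decide +kernel
  have c3 : (band (go 16 Gd mult S198_227_364_512 (Tr.lf 17792518216 103766601 0) 128 256 192 224 0 128)
  (go 16 Gd mult S227_256_364_512 (Tr.lf 17792518216 103766601 0) 128 256 192 224 0 128)) = true := by decide +kernel
  have c4 : (band (go 16 Gd mult S198_227_512_660 (Tr.lf 17792518276 104159944 0) 192 256 192 256 0 128)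
  (go 16 Gd mult S285_314_364_512 (Tr.lf 12885443716 108223430 0) 192 256 192 256 0 128)) = true := by decide +kernel
  have c5 : (band (go 16 Gd mult S227_256_512_586 (Tr.lf 12893570184 112167878 0) 128 256 192 256 0 128)
  (band (go 16 Gd mult S227_256_660_808 (Tr.lf 12885181576 99703750 0) 128 256 192 256 0 128)
  (go 16 Gd mult S227_256_586_660 (Tr.lf 12885050440 99834822 0) 128 256 192 256 0 128))) = true := by decide +kernel
  have c6 : (band (go 16 Gd mult S256_285_216_364 (Tr.lf 12885182536 99445575 0) 128 256 192 224 0 128)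
  (go 16 Gd mult S256_285_364_512 (Tr.lf 12885182536 95378247 0) 128 256 192 224 0 128)) = true := by decide +kernel
  have c7 : (band (go 16 Gd mult S285_314_216_364 (Tr.lf 17725670472 103897800 0) 128 256 224 256 0 128)
  (go 16 Gd mult S256_285_364_512 (Tr.lf 17801167944 108104392 0) 128 256 224 256 0 128)) = true := by decide +kernel
  have c8 : (band (go 16 Gd mult S198_227_512_660 (Tr.lf 12893571202 99584966 0) 128 192 192 256 0 128)
  (go 16 Gd mult S285_314_364_512 (Tr.lf 12893570178 95390407 0) 128 192 192 256 0 128)) = true := by decide +kernel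
  have c9 : (go 16 Gd mult S198_227_660_808 (Tr.lf 12885181512 103898054 0) 128 256 192 256 0 128) = true := by decide +kernel
  have c10 : (go 16 Gd mult S256_285_216_364 (Tr.lf 22020375624 103508553 0) 128 256 224 256 0 64) = true := by decide +kernel
  have c11 : (go 16 Gd mult S285_314_216_364 (Tr.lf 12885181512 95247175 0) 128 256 192 224 0 128) = true := by decide +kernel
  (And.intro (Ok.s3 227 (Ok.s1 224 (Ok.lf S198_227_364_512_ok (bl c3))
  (Ok.lf S198_227_364_512_ok c0))
  (Ok.s1 224 (Ok.lf S227_256_364_512_ok (br c3))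
  (Ok.lf S227_256_364_512_ok c1)))
  (And.intro (Ok.s4 660 (Ok.s3 227 (Ok.s0 192 (Ok.lf S198_227_512_660_ok (bl c8))
  (Ok.lf S198_227_512_660_ok (bl c4)))
  (Ok.s4 586 (Ok.lf S227_256_512_586_ok (bl c5))
  (Ok.lf S227_256_586_660_ok (br (br c5)))))
  (Ok.s3 227 (Ok.lf S198_227_660_808_ok c9)
  (Ok.lf S227_256_660_808_ok (bl (br c5)))))
  (Ok.s4 364 (Ok.s3 285 (Ok.s1 224 (Ok.lf S256_285_216_364_ok (bl c6))
  (Ok.s2 64 (Ok.lf S256_285_216_364_ok c10)
  (Ok.lf S256_285_216_364_ok c2)))
  (Ok.s1 224 (Ok.lf S285_314_216_364_ok c11)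
  (Ok.lf S285_314_216_364_ok (bl c7))))
  (Ok.s3 285 (Ok.s1 224 (Ok.lf S256_285_364_512_ok (br c6))
  (Ok.lf S256_285_364_512_ok (br c7)))
  (Ok.s0 192 (Ok.lf S285_314_364_512_ok (br c8))
  (Ok.lf S285_314_364_512_ok (br c4)))))))

end Vale.Agent.P098.Ck
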