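import Vale.Agent.P098.CkGd
import Vale.Agent.P098.CkOk
import Vale.Agent.P098.Sh.A42
import Vale.Agent.P098.Sh.A44
import Vale.Agent.P098.Sh.A46
import Vale.Agent.P098.Sh.A47
import Vale.Agent.P098.Sh.A48
import Vale.Agent.P098.Sh.A49
import Vale.Agent.P098.Sh.A51
import Vale.Agent.P098.Sh.A52
import Vale.Agent.P098.Sh.A54
import Vale.Agent.P098.Sh.A56

namespace Vale.Agent.P098.Ck

theorem r287 :
    Ok Gd mult 128 256 192 256 0 128 256 314 512 660 ∧
    Ok Gd mult 128 256 192 256 0 128 256 314 660 808 ∧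
    Ok Gd mult 128 256 192 256 0 128 314 372 216 808 ∧
    Ok Gd mult 128 256 192 256 0 128 372 430 216 364 :=
  have c0 : (band (go 16 Gd mult S256_285_512_660 (Tr.lf 17801168008 99842760 0) 128 256 192 256 0 128)
  (go 16 Gd mult S285_314_512_660 (Tr.lf 12885181512 103766982 0) 128 256 192 256 0 128)) = true := by decide +kernel
  have c1 : (go 16 Gd mult S256_285_660_808 (Tr.lf 17180412036 95243079 0) 192 256 192 256 0 128) = true := by decide +kernel
  have c2 : (go 16 Gd mult S314_343_216_364 (Tr.lf 12885182600 103770823 0) 128 256 192 256 0 128) = true := by decide +kernel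
  have c3 : (go 16 Gd mult S314_343_364_512 (Tr.lf 12885182600 103770823 0) 128 256 192 256 0 128) = true := by decide +kernel
  have c4 : (go 16 Gd mult S343_372_512_660 (Tr.lf 12885182600 99707591 0) 128 256 192 256 0 128) = true := by decide +kernel
  have c5 : (go 16 Gd mult S343_372_660_808 (Tr.lf 12885182600 99707591 0) 128 256 192 256 0 128) = true := by decide +kernel
  have c6 : (band (go 16 Gd mult S343_372_216_364 (Tr.lf 12885174408 107965127 0) 128 256 192 256 0 128)
  (go 16 Gd mult S343_372_364_512 (Tr.lf 12885051528 99707591 0) 128 256 192 256 0 128)) = true := by decide +kernel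
  have c7 : (go 16 Gd mult S256_314_660_808 (Tr.lf 12885197956 107961158 0) 128 192 192 256 0 128) = true := by decide +kernel
  have c8 : (band (go 16 Gd mult S314_343_512_660 (Tr.lf 12885181576 99834567 0) 128 256 192 256 0 128)
  (go 16 Gd mult S314_343_660_808 (Tr.lf 12885181576 99703750 0) 128 256 192 256 0 128)) = true := by decide +kernel
  have c9 : (go 16 Gd mult S372_430_216_364 (Tr.lf 12885198916 108231239 0) 192 256 192 224 0 128) = true := by decide +kernel
  have c10 : (band (go 16 Gd mult S401_430_216_364 (Tr.lf 22560262216 103636042 0) 128 256 224 256 0 128)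
  (go 16 Gd mult S372_401_216_364 (Tr.lf 17726318660 103906120 0) 128 256 224 256 0 128)) = true := by decide +kernel
  have c11 : (band (go 16 Gd mult S285_314_660_808 (Tr.lf 17180148868 95251398 0) 192 256 192 256 0 64)
  (go 16 Gd mult S285_314_660_808 (Tr.lf 12893569604 103910469 0) 192 256 192 256 64 128)) = true := by decide +kernel
  have c12 : (go 16 Gd mult S372_430_216_364 (Tr.lf 18264261666 107703241 0) 128 192 192 224 0 128) = true := by decide +kernel
  (And.intro (Ok.s3 285 (Ok.lf S256_285_512_660_ok (bl c0))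
  (Ok.lf S285_314_512_660_ok (br c0)))
  (And.intro (Ok.s0 192 (Ok.lf S256_314_660_808_ok c7)
  (Ok.s3 285 (Ok.lf S256_285_660_808_ok c1)
  (Ok.s2 64 (Ok.lf S285_314_660_808_ok (bl c11))
  (Ok.lf S285_314_660_808_ok (br c11)))))
  (And.intro (Ok.s4 512 (Ok.s4 364 (Ok.s3 343 (Ok.lf S314_343_216_364_ok c2)
  (Ok.lf S343_372_216_364_ok (bl c6)))
  (Ok.s3 343 (Ok.lf S314_343_364_512_ok c3)
  (Ok.lf S343_372_364_512_ok (br c6))))
  (Ok.s4 660 (Ok.s3 343 (Ok.lf S314_343_512_660_ok (bl c8))
  (Ok.lf S343_372_512_660_ok c4))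
  (Ok.s3 343 (Ok.lf S314_343_660_808_ok (br c8))
  (Ok.lf S343_372_660_808_ok c5))))
  (Ok.s1 224 (Ok.s0 192 (Ok.lf S372_430_216_364_ok c12)
  (Ok.lf S372_430_216_364_ok c9))
  (Ok.s3 401 (Ok.lf S372_401_216_364_ok (br c10))
  (Ok.lf S401_430_216_364_ok (bl c10)))))))

end Vale.Agent.P098.Ck
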