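import Vale.Agent.P098.CkGd
import Vale.Agent.P098.CkOk
import Vale.Agent.P098.Sh.A54
import Vale.Agent.P098.Sh.A56
import Vale.Agent.P098.Sh.A57
import Vale.Agent.P098.Sh.A58
import Vale.Agent.P098.Sh.A59

namespace Vale.Agent.P098.Ck

theorem r288 :
    Ok Gd mult 128 256 192 256 0 128 372 430 364 512 ∧
    Ok Gd mult 128 256 192 256 0 128 372 430 512 808 ∧
    Ok Gd mult 128 256 192 256 0 128 430 488 216 512 ∧
    Ok Gd mult 128 256 192 256 0 128 430 488 512 660 :=
  have c0 : (band (go 16 Gd mult S430_488_216_364 (Tr.lf 22551890056 107822154 0) 128 256 224 256 0 128)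
  (go 16 Gd mult S372_401_364_512 (Tr.lf 17726326856 103906120 0) 128 256 224 256 0 128)) = true := by decide +kernel
  have c1 : (band (go 16 Gd mult S430_488_364_512 (Tr.lf 22551890056 107822154 0) 128 256 224 256 0 128)
  (go 16 Gd mult S401_430_364_512 (Tr.lf 22560262216 103636042 0) 128 256 224 256 0 128)) = true := by decide +kernel
  have c2 : (band (go 16 Gd mult S372_401_660_808 (Tr.lf 12885182536 103770823 0) 128 256 192 224 0 128)
  (band (go 16 Gd mult S372_401_364_512 (Tr.lf 12885051464 103770823 0) 128 256 192 224 0 128)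
  (go 16 Gd mult S372_401_512_660 (Tr.lf 12885051464 103770823 0) 128 256 192 224 0 128))) = true := by decide +kernel
  have c3 : (band (go 16 Gd mult S401_430_512_660 (Tr.lf 22560262216 103636042 0) 128 256 224 256 0 128)
  (band (go 16 Gd mult S401_430_660_808 (Tr.lf 22560262216 103636042 0) 128 256 224 256 0 128)
  (band (go 16 Gd mult S372_401_512_660 (Tr.lf 17726325832 103906120 0) 128 256 224 256 0 128)
  (go 16 Gd mult S372_401_660_808 (Tr.lf 17726325832 103906120 0) 128 256 224 256 0 128)))) = true := by decide +kernel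
  have c4 : (band (go 16 Gd mult S401_430_660_808 (Tr.lf 13431359560 99847111 0) 128 256 192 224 0 128)
  (band (go 16 Gd mult S430_488_216_364 (Tr.lf 18264197188 103771081 0) 128 256 192 224 0 128)
  (band (go 16 Gd mult S430_488_364_512 (Tr.lf 18264197188 103771081 0) 128 256 192 224 0 128)
  (go 16 Gd mult S430_488_512_660 (Tr.lf 18264197188 103771081 0) 128 256 192 224 0 128)))) = true := by decide +kernel
  have c5 : (go 16 Gd mult S430_488_512_660 (Tr.lf 22551823432 103627850 0) 128 256 224 256 64 128) = true := by decide +kernel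
  have c6 : (band (go 16 Gd mult S401_430_364_512 (Tr.lf 13422970948 99838919 0) 128 256 192 224 0 128)
  (go 16 Gd mult S401_430_512_660 (Tr.lf 13431359556 99847111 0) 128 256 192 224 0 128)) = true := by decide +kernel
  have c7 : (go 16 Gd mult S430_488_512_660 (Tr.lf 17717871684 103906247 0) 128 256 224 256 0 64) = true := by decide +kernel
  (And.intro (Ok.s1 224 (Ok.s3 401 (Ok.lf S372_401_364_512_ok (bl (br c2)))
  (Ok.lf S401_430_364_512_ok (bl c6)))
  (Ok.s3 401 (Ok.lf S372_401_364_512_ok (br c0))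
  (Ok.lf S401_430_364_512_ok (br c1))))
  (And.intro (Ok.s4 660 (Ok.s3 401 (Ok.s1 224 (Ok.lf S372_401_512_660_ok (br (br c2)))
  (Ok.lf S372_401_512_660_ok (bl (br (br c3)))))
  (Ok.s1 224 (Ok.lf S401_430_512_660_ok (br c6))
  (Ok.lf S401_430_512_660_ok (bl c3))))
  (Ok.s3 401 (Ok.s1 224 (Ok.lf S372_401_660_808_ok (bl c2))
  (Ok.lf S372_401_660_808_ok (br (br (br c3)))))
  (Ok.s1 224 (Ok.lf S401_430_660_808_ok (bl c4))
  (Ok.lf S401_430_660_808_ok (bl (br c3))))))
  (And.intro (Ok.s4 364 (Ok.s1 224 (Ok.lf S430_488_216_364_ok (bl (br c4)))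
  (Ok.lf S430_488_216_364_ok (bl c0)))
  (Ok.s1 224 (Ok.lf S430_488_364_512_ok (bl (br (br c4))))
  (Ok.lf S430_488_364_512_ok (bl c1))))
  (Ok.s1 224 (Ok.lf S430_488_512_660_ok (br (br (br c4))))
  (Ok.s2 64 (Ok.lf S430_488_512_660_ok c7)
  (Ok.lf S430_488_512_660_ok c5))))))

end Vale.Agent.P098.Ck
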