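import Vale.Agent.P098.CkGd
import Vale.Agent.P098.CkOk
import Vale.Agent.P098.Sh.A0
import Vale.Agent.P098.Sh.A1
import Vale.Agent.P098.Sh.A2
import Vale.Agent.P098.Sh.A3
import Vale.Agent.P098.Sh.A5
import Vale.Agent.P098.Sh.A59
import Vale.Agent.P098.Sh.A6

namespace Vale.Agent.P098.Ck

theorem r289 :
    Ok Gd mult 128 256 192 256 0 128 430 488 660 808 ∧
    Ok Gd mult 128 256 192 256 128 256 24 140 216 808 :=
  have c0 : (band (go 16 Gd mult S111_140_364_512 (Tr.lf 13432539272 103521351 0) 128 256 192 256 128 256)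
  (go 16 Gd mult S82_111_364_512 (Tr.lf 9137440900 108104902 0) 128 256 192 256 128 256)) = true := by decide +kernel
  have c1 : (band (go 16 Gd mult S24_82_216_364 (Tr.lf 13424035912 103513286 0) 128 256 192 224 128 256)
  (go 16 Gd mult S24_82_660_808 (Tr.lf 13424035912 99450054 0) 128 256 192 224 128 256)) = true := by decide +kernel
  have c2 : (band (go 16 Gd mult S82_111_216_364 (Tr.lf 9137440904 108104902 0) 128 256 192 256 128 256)
  (go 16 Gd mult S111_140_660_808 (Tr.lf 13423102084 107965255 0) 128 256 192 256 128 256)) = true := by decide +kernel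
  have c3 : (band (go 16 Gd mult S111_140_216_364 (Tr.lf 13432539208 103775303 0) 128 256 192 224 128 256)
  (band (go 16 Gd mult S24_82_364_512 (Tr.lf 13423970376 103513286 0) 128 256 192 224 128 256)
  (go 16 Gd mult S111_140_216_364 (Tr.lf 9137570884 108235974 0) 128 256 224 256 128 256))) = true := by decide +kernel
  have c4 : (band (go 16 Gd mult S430_488_660_808 (Tr.lf 22551823496 103627850 0) 128 256 224 256 64 128)
  (go 16 Gd mult S430_488_660_808 (Tr.lf 18264197188 103771081 0) 128 256 192 224 0 128)) = true := by decide +kernel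
  have c5 : (go 16 Gd mult S24_82_512_660 (Tr.lf 13423970376 107707590 0) 128 256 192 224 128 256) = true := by decide +kernel
  have c6 : (band (go 16 Gd mult S82_111_512_660 (Tr.lf 13424019588 99445831 0) 128 256 192 256 128 256)
  (band (go 16 Gd mult S111_140_512_660 (Tr.lf 13431359620 103779143 0) 128 256 192 256 128 256)
  (go 16 Gd mult S82_111_660_808 (Tr.lf 13424019588 103640135 0) 128 256 192 256 128 256))) = true := by decide +kernel
  have c7 : (go 16 Gd mult S430_488_660_808 (Tr.lf 17717871684 103906247 0) 128 256 224 256 0 64) = true := by decide +kernel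
  have c8 : (band (go 16 Gd mult S24_82_216_364 (Tr.lf 13423952964 99572807 0) 128 256 224 256 128 256)
  (band (go 16 Gd mult S24_82_364_512 (Tr.lf 13423952964 103767111 0) 128 256 224 256 128 256)
  (band (go 16 Gd mult S24_82_512_660 (Tr.lf 13423952932 103767366 0) 128 256 224 256 128 256)
  (go 16 Gd mult S24_82_660_808 (Tr.lf 13423952932 103767366 0) 128 256 224 256 128 256)))) = true := by decide +kernel
  (And.intro (Ok.s1 224 (Ok.lf S430_488_660_808_ok (br c4))
  (Ok.s2 64 (Ok.lf S430_488_660_808_ok c7)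
  (Ok.lf S430_488_660_808_ok (bl c4))))
  (Ok.s3 82 (Ok.s4 512 (Ok.s4 364 (Ok.s1 224 (Ok.lf S24_82_216_364_ok (bl c1))
  (Ok.lf S24_82_216_364_ok (bl c8)))
  (Ok.s1 224 (Ok.lf S24_82_364_512_ok (bl (br c3)))
  (Ok.lf S24_82_364_512_ok (bl (br c8)))))
  (Ok.s4 660 (Ok.s1 224 (Ok.lf S24_82_512_660_ok c5)
  (Ok.lf S24_82_512_660_ok (bl (br (br c8)))))
  (Ok.s1 224 (Ok.lf S24_82_660_808_ok (br c1))
  (Ok.lf S24_82_660_808_ok (br (br (br c8)))))))
  (Ok.s4 512 (Ok.s4 364 (Ok.s3 111 (Ok.lf S82_111_216_364_ok (bl c2))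
  (Ok.s1 224 (Ok.lf S111_140_216_364_ok (bl c3))
  (Ok.lf S111_140_216_364_ok (br (br c3)))))
  (Ok.s3 111 (Ok.lf S82_111_364_512_ok (br c0))
  (Ok.lf S111_140_364_512_ok (bl c0))))
  (Ok.s4 660 (Ok.s3 111 (Ok.lf S82_111_512_660_ok (bl c6))
  (Ok.lf S111_140_512_660_ok (bl (br c6))))
  (Ok.s3 111 (Ok.lf S82_111_660_808_ok (br (br c6)))
  (Ok.lf S111_140_660_808_ok (br c2)))))))

end Vale.Agent.P098.Ck
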