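import Vale.Agent.P098.CkGd
import Vale.Agent.P098.CkOk
import Vale.Agent.P098.Sh.A0
import Vale.Agent.P098.Sh.A1
import Vale.Agent.P098.Sh.A2
import Vale.Agent.P098.Sh.A3
import Vale.Agent.P098.Sh.A4
import Vale.Agent.P098.Sh.A5
import Vale.Agent.P098.Sh.A58
import Vale.Agent.P098.Sh.A59

namespace Vale.Agent.P098.Ck

theorem r29 :
    Ok Gd mult 0 128 0 64 384 512 430 488 512 660 ∧
    Ok Gd mult 0 128 0 64 384 512 430 488 660 808 ∧
    Ok Gd mult 0 128 64 128 0 128 24 140 216 808 :=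
  have c0 : (band (go 16 Gd mult S82_140_660_808 (Tr.lf 547653764 108108997 0) 0 128 64 128 0 128)
  (go 16 Gd mult S111_140_512_660 (Tr.lf 539117700 108100805 0) 0 128 64 128 0 128)) = true := by decide +kernel
  have c1 : (band (go 16 Gd mult S430_459_660_808 (Tr.lf 1153599620 103906248 1206472574073702299271777) 0 128 32 64 480 512)
  (band (go 16 Gd mult S430_459_512_660 (Tr.lf 1085441092 95255750 1206472574142872744428148) 0 128 32 64 480 512)
  (band (go 16 Gd mult S459_488_660_808 (Tr.lf 1765876258 95652936 1206472631495473794515757) 0 128 32 64 480 512)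
  (go 16 Gd mult S459_488_512_660 (Tr.lf 1765876258 87395400 1197765768292682828481325) 0 128 32 64 480 512)))) = true := by decide +kernel
  have c2 : (band (go 16 Gd mult S111_140_216_364 (Tr.lf 540312708 108096455 0) 0 128 64 128 0 128)
  (band (go 16 Gd mult S82_111_216_364 (Tr.lf 540165186 108100423 0) 0 128 64 128 0 128)
  (band (go 16 Gd mult S82_111_512_660 (Tr.lf 539051074 112294981 0) 0 128 64 128 0 128)
  (band (go 16 Gd mult S24_82_216_364 (Tr.lf 539050562 107977669 0) 0 128 64 128 0 128)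
  (band (go 16 Gd mult S24_82_364_512 (Tr.lf 539050562 107977669 0) 0 128 64 128 0 128)
  (go 16 Gd mult S24_82_512_660 (Tr.lf 539050562 107977669 0) 0 128 64 128 0 128)))))) = true := by decide +kernel
  have c3 : (band (go 16 Gd mult S82_140_364_512 (Tr.lf 547522628 108104901 0) 0 128 64 96 0 128)
  (go 16 Gd mult S82_140_364_512 (Tr.lf 539132962 104033477 0) 0 128 96 128 0 128)) = true := by decide +kernel
  have c4 : (band (go 16 Gd mult S430_488_512_660 (Tr.lf 1152549954 108100806 0) 0 128 0 32 480 512)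
  (go 16 Gd mult S430_488_660_808 (Tr.lf 1152549954 108100806 0) 0 128 0 32 480 512)) = true := by decide +kernel
  have c5 : (band (go 16 Gd mult S430_488_660_808 (Tr.lf 1698776194 95255625 0) 0 128 0 64 384 448)
  (band (go 16 Gd mult S430_488_512_660 (Tr.lf 1085359233 103644231 0) 0 128 0 64 384 448)
  (band (go 16 Gd mult S430_488_660_808 (Tr.lf 1152467586 103910598 0) 0 128 0 64 448 480)
  (go 16 Gd mult S430_488_512_660 (Tr.lf 1152467521 99716294 0) 0 128 0 64 448 480)))) = true := by decide +kernel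
  have c6 : (go 16 Gd mult S24_82_660_808 (Tr.lf 539050562 107977669 0) 0 128 64 128 0 128) = true := by decide +kernel
  (And.intro (Ok.s2 448 (Ok.lf S430_488_512_660_ok (bl (br c5)))
  (Ok.s2 480 (Ok.lf S430_488_512_660_ok (br (br (br c5))))
  (Ok.s1 32 (Ok.lf S430_488_512_660_ok (bl c4))
  (Ok.s3 459 (Ok.lf S430_459_512_660_ok (bl (br c1)))
  (Ok.lf S459_488_512_660_ok (br (br (br c1))))))))
  (And.intro (Ok.s2 448 (Ok.lf S430_488_660_808_ok (bl c5))
  (Ok.s2 480 (Ok.lf S430_488_660_808_ok (bl (br (br c5))))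
  (Ok.s1 32 (Ok.lf S430_488_660_808_ok (br c4))
  (Ok.s3 459 (Ok.lf S430_459_660_808_ok (bl c1))
  (Ok.lf S459_488_660_808_ok (bl (br (br c1))))))))
  (Ok.s3 82 (Ok.s4 512 (Ok.s4 364 (Ok.lf S24_82_216_364_ok (bl (br (br (br c2)))))
  (Ok.lf S24_82_364_512_ok (bl (br (br (br (br c2)))))))
  (Ok.s4 660 (Ok.lf S24_82_512_660_ok (br (br (br (br (br c2))))))
  (Ok.lf S24_82_660_808_ok c6)))
  (Ok.s4 512 (Ok.s4 364 (Ok.s3 111 (Ok.lf S82_111_216_364_ok (bl (br c2)))
  (Ok.lf S111_140_216_364_ok (bl c2)))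
  (Ok.s1 96 (Ok.lf S82_140_364_512_ok (bl c3))
  (Ok.lf S82_140_364_512_ok (br c3))))
  (Ok.s4 660 (Ok.s3 111 (Ok.lf S82_111_512_660_ok (bl (br (br c2))))
  (Ok.lf S111_140_512_660_ok (br c0)))
  (Ok.lf S82_140_660_808_ok (bl c0)))))))

end Vale.Agent.P098.Ck
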