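import Vale.Agent.P098.CkGd
import Vale.Agent.P098.CkOk
import Vale.Agent.P098.Sh.A14
import Vale.Agent.P098.Sh.A15
import Vale.Agent.P098.Sh.A16
import Vale.Agent.P098.Sh.A17
import Vale.Agent.P098.Sh.A18
import Vale.Agent.P098.Sh.A20
import Vale.Agent.P098.Sh.A21
import Vale.Agent.P098.Sh.A8
import Vale.Agent.P098.Sh.A9

namespace Vale.Agent.P098.Ck

theorem r290 :
    Ok Gd mult 128 256 192 256 128 256 140 169 216 364 ∧
    Ok Gd mult 128 256 192 256 128 256 169 198 216 364 ∧
    Ok Gd mult 128 256 192 256 128 256 140 169 364 512 ∧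
    Ok Gd mult 128 256 192 224 128 256 169 198 364 512 :=
  have c0 : (band (go 16 Gd mult S140_169_216_364 (Tr.lf 13431507016 103906247 0) 128 256 224 256 128 256)
  (go 16 Gd mult S140_169_364_512 (Tr.lf 13431490628 99711943 0) 128 256 224 256 128 256)) = true := by decide +kernel
  have c1 : (band (go 16 Gd mult S169_198_216_364 (Tr.lf 18281432136 95124426 0) 128 256 192 224 128 192)
  (go 16 Gd mult S140_169_364_512 (Tr.lf 13431489604 99707847 0) 128 256 192 224 128 192)) = true := by decide +kernel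
  have c2 : (band (go 16 Gd mult S183_198_216_364 (Tr.lf 13441189000 95255752 0) 128 256 192 224 192 256)
  (go 16 Gd mult S169_183_216_364 (Tr.lf 13440140356 95517512 0) 128 256 192 224 192 256)) = true := by decide +kernel
  have c3 : (go 16 Gd mult S169_198_216_364 (Tr.lf 17736172676 103775432 0) 128 192 224 256 128 192) = true := by decide +kernel
  have c4 : (go 16 Gd mult S140_169_216_364 (Tr.lf 13432555588 99708103 0) 192 256 192 224 128 256) = true := by decide +kernel
  have c5 : (band (go 16 Gd mult S169_198_216_290 (Tr.lf 17734861956 95378249 0) 128 192 224 256 192 256)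
  (go 16 Gd mult S169_198_290_364 (Tr.lf 17734861892 103635785 0) 128 192 224 256 192 256)) = true := by decide +kernel
  have c6 : (band (go 16 Gd mult S183_198_216_364 (Tr.lf 22031124548 86723403 0) 192 256 224 256 128 256)
  (go 16 Gd mult S169_183_216_364 (Tr.lf 17736149060 91057225 0) 192 256 224 256 128 256)) = true := by decide +kernel
  have c7 : (go 16 Gd mult S169_198_364_512 (Tr.lf 13439894600 99707848 0) 128 256 192 224 128 192) = true := by decide +kernel
  have c8 : (band (go 16 Gd mult S183_198_364_512 (Tr.lf 13441188936 99585096 0) 128 256 192 224 192 256)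
  (band (go 16 Gd mult S140_169_364_512 (Tr.lf 13440943172 99716295 0) 128 256 192 224 192 256)
  (go 16 Gd mult S169_183_364_512 (Tr.lf 13439878212 103775303 0) 128 256 192 224 192 256))) = true := by decide +kernel
  have c9 : (go 16 Gd mult S140_169_216_364 (Tr.lf 13431490626 103771079 0) 128 192 192 224 128 256) = true := by decide +kernel
  (And.intro (Ok.s1 224 (Ok.s0 192 (Ok.lf S140_169_216_364_ok c9)
  (Ok.lf S140_169_216_364_ok c4))
  (Ok.lf S140_169_216_364_ok (bl c0)))
  (And.intro (Ok.s1 224 (Ok.s2 192 (Ok.lf S169_198_216_364_ok (bl c1))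
  (Ok.s3 183 (Ok.lf S169_183_216_364_ok (br c2))
  (Ok.lf S183_198_216_364_ok (bl c2))))
  (Ok.s0 192 (Ok.s2 192 (Ok.lf S169_198_216_364_ok c3)
  (Ok.s4 290 (Ok.lf S169_198_216_290_ok (bl c5))
  (Ok.lf S169_198_290_364_ok (br c5))))
  (Ok.s3 183 (Ok.lf S169_183_216_364_ok (br c6))
  (Ok.lf S183_198_216_364_ok (bl c6)))))
  (And.intro (Ok.s1 224 (Ok.s2 192 (Ok.lf S140_169_364_512_ok (br c1))
  (Ok.lf S140_169_364_512_ok (bl (br c8))))
  (Ok.lf S140_169_364_512_ok (br c0)))
  (Ok.s2 192 (Ok.lf S169_198_364_512_ok c7)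
  (Ok.s3 183 (Ok.lf S169_183_364_512_ok (br (br c8)))
  (Ok.lf S183_198_364_512_ok (bl c8)))))))

end Vale.Agent.P098.Ck
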