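import Vale.Agent.P098.CkGd
import Vale.Agent.P098.CkOk
import Vale.Agent.P098.Sh.A10
import Vale.Agent.P098.Sh.A15
import Vale.Agent.P098.Sh.A18
import Vale.Agent.P098.Sh.A19
import Vale.Agent.P098.Sh.A21
import Vale.Agent.P098.Sh.A23
import Vale.Agent.P098.Sh.A25
import Vale.Agent.P098.Sh.A30

namespace Vale.Agent.P098.Ck

theorem r291 :
    Ok Gd mult 128 256 224 256 128 256 169 198 364 512 ∧
    Ok Gd mult 128 256 192 256 128 256 140 198 512 808 ∧
    Ok Gd mult 128 256 192 224 128 256 198 227 216 364 :=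
  have c0 : (go 16 Gd mult S140_169_512_660 (Tr.lf 13431507076 99711943 0) 128 256 192 256 128 256) = true := by decide +kernel
  have c1 : (band (go 16 Gd mult S169_198_512_660 (Tr.lf 13439895624 103648327 0) 128 256 192 224 128 256)
  (go 16 Gd mult S169_198_660_808 (Tr.lf 13431489604 103775175 0) 128 256 192 224 128 256)) = true := by decide +kernel
  have c2 : (band (go 16 Gd mult S169_198_512_660 (Tr.lf 13439895624 103902407 0) 128 256 224 256 128 256)
  (go 16 Gd mult S169_198_660_808 (Tr.lf 13431489604 112295110 0) 128 256 224 256 128 256)) = true := by decide +kernel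
  have c3 : (go 16 Gd mult S198_227_216_364 (Tr.lf 13440156804 104037320 0) 192 256 192 224 128 192) = true := by decide +kernel
  have c4 : (go 16 Gd mult S198_227_290_364 (Tr.lf 18280384580 99449546 0) 192 256 208 224 192 256) = true := by decide +kernel
  have c5 : (go 16 Gd mult S169_198_364_512 (Tr.lf 17734861896 99453896 0) 128 256 224 256 128 192) = true := by decide +kernel
  have c6 : (band (go 16 Gd mult S183_198_364_512 (Tr.lf 17735107656 99445577 0) 128 256 224 256 192 256)
  (go 16 Gd mult S169_183_364_512 (Tr.lf 13431481416 107965511 0) 128 256 224 256 192 256)) = true := by decide +kernel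
  have c7 : (go 16 Gd mult S140_169_660_808 (Tr.lf 9136523396 99847493 0) 128 256 192 256 128 256) = true := by decide +kernel
  have c8 : (band (go 16 Gd mult S212_227_216_290 (Tr.lf 17743235204 91060938 0) 192 256 192 224 192 256)
  (go 16 Gd mult S198_212_216_290 (Tr.lf 13439878212 103775176 0) 192 256 192 224 192 256)) = true := by decide +kernel
  have c9 : (band (go 16 Gd mult S198_227_216_290 (Tr.lf 13439894594 99453896 0) 128 192 192 224 192 256)
  (band (go 16 Gd mult S198_227_290_364 (Tr.lf 13439894594 103517128 0) 128 192 192 224 192 256)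
  (go 16 Gd mult S198_227_290_364 (Tr.lf 13439894564 107969480 0) 192 256 192 208 192 256))) = true := by decide +kernel
  have c10 : (go 16 Gd mult S198_227_216_364 (Tr.lf 13431489602 107834567 0) 128 192 192 224 128 192) = true := by decide +kernel
  (And.intro (Ok.s2 192 (Ok.lf S169_198_364_512_ok c5)
  (Ok.s3 183 (Ok.lf S169_183_364_512_ok (br c6))
  (Ok.lf S183_198_364_512_ok (bl c6))))
  (And.intro (Ok.s4 660 (Ok.s3 169 (Ok.lf S140_169_512_660_ok c0)
  (Ok.s1 224 (Ok.lf S169_198_512_660_ok (bl c1))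
  (Ok.lf S169_198_512_660_ok (bl c2))))
  (Ok.s3 169 (Ok.lf S140_169_660_808_ok c7)
  (Ok.s1 224 (Ok.lf S169_198_660_808_ok (br c1))
  (Ok.lf S169_198_660_808_ok (br c2)))))
  (Ok.s2 192 (Ok.s0 192 (Ok.lf S198_227_216_364_ok c10)
  (Ok.lf S198_227_216_364_ok c3))
  (Ok.s4 290 (Ok.s0 192 (Ok.lf S198_227_216_290_ok (bl c9))
  (Ok.s3 212 (Ok.lf S198_212_216_290_ok (br c8))
  (Ok.lf S212_227_216_290_ok (bl c8))))
  (Ok.s0 192 (Ok.lf S198_227_290_364_ok (bl (br c9)))
  (Ok.s1 208 (Ok.lf S198_227_290_364_ok (br (br c9)))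
  (Ok.lf S198_227_290_364_ok c4)))))))

end Vale.Agent.P098.Ck
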