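import Vale.Agent.P098.CkGd
import Vale.Agent.P098.CkOk
import Vale.Agent.P098.Sh.A23
import Vale.Agent.P098.Sh.A25
import Vale.Agent.P098.Sh.A31
import Vale.Agent.P098.Sh.A34
import Vale.Agent.P098.Sh.A36
import Vale.Agent.P098.Sh.A39

namespace Vale.Agent.P098.Ck

theorem r292 :
    Ok Gd mult 128 256 224 256 128 192 198 227 216 364 ∧
    Ok Gd mult 128 256 224 256 192 256 198 227 216 364 ∧
    Ok Gd mult 128 256 192 224 128 256 227 256 216 364 ∧
    Ok Gd mult 128 256 224 256 128 192 227 256 216 290 :=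
  have c0 : (go 16 Gd mult S198_227_216_290 (Tr.lf 17735124040 99576649 0) 128 256 224 240 192 256) = true := by decide +kernel
  have c1 : (band (go 16 Gd mult S198_227_216_290 (Tr.lf 22576138312 95251275 0) 128 256 240 256 192 256)
  (go 16 Gd mult S198_227_216_290 (Tr.lf 22566699592 103373642 0) 128 256 224 256 128 160)) = true := by decide +kernel
  have c2 : (go 16 Gd mult S212_227_290_364 (Tr.lf 18280368260 95386314 0) 192 256 224 256 192 256) = true := by decide +kernel
  have c3 : (go 16 Gd mult S227_241_216_290 (Tr.lf 17743235208 94997194 0) 128 256 192 224 192 256) = true := by decide +kernel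
  have c4 : (go 16 Gd mult S227_241_290_364 (Tr.lf 18280368260 99449546 0) 192 256 192 224 192 256) = true := by decide +kernel
  have c5 : (band (go 16 Gd mult S227_241_216_290 (Tr.lf 22575073416 103381579 0) 128 256 224 256 128 192)
  (go 16 Gd mult S198_212_290_364 (Tr.lf 17734845512 99576649 0) 128 256 224 256 128 192)) = true := by decide +kernel
  have c6 : (go 16 Gd mult S198_227_216_290 (Tr.lf 22576136840 107445067 0) 128 256 224 256 160 192) = true := by decide +kernel
  have c7 : (band (go 16 Gd mult S212_227_290_364 (Tr.lf 17734845576 99707721 0) 128 256 224 256 128 192)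
  (go 16 Gd mult S212_227_290_364 (Tr.lf 17734845572 95382345 0) 128 192 224 256 192 256)) = true := by decide +kernel
  have c8 : (go 16 Gd mult S198_212_290_364 (Tr.lf 17734845576 99576649 0) 128 256 224 256 192 256) = true := by decide +kernel
  have c9 : (band (go 16 Gd mult S227_256_290_364 (Tr.lf 13438846024 99584712 0) 128 256 192 224 128 192)
  (go 16 Gd mult S227_256_216_290 (Tr.lf 18280121412 103516874 0) 128 256 192 224 128 192)) = true := by decide +kernel
  have c10 : (band (go 16 Gd mult S241_256_216_290 (Tr.lf 17733797000 90794442 0) 128 256 192 224 192 256)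
  (go 16 Gd mult S241_256_290_364 (Tr.lf 17733797000 99051978 0) 128 256 192 224 192 256)) = true := by decide +kernel
  have c11 : (go 16 Gd mult S241_256_216_290 (Tr.lf 22575334532 103381834 0) 192 256 224 256 128 192) = true := by decide +kernel
  have c12 : (go 16 Gd mult S241_256_216_290 (Tr.lf 22574015554 99187274 0) 128 192 224 256 128 192) = true := by decide +kernel
  have c13 : (go 16 Gd mult S227_241_290_364 (Tr.lf 13438690370 103516872 0) 128 192 192 224 192 256) = true := by decide +kernel
  (And.intro (Ok.s4 290 (Ok.s2 160 (Ok.lf S198_227_216_290_ok (br c1))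
  (Ok.lf S198_227_216_290_ok c6))
  (Ok.s3 212 (Ok.lf S198_212_290_364_ok (br c5))
  (Ok.lf S212_227_290_364_ok (bl c7))))
  (And.intro (Ok.s4 290 (Ok.s1 240 (Ok.lf S198_227_216_290_ok c0)
  (Ok.lf S198_227_216_290_ok (bl c1)))
  (Ok.s3 212 (Ok.lf S198_212_290_364_ok c8)
  (Ok.s0 192 (Ok.lf S212_227_290_364_ok (br c7))
  (Ok.lf S212_227_290_364_ok c2))))
  (And.intro (Ok.s2 192 (Ok.s4 290 (Ok.lf S227_256_216_290_ok (br c9))
  (Ok.lf S227_256_290_364_ok (bl c9)))
  (Ok.s4 290 (Ok.s3 241 (Ok.lf S227_241_216_290_ok c3)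
  (Ok.lf S241_256_216_290_ok (bl c10)))
  (Ok.s3 241 (Ok.s0 192 (Ok.lf S227_241_290_364_ok c13)
  (Ok.lf S227_241_290_364_ok c4))
  (Ok.lf S241_256_290_364_ok (br c10)))))
  (Ok.s3 241 (Ok.lf S227_241_216_290_ok (bl c5))
  (Ok.s0 192 (Ok.lf S241_256_216_290_ok c12)
  (Ok.lf S241_256_216_290_ok c11))))))

end Vale.Agent.P098.Ck
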