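import Vale.Agent.P098.CkGd
import Vale.Agent.P098.CkOk
import Vale.Agent.P098.Sh.A23
import Vale.Agent.P098.Sh.A26
import Vale.Agent.P098.Sh.A31
import Vale.Agent.P098.Sh.A32
import Vale.Agent.P098.Sh.A34
import Vale.Agent.P098.Sh.A36
import Vale.Agent.P098.Sh.A39

namespace Vale.Agent.P098.Ck

theorem r293 :
    Ok Gd mult 128 256 224 256 128 192 227 256 290 364 ∧
    Ok Gd mult 128 256 224 256 192 256 227 256 216 364 ∧
    Ok Gd mult 128 256 192 224 128 256 198 227 364 512 ∧
    Ok Gd mult 128 256 224 256 128 192 198 227 364 512 :=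
  have c0 : (go 16 Gd mult S198_227_364_512 (Tr.lf 17735124100 99576904 0) 192 256 224 256 128 192) = true := by decide +kernel
  have c1 : (go 16 Gd mult S227_256_290_364 (Tr.lf 17733813380 99707720 0) 192 256 224 256 128 192) = true := by decide +kernel
  have c2 : (band (go 16 Gd mult S227_241_216_290 (Tr.lf 17742447748 95513034 0) 192 256 224 256 192 256)
  (go 16 Gd mult S241_256_290_364 (Tr.lf 17742186628 99576266 0) 192 256 224 256 192 256)) = true := by decide +kernel
  have c3 : (band (go 16 Gd mult S241_256_216_290 (Tr.lf 17742447748 103770570 0) 192 256 224 256 192 256)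
  (go 16 Gd mult S227_241_290_364 (Tr.lf 18280106116 95386314 0) 192 256 224 256 192 256)) = true := by decide +kernel
  have c4 : (band (go 16 Gd mult S198_212_364_512 (Tr.lf 13440140360 99580872 0) 128 256 192 224 128 192)
  (go 16 Gd mult S212_227_364_512 (Tr.lf 17735107656 99318601 0) 128 256 192 224 128 192)) = true := by decide +kernel
  have c5 : (band (go 16 Gd mult S198_212_364_512 (Tr.lf 17735107716 95251273 0) 192 256 192 224 192 256)
  (band (go 16 Gd mult S212_227_364_438 (Tr.lf 18280106116 99318729 0) 192 256 192 224 192 256)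
  (go 16 Gd mult S212_227_438_512 (Tr.lf 17734845508 95120201 0) 192 256 192 224 192 256))) = true := by decide +kernel
  have c6 : (band (go 16 Gd mult S198_227_364_512 (Tr.lf 17734075460 103647944 0) 128 192 224 256 128 192)
  (go 16 Gd mult S227_256_290_364 (Tr.lf 17733796932 103770952 0) 128 192 224 256 128 192)) = true := by decide +kernel
  have c7 : (band (go 16 Gd mult S227_241_290_364 (Tr.lf 17743234180 95382473 0) 128 192 224 256 192 256)
  (band (go 16 Gd mult S241_256_290_364 (Tr.lf 17733796996 95382089 0) 128 192 224 256 192 256)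
  (band (go 16 Gd mult S227_241_216_290 (Tr.lf 22575064132 99314251 0) 128 192 224 256 192 256)
  (go 16 Gd mult S241_256_216_290 (Tr.lf 22574015556 99313995 0) 128 192 224 256 192 256)))) = true := by decide +kernel
  have c8 : (band (go 16 Gd mult S198_212_364_512 (Tr.lf 13439878212 99457864 0) 128 192 192 224 192 256)
  (go 16 Gd mult S212_227_364_512 (Tr.lf 13439878212 99588936 0) 128 192 192 224 192 256)) = true := by decide +kernel
  (And.intro (Ok.s0 192 (Ok.lf S227_256_290_364_ok (br c6))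
  (Ok.lf S227_256_290_364_ok c1))
  (And.intro (Ok.s4 290 (Ok.s3 241 (Ok.s0 192 (Ok.lf S227_241_216_290_ok (bl (br (br c7))))
  (Ok.lf S227_241_216_290_ok (bl c2)))
  (Ok.s0 192 (Ok.lf S241_256_216_290_ok (br (br (br c7))))
  (Ok.lf S241_256_216_290_ok (bl c3))))
  (Ok.s3 241 (Ok.s0 192 (Ok.lf S227_241_290_364_ok (bl c7))
  (Ok.lf S227_241_290_364_ok (br c3)))
  (Ok.s0 192 (Ok.lf S241_256_290_364_ok (bl (br c7)))
  (Ok.lf S241_256_290_364_ok (br c2)))))
  (And.intro (Ok.s2 192 (Ok.s3 212 (Ok.lf S198_212_364_512_ok (bl c4))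
  (Ok.lf S212_227_364_512_ok (br c4)))
  (Ok.s3 212 (Ok.s0 192 (Ok.lf S198_212_364_512_ok (bl c8))
  (Ok.lf S198_212_364_512_ok (bl c5)))
  (Ok.s0 192 (Ok.lf S212_227_364_512_ok (br c8))
  (Ok.s4 438 (Ok.lf S212_227_364_438_ok (bl (br c5)))
  (Ok.lf S212_227_438_512_ok (br (br c5)))))))
  (Ok.s0 192 (Ok.lf S198_227_364_512_ok (bl c6))
  (Ok.lf S198_227_364_512_ok c0)))))

end Vale.Agent.P098.Ck
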