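import Vale.Agent.P098.CkGd
import Vale.Agent.P098.CkOk
import Vale.Agent.P098.Sh.A23
import Vale.Agent.P098.Sh.A27
import Vale.Agent.P098.Sh.A31
import Vale.Agent.P098.Sh.A35
import Vale.Agent.P098.Sh.A37
import Vale.Agent.P098.Sh.A39

namespace Vale.Agent.P098.Ck

theorem r294 :
    Ok Gd mult 128 256 224 256 192 256 198 227 364 512 ∧
    Ok Gd mult 128 256 192 256 128 256 227 256 364 512 ∧
    Ok Gd mult 128 256 192 224 128 256 198 227 512 660 :=
  have c0 : (go 16 Gd mult S198_212_364_512 (Tr.lf 17735107720 99576649 0) 128 256 224 256 192 256) = true := by decide +kernel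
  have c1 : (go 16 Gd mult S212_227_364_512 (Tr.lf 18271979652 99576649 0) 128 192 224 256 192 256) = true := by decide +kernel
  have c2 : (go 16 Gd mult S212_227_364_512 (Tr.lf 18280368260 99707594 0) 192 256 224 256 192 256) = true := by decide +kernel
  have c3 : (go 16 Gd mult S227_256_364_512 (Tr.lf 17735124100 99584968 0) 192 256 224 256 128 192) = true := by decide +kernel
  have c4 : (go 16 Gd mult S227_256_364_438 (Tr.lf 18280122500 99576777 0) 128 192 224 256 192 256) = true := by decide +kernel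
  have c5 : (go 16 Gd mult S227_241_364_512 (Tr.lf 18280368260 99707849 0) 192 256 224 256 192 256) = true := by decide +kernel
  have c6 : (band (go 16 Gd mult S227_256_364_512 (Tr.lf 17734075460 99584712 0) 128 192 224 256 128 192)
  (go 16 Gd mult S227_256_364_512 (Tr.lf 17734075460 99318345 0) 192 256 192 224 128 192)) = true := by decide +kernel
  have c7 : (go 16 Gd mult S227_256_438_512 (Tr.lf 17733813380 95386312 0) 128 192 224 256 192 256) = true := by decide +kernel
  have c8 : (go 16 Gd mult S227_241_364_512 (Tr.lf 18280368196 99576777 0) 192 256 208 224 192 256) = true := by decide +kernel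
  have c9 : (band (go 16 Gd mult S241_256_364_512 (Tr.lf 17734059140 103639625 0) 192 256 224 256 192 256)
  (go 16 Gd mult S241_256_364_512 (Tr.lf 17734059076 99187273 0) 192 256 192 224 192 256)) = true := by decide +kernel
  have c10 : (go 16 Gd mult S198_227_512_660 (Tr.lf 13440140360 103648327 0) 128 256 192 224 192 256) = true := by decide +kernel
  have c11 : (go 16 Gd mult S227_256_364_512 (Tr.lf 13438846020 99588680 0) 128 192 192 224 192 256) = true := by decide +kernel
  have c12 : (go 16 Gd mult S198_227_512_660 (Tr.lf 13430440516 99576647 0) 128 256 192 224 128 192) = true := by decide +kernel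
  have c13 : (go 16 Gd mult S227_256_364_512 (Tr.lf 13430440482 103775047 0) 128 192 192 224 128 192) = true := by decide +kernel
  have c14 : (go 16 Gd mult S227_241_364_512 (Tr.lf 13439869986 107838663 0) 192 256 192 208 192 256) = true := by decide +kernel
  (And.intro (Ok.s3 212 (Ok.lf S198_212_364_512_ok c0)
  (Ok.s0 192 (Ok.lf S212_227_364_512_ok c1)
  (Ok.lf S212_227_364_512_ok c2)))
  (And.intro (Ok.s2 192 (Ok.s0 192 (Ok.s1 224 (Ok.lf S227_256_364_512_ok c13)
  (Ok.lf S227_256_364_512_ok (bl c6)))
  (Ok.s1 224 (Ok.lf S227_256_364_512_ok (br c6))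
  (Ok.lf S227_256_364_512_ok c3)))
  (Ok.s0 192 (Ok.s1 224 (Ok.lf S227_256_364_512_ok c11)
  (Ok.s4 438 (Ok.lf S227_256_364_438_ok c4)
  (Ok.lf S227_256_438_512_ok c7)))
  (Ok.s3 241 (Ok.s1 224 (Ok.s1 208 (Ok.lf S227_241_364_512_ok c14)
  (Ok.lf S227_241_364_512_ok c8))
  (Ok.lf S227_241_364_512_ok c5))
  (Ok.s1 224 (Ok.lf S241_256_364_512_ok (br c9))
  (Ok.lf S241_256_364_512_ok (bl c9))))))
  (Ok.s2 192 (Ok.lf S198_227_512_660_ok c12)
  (Ok.lf S198_227_512_660_ok c10))))

end Vale.Agent.P098.Ck
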