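import Vale.Agent.P098.CkGd
import Vale.Agent.P098.CkOk
import Vale.Agent.P098.Sh.A40
import Vale.Agent.P098.Sh.A41
import Vale.Agent.P098.Sh.A42
import Vale.Agent.P098.Sh.A44
import Vale.Agent.P098.Sh.A45
import Vale.Agent.P098.Sh.A46

namespace Vale.Agent.P098.Ck

theorem r296 :
    Ok Gd mult 192 256 224 256 128 256 256 285 216 364 ∧
    Ok Gd mult 128 256 192 256 128 256 285 314 216 364 ∧
    Ok Gd mult 128 256 192 256 128 256 256 314 364 512 ∧
    Ok Gd mult 128 256 192 256 128 256 256 314 512 808 :=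
  have c0 : (band (go 16 Gd mult S256_285_660_808 (Tr.lf 12893571208 99707591 0) 128 256 192 256 128 256)
  (go 16 Gd mult S285_314_660_808 (Tr.lf 12893570180 99449543 0) 128 256 192 256 128 256)) = true := by decide +kernel
  have c1 : (band (go 16 Gd mult S256_270_216_364 (Tr.lf 22574286916 103766347 0) 192 256 240 256 128 256)
  (go 16 Gd mult S256_270_216_364 (Tr.lf 22574286884 103508299 0) 192 256 224 240 128 256)) = true := by decide +kernel
  have c2 : (band (go 16 Gd mult S285_314_216_364 (Tr.lf 18271717448 99576649 0) 128 256 224 256 128 256)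
  (band (go 16 Gd mult S285_314_364_512 (Tr.lf 12893570120 104037063 0) 128 256 224 256 128 256)
  (go 16 Gd mult S285_314_216_364 (Tr.lf 17734846532 90798666 0) 128 256 192 224 128 256))) = true := by decide +kernel
  have c3 : (band (go 16 Gd mult S256_285_364_512 (Tr.lf 17800906824 95254858 0) 128 256 192 224 128 256)
  (band (go 16 Gd mult S285_314_364_512 (Tr.lf 12885173316 95242824 0) 128 256 192 224 128 256)
  (go 16 Gd mult S256_285_512_660 (Tr.lf 8590205988 104029253 0) 128 256 192 224 128 256))) = true := by decide +kernel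
  have c4 : (band (go 16 Gd mult S256_285_364_512 (Tr.lf 22641394760 103647690 0) 128 256 224 256 128 192)
  (go 16 Gd mult S256_285_364_512 (Tr.lf 22641394756 99703115 0) 192 256 224 256 192 256)) = true := by decide +kernel
  have c5 : (band (go 16 Gd mult S256_285_364_438 (Tr.lf 22641149060 99322059 0) 128 192 224 256 192 256)
  (go 16 Gd mult S256_285_438_512 (Tr.lf 17733796996 99449544 0) 128 192 224 256 192 256)) = true := by decide +kernel
  have c6 : (go 16 Gd mult S285_314_512_660 (Tr.lf 12893570184 103766600 0) 128 256 192 256 128 256) = true := by decide +kernel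
  have c7 : (band (go 16 Gd mult S270_285_216_364 (Tr.lf 22574278724 103377227 0) 192 256 224 256 128 256)
  (band (go 16 Gd mult S256_285_512_660 (Tr.lf 13430440994 108231622 0) 192 256 224 256 128 256)
  (go 16 Gd mult S256_285_512_660 (Tr.lf 13430440994 108227526 0) 128 192 224 240 128 256))) = true := by decide +kernel
  have c8 : (go 16 Gd mult S256_285_512_660 (Tr.lf 17725671460 103770696 0) 128 192 240 256 128 256) = true := by decide +kernel
  (And.intro (Ok.s3 270 (Ok.s1 240 (Ok.lf S256_270_216_364_ok (br c1))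
  (Ok.lf S256_270_216_364_ok (bl c1)))
  (Ok.lf S270_285_216_364_ok (bl c7)))
  (And.intro (Ok.s1 224 (Ok.lf S285_314_216_364_ok (br (br c2)))
  (Ok.lf S285_314_216_364_ok (bl c2)))
  (And.intro (Ok.s3 285 (Ok.s1 224 (Ok.lf S256_285_364_512_ok (bl c3))
  (Ok.s2 192 (Ok.lf S256_285_364_512_ok (bl c4))
  (Ok.s0 192 (Ok.s4 438 (Ok.lf S256_285_364_438_ok (bl c5))
  (Ok.lf S256_285_438_512_ok (br c5)))
  (Ok.lf S256_285_364_512_ok (br c4)))))
  (Ok.s1 224 (Ok.lf S285_314_364_512_ok (bl (br c3)))
  (Ok.lf S285_314_364_512_ok (bl (br c2)))))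
  (Ok.s4 660 (Ok.s3 285 (Ok.s1 224 (Ok.lf S256_285_512_660_ok (br (br c3)))
  (Ok.s0 192 (Ok.s1 240 (Ok.lf S256_285_512_660_ok (br (br c7)))
  (Ok.lf S256_285_512_660_ok c8))
  (Ok.lf S256_285_512_660_ok (bl (br c7)))))
  (Ok.lf S285_314_512_660_ok c6))
  (Ok.s3 285 (Ok.lf S256_285_660_808_ok (bl c0))
  (Ok.lf S285_314_660_808_ok (br c0)))))))

end Vale.Agent.P098.Ck
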