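import Vale.Agent.P098.CkGd
import Vale.Agent.P098.CkOk
import Vale.Agent.P098.Sh.A47
import Vale.Agent.P098.Sh.A48
import Vale.Agent.P098.Sh.A49
import Vale.Agent.P098.Sh.A51
import Vale.Agent.P098.Sh.A52
import Vale.Agent.P098.Sh.A54
import Vale.Agent.P098.Sh.A56

namespace Vale.Agent.P098.Ck

theorem r297 :
    Ok Gd mult 128 256 192 256 128 256 314 372 216 512 ∧
    Ok Gd mult 128 256 192 256 128 256 314 372 512 808 ∧
    Ok Gd mult 128 256 192 256 128 256 372 430 216 364 ∧
    Ok Gd mult 128 256 192 256 128 256 372 401 364 512 :=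
  have c0 : (band (go 16 Gd mult S343_372_216_364 (Tr.lf 13431490696 108096328 0) 128 256 192 256 128 256)
  (go 16 Gd mult S314_343_512_660 (Tr.lf 12885181572 103631432 0) 128 256 192 256 128 256)) = true := by decide +kernel
  have c1 : (band (go 16 Gd mult S343_372_364_512 (Tr.lf 13431490696 108096328 0) 128 256 192 256 128 256)
  (go 16 Gd mult S314_343_660_808 (Tr.lf 8590214276 108096326 0) 128 256 192 256 128 256)) = true := by decide +kernel
  have c2 : (go 16 Gd mult S343_372_512_660 (Tr.lf 13431490696 108096328 0) 128 256 192 256 128 256) = true := by decide +kernel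
  have c3 : (go 16 Gd mult S401_430_216_364 (Tr.lf 22560408712 103377739 0) 128 256 224 256 128 192) = true := by decide +kernel
  have c4 : (go 16 Gd mult S401_430_216_364 (Tr.lf 18265441416 99576778 0) 128 256 224 256 192 256) = true := by decide +kernel
  have c5 : (band (go 16 Gd mult S314_343_216_364 (Tr.lf 12885182596 99568200 0) 128 256 192 256 128 256)
  (go 16 Gd mult S314_343_364_512 (Tr.lf 12885182596 99568200 0) 128 256 192 256 128 256)) = true := by decide +kernel
  have c6 : (go 16 Gd mult S343_372_660_808 (Tr.lf 12886231172 103762760 0) 128 256 192 256 128 256) = true := by decide +kernel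
  have c7 : (band (go 16 Gd mult S372_401_216_364 (Tr.lf 13432539208 95513672 0) 128 256 192 224 128 256)
  (go 16 Gd mult S372_401_364_512 (Tr.lf 13431490632 95513416 0) 128 256 192 224 128 256)) = true := by decide +kernel
  have c8 : (go 16 Gd mult S401_430_216_364 (Tr.lf 13970474056 91192138 0) 128 256 192 224 192 256) = true := by decide +kernel
  have c9 : (band (go 16 Gd mult S372_401_216_364 (Tr.lf 18264246344 99576522 0) 128 256 224 256 128 256)
  (go 16 Gd mult S372_401_364_512 (Tr.lf 18264246344 99576522 0) 128 256 224 256 128 256)) = true := by decide +kernel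
  have c10 : (go 16 Gd mult S401_430_216_364 (Tr.lf 18265293896 99445706 0) 128 256 192 224 128 192) = true := by decide +kernel
  (And.intro (Ok.s4 364 (Ok.s3 343 (Ok.lf S314_343_216_364_ok (bl c5))
  (Ok.lf S343_372_216_364_ok (bl c0)))
  (Ok.s3 343 (Ok.lf S314_343_364_512_ok (br c5))
  (Ok.lf S343_372_364_512_ok (bl c1))))
  (And.intro (Ok.s4 660 (Ok.s3 343 (Ok.lf S314_343_512_660_ok (br c0))
  (Ok.lf S343_372_512_660_ok c2))
  (Ok.s3 343 (Ok.lf S314_343_660_808_ok (br c1))
  (Ok.lf S343_372_660_808_ok c6)))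
  (And.intro (Ok.s3 401 (Ok.s1 224 (Ok.lf S372_401_216_364_ok (bl c7))
  (Ok.lf S372_401_216_364_ok (bl c9)))
  (Ok.s1 224 (Ok.s2 192 (Ok.lf S401_430_216_364_ok c10)
  (Ok.lf S401_430_216_364_ok c8))
  (Ok.s2 192 (Ok.lf S401_430_216_364_ok c3)
  (Ok.lf S401_430_216_364_ok c4))))
  (Ok.s1 224 (Ok.lf S372_401_364_512_ok (br c7))
  (Ok.lf S372_401_364_512_ok (br c9))))))

end Vale.Agent.P098.Ck
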