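import Vale.Agent.P098.CkGd
import Vale.Agent.P098.CkOk
import Vale.Agent.P098.Sh.A58
import Vale.Agent.P098.Sh.A59

namespace Vale.Agent.P098.Ck

theorem r299 :
    Ok Gd mult 128 256 192 256 128 256 430 459 216 364 ∧
    Ok Gd mult 128 256 192 256 128 256 459 488 216 364 ∧
    Ok Gd mult 128 256 192 256 128 256 430 488 364 512 ∧
    Ok Gd mult 128 256 192 256 128 256 430 459 512 660 :=
  have c0 : (band (go 16 Gd mult S430_459_216_364 (Tr.lf 18256922760 99576650 0) 128 256 224 256 192 256)
  (go 16 Gd mult S459_488_216_364 (Tr.lf 18256840840 95382346 0) 128 256 224 256 192 256)) = true := by decide +kernel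
  have c1 : (band (go 16 Gd mult S430_459_364_512 (Tr.lf 18256922760 99576650 0) 128 256 224 256 192 256)
  (go 16 Gd mult S459_488_364_512 (Tr.lf 18256840840 99576650 0) 128 256 224 256 192 256)) = true := by decide +kernel
  have c2 : (band (go 16 Gd mult S430_459_512_660 (Tr.lf 22560278664 103377739 0) 128 256 224 256 128 192)
  (go 16 Gd mult S459_488_216_364 (Tr.lf 22560196744 103377739 0) 128 256 224 256 128 192)) = true := by decide +kernel
  have c3 : (go 16 Gd mult S430_459_512_660 (Tr.lf 18256922760 99576650 0) 128 256 224 256 192 256) = true := by decide +kernel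
  have c4 : (band (go 16 Gd mult S430_459_216_364 (Tr.lf 22560261256 99183435 0) 128 256 224 256 128 192)
  (band (go 16 Gd mult S430_459_364_512 (Tr.lf 22560261256 99183435 0) 128 256 224 256 128 192)
  (band (go 16 Gd mult S459_488_364_512 (Tr.lf 22560195720 99183435 0) 128 256 224 256 128 192)
  (go 16 Gd mult S459_488_364_512 (Tr.lf 13961872456 95386569 0) 128 256 192 224 192 256)))) = true := by decide +kernel
  have c5 : (band (go 16 Gd mult S430_459_216_364 (Tr.lf 13961938056 91192265 0) 128 256 192 224 192 256)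
  (band (go 16 Gd mult S430_459_364_512 (Tr.lf 13961938056 91192010 0) 128 256 192 224 192 256)
  (band (go 16 Gd mult S430_459_512_660 (Tr.lf 13961938056 91192010 0) 128 256 192 224 192 256)
  (go 16 Gd mult S459_488_216_364 (Tr.lf 13961872456 95386569 0) 128 256 192 224 192 256)))) = true := by decide +kernel
  have c6 : (band (go 16 Gd mult S430_459_364_512 (Tr.lf 18265228360 103640010 0) 128 256 192 224 128 192)
  (band (go 16 Gd mult S430_459_512_660 (Tr.lf 18265228360 103640010 0) 128 256 192 224 128 192)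
  (band (go 16 Gd mult S430_459_216_364 (Tr.lf 18265293892 103640010 0) 128 256 192 224 128 192)
  (band (go 16 Gd mult S459_488_216_364 (Tr.lf 18265220164 103640010 0) 128 256 192 224 128 192)
  (go 16 Gd mult S459_488_364_512 (Tr.lf 18265220164 103640010 0) 128 256 192 224 128 192))))) = true := by decide +kernel
  (And.intro (Ok.s2 192 (Ok.s1 224 (Ok.lf S430_459_216_364_ok (bl (br (br c6))))
  (Ok.lf S430_459_216_364_ok (bl c4)))
  (Ok.s1 224 (Ok.lf S430_459_216_364_ok (bl c5))
  (Ok.lf S430_459_216_364_ok (bl c0))))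
  (And.intro (Ok.s2 192 (Ok.s1 224 (Ok.lf S459_488_216_364_ok (bl (br (br (br c6)))))
  (Ok.lf S459_488_216_364_ok (br c2)))
  (Ok.s1 224 (Ok.lf S459_488_216_364_ok (br (br (br c5))))
  (Ok.lf S459_488_216_364_ok (br c0))))
  (And.intro (Ok.s3 459 (Ok.s2 192 (Ok.s1 224 (Ok.lf S430_459_364_512_ok (bl c6))
  (Ok.lf S430_459_364_512_ok (bl (br c4))))
  (Ok.s1 224 (Ok.lf S430_459_364_512_ok (bl (br c5)))
  (Ok.lf S430_459_364_512_ok (bl c1))))
  (Ok.s2 192 (Ok.s1 224 (Ok.lf S459_488_364_512_ok (br (br (br (br c6)))))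
  (Ok.lf S459_488_364_512_ok (bl (br (br c4)))))
  (Ok.s1 224 (Ok.lf S459_488_364_512_ok (br (br (br c4))))
  (Ok.lf S459_488_364_512_ok (br c1)))))
  (Ok.s2 192 (Ok.s1 224 (Ok.lf S430_459_512_660_ok (bl (br c6)))
  (Ok.lf S430_459_512_660_ok (bl c2)))
  (Ok.s1 224 (Ok.lf S430_459_512_660_ok (bl (br (br c5))))
  (Ok.lf S430_459_512_660_ok c3))))))

end Vale.Agent.P098.Ck
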