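import Vale.Agent.P098.CkGd
import Vale.Agent.P098.CkOk
import Vale.Agent.P098.Sh.A50
import Vale.Agent.P098.Sh.A54
import Vale.Agent.P098.Sh.A55
import Vale.Agent.P098.Sh.A56
import Vale.Agent.P098.Sh.A57

namespace Vale.Agent.P098.Ck

theorem r3 :
    Ok Gd mult 0 128 0 64 0 128 314 372 660 808 ∧
    Ok Gd mult 0 128 0 64 0 128 372 430 216 808 :=
  have c0 : (band (go 16 Gd mult S314_372_660_808 (Tr.lf 8598619268 90798663 0) 0 128 0 32 0 64)
  (band (go 16 Gd mult S372_430_216_364 (Tr.lf 4842488900 107846726 0) 0 128 0 32 0 64)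
  (band (go 16 Gd mult S401_430_364_512 (Tr.lf 4842406468 103652422 0) 0 128 0 32 0 64)
  (band (go 16 Gd mult S401_430_512_660 (Tr.lf 4842406468 103652422 0) 0 128 0 32 0 64)
  (go 16 Gd mult S401_430_364_512 (Tr.lf 547439170 108108742 0) 0 128 0 32 64 128))))) = true := by decide +kernel
  have c1 : (go 16 Gd mult S314_372_660_808 (Tr.lf 4305749124 95259846 0) 0 128 0 64 64 128) = true := by decide +kernel
  have c2 : (band (go 16 Gd mult S372_430_216_364 (Tr.lf 547521604 103787462 0) 0 128 0 32 64 128)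
  (go 16 Gd mult S401_430_512_660 (Tr.lf 547439170 108108742 0) 0 128 0 32 64 128)) = true := by decide +kernel
  have c3 : (band (go 16 Gd mult S372_401_660_808 (Tr.lf 4842472516 103652422 0) 0 128 0 32 0 128)
  (band (go 16 Gd mult S372_401_512_660 (Tr.lf 4842472514 107846726 0) 0 128 0 32 0 128)
  (go 16 Gd mult S372_401_364_512 (Tr.lf 4842472514 107846726 0) 0 128 0 32 0 128))) = true := by decide +kernel
  have c4 : (go 16 Gd mult S314_372_660_808 (Tr.lf 9601602 108113092 0) 0 128 32 64 0 64) = true := by decide +kernel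
  have c5 : (band (go 16 Gd mult S372_430_660_808 (Tr.lf 538068001 108227653 0) 0 128 32 64 0 128)
  (band (go 16 Gd mult S372_430_364_512 (Tr.lf 538001953 104033349 0) 0 128 32 64 0 128)
  (band (go 16 Gd mult S372_430_512_660 (Tr.lf 538001953 112290885 0) 0 128 32 64 0 128)
  (go 16 Gd mult S372_430_216_364 (Tr.lf 538001953 104033349 0) 0 128 32 64 0 128)))) = true := by decide +kernel
  have c6 : (band (go 16 Gd mult S401_430_660_808 (Tr.lf 4842406434 107977925 0) 0 128 0 16 0 64)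
  (go 16 Gd mult S401_430_660_808 (Tr.lf 547439138 103918661 0) 0 128 0 16 64 128)) = true := by decide +kernel
  have c7 : (go 16 Gd mult S401_430_660_808 (Tr.lf 547431442 108108742 0) 0 128 16 32 0 128) = true := by decide +kernel
  (And.intro (Ok.s2 64 (Ok.s1 32 (Ok.lf S314_372_660_808_ok (bl c0))
  (Ok.lf S314_372_660_808_ok c4))
  (Ok.lf S314_372_660_808_ok c1))
  (Ok.s4 512 (Ok.s4 364 (Ok.s1 32 (Ok.s2 64 (Ok.lf S372_430_216_364_ok (bl (br c0)))
  (Ok.lf S372_430_216_364_ok (bl c2)))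
  (Ok.lf S372_430_216_364_ok (br (br (br c5)))))
  (Ok.s1 32 (Ok.s3 401 (Ok.lf S372_401_364_512_ok (br (br c3)))
  (Ok.s2 64 (Ok.lf S401_430_364_512_ok (bl (br (br c0))))
  (Ok.lf S401_430_364_512_ok (br (br (br (br c0)))))))
  (Ok.lf S372_430_364_512_ok (bl (br c5)))))
  (Ok.s4 660 (Ok.s1 32 (Ok.s3 401 (Ok.lf S372_401_512_660_ok (bl (br c3)))
  (Ok.s2 64 (Ok.lf S401_430_512_660_ok (bl (br (br (br c0)))))
  (Ok.lf S401_430_512_660_ok (br c2))))
  (Ok.lf S372_430_512_660_ok (bl (br (br c5)))))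
  (Ok.s1 32 (Ok.s3 401 (Ok.lf S372_401_660_808_ok (bl c3))
  (Ok.s1 16 (Ok.s2 64 (Ok.lf S401_430_660_808_ok (bl c6))
  (Ok.lf S401_430_660_808_ok (br c6)))
  (Ok.lf S401_430_660_808_ok c7)))
  (Ok.lf S372_430_660_808_ok (bl c5))))))

end Vale.Agent.P098.Ck
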