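import Vale.Agent.P098.CkGd
import Vale.Agent.P098.CkOk
import Vale.Agent.P098.Sh.A10
import Vale.Agent.P098.Sh.A12
import Vale.Agent.P098.Sh.A14
import Vale.Agent.P098.Sh.A18
import Vale.Agent.P098.Sh.A19
import Vale.Agent.P098.Sh.A20
import Vale.Agent.P098.Sh.A27
import Vale.Agent.P098.Sh.A28
import Vale.Agent.P098.Sh.A37
import Vale.Agent.P098.Sh.A38
import Vale.Agent.P098.Sh.A7
import Vale.Agent.P098.Sh.A9

namespace Vale.Agent.P098.Ck

theorem r30 :
    Ok Gd mult 0 128 64 128 0 128 140 198 216 364 ∧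
    Ok Gd mult 0 128 64 128 0 128 140 198 364 512 ∧
    Ok Gd mult 0 128 64 128 0 128 140 198 512 808 ∧
    Ok Gd mult 0 128 64 128 0 128 198 256 216 808 :=
  have c0 : (band (go 16 Gd mult S198_227_512_660 (Tr.lf 4295510148 99707718 0) 0 128 64 128 0 128)
  (go 16 Gd mult S140_169_660_808 (Tr.lf 9586820 108236100 0) 0 128 64 128 0 128)) = true := by decide +kernel
  have c1 : (band (go 16 Gd mult S227_256_512_660 (Tr.lf 4303898756 99715910 0) 0 128 64 128 0 128)
  (band (go 16 Gd mult S140_154_216_364 (Tr.lf 4297204868 95513670 0) 0 128 64 128 0 128)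
  (band (go 16 Gd mult S169_198_364_512 (Tr.lf 9577538 112430277 0) 0 128 64 128 0 128)
  (go 16 Gd mult S183_198_216_364 (Tr.lf 1188386 108108869 0) 0 128 64 128 0 128)))) = true := by decide +kernel
  have c2 : (band (go 16 Gd mult S198_227_660_808 (Tr.lf 4303898756 95517510 0) 0 128 64 128 0 128)
  (band (go 16 Gd mult S154_169_216_364 (Tr.lf 1188418 112299204 0) 0 128 64 128 0 128)
  (go 16 Gd mult S169_183_216_364 (Tr.lf 1184290 108240068 0) 0 128 64 128 0 128))) = true := by decide +kernel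
  have c3 : (go 16 Gd mult S227_256_660_808 (Tr.lf 4303898756 103775046 0) 0 128 64 128 0 128) = true := by decide +kernel
  have c4 : (band (go 16 Gd mult S140_169_364_512 (Tr.lf 4297345156 99577030 0) 0 128 64 128 0 128)
  (go 16 Gd mult S140_169_512_660 (Tr.lf 4296296580 103771078 0) 0 128 64 128 0 128)) = true := by decide +kernel
  have c5 : (band (go 16 Gd mult S169_198_512_660 (Tr.lf 9717892 108235973 0) 0 128 64 128 0 128)
  (go 16 Gd mult S169_198_660_808 (Tr.lf 9717892 112434245 0) 0 128 64 128 0 128)) = true := by decide +kernel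
  have c6 : (go 16 Gd mult S198_256_364_512 (Tr.lf 4295263364 99711814 0) 0 128 64 128 0 128) = true := by decide +kernel
  have c7 : (go 16 Gd mult S198_256_216_364 (Tr.lf 295457 108239940 0) 0 128 64 96 0 128) = true := by decide +kernel
  have c8 : (go 16 Gd mult S198_256_216_364 (Tr.lf 4295115794 104033094 0) 0 128 96 128 0 128) = true := by decide +kernel
  (And.intro (Ok.s3 169 (Ok.s3 154 (Ok.lf S140_154_216_364_ok (bl (br c1)))
  (Ok.lf S154_169_216_364_ok (bl (br c2))))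
  (Ok.s3 183 (Ok.lf S169_183_216_364_ok (br (br c2)))
  (Ok.lf S183_198_216_364_ok (br (br (br c1))))))
  (And.intro (Ok.s3 169 (Ok.lf S140_169_364_512_ok (bl c4))
  (Ok.lf S169_198_364_512_ok (bl (br (br c1)))))
  (And.intro (Ok.s4 660 (Ok.s3 169 (Ok.lf S140_169_512_660_ok (br c4))
  (Ok.lf S169_198_512_660_ok (bl c5)))
  (Ok.s3 169 (Ok.lf S140_169_660_808_ok (br c0))
  (Ok.lf S169_198_660_808_ok (br c5))))
  (Ok.s4 512 (Ok.s4 364 (Ok.s1 96 (Ok.lf S198_256_216_364_ok c7)
  (Ok.lf S198_256_216_364_ok c8))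
  (Ok.lf S198_256_364_512_ok c6))
  (Ok.s4 660 (Ok.s3 227 (Ok.lf S198_227_512_660_ok (bl c0))
  (Ok.lf S227_256_512_660_ok (bl c1)))
  (Ok.s3 227 (Ok.lf S198_227_660_808_ok (bl c2))
  (Ok.lf S227_256_660_808_ok c3)))))))

end Vale.Agent.P098.Ck
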