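import Vale.Agent.P098.CkGd
import Vale.Agent.P098.CkOk
import Vale.Agent.P098.Sh.A0
import Vale.Agent.P098.Sh.A58
import Vale.Agent.P098.Sh.A59

namespace Vale.Agent.P098.Ck

theorem r300 :
    Ok Gd mult 128 256 192 256 128 256 459 488 512 660 ∧
    Ok Gd mult 128 256 192 256 128 256 430 488 660 808 ∧
    Ok Gd mult 128 256 192 256 256 384 24 82 216 512 :=
  have c0 : (go 16 Gd mult S24_82_216_364 (Tr.lf 13424035976 103509063 0) 128 256 192 256 256 320) = true := by decide +kernel
  have c1 : (go 16 Gd mult S24_82_216_364 (Tr.lf 13432424584 99314887 0) 128 256 192 256 320 384) = true := by decide +kernel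
  have c2 : (go 16 Gd mult S459_488_660_808 (Tr.lf 13961889928 95259593 0) 128 256 192 224 128 256) = true := by decide +kernel
  have c3 : (band (go 16 Gd mult S430_459_660_808 (Tr.lf 13961954440 95386314 0) 128 256 192 224 192 256)
  (band (go 16 Gd mult S459_488_512_660 (Tr.lf 13961872456 95386569 0) 128 256 192 224 192 256)
  (go 16 Gd mult S430_459_660_808 (Tr.lf 22560277640 99183435 0) 128 256 224 256 128 192))) = true := by decide +kernel
  have c4 : (band (go 16 Gd mult S430_459_660_808 (Tr.lf 18256922756 95378250 0) 128 192 224 256 192 256)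
  (go 16 Gd mult S430_459_660_808 (Tr.lf 18256922756 99576650 0) 192 256 224 256 192 256)) = true := by decide +kernel
  have c5 : (band (go 16 Gd mult S24_82_364_512 (Tr.lf 13424034952 103509063 0) 128 256 192 256 256 320)
  (go 16 Gd mult S24_82_364_512 (Tr.lf 13432423560 99314887 0) 128 256 192 256 320 384)) = true := by decide +kernel
  have c6 : (band (go 16 Gd mult S459_488_512_660 (Tr.lf 18256840840 99576650 0) 128 256 224 256 192 256)
  (band (go 16 Gd mult S459_488_660_808 (Tr.lf 18256840840 95382346 0) 128 256 224 256 192 256)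
  (go 16 Gd mult S459_488_512_660 (Tr.lf 22560195720 99183435 0) 128 256 224 256 128 192))) = true := by decide +kernel
  have c7 : (go 16 Gd mult S459_488_660_808 (Tr.lf 22560195720 99183435 0) 128 256 224 256 128 192) = true := by decide +kernel
  have c8 : (band (go 16 Gd mult S430_459_660_808 (Tr.lf 18265293892 103640010 0) 128 256 192 224 128 192)
  (go 16 Gd mult S459_488_512_660 (Tr.lf 18265220164 103640010 0) 128 256 192 224 128 192)) = true := by decide +kernel
  (And.intro (Ok.s2 192 (Ok.s1 224 (Ok.lf S459_488_512_660_ok (br c8))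
  (Ok.lf S459_488_512_660_ok (br (br c6))))
  (Ok.s1 224 (Ok.lf S459_488_512_660_ok (bl (br c3)))
  (Ok.lf S459_488_512_660_ok (bl c6))))
  (And.intro (Ok.s1 224 (Ok.s3 459 (Ok.s2 192 (Ok.lf S430_459_660_808_ok (bl c8))
  (Ok.lf S430_459_660_808_ok (bl c3)))
  (Ok.lf S459_488_660_808_ok c2))
  (Ok.s3 459 (Ok.s2 192 (Ok.lf S430_459_660_808_ok (br (br c3)))
  (Ok.s0 192 (Ok.lf S430_459_660_808_ok (bl c4))
  (Ok.lf S430_459_660_808_ok (br c4))))
  (Ok.s2 192 (Ok.lf S459_488_660_808_ok c7)
  (Ok.lf S459_488_660_808_ok (bl (br c6))))))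
  (Ok.s4 364 (Ok.s2 320 (Ok.lf S24_82_216_364_ok c0)
  (Ok.lf S24_82_216_364_ok c1))
  (Ok.s2 320 (Ok.lf S24_82_364_512_ok (bl c5))
  (Ok.lf S24_82_364_512_ok (br c5))))))

end Vale.Agent.P098.Ck
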