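import Vale.Agent.P098.CkGd
import Vale.Agent.P098.CkOk
import Vale.Agent.P098.Sh.A14
import Vale.Agent.P098.Sh.A15
import Vale.Agent.P098.Sh.A20
import Vale.Agent.P098.Sh.A21
import Vale.Agent.P098.Sh.A3
import Vale.Agent.P098.Sh.A6
import Vale.Agent.P098.Sh.A8

namespace Vale.Agent.P098.Ck

theorem r302 :
    Ok Gd mult 128 256 192 256 256 384 82 140 660 808 ∧
    Ok Gd mult 128 256 192 224 256 384 140 198 216 364 ∧
    Ok Gd mult 128 256 224 256 256 320 140 198 216 364 :=
  have c0 : (band (go 16 Gd mult S183_198_216_290 (Tr.lf 13440927880 99585096 0) 128 256 192 224 256 320)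
  (go 16 Gd mult S169_183_216_364 (Tr.lf 13441188932 103775304 0) 128 256 192 224 256 320)) = true := by decide +kernel
  have c1 : (go 16 Gd mult S183_198_290_364 (Tr.lf 13986187400 86998089 0) 128 256 192 224 256 320) = true := by decide +kernel
  have c2 : (band (go 16 Gd mult S183_198_216_290 (Tr.lf 13440927880 103648328 0) 128 256 192 224 320 384)
  (go 16 Gd mult S169_183_216_290 (Tr.lf 13440926788 103517256 0) 128 256 192 224 320 384)) = true := by decide +kernel
  have c3 : (band (go 16 Gd mult S183_198_290_364 (Tr.lf 13986187400 103771209 0) 128 256 192 224 320 384)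
  (go 16 Gd mult S169_183_290_364 (Tr.lf 13440926788 103517256 0) 128 256 192 224 320 384)) = true := by decide +kernel
  have c4 : (band (go 16 Gd mult S183_198_216_290 (Tr.lf 17735895176 95124298 0) 128 256 224 256 256 320)
  (go 16 Gd mult S140_169_216_364 (Tr.lf 13432538184 103640136 0) 128 256 224 256 256 320)) = true := by decide +kernel
  have c5 : (go 16 Gd mult S111_140_660_808 (Tr.lf 13432539208 99445959 0) 128 256 192 224 256 384) = true := by decide +kernel
  have c6 : (band (go 16 Gd mult S140_169_216_364 (Tr.lf 13440943176 99449928 0) 128 256 192 224 256 320)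
  (go 16 Gd mult S140_169_216_364 (Tr.lf 9145975880 108100807 0) 128 256 192 224 320 384)) = true := by decide +kernel
  have c7 : (band (go 16 Gd mult S183_198_290_364 (Tr.lf 13440926856 103775432 0) 128 256 224 256 256 320)
  (band (go 16 Gd mult S169_183_216_290 (Tr.lf 13440926792 99458120 0) 128 256 224 256 256 320)
  (go 16 Gd mult S169_183_290_364 (Tr.lf 13440795720 99458120 0) 128 256 224 256 256 320))) = true := by decide +kernel
  have c8 : (band (go 16 Gd mult S82_111_660_808 (Tr.lf 13432407176 95251400 0) 128 256 192 256 320 384)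
  (go 16 Gd mult S82_111_660_808 (Tr.lf 13432407172 99454023 0) 128 256 192 256 256 320)) = true := by decide +kernel
  have c9 : (go 16 Gd mult S111_140_660_808 (Tr.lf 9137440836 112171975 0) 128 256 224 256 256 384) = true := by decide +kernel
  (And.intro (Ok.s3 111 (Ok.s2 320 (Ok.lf S82_111_660_808_ok (br c8))
  (Ok.lf S82_111_660_808_ok (bl c8)))
  (Ok.s1 224 (Ok.lf S111_140_660_808_ok c5)
  (Ok.lf S111_140_660_808_ok c9)))
  (And.intro (Ok.s3 169 (Ok.s2 320 (Ok.lf S140_169_216_364_ok (bl c6))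
  (Ok.lf S140_169_216_364_ok (br c6)))
  (Ok.s2 320 (Ok.s3 183 (Ok.lf S169_183_216_364_ok (br c0))
  (Ok.s4 290 (Ok.lf S183_198_216_290_ok (bl c0))
  (Ok.lf S183_198_290_364_ok c1)))
  (Ok.s4 290 (Ok.s3 183 (Ok.lf S169_183_216_290_ok (br c2))
  (Ok.lf S183_198_216_290_ok (bl c2)))
  (Ok.s3 183 (Ok.lf S169_183_290_364_ok (br c3))
  (Ok.lf S183_198_290_364_ok (bl c3))))))
  (Ok.s3 169 (Ok.lf S140_169_216_364_ok (br c4))
  (Ok.s4 290 (Ok.s3 183 (Ok.lf S169_183_216_290_ok (bl (br c7)))
  (Ok.lf S183_198_216_290_ok (bl c4)))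
  (Ok.s3 183 (Ok.lf S169_183_290_364_ok (br (br c7)))
  (Ok.lf S183_198_290_364_ok (bl c7)))))))

end Vale.Agent.P098.Ck
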