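import Vale.Agent.P098.CkGd
import Vale.Agent.P098.CkOk
import Vale.Agent.P098.Sh.A10
import Vale.Agent.P098.Sh.A16
import Vale.Agent.P098.Sh.A18
import Vale.Agent.P098.Sh.A19
import Vale.Agent.P098.Sh.A21

namespace Vale.Agent.P098.Ck

theorem r304 :
    Ok Gd mult 128 256 192 256 320 384 169 198 438 512 ∧
    Ok Gd mult 128 256 192 256 256 384 140 198 512 808 :=
  have c0 : (band (go 16 Gd mult S169_198_438_512 (Tr.lf 13439764616 103779144 0) 128 256 224 256 320 384)
  (go 16 Gd mult S140_169_512_660 (Tr.lf 13431489604 99314504 0) 128 256 224 256 320 384)) = true := by decide +kernel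
  have c1 : (go 16 Gd mult S169_198_512_660 (Tr.lf 13441205320 103775559 0) 128 256 192 224 256 320) = true := by decide +kernel
  have c2 : (go 16 Gd mult S169_198_512_660 (Tr.lf 13978076292 95395015 0) 128 192 192 224 320 384) = true := by decide +kernel
  have c3 : (go 16 Gd mult S169_198_512_660 (Tr.lf 13978077252 99462088 0) 192 256 192 224 320 384) = true := by decide +kernel
  have c4 : (go 16 Gd mult S169_198_660_808 (Tr.lf 13440156744 103652295 0) 128 256 192 224 256 320) = true := by decide +kernel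
  have c5 : (band (go 16 Gd mult S169_198_660_808 (Tr.lf 13440156744 99716039 0) 128 256 192 224 320 384)
  (go 16 Gd mult S169_183_438_512 (Tr.lf 13440795716 95386696 0) 128 256 192 224 320 384)) = true := by decide +kernel
  have c6 : (band (go 16 Gd mult S169_198_660_808 (Tr.lf 13440156744 103906375 0) 128 256 224 256 256 320)
  (go 16 Gd mult S140_169_512_660 (Tr.lf 13431489092 99453895 0) 128 256 224 256 256 320)) = true := by decide +kernel
  have c7 : (go 16 Gd mult S183_198_438_512 (Tr.lf 13986056328 103640137 0) 128 256 192 224 320 384) = true := by decide +kernel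
  have c8 : (band (go 16 Gd mult S140_169_512_660 (Tr.lf 9137588292 99851207 0) 128 256 192 224 256 384)
  (go 16 Gd mult S140_169_660_808 (Tr.lf 9137571912 103914439 0) 128 256 192 224 256 384)) = true := by decide +kernel
  have c9 : (band (go 16 Gd mult S169_198_512_660 (Tr.lf 13439894600 103779399 0) 128 256 224 256 256 320)
  (go 16 Gd mult S169_198_512_660 (Tr.lf 13439895620 99589063 0) 128 192 224 256 320 384)) = true := by decide +kernel
  have c10 : (go 16 Gd mult S169_198_660_808 (Tr.lf 13440156740 107973575 0) 128 192 224 256 320 384) = true := by decide +kernel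
  have c11 : (band (go 16 Gd mult S169_198_512_660 (Tr.lf 13439894596 99584840 0) 192 256 224 256 320 384)
  (go 16 Gd mult S169_198_660_808 (Tr.lf 13439878212 103783367 0) 192 256 224 256 320 384)) = true := by decide +kernel
  have c12 : (go 16 Gd mult S140_169_660_808 (Tr.lf 13431490628 103774920 0) 128 256 224 256 256 384) = true := by decide +kernel
  (And.intro (Ok.s1 224 (Ok.s3 183 (Ok.lf S169_183_438_512_ok (br c5))
  (Ok.lf S183_198_438_512_ok c7))
  (Ok.lf S169_198_438_512_ok (bl c0)))
  (Ok.s4 660 (Ok.s1 224 (Ok.s3 169 (Ok.lf S140_169_512_660_ok (bl c8))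
  (Ok.s2 320 (Ok.lf S169_198_512_660_ok c1)
  (Ok.s0 192 (Ok.lf S169_198_512_660_ok c2)
  (Ok.lf S169_198_512_660_ok c3))))
  (Ok.s2 320 (Ok.s3 169 (Ok.lf S140_169_512_660_ok (br c6))
  (Ok.lf S169_198_512_660_ok (bl c9)))
  (Ok.s3 169 (Ok.lf S140_169_512_660_ok (br c0))
  (Ok.s0 192 (Ok.lf S169_198_512_660_ok (br c9))
  (Ok.lf S169_198_512_660_ok (bl c11))))))
  (Ok.s1 224 (Ok.s3 169 (Ok.lf S140_169_660_808_ok (br c8))
  (Ok.s2 320 (Ok.lf S169_198_660_808_ok c4)
  (Ok.lf S169_198_660_808_ok (bl c5))))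
  (Ok.s3 169 (Ok.lf S140_169_660_808_ok c12)
  (Ok.s2 320 (Ok.lf S169_198_660_808_ok (bl c6))
  (Ok.s0 192 (Ok.lf S169_198_660_808_ok c10)
  (Ok.lf S169_198_660_808_ok (br c11))))))))

end Vale.Agent.P098.Ck
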