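import Vale.Agent.P098.CkGd
import Vale.Agent.P098.CkOk
import Vale.Agent.P098.Sh.A23
import Vale.Agent.P098.Sh.A30
import Vale.Agent.P098.Sh.A31
import Vale.Agent.P098.Sh.A34
import Vale.Agent.P098.Sh.A39

namespace Vale.Agent.P098.Ck

theorem r306 :
    Ok Gd mult 128 256 192 224 256 320 227 256 216 290 ∧
    Ok Gd mult 128 256 192 224 256 320 227 256 290 364 ∧
    Ok Gd mult 128 256 192 224 320 384 227 256 216 364 ∧
    Ok Gd mult 128 256 224 256 256 320 198 227 216 364 :=
  have c0 : (band (go 16 Gd mult S241_256_216_290 (Tr.lf 17733798024 94984650 0) 128 256 192 224 256 320)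
  (go 16 Gd mult S241_256_216_290 (Tr.lf 13438829640 95382216 0) 128 256 192 224 320 384)) = true := by decide +kernel
  have c1 : (go 16 Gd mult S227_241_290_364 (Tr.lf 18280368260 103381706 0) 192 256 192 224 256 320) = true := by decide +kernel
  have c2 : (band (go 16 Gd mult S241_256_290_364 (Tr.lf 17733798024 94984650 0) 128 256 192 224 256 320)
  (go 16 Gd mult S241_256_290_364 (Tr.lf 13438829640 103639752 0) 128 256 192 224 320 384)) = true := by decide +kernel
  have c3 : (band (go 16 Gd mult S227_241_216_290 (Tr.lf 13448267912 99576649 0) 128 256 192 224 320 384)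
  (go 16 Gd mult S227_241_216_290 (Tr.lf 13448267844 103643977 0) 128 192 192 224 256 320)) = true := by decide +kernel
  have c4 : (go 16 Gd mult S198_212_216_290 (Tr.lf 17736157316 99314761 0) 128 192 224 256 256 320) = true := by decide +kernel
  have c5 : (go 16 Gd mult S198_212_290_364 (Tr.lf 17744283784 99318730 0) 128 256 224 256 256 320) = true := by decide +kernel
  have c6 : (band (go 16 Gd mult S212_227_290_364 (Tr.lf 18280368260 111901386 0) 192 256 224 256 256 320)
  (go 16 Gd mult S198_212_216_290 (Tr.lf 13439878212 107969480 0) 192 256 224 256 256 320)) = true := by decide +kernel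
  have c7 : (go 16 Gd mult S227_241_216_290 (Tr.lf 17743235204 94993098 0) 192 256 192 224 256 320) = true := by decide +kernel
  have c8 : (band (go 16 Gd mult S227_241_290_364 (Tr.lf 18280106116 103381706 0) 128 192 192 224 256 320)
  (go 16 Gd mult S227_241_290_364 (Tr.lf 18280106116 99191370 0) 128 192 192 224 320 384)) = true := by decide +kernel
  have c9 : (go 16 Gd mult S227_241_290_364 (Tr.lf 18280106116 99314378 0) 192 256 192 224 320 384) = true := by decide +kernel
  have c10 : (band (go 16 Gd mult S212_227_216_290 (Tr.lf 13449316484 103894217 0) 128 192 224 256 256 320)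
  (go 16 Gd mult S212_227_290_364 (Tr.lf 17734846596 103508809 0) 128 192 224 256 256 320)) = true := by decide +kernel
  have c11 : (go 16 Gd mult S212_227_216_290 (Tr.lf 17743235204 95255242 0) 192 256 224 256 256 320) = true := by decide +kernel
  (And.intro (Ok.s3 241 (Ok.s0 192 (Ok.lf S227_241_216_290_ok (br c3))
  (Ok.lf S227_241_216_290_ok c7))
  (Ok.lf S241_256_216_290_ok (bl c0)))
  (And.intro (Ok.s3 241 (Ok.s0 192 (Ok.lf S227_241_290_364_ok (bl c8))
  (Ok.lf S227_241_290_364_ok c1))
  (Ok.lf S241_256_290_364_ok (bl c2)))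
  (And.intro (Ok.s4 290 (Ok.s3 241 (Ok.lf S227_241_216_290_ok (bl c3))
  (Ok.lf S241_256_216_290_ok (br c0)))
  (Ok.s3 241 (Ok.s0 192 (Ok.lf S227_241_290_364_ok (br c8))
  (Ok.lf S227_241_290_364_ok c9))
  (Ok.lf S241_256_290_364_ok (br c2))))
  (Ok.s4 290 (Ok.s3 212 (Ok.s0 192 (Ok.lf S198_212_216_290_ok c4)
  (Ok.lf S198_212_216_290_ok (br c6)))
  (Ok.s0 192 (Ok.lf S212_227_216_290_ok (bl c10))
  (Ok.lf S212_227_216_290_ok c11)))
  (Ok.s3 212 (Ok.lf S198_212_290_364_ok c5)
  (Ok.s0 192 (Ok.lf S212_227_290_364_ok (br c10))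
  (Ok.lf S212_227_290_364_ok (bl c6))))))))

end Vale.Agent.P098.Ck
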