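import Vale.Agent.P098.CkGd
import Vale.Agent.P098.CkOk
import Vale.Agent.P098.Sh.A25
import Vale.Agent.P098.Sh.A34
import Vale.Agent.P098.Sh.A36
import Vale.Agent.P098.Sh.A39

namespace Vale.Agent.P098.Ck

theorem r307 :
    Ok Gd mult 128 256 224 256 256 320 227 256 216 290 ∧
    Ok Gd mult 128 256 224 256 256 320 227 256 290 364 ∧
    Ok Gd mult 128 192 224 240 320 384 198 256 216 364 ∧
    Ok Gd mult 128 192 240 256 320 352 198 256 216 364 :=
  have c0 : (go 16 Gd mult S227_241_216_290 (Tr.lf 17743235208 95255242 0) 128 256 224 256 256 320) = true := by decide +kernel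
  have c1 : (go 16 Gd mult S241_256_216_290 (Tr.lf 17734060164 103512649 0) 192 256 224 256 256 320) = true := by decide +kernel
  have c2 : (go 16 Gd mult S227_241_290_364 (Tr.lf 18280368260 111901641 0) 192 256 224 256 256 320) = true := by decide +kernel
  have c3 : (go 16 Gd mult S241_256_290_364 (Tr.lf 17733798024 99576393 0) 128 256 224 256 256 320) = true := by decide +kernel
  have c4 : (band (go 16 Gd mult S227_241_290_364 (Tr.lf 17743235204 103508937 0) 128 192 224 256 256 320)
  (go 16 Gd mult S241_256_216_290 (Tr.lf 13438829636 99707847 0) 128 192 224 256 256 320)) = true := by decide +kernel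
  have c5 : (band (go 16 Gd mult S198_227_216_290 (Tr.lf 17744299076 95255625 0) 128 192 224 240 320 352)
  (band (go 16 Gd mult S227_256_290_364 (Tr.lf 18280121412 99449673 0) 128 192 224 240 320 352)
  (band (go 16 Gd mult S198_227_290_364 (Tr.lf 18280121412 99449673 0) 128 192 224 240 320 352)
  (go 16 Gd mult S227_256_216_290 (Tr.lf 13448282692 103897929 0) 128 192 224 240 320 352)))) = true := by decide +kernel
  have c6 : (band (go 16 Gd mult S198_227_216_364 (Tr.lf 17744561186 99314761 0) 128 160 224 232 352 384)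
  (band (go 16 Gd mult S227_256_216_364 (Tr.lf 13440156178 99707975 0) 128 160 224 232 352 384)
  (band (go 16 Gd mult S198_227_216_364 (Tr.lf 13440156194 107969352 0) 160 192 224 240 352 384)
  (band (go 16 Gd mult S227_256_216_364 (Tr.lf 13440156194 107969607 0) 160 192 224 240 352 384)
  (band (go 16 Gd mult S198_227_216_364 (Tr.lf 13440156194 107969607 0) 128 160 240 256 320 352)
  (go 16 Gd mult S227_256_216_364 (Tr.lf 13439091234 107969351 0) 128 160 240 256 320 352)))))) = true := by decide +kernel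
  have c7 : (band (go 16 Gd mult S198_227_216_364 (Tr.lf 13440139810 103779144 0) 160 192 240 256 320 352)
  (band (go 16 Gd mult S227_256_216_364 (Tr.lf 13439091234 103779143 0) 160 192 240 256 320 352)
  (band (go 16 Gd mult S198_227_216_364 (Tr.lf 13440139794 103902279 0) 128 160 232 240 352 384)
  (go 16 Gd mult S227_256_216_364 (Tr.lf 13440139794 103902279 0) 128 160 232 240 352 384)))) = true := by decide +kernel
  (And.intro (Ok.s3 241 (Ok.lf S227_241_216_290_ok c0)
  (Ok.s0 192 (Ok.lf S241_256_216_290_ok (br c4))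
  (Ok.lf S241_256_216_290_ok c1)))
  (And.intro (Ok.s3 241 (Ok.s0 192 (Ok.lf S227_241_290_364_ok (bl c4))
  (Ok.lf S227_241_290_364_ok c2))
  (Ok.lf S241_256_290_364_ok c3))
  (And.intro (Ok.s2 352 (Ok.s3 227 (Ok.s4 290 (Ok.lf S198_227_216_290_ok (bl c5))
  (Ok.lf S198_227_290_364_ok (bl (br (br c5)))))
  (Ok.s4 290 (Ok.lf S227_256_216_290_ok (br (br (br c5))))
  (Ok.lf S227_256_290_364_ok (bl (br c5)))))
  (Ok.s0 160 (Ok.s1 232 (Ok.s3 227 (Ok.lf S198_227_216_364_ok (bl c6))
  (Ok.lf S227_256_216_364_ok (bl (br c6))))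
  (Ok.s3 227 (Ok.lf S198_227_216_364_ok (bl (br (br c7))))
  (Ok.lf S227_256_216_364_ok (br (br (br c7))))))
  (Ok.s3 227 (Ok.lf S198_227_216_364_ok (bl (br (br c6))))
  (Ok.lf S227_256_216_364_ok (bl (br (br (br c6))))))))
  (Ok.s0 160 (Ok.s3 227 (Ok.lf S198_227_216_364_ok (bl (br (br (br (br c6))))))
  (Ok.lf S227_256_216_364_ok (br (br (br (br (br c6)))))))
  (Ok.s3 227 (Ok.lf S198_227_216_364_ok (bl c7))
  (Ok.lf S227_256_216_364_ok (bl (br c7))))))))

end Vale.Agent.P098.Ck
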