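import Vale.Agent.P098.CkGd
import Vale.Agent.P098.CkOk
import Vale.Agent.P098.Sh.A23
import Vale.Agent.P098.Sh.A24
import Vale.Agent.P098.Sh.A25
import Vale.Agent.P098.Sh.A26
import Vale.Agent.P098.Sh.A31
import Vale.Agent.P098.Sh.A32
import Vale.Agent.P098.Sh.A34
import Vale.Agent.P098.Sh.A36
import Vale.Agent.P098.Sh.A39

namespace Vale.Agent.P098.Ck

theorem r308 :
    Ok Gd mult 128 192 240 256 352 384 198 256 216 364 ∧
    Ok Gd mult 192 256 224 256 320 384 198 256 216 364 ∧
    Ok Gd mult 128 192 192 256 256 320 198 227 364 512 :=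
  have c0 : (band (go 16 Gd mult S198_227_216_290 (Tr.lf 13448284292 103766985 0) 192 256 224 256 320 384)
  (go 16 Gd mult S198_212_290_364 (Tr.lf 13449316420 99581001 0) 192 256 224 256 320 384)) = true := by decide +kernel
  have c1 : (band (go 16 Gd mult S227_256_216_290 (Tr.lf 13448284292 103766985 0) 192 256 224 256 320 384)
  (go 16 Gd mult S241_256_290_364 (Tr.lf 13438830660 99588680 0) 192 256 224 256 320 384)) = true := by decide +kernel
  have c2 : (go 16 Gd mult S198_212_364_438 (Tr.lf 18281171076 99322698 0) 128 192 192 224 256 320) = true := by decide +kernel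
  have c3 : (band (go 16 Gd mult S212_227_290_364 (Tr.lf 18281154692 103513034 0) 192 256 224 256 320 384)
  (go 16 Gd mult S227_241_290_364 (Tr.lf 18280106116 103512778 0) 192 256 224 256 320 384)) = true := by decide +kernel
  have c4 : (band (go 16 Gd mult S212_227_364_438 (Tr.lf 18281154692 103258954 0) 128 192 192 224 256 320)
  (go 16 Gd mult S212_227_364_438 (Tr.lf 18280106116 103775049 0) 128 192 224 256 256 320)) = true := by decide +kernel
  have c5 : (go 16 Gd mult S198_227_438_512 (Tr.lf 18280122436 103385929 0) 128 192 208 224 256 320) = true := by decide +kernel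
  have c6 : (band (go 16 Gd mult S212_227_438_512 (Tr.lf 18280106116 107838281 0) 128 192 224 256 256 320)
  (band (go 16 Gd mult S198_212_364_438 (Tr.lf 18281153668 103775305 0) 128 192 224 256 256 320)
  (go 16 Gd mult S198_212_438_512 (Tr.lf 18281153668 107838537 0) 128 192 224 256 256 320))) = true := by decide +kernel
  have c7 : (go 16 Gd mult S198_227_438_512 (Tr.lf 13440812068 95390792 0) 128 192 192 208 256 320) = true := by decide +kernel
  have c8 : (band (go 16 Gd mult S198_227_216_364 (Tr.lf 8606990882 103902023 1395100395835282067610927104) 128 192 240 256 352 384)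
  (go 16 Gd mult S227_256_216_364 (Tr.lf 13438829090 99453512 1395100395835282067610927104) 128 192 240 256 352 384)) = true := by decide +kernel
  (And.intro (Ok.s3 227 (Ok.lf S198_227_216_364_ok (bl c8))
  (Ok.lf S227_256_216_364_ok (br c8)))
  (And.intro (Ok.s3 227 (Ok.s4 290 (Ok.lf S198_227_216_290_ok (bl c0))
  (Ok.s3 212 (Ok.lf S198_212_290_364_ok (br c0))
  (Ok.lf S212_227_290_364_ok (bl c3))))
  (Ok.s4 290 (Ok.lf S227_256_216_290_ok (bl c1))
  (Ok.s3 241 (Ok.lf S227_241_290_364_ok (br c3))
  (Ok.lf S241_256_290_364_ok (br c1)))))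
  (Ok.s1 224 (Ok.s4 438 (Ok.s3 212 (Ok.lf S198_212_364_438_ok c2)
  (Ok.lf S212_227_364_438_ok (bl c4)))
  (Ok.s1 208 (Ok.lf S198_227_438_512_ok c7)
  (Ok.lf S198_227_438_512_ok c5)))
  (Ok.s4 438 (Ok.s3 212 (Ok.lf S198_212_364_438_ok (bl (br c6)))
  (Ok.lf S212_227_364_438_ok (br c4)))
  (Ok.s3 212 (Ok.lf S198_212_438_512_ok (br (br c6)))
  (Ok.lf S212_227_438_512_ok (bl c6)))))))

end Vale.Agent.P098.Ck
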