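import Vale.Agent.P098.CkGd
import Vale.Agent.P098.CkOk
import Vale.Agent.P098.Sh.A23
import Vale.Agent.P098.Sh.A26
import Vale.Agent.P098.Sh.A31
import Vale.Agent.P098.Sh.A32

namespace Vale.Agent.P098.Ck

theorem r309 :
    Ok Gd mult 128 192 192 224 320 384 198 227 364 512 ∧
    Ok Gd mult 128 192 224 256 320 384 198 227 364 512 ∧
    Ok Gd mult 192 256 192 256 256 320 198 227 364 512 ∧
    Ok Gd mult 192 256 192 256 320 384 198 227 364 438 :=
  have c0 : (go 16 Gd mult S212_227_364_438 (Tr.lf 18281154696 103254858 0) 128 192 192 224 320 384) = true := by decide +kernel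
  have c1 : (go 16 Gd mult S212_227_364_512 (Tr.lf 18281415816 107580489 0) 128 192 224 256 320 352) = true := by decide +kernel
  have c2 : (band (go 16 Gd mult S198_212_364_512 (Tr.lf 18281416836 99322698 0) 192 256 192 224 256 320)
  (go 16 Gd mult S198_212_364_512 (Tr.lf 18281415748 103640265 0) 192 256 224 240 256 320)) = true := by decide +kernel
  have c3 : (go 16 Gd mult S212_227_364_438 (Tr.lf 18280122500 95259210 0) 192 256 192 224 256 320) = true := by decide +kernel
  have c4 : (go 16 Gd mult S212_227_364_438 (Tr.lf 18281171076 103643978 0) 192 256 192 224 320 384) = true := by decide +kernel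
  have c5 : (go 16 Gd mult S198_227_438_512 (Tr.lf 18281171074 99318857 0) 160 192 192 224 320 384) = true := by decide +kernel
  have c6 : (band (go 16 Gd mult S198_212_364_438 (Tr.lf 18281154692 99318602 0) 128 192 192 224 320 384)
  (go 16 Gd mult S198_212_364_438 (Tr.lf 18281154692 103643978 0) 192 256 192 224 320 384)) = true := by decide +kernel
  have c7 : (go 16 Gd mult S198_212_364_512 (Tr.lf 18281415812 103386185 0) 128 192 224 256 320 352) = true := by decide +kernel
  have c8 : (go 16 Gd mult S198_227_364_512 (Tr.lf 13440156740 99711816 770085747094518784287834112) 128 192 224 256 352 384) = true := by decide +kernel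
  have c9 : (band (go 16 Gd mult S212_227_438_512 (Tr.lf 18281154692 95128649 0) 192 256 192 224 256 320)
  (go 16 Gd mult S212_227_438_512 (Tr.lf 18281154692 107834569 0) 192 256 224 256 256 320)) = true := by decide +kernel
  have c10 : (go 16 Gd mult S212_227_364_438 (Tr.lf 18280106116 103513033 0) 192 256 224 256 256 320) = true := by decide +kernel
  have c11 : (go 16 Gd mult S198_227_364_438 (Tr.lf 18280121476 107584074 0) 192 256 224 256 320 352) = true := by decide +kernel
  have c12 : (go 16 Gd mult S198_227_438_512 (Tr.lf 18281040002 99318857 0) 128 160 192 224 320 384) = true := by decide +kernel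
  have c13 : (go 16 Gd mult S198_227_364_438 (Tr.lf 13439763012 99457864 0) 192 256 224 256 352 384) = true := by decide +kernel
  have c14 : (go 16 Gd mult S198_212_364_512 (Tr.lf 13439878180 103775431 0) 192 256 240 256 256 320) = true := by decide +kernel
  (And.intro (Ok.s4 438 (Ok.s3 212 (Ok.lf S198_212_364_438_ok (bl c6))
  (Ok.lf S212_227_364_438_ok c0))
  (Ok.s0 160 (Ok.lf S198_227_438_512_ok c12)
  (Ok.lf S198_227_438_512_ok c5)))
  (And.intro (Ok.s2 352 (Ok.s3 212 (Ok.lf S198_212_364_512_ok c7)
  (Ok.lf S212_227_364_512_ok c1))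
  (Ok.lf S198_227_364_512_ok c8))
  (And.intro (Ok.s3 212 (Ok.s1 224 (Ok.lf S198_212_364_512_ok (bl c2))
  (Ok.s1 240 (Ok.lf S198_212_364_512_ok (br c2))
  (Ok.lf S198_212_364_512_ok c14)))
  (Ok.s1 224 (Ok.s4 438 (Ok.lf S212_227_364_438_ok c3)
  (Ok.lf S212_227_438_512_ok (bl c9)))
  (Ok.s4 438 (Ok.lf S212_227_364_438_ok c10)
  (Ok.lf S212_227_438_512_ok (br c9)))))
  (Ok.s1 224 (Ok.s3 212 (Ok.lf S198_212_364_438_ok (br c6))
  (Ok.lf S212_227_364_438_ok c4))
  (Ok.s2 352 (Ok.lf S198_227_364_438_ok c11)
  (Ok.lf S198_227_364_438_ok c13))))))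

end Vale.Agent.P098.Ck
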