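import Vale.Agent.P098.CkGd
import Vale.Agent.P098.CkOk
import Vale.Agent.P098.Sh.A41
import Vale.Agent.P098.Sh.A42
import Vale.Agent.P098.Sh.A44
import Vale.Agent.P098.Sh.A45
import Vale.Agent.P098.Sh.A46
import Vale.Agent.P098.Sh.A48
import Vale.Agent.P098.Sh.A49
import Vale.Agent.P098.Sh.A51
import Vale.Agent.P098.Sh.A52
import Vale.Agent.P098.Sh.A54
import Vale.Agent.P098.Sh.A55

namespace Vale.Agent.P098.Ck

theorem r31 :
    Ok Gd mult 0 128 64 128 0 128 256 314 216 512 ∧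
    Ok Gd mult 0 128 64 128 0 128 256 314 512 808 ∧
    Ok Gd mult 0 128 64 128 0 128 314 372 216 808 ∧
    Ok Gd mult 0 128 64 128 0 128 372 430 216 808 :=
  have c0 : (band (go 16 Gd mult S256_285_364_512 (Tr.lf 4295510148 99711814 0) 0 128 64 128 0 128)
  (band (go 16 Gd mult S343_372_364_512 (Tr.lf 9577604 104041669 0) 0 128 64 128 0 128)
  (go 16 Gd mult S372_430_216_364 (Tr.lf 1197122 112307141 0) 0 128 64 128 0 128))) = true := by decide +kernel
  have c1 : (band (go 16 Gd mult S285_314_364_512 (Tr.lf 8931460 108366789 0) 0 128 64 128 0 128)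
  (band (go 16 Gd mult S372_430_660_808 (Tr.lf 1197122 108112837 0) 0 128 64 128 0 128)
  (band (go 16 Gd mult S372_430_512_660 (Tr.lf 1131586 108370885 0) 0 128 64 128 0 128)
  (go 16 Gd mult S314_372_216_364 (Tr.lf 1196610 108370885 0) 0 128 64 128 0 128)))) = true := by decide +kernel
  have c2 : (band (go 16 Gd mult S314_343_512_660 (Tr.lf 9980036 108362949 0) 0 128 64 128 0 128)
  (band (go 16 Gd mult S372_430_364_512 (Tr.lf 1131074 108370885 0) 0 128 64 128 0 128)
  (go 16 Gd mult S285_314_216_364 (Tr.lf 8528450 108366789 0) 0 128 64 128 0 128))) = true := by decide +kernel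
  have c3 : (go 16 Gd mult S314_343_660_808 (Tr.lf 9980036 108239941 0) 0 128 64 128 0 128) = true := by decide +kernel
  have c4 : (band (go 16 Gd mult S256_285_512_660 (Tr.lf 8931458 108235972 0) 0 64 64 128 0 128)
  (go 16 Gd mult S285_314_512_660 (Tr.lf 8931458 108239940 0) 0 64 64 128 0 128)) = true := by decide +kernel
  have c5 : (band (go 16 Gd mult S256_314_660_808 (Tr.lf 8684676 112299076 0) 0 128 64 128 0 128)
  (go 16 Gd mult S314_343_364_512 (Tr.lf 8669316 112298949 0) 0 128 64 128 0 128)) = true := by decide +kernel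
  have c6 : (band (go 16 Gd mult S343_372_512_660 (Tr.lf 9717892 108235973 0) 0 128 64 128 0 128)
  (go 16 Gd mult S343_372_660_808 (Tr.lf 9717892 104041669 0) 0 128 64 128 0 128)) = true := by decide +kernel
  have c7 : (go 16 Gd mult S256_314_512_660 (Tr.lf 8668225 112303172 0) 64 128 64 128 0 128) = true := by decide +kernel
  have c8 : (band (go 16 Gd mult S256_285_216_364 (Tr.lf 4295106850 99712069 0) 0 128 64 128 0 64)
  (go 16 Gd mult S256_285_216_364 (Tr.lf 4295106850 103775046 0) 0 128 64 128 64 128)) = true := by decide +kernel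
  (And.intro (Ok.s4 364 (Ok.s3 285 (Ok.s2 64 (Ok.lf S256_285_216_364_ok (bl c8))
  (Ok.lf S256_285_216_364_ok (br c8)))
  (Ok.lf S285_314_216_364_ok (br (br c2))))
  (Ok.s3 285 (Ok.lf S256_285_364_512_ok (bl c0))
  (Ok.lf S285_314_364_512_ok (bl c1))))
  (And.intro (Ok.s4 660 (Ok.s0 64 (Ok.s3 285 (Ok.lf S256_285_512_660_ok (bl c4))
  (Ok.lf S285_314_512_660_ok (br c4)))
  (Ok.lf S256_314_512_660_ok c7))
  (Ok.lf S256_314_660_808_ok (bl c5)))
  (And.intro (Ok.s4 512 (Ok.s4 364 (Ok.lf S314_372_216_364_ok (br (br (br c1))))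
  (Ok.s3 343 (Ok.lf S314_343_364_512_ok (br c5))
  (Ok.lf S343_372_364_512_ok (bl (br c0)))))
  (Ok.s4 660 (Ok.s3 343 (Ok.lf S314_343_512_660_ok (bl c2))
  (Ok.lf S343_372_512_660_ok (bl c6)))
  (Ok.s3 343 (Ok.lf S314_343_660_808_ok c3)
  (Ok.lf S343_372_660_808_ok (br c6)))))
  (Ok.s4 512 (Ok.s4 364 (Ok.lf S372_430_216_364_ok (br (br c0)))
  (Ok.lf S372_430_364_512_ok (bl (br c2))))
  (Ok.s4 660 (Ok.lf S372_430_512_660_ok (bl (br (br c1))))
  (Ok.lf S372_430_660_808_ok (bl (br c1))))))))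

end Vale.Agent.P098.Ck
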