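import Vale.Agent.P098.CkGd
import Vale.Agent.P098.CkOk
import Vale.Agent.P098.Sh.A26
import Vale.Agent.P098.Sh.A35
import Vale.Agent.P098.Sh.A39

namespace Vale.Agent.P098.Ck

theorem r310 :
    Ok Gd mult 192 256 192 256 320 384 198 227 438 512 ∧
    Ok Gd mult 128 256 192 224 256 384 227 256 364 512 ∧
    Ok Gd mult 128 256 224 256 256 320 227 241 364 512 :=
  have c0 : (go 16 Gd mult S198_227_438_512 (Tr.lf 18280121480 99453769 0) 192 256 224 256 320 352) = true := by decide +kernel
  have c1 : (band (go 16 Gd mult S227_241_364_512 (Tr.lf 13448529992 95251273 0) 128 256 192 208 320 384)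
  (go 16 Gd mult S227_241_364_512 (Tr.lf 13448528936 99703625 0) 128 256 208 224 352 384)) = true := by decide +kernel
  have c2 : (band (go 16 Gd mult S227_241_364_438 (Tr.lf 18280122440 95259465 0) 128 256 208 224 256 320)
  (go 16 Gd mult S227_241_438_512 (Tr.lf 18280105032 95128393 0) 128 256 208 224 256 320)) = true := by decide +kernel
  have c3 : (band (go 16 Gd mult S198_227_438_512 (Tr.lf 18281170052 103513161 0) 192 256 192 224 320 352)
  (go 16 Gd mult S198_227_438_512 (Tr.lf 18281170052 103512906 0) 192 256 192 224 352 384)) = true := by decide +kernel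
  have c4 : (band (go 16 Gd mult S227_241_364_512 (Tr.lf 13448528968 95255369 0) 128 256 192 208 256 320)
  (go 16 Gd mult S227_241_364_512 (Tr.lf 18280367176 99449673 0) 128 256 208 224 320 352)) = true := by decide +kernel
  have c5 : (band (go 16 Gd mult S241_256_364_512 (Tr.lf 17734059080 95119945 0) 128 256 208 224 256 320)
  (go 16 Gd mult S241_256_364_512 (Tr.lf 13439091752 99711815 0) 128 256 208 224 320 384)) = true := by decide +kernel
  have c6 : (band (go 16 Gd mult S227_241_364_438 (Tr.lf 18280106116 103775049 0) 128 192 224 256 256 320)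
  (go 16 Gd mult S227_241_438_512 (Tr.lf 18280106116 107838281 0) 128 192 224 256 256 320)) = true := by decide +kernel
  have c7 : (band (go 16 Gd mult S227_241_364_512 (Tr.lf 18280367236 103771081 0) 192 256 224 256 256 288)
  (go 16 Gd mult S227_241_364_512 (Tr.lf 18280367236 103771081 0) 192 256 224 256 288 320)) = true := by decide +kernel
  have c8 : (go 16 Gd mult S241_256_364_512 (Tr.lf 13438822440 103520840 0) 128 256 192 208 256 384) = true := by decide +kernel
  have c9 : (go 16 Gd mult S198_227_438_512 (Tr.lf 13439763012 103779144 0) 192 256 224 256 352 384) = true := by decide +kernel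
  (And.intro (Ok.s2 352 (Ok.s1 224 (Ok.lf S198_227_438_512_ok (bl c3))
  (Ok.lf S198_227_438_512_ok c0))
  (Ok.s1 224 (Ok.lf S198_227_438_512_ok (br c3))
  (Ok.lf S198_227_438_512_ok c9)))
  (And.intro (Ok.s1 208 (Ok.s3 241 (Ok.s2 320 (Ok.lf S227_241_364_512_ok (bl c4))
  (Ok.lf S227_241_364_512_ok (bl c1)))
  (Ok.lf S241_256_364_512_ok c8))
  (Ok.s2 320 (Ok.s3 241 (Ok.s4 438 (Ok.lf S227_241_364_438_ok (bl c2))
  (Ok.lf S227_241_438_512_ok (br c2)))
  (Ok.lf S241_256_364_512_ok (bl c5)))
  (Ok.s3 241 (Ok.s2 352 (Ok.lf S227_241_364_512_ok (br c4))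
  (Ok.lf S227_241_364_512_ok (br c1)))
  (Ok.lf S241_256_364_512_ok (br c5)))))
  (Ok.s0 192 (Ok.s4 438 (Ok.lf S227_241_364_438_ok (bl c6))
  (Ok.lf S227_241_438_512_ok (br c6)))
  (Ok.s2 288 (Ok.lf S227_241_364_512_ok (bl c7))
  (Ok.lf S227_241_364_512_ok (br c7))))))

end Vale.Agent.P098.Ck
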