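import Vale.Agent.P098.CkGd
import Vale.Agent.P098.CkOk
import Vale.Agent.P098.Sh.A27
import Vale.Agent.P098.Sh.A35
import Vale.Agent.P098.Sh.A37
import Vale.Agent.P098.Sh.A38
import Vale.Agent.P098.Sh.A39

namespace Vale.Agent.P098.Ck

theorem r312 :
    Ok Gd mult 128 256 224 256 256 384 198 227 586 660 ∧
    Ok Gd mult 128 256 192 256 256 384 227 256 512 660 ∧
    Ok Gd mult 128 256 192 256 256 320 198 256 660 734 :=
  have c0 : (band (go 16 Gd mult S227_256_512_586 (Tr.lf 18271732872 99449800 0) 128 192 224 256 256 320)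
  (go 16 Gd mult S198_227_586_660 (Tr.lf 17734861892 95382472 0) 128 192 224 256 256 320)) = true := by decide +kernel
  have c1 : (band (go 16 Gd mult S227_241_512_660 (Tr.lf 13440140424 99580999 0) 128 256 192 224 320 384)
  (band (go 16 Gd mult S241_256_512_660 (Tr.lf 13438821444 107838279 0) 128 256 192 224 320 384)
  (go 16 Gd mult S241_256_512_660 (Tr.lf 13438821444 103516999 0) 128 256 192 224 256 320))) = true := by decide +kernel
  have c2 : (band (go 16 Gd mult S227_241_512_660 (Tr.lf 13440140424 99585095 0) 128 256 224 256 320 352)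
  (go 16 Gd mult S227_241_512_660 (Tr.lf 13440139848 103648327 477525698747778524008939520) 128 256 224 256 352 384)) = true := by decide +kernel
  have c3 : (go 16 Gd mult S241_256_512_660 (Tr.lf 13439091848 103906119 0) 128 256 224 256 320 384) = true := by decide +kernel
  have c4 : (band (go 16 Gd mult S198_227_586_660 (Tr.lf 17734861956 95251145 0) 128 192 224 256 320 384)
  (go 16 Gd mult S198_227_586_660 (Tr.lf 13439895620 103779399 0) 192 256 224 256 256 384)) = true := by decide +kernel
  have c5 : (band (go 16 Gd mult S227_241_512_660 (Tr.lf 13440140360 99454023 0) 128 256 192 224 256 320)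
  (band (go 16 Gd mult S227_256_660_734 (Tr.lf 13430309956 103643847 0) 128 256 192 224 256 320)
  (go 16 Gd mult S227_256_660_734 (Tr.lf 13438698052 107969351 0) 192 256 224 256 256 320))) = true := by decide +kernel
  have c6 : (go 16 Gd mult S227_256_512_660 (Tr.lf 13440156740 107973703 0) 192 256 224 256 256 320) = true := by decide +kernel
  have c7 : (band (go 16 Gd mult S198_227_660_734 (Tr.lf 17734861956 99453768 0) 128 192 224 256 256 320)
  (go 16 Gd mult S227_256_660_734 (Tr.lf 17734861956 103775048 0) 128 192 224 256 256 320)) = true := by decide +kernel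
  have c8 : (go 16 Gd mult S227_256_586_660 (Tr.lf 17734861892 99445704 0) 128 192 224 256 256 320) = true := by decide +kernel
  have c9 : (band (go 16 Gd mult S198_227_660_734 (Tr.lf 13439878276 103906375 0) 192 256 192 256 256 320)
  (go 16 Gd mult S198_227_660_734 (Tr.lf 13439878212 99457991 0) 128 192 192 224 256 320)) = true := by decide +kernel
  (And.intro (Ok.s0 192 (Ok.s2 320 (Ok.lf S198_227_586_660_ok (br c0))
  (Ok.lf S198_227_586_660_ok (bl c4)))
  (Ok.lf S198_227_586_660_ok (br c4)))
  (And.intro (Ok.s2 320 (Ok.s1 224 (Ok.s3 241 (Ok.lf S227_241_512_660_ok (bl c5))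
  (Ok.lf S241_256_512_660_ok (br (br c1))))
  (Ok.s0 192 (Ok.s4 586 (Ok.lf S227_256_512_586_ok (bl c0))
  (Ok.lf S227_256_586_660_ok c8))
  (Ok.lf S227_256_512_660_ok c6)))
  (Ok.s3 241 (Ok.s1 224 (Ok.lf S227_241_512_660_ok (bl c1))
  (Ok.s2 352 (Ok.lf S227_241_512_660_ok (bl c2))
  (Ok.lf S227_241_512_660_ok (br c2))))
  (Ok.s1 224 (Ok.lf S241_256_512_660_ok (bl (br c1)))
  (Ok.lf S241_256_512_660_ok c3))))
  (Ok.s3 227 (Ok.s0 192 (Ok.s1 224 (Ok.lf S198_227_660_734_ok (br c9))
  (Ok.lf S198_227_660_734_ok (bl c7)))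
  (Ok.lf S198_227_660_734_ok (bl c9)))
  (Ok.s1 224 (Ok.lf S227_256_660_734_ok (bl (br c5)))
  (Ok.s0 192 (Ok.lf S227_256_660_734_ok (br c7))
  (Ok.lf S227_256_660_734_ok (br (br c5))))))))

end Vale.Agent.P098.Ck
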