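import Vale.Agent.P098.CkGd
import Vale.Agent.P098.CkOk
import Vale.Agent.P098.Sh.A41
import Vale.Agent.P098.Sh.A42
import Vale.Agent.P098.Sh.A45
import Vale.Agent.P098.Sh.A46

namespace Vale.Agent.P098.Ck

theorem r314 :
    Ok Gd mult 128 256 192 224 256 384 256 314 216 364 ∧
    Ok Gd mult 128 256 224 256 256 384 256 314 216 364 ∧
    Ok Gd mult 128 256 192 256 256 384 256 314 364 512 ∧
    Ok Gd mult 128 256 192 224 256 384 256 314 512 660 :=
  have c0 : (band (go 16 Gd mult S256_285_290_364 (Tr.lf 18346181768 99838665 0) 128 256 224 256 256 320)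
  (go 16 Gd mult S285_314_364_512 (Tr.lf 13430441032 104028999 0) 128 256 224 256 256 320)) = true := by decide +kernel
  have c1 : (band (go 16 Gd mult S256_285_216_364 (Tr.lf 13439108168 103910215 0) 128 256 224 256 320 384)
  (band (go 16 Gd mult S285_314_216_364 (Tr.lf 9135473220 99720006 0) 128 256 224 256 320 384)
  (go 16 Gd mult S285_314_364_512 (Tr.lf 9135473220 104041286 0) 128 256 224 256 320 384))) = true := by decide +kernel
  have c2 : (band (go 16 Gd mult S256_285_364_512 (Tr.lf 18346428488 99326282 0) 128 256 192 224 256 384)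
  (band (go 16 Gd mult S285_314_216_364 (Tr.lf 8598602820 103910214 0) 128 256 192 224 256 384)
  (go 16 Gd mult S285_314_364_512 (Tr.lf 8598594596 99584838 0) 128 256 192 224 256 384))) = true := by decide +kernel
  have c3 : (go 16 Gd mult S256_285_364_512 (Tr.lf 22641411204 99440971 0) 128 192 224 256 256 320) = true := by decide +kernel
  have c4 : (band (go 16 Gd mult S256_285_364_512 (Tr.lf 18346443908 108096201 0) 192 256 224 256 256 320)
  (go 16 Gd mult S256_285_216_290 (Tr.lf 22641148996 103639371 0) 192 256 224 256 256 320)) = true := by decide +kernel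
  have c5 : (band (go 16 Gd mult S256_285_216_364 (Tr.lf 18346427464 99449290 0) 128 256 192 224 256 320)
  (go 16 Gd mult S256_285_216_364 (Tr.lf 18346427460 99453258 0) 128 256 192 224 320 384)) = true := by decide +kernel
  have c6 : (go 16 Gd mult S256_285_216_290 (Tr.lf 18346181764 99715657 0) 128 192 224 256 256 320) = true := by decide +kernel
  have c7 : (go 16 Gd mult S256_285_364_512 (Tr.lf 13439091784 103779143 0) 128 256 224 256 320 384) = true := by decide +kernel
  have c8 : (go 16 Gd mult S285_314_216_364 (Tr.lf 13430441032 108223303 0) 128 256 224 256 256 320) = true := by decide +kernel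
  have c9 : (band (go 16 Gd mult S256_285_512_660 (Tr.lf 8598602820 99584838 0) 128 256 192 224 256 384)
  (go 16 Gd mult S285_314_512_660 (Tr.lf 8598463524 103775046 0) 128 256 192 224 256 384)) = true := by decide +kernel
  (And.intro (Ok.s3 285 (Ok.s2 320 (Ok.lf S256_285_216_364_ok (bl c5))
  (Ok.lf S256_285_216_364_ok (br c5)))
  (Ok.lf S285_314_216_364_ok (bl (br c2))))
  (And.intro (Ok.s2 320 (Ok.s3 285 (Ok.s4 290 (Ok.s0 192 (Ok.lf S256_285_216_290_ok c6)
  (Ok.lf S256_285_216_290_ok (br c4)))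
  (Ok.lf S256_285_290_364_ok (bl c0)))
  (Ok.lf S285_314_216_364_ok c8))
  (Ok.s3 285 (Ok.lf S256_285_216_364_ok (bl c1))
  (Ok.lf S285_314_216_364_ok (bl (br c1)))))
  (And.intro (Ok.s1 224 (Ok.s3 285 (Ok.lf S256_285_364_512_ok (bl c2))
  (Ok.lf S285_314_364_512_ok (br (br c2))))
  (Ok.s2 320 (Ok.s3 285 (Ok.s0 192 (Ok.lf S256_285_364_512_ok c3)
  (Ok.lf S256_285_364_512_ok (bl c4)))
  (Ok.lf S285_314_364_512_ok (br c0)))
  (Ok.s3 285 (Ok.lf S256_285_364_512_ok c7)
  (Ok.lf S285_314_364_512_ok (br (br c1))))))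
  (Ok.s3 285 (Ok.lf S256_285_512_660_ok (bl c9))
  (Ok.lf S285_314_512_660_ok (br c9))))))

end Vale.Agent.P098.Ck
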