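import Vale.Agent.P098.CkGd
import Vale.Agent.P098.CkOk
import Vale.Agent.P098.Sh.A40
import Vale.Agent.P098.Sh.A42
import Vale.Agent.P098.Sh.A45
import Vale.Agent.P098.Sh.A46
import Vale.Agent.P098.Sh.A47
import Vale.Agent.P098.Sh.A48
import Vale.Agent.P098.Sh.A51
import Vale.Agent.P098.Sh.A52

namespace Vale.Agent.P098.Ck

theorem r315 :
    Ok Gd mult 128 256 224 256 256 384 256 314 512 660 ∧
    Ok Gd mult 128 256 192 256 256 384 256 314 660 808 ∧
    Ok Gd mult 128 256 192 256 256 384 314 372 216 512 ∧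
    Ok Gd mult 128 256 192 256 256 384 314 372 512 660 :=
  have c0 : (go 16 Gd mult S343_372_216_364 (Tr.lf 9128134792 95648583 0) 128 256 192 256 256 384) = true := by decide +kernel
  have c1 : (band (go 16 Gd mult S256_285_512_660 (Tr.lf 17734059140 99445193 0) 128 192 224 256 256 320)
  (band (go 16 Gd mult S256_285_512_660 (Tr.lf 13430703176 107961159 0) 128 256 224 256 320 384)
  (go 16 Gd mult S285_314_512_660 (Tr.lf 8598602276 108100422 0) 128 256 224 256 320 384))) = true := by decide +kernel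
  have c2 : (band (go 16 Gd mult S314_343_216_364 (Tr.lf 8598603908 99846727 0) 128 256 192 256 256 384)
  (go 16 Gd mult S314_343_364_512 (Tr.lf 8598603908 108104263 0) 128 256 192 256 256 384)) = true := by decide +kernel
  have c3 : (band (go 16 Gd mult S343_372_512_660 (Tr.lf 9137570952 103914312 0) 128 256 192 256 256 320)
  (band (go 16 Gd mult S343_372_364_512 (Tr.lf 9128002180 103906119 0) 128 256 192 256 256 320)
  (band (go 16 Gd mult S314_343_512_660 (Tr.lf 8598471300 103910214 0) 128 256 192 256 256 320)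
  (go 16 Gd mult S343_372_364_512 (Tr.lf 9137439880 99847239 30326455420077383417885) 128 256 192 256 320 384)))) = true := by decide +kernel
  have c4 : (go 16 Gd mult S343_372_512_660 (Tr.lf 13432554628 95255496 64065542167993272762368) 128 192 224 256 320 384) = true := by decide +kernel
  have c5 : (band (go 16 Gd mult S256_270_660_808 (Tr.lf 12893562952 95513287 0) 128 256 224 256 256 384)
  (go 16 Gd mult S270_285_660_808 (Tr.lf 12893561924 99576519 0) 128 256 224 256 256 384)) = true := by decide +kernel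
  have c6 : (band (go 16 Gd mult S285_314_660_808 (Tr.lf 8598603906 107838278 3191335420665764053147) 128 192 192 256 256 384)
  (go 16 Gd mult S285_314_660_808 (Tr.lf 8598602818 103906118 0) 192 256 192 256 256 384)) = true := by decide +kernel
  have c7 : (go 16 Gd mult S314_343_512_660 (Tr.lf 9136522372 103910215 42113916720278906339328) 128 256 192 256 320 384) = true := by decide +kernel
  have c8 : (go 16 Gd mult S256_285_660_808 (Tr.lf 8598602788 107838278 0) 128 256 192 224 256 384) = true := by decide +kernel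
  have c9 : (go 16 Gd mult S285_314_512_660 (Tr.lf 12893569572 95386311 0) 128 256 224 256 256 320) = true := by decide +kernel
  have c10 : (band (go 16 Gd mult S343_372_512_660 (Tr.lf 9137439810 104041543 0) 192 256 224 256 320 384)
  (go 16 Gd mult S343_372_512_660 (Tr.lf 4841423396 87141573 0) 128 256 192 224 320 384)) = true := by decide +kernel
  have c11 : (go 16 Gd mult S256_285_512_660 (Tr.lf 13430440482 103905991 0) 192 256 224 256 256 320) = true := by decide +kernel
  (And.intro (Ok.s2 320 (Ok.s3 285 (Ok.s0 192 (Ok.lf S256_285_512_660_ok (bl c1))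
  (Ok.lf S256_285_512_660_ok c11))
  (Ok.lf S285_314_512_660_ok c9))
  (Ok.s3 285 (Ok.lf S256_285_512_660_ok (bl (br c1)))
  (Ok.lf S285_314_512_660_ok (br (br c1)))))
  (And.intro (Ok.s3 285 (Ok.s1 224 (Ok.lf S256_285_660_808_ok c8)
  (Ok.s3 270 (Ok.lf S256_270_660_808_ok (bl c5))
  (Ok.lf S270_285_660_808_ok (br c5))))
  (Ok.s0 192 (Ok.lf S285_314_660_808_ok (bl c6))
  (Ok.lf S285_314_660_808_ok (br c6))))
  (And.intro (Ok.s4 364 (Ok.s3 343 (Ok.lf S314_343_216_364_ok (bl c2))
  (Ok.lf S343_372_216_364_ok c0))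
  (Ok.s3 343 (Ok.lf S314_343_364_512_ok (br c2))
  (Ok.s2 320 (Ok.lf S343_372_364_512_ok (bl (br c3)))
  (Ok.lf S343_372_364_512_ok (br (br (br c3)))))))
  (Ok.s3 343 (Ok.s2 320 (Ok.lf S314_343_512_660_ok (bl (br (br c3))))
  (Ok.lf S314_343_512_660_ok c7))
  (Ok.s2 320 (Ok.lf S343_372_512_660_ok (bl c3))
  (Ok.s1 224 (Ok.lf S343_372_512_660_ok (br c10))
  (Ok.s0 192 (Ok.lf S343_372_512_660_ok c4)
  (Ok.lf S343_372_512_660_ok (bl c10)))))))))

end Vale.Agent.P098.Ck
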