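import Vale.Agent.P098.CkGd
import Vale.Agent.P098.CkOk
import Vale.Agent.P098.Sh.A49
import Vale.Agent.P098.Sh.A52
import Vale.Agent.P098.Sh.A54
import Vale.Agent.P098.Sh.A56
import Vale.Agent.P098.Sh.A57

namespace Vale.Agent.P098.Ck

theorem r316 :
    Ok Gd mult 128 256 192 224 256 384 314 372 660 808 ∧
    Ok Gd mult 128 256 224 256 256 384 314 372 660 808 ∧
    Ok Gd mult 128 256 192 256 256 384 372 430 216 364 ∧
    Ok Gd mult 128 256 192 256 256 320 372 430 364 512 :=
  have c0 : (band (go 16 Gd mult S401_430_364_512 (Tr.lf 18265311368 99445706 0) 128 256 224 256 256 320)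
  (go 16 Gd mult S401_415_216_364 (Tr.lf 13432398984 99716040 0) 128 256 224 256 256 320)) = true := by decide +kernel
  have c1 : (go 16 Gd mult S314_343_660_808 (Tr.lf 9137849416 99724231 57111119652204771803136) 128 256 224 256 320 384) = true := by decide +kernel
  have c2 : (go 16 Gd mult S343_372_660_808 (Tr.lf 18274092104 94989258 906797149990905067604017152) 128 192 240 256 352 384) = true := by decide +kernel
  have c3 : (go 16 Gd mult S401_430_216_364 (Tr.lf 13970474120 95255625 0) 128 256 192 224 256 320) = true := by decide +kernel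
  have c4 : (go 16 Gd mult S372_401_216_364 (Tr.lf 9129183368 99970119 0) 128 256 192 256 320 384) = true := by decide +kernel
  have c5 : (go 16 Gd mult S343_372_660_808 (Tr.lf 13432816200 99580872 43884817628640275595264) 128 256 240 256 320 352) = true := by decide +kernel
  have c6 : (band (go 16 Gd mult S415_430_216_364 (Tr.lf 18265294984 99445706 0) 128 256 224 256 256 320)
  (go 16 Gd mult S314_343_660_808 (Tr.lf 8599650852 99974214 0) 128 256 224 256 256 320)) = true := by decide +kernel
  have c7 : (go 16 Gd mult S401_430_216_364 (Tr.lf 13970343048 99445833 0) 128 256 192 224 320 384) = true := by decide +kernel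
  have c8 : (go 16 Gd mult S401_430_216_364 (Tr.lf 13970327688 99716041 0) 128 256 224 256 320 384) = true := by decide +kernel
  have c9 : (band (go 16 Gd mult S372_401_364_512 (Tr.lf 13424034952 107957065 0) 128 256 192 256 256 320)
  (go 16 Gd mult S372_401_216_364 (Tr.lf 13424149640 107957065 0) 128 256 192 256 256 320)) = true := by decide +kernel
  have c10 : (go 16 Gd mult S401_430_364_512 (Tr.lf 13970343048 95255625 0) 128 256 192 224 256 320) = true := by decide +kernel
  have c11 : (band (go 16 Gd mult S343_372_660_808 (Tr.lf 9136392228 95652679 0) 128 256 192 224 256 384)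
  (band (go 16 Gd mult S314_343_660_808 (Tr.lf 8598463524 99580487 0) 128 256 192 224 256 384)
  (go 16 Gd mult S343_372_660_808 (Tr.lf 9137440804 103783240 0) 128 256 224 240 256 384))) = true := by decide +kernel
  have c12 : (band (go 16 Gd mult S343_372_660_808 (Tr.lf 9137570340 103914312 0) 128 256 240 256 256 320)
  (go 16 Gd mult S343_372_660_808 (Tr.lf 13432537636 103775176 0) 192 256 240 256 352 384)) = true := by decide +kernel
  (And.intro (Ok.s3 343 (Ok.lf S314_343_660_808_ok (bl (br c11)))
  (Ok.lf S343_372_660_808_ok (bl c11)))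
  (And.intro (Ok.s3 343 (Ok.s2 320 (Ok.lf S314_343_660_808_ok (br c6))
  (Ok.lf S314_343_660_808_ok c1))
  (Ok.s1 240 (Ok.lf S343_372_660_808_ok (br (br c11)))
  (Ok.s2 320 (Ok.lf S343_372_660_808_ok (bl c12))
  (Ok.s2 352 (Ok.lf S343_372_660_808_ok c5)
  (Ok.s0 192 (Ok.lf S343_372_660_808_ok c2)
  (Ok.lf S343_372_660_808_ok (br c12)))))))
  (And.intro (Ok.s2 320 (Ok.s3 401 (Ok.lf S372_401_216_364_ok (br c9))
  (Ok.s1 224 (Ok.lf S401_430_216_364_ok c3)
  (Ok.s3 415 (Ok.lf S401_415_216_364_ok (br c0))
  (Ok.lf S415_430_216_364_ok (bl c6)))))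
  (Ok.s3 401 (Ok.lf S372_401_216_364_ok c4)
  (Ok.s1 224 (Ok.lf S401_430_216_364_ok c7)
  (Ok.lf S401_430_216_364_ok c8))))
  (Ok.s3 401 (Ok.lf S372_401_364_512_ok (bl c9))
  (Ok.s1 224 (Ok.lf S401_430_364_512_ok c10)
  (Ok.lf S401_430_364_512_ok (bl c0)))))))

end Vale.Agent.P098.Ck
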