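import Vale.Agent.P098.CkGd
import Vale.Agent.P098.CkOk
import Vale.Agent.P098.Sh.A54
import Vale.Agent.P098.Sh.A56
import Vale.Agent.P098.Sh.A57

namespace Vale.Agent.P098.Ck

theorem r318 :
    Ok Gd mult 128 256 192 256 256 320 401 430 660 808 ∧
    Ok Gd mult 128 256 192 256 320 384 372 430 660 808 :=
  have c0 : (go 16 Gd mult S401_430_660_808 (Tr.lf 18265442436 95247306 0) 128 192 224 256 256 320) = true := by decide +kernel
  have c1 : (go 16 Gd mult S401_430_660_808 (Tr.lf 18265442436 99445706 0) 192 256 224 256 256 320) = true := by decide +kernel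
  have c2 : (band (go 16 Gd mult S401_430_660_808 (Tr.lf 13970474120 99445833 0) 128 256 192 224 320 384)
  (go 16 Gd mult S372_401_660_808 (Tr.lf 9137587268 99716167 0) 128 256 192 224 320 384)) = true := by decide +kernel
  have c3 : (band (go 16 Gd mult S372_401_660_808 (Tr.lf 18274092072 90934090 4477921003303385282058911773) 128 192 248 252 368 384)
  (go 16 Gd mult S372_401_660_808 (Tr.lf 18275140136 90934091 4324415444816575341680132096) 128 192 252 256 368 384)) = true := by decide +kernel
  have c4 : (go 16 Gd mult S415_430_660_808 (Tr.lf 13970327688 99716041 0) 128 256 224 256 320 384) = true := by decide +kernel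
  have c5 : (go 16 Gd mult S401_430_660_808 (Tr.lf 13970474116 95255625 0) 192 256 192 224 256 320) = true := by decide +kernel
  have c6 : (go 16 Gd mult S401_415_660_808 (Tr.lf 13979894920 99457739 714495340138425254827327517) 128 192 224 256 352 384) = true := by decide +kernel
  have c7 : (go 16 Gd mult S401_430_660_808 (Tr.lf 13970343044 103640137 0) 128 192 192 224 256 320) = true := by decide +kernel
  have c8 : (band (go 16 Gd mult S372_401_660_808 (Tr.lf 18273829448 99314634 1050590608408157017149014016) 128 192 240 256 352 368)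
  (band (go 16 Gd mult S372_401_660_808 (Tr.lf 13433603140 99449801 0) 128 192 240 256 320 352)
  (band (go 16 Gd mult S372_401_660_808 (Tr.lf 13970474020 99580873 0) 128 192 224 240 320 384)
  (go 16 Gd mult S372_401_660_808 (Tr.lf 13978862116 103779273 1104970872040949704143405056) 128 192 240 248 368 384)))) = true := by decide +kernel
  have c9 : (go 16 Gd mult S372_401_660_808 (Tr.lf 13433586756 99584969 0) 192 256 224 256 320 384) = true := by decide +kernel
  have c10 : (band (go 16 Gd mult S401_415_660_808 (Tr.lf 13970317960 99716041 0) 128 256 224 256 320 352)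
  (go 16 Gd mult S401_415_660_808 (Tr.lf 13970317892 99584969 0) 192 256 224 256 352 384)) = true := by decide +kernel
  (And.intro (Ok.s0 192 (Ok.s1 224 (Ok.lf S401_430_660_808_ok c7)
  (Ok.lf S401_430_660_808_ok c0))
  (Ok.s1 224 (Ok.lf S401_430_660_808_ok c5)
  (Ok.lf S401_430_660_808_ok c1)))
  (Ok.s3 401 (Ok.s1 224 (Ok.lf S372_401_660_808_ok (br c2))
  (Ok.s0 192 (Ok.s1 240 (Ok.lf S372_401_660_808_ok (bl (br (br c8))))
  (Ok.s2 352 (Ok.lf S372_401_660_808_ok (bl (br c8)))
  (Ok.s2 368 (Ok.lf S372_401_660_808_ok (bl c8))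
  (Ok.s1 248 (Ok.lf S372_401_660_808_ok (br (br (br c8))))
  (Ok.s1 252 (Ok.lf S372_401_660_808_ok (bl c3))
  (Ok.lf S372_401_660_808_ok (br c3)))))))
  (Ok.lf S372_401_660_808_ok c9)))
  (Ok.s1 224 (Ok.lf S401_430_660_808_ok (bl c2))
  (Ok.s3 415 (Ok.s2 352 (Ok.lf S401_415_660_808_ok (bl c10))
  (Ok.s0 192 (Ok.lf S401_415_660_808_ok c6)
  (Ok.lf S401_415_660_808_ok (br c10))))
  (Ok.lf S415_430_660_808_ok c4)))))

end Vale.Agent.P098.Ck
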