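import Vale.Agent.P098.CkGd
import Vale.Agent.P098.CkOk
import Vale.Agent.P098.Sh.A0
import Vale.Agent.P098.Sh.A1
import Vale.Agent.P098.Sh.A10
import Vale.Agent.P098.Sh.A11
import Vale.Agent.P098.Sh.A14
import Vale.Agent.P098.Sh.A18
import Vale.Agent.P098.Sh.A19
import Vale.Agent.P098.Sh.A20
import Vale.Agent.P098.Sh.A3
import Vale.Agent.P098.Sh.A4
import Vale.Agent.P098.Sh.A58
import Vale.Agent.P098.Sh.A59
import Vale.Agent.P098.Sh.A8
import Vale.Agent.P098.Sh.A9

namespace Vale.Agent.P098.Ck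

theorem r32 :
    Ok Gd mult 0 128 64 128 0 128 430 488 216 808 ∧
    Ok Gd mult 0 128 64 128 128 256 24 140 216 808 ∧
    Ok Gd mult 0 128 64 128 128 256 140 198 216 808 :=
  have c0 : (band (go 16 Gd mult S140_198_660_808 (Tr.lf 623150210 103914567 0) 0 128 64 128 128 256)
  (band (go 16 Gd mult S82_140_216_364 (Tr.lf 539264066 107969733 0) 0 128 64 128 128 256)
  (band (go 16 Gd mult S82_140_364_512 (Tr.lf 547521602 103914693 0) 0 128 64 128 128 256)
  (band (go 16 Gd mult S82_140_512_660 (Tr.lf 547521602 108108997 0) 0 128 64 128 128 256)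
  (go 16 Gd mult S24_82_216_364 (Tr.lf 540116034 107842375 0) 0 128 64 128 128 256))))) = true := by decide +kernel
  have c1 : (band (go 16 Gd mult S82_140_660_808 (Tr.lf 547521090 108108997 0) 0 128 64 128 128 256)
  (band (go 16 Gd mult S140_169_216_364 (Tr.lf 2245698 104033350 0) 0 128 64 128 128 256)
  (band (go 16 Gd mult S24_82_364_512 (Tr.lf 540099650 103648071 0) 0 128 64 128 128 256)
  (band (go 16 Gd mult S24_82_512_660 (Tr.lf 540099650 107842375 0) 0 128 64 128 128 256)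
  (band (go 16 Gd mult S24_82_660_808 (Tr.lf 540099650 107842375 0) 0 128 64 128 128 256)
  (band (go 16 Gd mult S140_169_364_512 (Tr.lf 1196610 104033349 0) 0 128 64 128 128 256)
  (band (go 16 Gd mult S169_198_364_512 (Tr.lf 623002178 104041671 0) 0 128 64 128 128 256)
  (go 16 Gd mult S140_169_512_660 (Tr.lf 623002178 103910471 0) 0 128 64 128 128 256)))))))) = true := by decide +kernel
  have c2 : (band (go 16 Gd mult S430_488_216_364 (Tr.lf 539051074 99711943 0) 0 128 64 128 0 128)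
  (band (go 16 Gd mult S430_488_364_512 (Tr.lf 539051074 99711943 0) 0 128 64 128 0 128)
  (band (go 16 Gd mult S430_488_512_660 (Tr.lf 539051074 99711943 0) 0 128 64 128 0 128)
  (go 16 Gd mult S430_488_660_808 (Tr.lf 539051074 99711943 0) 0 128 64 128 0 128)))) = true := by decide +kernel
  have c3 : (band (go 16 Gd mult S169_183_216_364 (Tr.lf 622993986 104037575 0) 0 128 64 128 128 256)
  (band (go 16 Gd mult S183_198_216_364 (Tr.lf 622993986 95784135 0) 0 128 64 128 128 256)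
  (go 16 Gd mult S169_198_512_660 (Tr.lf 622993986 104037575 0) 0 128 64 128 128 256))) = true := by decide +kernel
  (And.intro (Ok.s4 512 (Ok.s4 364 (Ok.lf S430_488_216_364_ok (bl c2))
  (Ok.lf S430_488_364_512_ok (bl (br c2))))
  (Ok.s4 660 (Ok.lf S430_488_512_660_ok (bl (br (br c2))))
  (Ok.lf S430_488_660_808_ok (br (br (br c2))))))
  (And.intro (Ok.s3 82 (Ok.s4 512 (Ok.s4 364 (Ok.lf S24_82_216_364_ok (br (br (br (br c0)))))
  (Ok.lf S24_82_364_512_ok (bl (br (br c1)))))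
  (Ok.s4 660 (Ok.lf S24_82_512_660_ok (bl (br (br (br c1)))))
  (Ok.lf S24_82_660_808_ok (bl (br (br (br (br c1))))))))
  (Ok.s4 512 (Ok.s4 364 (Ok.lf S82_140_216_364_ok (bl (br c0)))
  (Ok.lf S82_140_364_512_ok (bl (br (br c0)))))
  (Ok.s4 660 (Ok.lf S82_140_512_660_ok (bl (br (br (br c0)))))
  (Ok.lf S82_140_660_808_ok (bl c1)))))
  (Ok.s4 512 (Ok.s4 364 (Ok.s3 169 (Ok.lf S140_169_216_364_ok (bl (br c1)))
  (Ok.s3 183 (Ok.lf S169_183_216_364_ok (bl c3))
  (Ok.lf S183_198_216_364_ok (bl (br c3)))))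
  (Ok.s3 169 (Ok.lf S140_169_364_512_ok (bl (br (br (br (br (br c1)))))))
  (Ok.lf S169_198_364_512_ok (bl (br (br (br (br (br (br c1))))))))))
  (Ok.s4 660 (Ok.s3 169 (Ok.lf S140_169_512_660_ok (br (br (br (br (br (br (br c1))))))))
  (Ok.lf S169_198_512_660_ok (br (br c3))))
  (Ok.lf S140_198_660_808_ok (bl c0))))))

end Vale.Agent.P098.Ck
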