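import Vale.Agent.P098.CkGd
import Vale.Agent.P098.CkOk
import Vale.Agent.P098.Sh.A14
import Vale.Agent.P098.Sh.A2
import Vale.Agent.P098.Sh.A20
import Vale.Agent.P098.Sh.A3
import Vale.Agent.P098.Sh.A4
import Vale.Agent.P098.Sh.A5
import Vale.Agent.P098.Sh.A6
import Vale.Agent.P098.Sh.A8

namespace Vale.Agent.P098.Ck

theorem r322 :
    Ok Gd mult 128 256 192 256 384 448 82 140 364 512 ∧
    Ok Gd mult 128 256 192 256 448 512 82 140 364 512 ∧
    Ok Gd mult 128 256 192 256 384 512 82 140 512 808 ∧
    Ok Gd mult 128 256 192 224 384 448 140 198 216 290 :=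
  have c0 : (go 16 Gd mult S82_111_364_512 (Tr.lf 13969295496 103508936 10880332376531662572355584) 128 256 192 256 384 448) = true := by decide +kernel
  have c1 : (go 16 Gd mult S111_140_512_660 (Tr.lf 13432539272 90922056 29014219670751100192948224) 128 256 192 256 384 448) = true := by decide +kernel
  have c2 : (band (go 16 Gd mult S82_140_512_660 (Tr.lf 9136538760 95124295 1282060666621136375426056192) 128 256 192 256 448 480)
  (go 16 Gd mult S82_140_660_808 (Tr.lf 9136407172 103639879 1015988722370015905213054976) 128 256 192 256 448 480)) = true := by decide +kernel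
  have c3 : (go 16 Gd mult S111_140_660_808 (Tr.lf 9137571976 99581254 10880332376531662572355584) 128 256 192 256 384 448) = true := by decide +kernel
  have c4 : (band (go 16 Gd mult S111_140_364_512 (Tr.lf 13969295432 99437640 0) 128 256 192 224 384 448)
  (band (go 16 Gd mult S140_169_216_290 (Tr.lf 9145845828 103906503 0) 128 256 192 224 384 448)
  (go 16 Gd mult S169_183_216_290 (Tr.lf 13440919620 95128648 0) 128 256 192 224 384 448))) = true := by decide +kernel
  have c5 : (band (go 16 Gd mult S82_111_512_660 (Tr.lf 13432408200 95120328 16924961474604808445886464) 128 256 192 256 384 448)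
  (go 16 Gd mult S82_111_660_808 (Tr.lf 9137440904 107973830 24178516392292583494123520) 128 256 192 256 384 448)) = true := by decide +kernel
  have c6 : (band (go 16 Gd mult S183_198_216_290 (Tr.lf 13986186376 111905737 0) 128 256 192 224 384 416)
  (go 16 Gd mult S183_198_216_290 (Tr.lf 13440926792 90934344 926037177824805947824930816) 128 256 192 224 416 448)) = true := by decide +kernel
  have c7 : (go 16 Gd mult S82_140_364_512 (Tr.lf 690127908 99589446 8947254883700157782065685100) 128 256 224 256 448 512) = true := by decide +kernel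
  have c8 : (go 16 Gd mult S111_140_364_512 (Tr.lf 9137439780 99581254 835367741353708759721967616) 128 256 224 256 384 448) = true := by decide +kernel
  have c9 : (go 16 Gd mult S82_140_364_512 (Tr.lf 4832985636 108096581 184965650401038263730044928) 128 256 192 224 448 480) = true := by decide +kernel
  have c10 : (band (go 16 Gd mult S82_140_512_660 (Tr.lf 1131042 107973828 12987477817775264556221219272) 128 256 192 256 480 512)
  (go 16 Gd mult S82_140_660_808 (Tr.lf 1130786 108104900 12930659411855449027631467737) 128 256 192 256 480 512)) = true := by decide +kernel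
  have c11 : (go 16 Gd mult S82_140_364_512 (Tr.lf 1130770 107969732 13141018553203768407620203498) 128 256 192 224 480 512) = true := by decide +kernel
  (And.intro (Ok.s3 111 (Ok.lf S82_111_364_512_ok c0)
  (Ok.s1 224 (Ok.lf S111_140_364_512_ok (bl c4))
  (Ok.lf S111_140_364_512_ok c8)))
  (And.intro (Ok.s1 224 (Ok.s2 480 (Ok.lf S82_140_364_512_ok c9)
  (Ok.lf S82_140_364_512_ok c11))
  (Ok.lf S82_140_364_512_ok c7))
  (And.intro (Ok.s4 660 (Ok.s2 448 (Ok.s3 111 (Ok.lf S82_111_512_660_ok (bl c5))
  (Ok.lf S111_140_512_660_ok c1))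
  (Ok.s2 480 (Ok.lf S82_140_512_660_ok (bl c2))
  (Ok.lf S82_140_512_660_ok (bl c10))))
  (Ok.s2 448 (Ok.s3 111 (Ok.lf S82_111_660_808_ok (br c5))
  (Ok.lf S111_140_660_808_ok c3))
  (Ok.s2 480 (Ok.lf S82_140_660_808_ok (br c2))
  (Ok.lf S82_140_660_808_ok (br c10)))))
  (Ok.s3 169 (Ok.lf S140_169_216_290_ok (bl (br c4)))
  (Ok.s3 183 (Ok.lf S169_183_216_290_ok (br (br c4)))
  (Ok.s2 416 (Ok.lf S183_198_216_290_ok (bl c6))
  (Ok.lf S183_198_216_290_ok (br c6))))))))

end Vale.Agent.P098.Ck
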