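import Vale.Agent.P098.CkGd
import Vale.Agent.P098.CkOk
import Vale.Agent.P098.Sh.A11
import Vale.Agent.P098.Sh.A15
import Vale.Agent.P098.Sh.A17
import Vale.Agent.P098.Sh.A18
import Vale.Agent.P098.Sh.A21
import Vale.Agent.P098.Sh.A8
import Vale.Agent.P098.Sh.A9

namespace Vale.Agent.P098.Ck

theorem r323 :
    Ok Gd mult 128 256 192 224 384 448 140 198 290 364 ∧
    Ok Gd mult 128 256 224 256 384 448 140 198 216 364 ∧
    Ok Gd mult 128 256 192 256 448 512 140 198 216 364 ∧
    Ok Gd mult 128 256 192 256 384 448 140 198 364 512 :=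
  have c0 : (band (go 16 Gd mult S183_198_290_364 (Tr.lf 13986187400 107711433 0) 128 256 192 224 384 448)
  (go 16 Gd mult S140_169_290_364 (Tr.lf 9145845828 103906503 0) 128 256 192 224 384 448)) = true := by decide +kernel
  have c1 : (band (go 16 Gd mult S183_198_364_438 (Tr.lf 13986187400 107969481 0) 128 256 192 224 384 448)
  (go 16 Gd mult S140_169_364_438 (Tr.lf 9137440840 107969607 0) 128 256 192 224 384 448)) = true := by decide +kernel
  have c2 : (go 16 Gd mult S169_198_438_512 (Tr.lf 13986202760 112032713 0) 128 256 192 224 384 416) = true := by decide +kernel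
  have c3 : (band (go 16 Gd mult S169_198_216_364 (Tr.lf 9136522312 103775175 1989891899085679621566365696) 128 256 224 256 384 448)
  (band (go 16 Gd mult S140_169_216_364 (Tr.lf 9137570852 103779399 1182329451583107332862640128) 128 256 224 256 384 448)
  (band (go 16 Gd mult S169_198_364_438 (Tr.lf 9136391236 103783494 1497859090502525547460952064) 128 256 224 256 384 448)
  (band (go 16 Gd mult S169_198_438_512 (Tr.lf 9136391204 103910470 1216179374532316949754413056) 128 256 224 256 384 448)
  (band (go 16 Gd mult S140_169_364_438 (Tr.lf 9137374244 99585095 1090451089292395515584970752) 128 256 224 256 384 448)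
  (go 16 Gd mult S140_169_438_512 (Tr.lf 9137374244 107842631 1007035207738986102530244608) 128 256 224 256 384 448)))))) = true := by decide +kernel
  have c4 : (band (go 16 Gd mult S169_183_290_364 (Tr.lf 13440796740 90934344 0) 128 256 192 224 384 448)
  (band (go 16 Gd mult S140_169_438_512 (Tr.lf 9137440836 107969607 0) 128 256 192 224 384 448)
  (go 16 Gd mult S169_183_364_438 (Tr.lf 13440788548 99449928 0) 128 256 192 224 384 448))) = true := by decide +kernel
  have c5 : (band (go 16 Gd mult S140_198_216_364 (Tr.sp 0 192 Tr.skip (Tr.lf 546604098 103914565 13982425758398886895399743892)) 128 256 192 256 480 512)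
  (go 16 Gd mult S140_198_216_364 (Tr.sp 0 192 Tr.skip (Tr.lf 546603554 99724357 9072984402514277051846361494)) 128 256 224 256 448 480)) = true := by decide +kernel
  have c6 : (go 16 Gd mult S169_198_438_512 (Tr.lf 13439747144 95255368 220024499169862509796524032) 128 256 192 224 416 448) = true := by decide +kernel
  have c7 : (band (go 16 Gd mult S169_198_216_364 (Tr.lf 9136521764 99580743 2628204731842203825811226624) 128 256 192 224 448 480)
  (go 16 Gd mult S140_169_216_364 (Tr.lf 4841423394 112172101 1329818401576092092176793600) 128 256 192 224 448 480)) = true := by decide +kernel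
  (And.intro (Ok.s3 169 (Ok.lf S140_169_290_364_ok (br c0))
  (Ok.s3 183 (Ok.lf S169_183_290_364_ok (bl c4))
  (Ok.lf S183_198_290_364_ok (bl c0))))
  (And.intro (Ok.s3 169 (Ok.lf S140_169_216_364_ok (bl (br c3)))
  (Ok.lf S169_198_216_364_ok (bl c3)))
  (And.intro (Ok.s2 480 (Ok.s1 224 (Ok.s3 169 (Ok.lf S140_169_216_364_ok (br c7))
  (Ok.lf S169_198_216_364_ok (bl c7)))
  (Ok.lf S140_198_216_364_ok (br c5)))
  (Ok.lf S140_198_216_364_ok (bl c5)))
  (Ok.s4 438 (Ok.s1 224 (Ok.s3 169 (Ok.lf S140_169_364_438_ok (br c1))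
  (Ok.s3 183 (Ok.lf S169_183_364_438_ok (br (br c4)))
  (Ok.lf S183_198_364_438_ok (bl c1))))
  (Ok.s3 169 (Ok.lf S140_169_364_438_ok (bl (br (br (br (br c3))))))
  (Ok.lf S169_198_364_438_ok (bl (br (br c3))))))
  (Ok.s1 224 (Ok.s3 169 (Ok.lf S140_169_438_512_ok (bl (br c4)))
  (Ok.s2 416 (Ok.lf S169_198_438_512_ok c2)
  (Ok.lf S169_198_438_512_ok c6)))
  (Ok.s3 169 (Ok.lf S140_169_438_512_ok (br (br (br (br (br c3))))))
  (Ok.lf S169_198_438_512_ok (bl (br (br (br c3)))))))))))

end Vale.Agent.P098.Ck
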