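import Vale.Agent.P098.CkGd
import Vale.Agent.P098.CkOk
import Vale.Agent.P098.Sh.A10
import Vale.Agent.P098.Sh.A11
import Vale.Agent.P098.Sh.A16
import Vale.Agent.P098.Sh.A18
import Vale.Agent.P098.Sh.A19
import Vale.Agent.P098.Sh.A22
import Vale.Agent.P098.Sh.A9

namespace Vale.Agent.P098.Ck

theorem r324 :
    Ok Gd mult 128 256 192 256 448 512 140 198 364 512 ∧
    Ok Gd mult 128 256 192 256 384 512 140 198 512 808 :=
  have c0 : (go 16 Gd mult S140_198_364_512 (Tr.lf 9136800840 103643975 1946370569579552971276943360) 128 256 192 224 448 480) = true := by decide +kernel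
  have c1 : (go 16 Gd mult S140_198_512_660 (Tr.lf 690259080 103783750 17291256057646891704021426826) 128 256 192 256 480 512) = true := by decide +kernel
  have c2 : (band (go 16 Gd mult S140_169_660_808 (Tr.lf 9137571976 103906375 47148106964970537813540864) 128 256 192 256 384 448)
  (go 16 Gd mult S140_169_660_808 (Tr.lf 614745220 99982406 1522349688919220048029876253) 128 256 192 256 448 480)) = true := by decide +kernel
  have c3 : (band (go 16 Gd mult S169_198_660_808 (Tr.lf 13440944200 99326920 0) 128 256 192 224 384 448)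
  (go 16 Gd mult S140_169_512_660 (Tr.lf 9137571908 103775303 0) 128 256 192 224 384 448)) = true := by decide +kernel
  have c4 : (band (go 16 Gd mult S183_198_512_660 (Tr.lf 13978059848 107838536 0) 128 256 192 224 384 416)
  (go 16 Gd mult S169_183_512_660 (Tr.lf 13440918088 103513160 0) 128 256 192 224 384 416)) = true := by decide +kernel
  have c5 : (go 16 Gd mult S169_198_512_660 (Tr.lf 13439894600 99318600 0) 128 256 192 224 416 448) = true := by decide +kernel
  have c6 : (go 16 Gd mult S140_198_364_512 (Tr.sp 1 224 (Tr.lf 623150116 99851462 14768235028922620976246692690) Tr.skip) 128 256 192 256 480 512) = true := by decide +kernel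
  have c7 : (band (go 16 Gd mult S140_169_512_660 (Tr.lf 9136391300 99449671 1974556973184925854838292509) 128 256 192 256 448 480)
  (band (go 16 Gd mult S169_198_660_808 (Tr.lf 8599650948 95255367 1589807587314205608453865472) 128 256 192 256 448 480)
  (band (go 16 Gd mult S169_198_660_808 (Tr.lf 9136522308 108100678 831740963894864872197849088) 128 256 224 256 384 448)
  (band (go 16 Gd mult S140_169_512_660 (Tr.lf 9136391204 103906374 926037177824805947824930816) 128 256 224 256 384 448)
  (go 16 Gd mult S169_198_512_660 (Tr.lf 9136522308 107973702 1040885130688195719422017536) 128 256 224 256 384 448))))) = true := by decide +kernel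
  have c8 : (go 16 Gd mult S140_198_660_808 (Tr.sp 2 496 (Tr.lf 690258244 103910726 16567112903727816942434261514) Tr.skip) 128 256 192 256 480 512) = true := by decide +kernel
  have c9 : (go 16 Gd mult S169_198_512_660 (Tr.lf 9136521858 107834183 2345424390886837347707519005) 128 192 192 256 448 480) = true := by decide +kernel
  have c10 : (go 16 Gd mult S169_198_512_660 (Tr.lf 8599511618 95255367 2527863888814189604310614016) 192 256 192 256 448 480) = true := by decide +kernel
  have c11 : (go 16 Gd mult S140_169_364_512 (Tr.lf 76685858 108109124 10511606663851306808278061061) 128 256 224 256 448 480) = true := by decide +kernel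
  have c12 : (go 16 Gd mult S169_198_364_512 (Tr.sp 0 192 Tr.skip (Tr.lf 546447905 95530053 8735306348158625893358501888)) 128 256 224 256 448 480) = true := by decide +kernel
  (And.intro (Ok.s2 480 (Ok.s1 224 (Ok.lf S140_198_364_512_ok c0)
  (Ok.s3 169 (Ok.lf S140_169_364_512_ok c11)
  (Ok.lf S169_198_364_512_ok c12)))
  (Ok.lf S140_198_364_512_ok c6))
  (Ok.s4 660 (Ok.s2 448 (Ok.s1 224 (Ok.s3 169 (Ok.lf S140_169_512_660_ok (br c3))
  (Ok.s2 416 (Ok.s3 183 (Ok.lf S169_183_512_660_ok (br c4))
  (Ok.lf S183_198_512_660_ok (bl c4)))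
  (Ok.lf S169_198_512_660_ok c5)))
  (Ok.s3 169 (Ok.lf S140_169_512_660_ok (bl (br (br (br c7)))))
  (Ok.lf S169_198_512_660_ok (br (br (br (br c7)))))))
  (Ok.s2 480 (Ok.s3 169 (Ok.lf S140_169_512_660_ok (bl c7))
  (Ok.s0 192 (Ok.lf S169_198_512_660_ok c9)
  (Ok.lf S169_198_512_660_ok c10)))
  (Ok.lf S140_198_512_660_ok c1)))
  (Ok.s2 448 (Ok.s3 169 (Ok.lf S140_169_660_808_ok (bl c2))
  (Ok.s1 224 (Ok.lf S169_198_660_808_ok (bl c3))
  (Ok.lf S169_198_660_808_ok (bl (br (br c7))))))
  (Ok.s2 480 (Ok.s3 169 (Ok.lf S140_169_660_808_ok (br c2))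
  (Ok.lf S169_198_660_808_ok (bl (br c7))))
  (Ok.lf S140_198_660_808_ok c8)))))

end Vale.Agent.P098.Ck
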