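import Vale.Agent.P098.CkGd
import Vale.Agent.P098.CkOk
import Vale.Agent.P098.Sh.A23
import Vale.Agent.P098.Sh.A25
import Vale.Agent.P098.Sh.A30
import Vale.Agent.P098.Sh.A31
import Vale.Agent.P098.Sh.A34
import Vale.Agent.P098.Sh.A36
import Vale.Agent.P098.Sh.A39

namespace Vale.Agent.P098.Ck

theorem r325 :
    Ok Gd mult 128 256 192 224 384 448 198 212 216 364 ∧
    Ok Gd mult 128 256 192 224 384 448 212 227 216 364 ∧
    Ok Gd mult 128 256 224 256 384 448 198 227 216 364 ∧
    Ok Gd mult 128 256 192 256 384 448 227 256 216 364 ∧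
    Ok Gd mult 128 256 192 256 448 512 198 256 216 364 :=
  have c0 : (go 16 Gd mult S198_212_216_290 (Tr.lf 18281415816 99191626 0) 128 256 192 224 384 416) = true := by decide +kernel
  have c1 : (go 16 Gd mult S198_212_290_364 (Tr.lf 18281170056 94997322 0) 128 256 192 224 384 416) = true := by decide +kernel
  have c2 : (go 16 Gd mult S212_227_216_290 (Tr.lf 18281415816 99191626 0) 128 256 192 224 384 416) = true := by decide +kernel
  have c3 : (go 16 Gd mult S212_227_290_364 (Tr.lf 18281170056 99191626 0) 128 256 192 224 384 416) = true := by decide +kernel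
  have c4 : (band (go 16 Gd mult S198_227_216_364 (Tr.lf 13440156744 95255496 2564131663402628479551799296) 128 256 224 256 384 448)
  (go 16 Gd mult S227_241_216_364 (Tr.lf 13440132168 95255496 2565340589222243108726505472) 128 256 224 256 384 448)) = true := by decide +kernel
  have c5 : (band (go 16 Gd mult S227_241_216_364 (Tr.lf 13440141384 99711816 220024499169862509796524032) 128 256 192 224 384 448)
  (go 16 Gd mult S241_256_216_364 (Tr.lf 9144117316 103910087 90669436471097188102963200) 128 256 192 224 384 448)) = true := by decide +kernel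
  have c6 : (go 16 Gd mult S198_212_216_364 (Tr.lf 13449577544 95255752 0) 128 256 192 208 416 448) = true := by decide +kernel
  have c7 : (band (go 16 Gd mult S212_227_216_364 (Tr.lf 13449577604 99318984 1279043517152277666839134208) 128 192 192 224 416 448)
  (go 16 Gd mult S212_227_216_364 (Tr.lf 13440140354 99322696 955051397495557048017879040) 192 256 192 224 416 448)) = true := by decide +kernel
  have c8 : (go 16 Gd mult S241_256_216_364 (Tr.lf 9144116292 112163655 2346525015871995228104687616) 128 256 224 256 384 448) = true := by decide +kernel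
  have c9 : (band (go 16 Gd mult S198_227_216_364 (Tr.lf 9135473218 99584583 6946487759505659237861687296) 192 256 192 256 448 480)
  (band (go 16 Gd mult S227_256_216_364 (Tr.lf 9135473218 103779142 6948905611144888496211099648) 192 256 192 256 448 480)
  (band (go 16 Gd mult S227_256_216_364 (Tr.sp 1 224 (Tr.lf 9143861826 107973446 3551824058027780515286745088) Tr.skip) 128 192 192 256 448 480)
  (band (go 16 Gd mult S198_227_216_364 (Tr.sp 1 224 (Tr.lf 9143861794 103779142 3550615132208165886112038912) Tr.skip) 128 192 192 256 448 480)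
  (band (go 16 Gd mult S198_227_216_364 (Tr.lf 1227112994 91594054 11984072796023606979047983262) 192 256 192 224 480 512)
  (go 16 Gd mult S227_256_216_364 (Tr.lf 4303626785 103783237 11977249566130727349649409644) 192 256 192 224 480 512)))))) = true := by decide +kernel
  have c10 : (go 16 Gd mult S198_212_216_364 (Tr.lf 9144902164 103779271 1529291161812505906003312640) 128 256 208 224 416 448) = true := by decide +kernel
  (And.intro (Ok.s2 416 (Ok.s4 290 (Ok.lf S198_212_216_290_ok c0)
  (Ok.lf S198_212_290_364_ok c1))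
  (Ok.s1 208 (Ok.lf S198_212_216_364_ok c6)
  (Ok.lf S198_212_216_364_ok c10)))
  (And.intro (Ok.s2 416 (Ok.s4 290 (Ok.lf S212_227_216_290_ok c2)
  (Ok.lf S212_227_290_364_ok c3))
  (Ok.s0 192 (Ok.lf S212_227_216_364_ok (bl c7))
  (Ok.lf S212_227_216_364_ok (br c7))))
  (And.intro (Ok.lf S198_227_216_364_ok (bl c4))
  (And.intro (Ok.s3 241 (Ok.s1 224 (Ok.lf S227_241_216_364_ok (bl c5))
  (Ok.lf S227_241_216_364_ok (br c4)))
  (Ok.s1 224 (Ok.lf S241_256_216_364_ok (br c5))
  (Ok.lf S241_256_216_364_ok c8)))
  (Ok.s2 480 (Ok.s3 227 (Ok.s0 192 (Ok.lf S198_227_216_364_ok (bl (br (br (br c9)))))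
  (Ok.lf S198_227_216_364_ok (bl c9)))
  (Ok.s0 192 (Ok.lf S227_256_216_364_ok (bl (br (br c9))))
  (Ok.lf S227_256_216_364_ok (bl (br c9)))))
  (Ok.s0 192 (Ok.out rfl)
  (Ok.s1 224 (Ok.s3 227 (Ok.lf S198_227_216_364_ok (bl (br (br (br (br c9))))))
  (Ok.lf S227_256_216_364_ok (br (br (br (br (br c9)))))))
  (Ok.out rfl))))))))

end Vale.Agent.P098.Ck
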