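import Vale.Agent.P098.CkGd
import Vale.Agent.P098.CkOk
import Vale.Agent.P098.Sh.A23
import Vale.Agent.P098.Sh.A26
import Vale.Agent.P098.Sh.A27
import Vale.Agent.P098.Sh.A31
import Vale.Agent.P098.Sh.A37

namespace Vale.Agent.P098.Ck

theorem r326 :
    Ok Gd mult 128 256 192 224 384 448 198 256 364 438 ∧
    Ok Gd mult 128 256 192 224 384 448 198 256 438 512 ∧
    Ok Gd mult 128 256 224 256 384 448 198 256 364 512 ∧
    Ok Gd mult 128 256 192 256 448 512 198 256 364 512 ∧
    Ok Gd mult 128 256 192 256 384 448 198 227 512 586 :=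
  have c0 : (go 16 Gd mult S227_256_364_438 (Tr.lf 13439895624 99580744 0) 128 256 192 224 384 448) = true := by decide +kernel
  have c1 : (go 16 Gd mult S198_227_438_512 (Tr.lf 13986202760 103517129 0) 128 256 192 224 384 416) = true := by decide +kernel
  have c2 : (go 16 Gd mult S227_256_438_512 (Tr.lf 13439764552 103644231 0) 128 256 192 224 384 448) = true := by decide +kernel
  have c3 : (band (go 16 Gd mult S198_212_364_438 (Tr.lf 18281153672 99318602 0) 128 256 192 224 384 416)
  (go 16 Gd mult S212_227_364_438 (Tr.lf 18281153672 103512906 0) 128 256 192 224 384 416)) = true := by decide +kernel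
  have c4 : (band (go 16 Gd mult S227_256_364_512 (Tr.lf 13438830664 99584584 1740853180245066011576893440) 128 256 224 256 384 448)
  (band (go 16 Gd mult S198_227_512_586 (Tr.lf 13438698568 103516744 1046929759786268865295548416) 128 256 224 256 384 448)
  (band (go 16 Gd mult S198_227_512_586 (Tr.lf 13439747144 99318600 0) 128 256 192 224 416 448)
  (go 16 Gd mult S227_256_364_512 (Tr.lf 9135473220 103775046 2230468137188990827332894720) 128 256 192 224 448 480)))) = true := by decide +kernel
  have c5 : (go 16 Gd mult S198_227_512_586 (Tr.lf 13977814088 99581255 0) 128 256 192 224 384 416) = true := by decide +kernel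
  have c6 : (band (go 16 Gd mult S198_227_364_438 (Tr.lf 13440812104 99449928 737444749964923796570767360) 128 256 192 224 416 448)
  (go 16 Gd mult S198_227_438_512 (Tr.lf 13439763528 95255368 298604677444813406152425472) 128 256 192 224 416 448)) = true := by decide +kernel
  have c7 : (band (go 16 Gd mult S198_227_364_512 (Tr.lf 13438829128 99326536 1509948348698671839208013824) 128 256 224 256 384 416)
  (band (go 16 Gd mult S198_227_364_512 (Tr.lf 9135473700 103775046 2230468137188990827332894720) 128 256 192 224 448 480)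
  (band (go 16 Gd mult S198_227_364_512 (Tr.lf 8598602276 95521606 6140134237822701578332667904) 128 256 224 256 416 448)
  (go 16 Gd mult S198_227_364_512 (Tr.sp 1 224 (Tr.lf 4303634980 103774918 13850656585847043471594555705) Tr.skip) 128 256 192 256 480 512)))) = true := by decide +kernel
  have c8 : (go 16 Gd mult S227_256_364_512 (Tr.lf 8598471204 95251143 8941499995130854714508338118) 128 256 224 256 448 480) = true := by decide +kernel
  have c9 : (go 16 Gd mult S227_256_364_512 (Tr.sp 2 496 (Tr.sp 0 192 Tr.skip (Tr.lf 4303495490 95525701 14947798253205102110254828055)) Tr.skip) 128 256 192 256 480 512) = true := by decide +kernel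
  have c10 : (go 16 Gd mult S198_227_364_512 (Tr.sp 0 192 Tr.skip (Tr.lf 4303495698 107981637 8228156119212417382482968749)) 128 256 224 256 448 480) = true := by decide +kernel
  (And.intro (Ok.s3 227 (Ok.s2 416 (Ok.s3 212 (Ok.lf S198_212_364_438_ok (bl c3))
  (Ok.lf S212_227_364_438_ok (br c3)))
  (Ok.lf S198_227_364_438_ok (bl c6)))
  (Ok.lf S227_256_364_438_ok c0))
  (And.intro (Ok.s3 227 (Ok.s2 416 (Ok.lf S198_227_438_512_ok c1)
  (Ok.lf S198_227_438_512_ok (br c6)))
  (Ok.lf S227_256_438_512_ok c2))
  (And.intro (Ok.s3 227 (Ok.s2 416 (Ok.lf S198_227_364_512_ok (bl c7))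
  (Ok.lf S198_227_364_512_ok (bl (br (br c7)))))
  (Ok.lf S227_256_364_512_ok (bl c4)))
  (And.intro (Ok.s2 480 (Ok.s1 224 (Ok.s3 227 (Ok.lf S198_227_364_512_ok (bl (br c7)))
  (Ok.lf S227_256_364_512_ok (br (br (br c4)))))
  (Ok.s3 227 (Ok.lf S198_227_364_512_ok c10)
  (Ok.lf S227_256_364_512_ok c8)))
  (Ok.s3 227 (Ok.lf S198_227_364_512_ok (br (br (br c7))))
  (Ok.lf S227_256_364_512_ok c9)))
  (Ok.s1 224 (Ok.s2 416 (Ok.lf S198_227_512_586_ok c5)
  (Ok.lf S198_227_512_586_ok (bl (br (br c4)))))
  (Ok.lf S198_227_512_586_ok (bl (br c4))))))))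

end Vale.Agent.P098.Ck
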