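import Vale.Agent.P098.CkGd
import Vale.Agent.P098.CkOk
import Vale.Agent.P098.Sh.A27
import Vale.Agent.P098.Sh.A37
import Vale.Agent.P098.Sh.A38

namespace Vale.Agent.P098.Ck

theorem r327 :
    Ok Gd mult 128 256 192 256 384 448 227 256 512 586 ∧
    Ok Gd mult 128 256 192 256 384 448 198 256 586 660 ∧
    Ok Gd mult 128 256 192 256 448 512 198 256 512 660 ∧
    Ok Gd mult 128 256 192 256 384 448 198 256 660 808 ∧
    Ok Gd mult 128 256 192 256 448 464 198 256 660 808 :=
  have c0 : (band (go 16 Gd mult S198_227_586_660 (Tr.lf 13440944200 103521224 0) 128 256 192 224 384 448)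
  (go 16 Gd mult S227_256_512_586 (Tr.lf 13439748168 107707463 0) 128 256 192 224 384 448)) = true := by decide +kernel
  have c1 : (band (go 16 Gd mult S198_227_660_808 (Tr.lf 9144927368 107969734 539180915548124611918954496) 128 256 192 256 416 448)
  (go 16 Gd mult S198_227_660_808 (Tr.lf 13439894148 103652295 0) 192 256 192 256 384 416)) = true := by decide +kernel
  have c2 : (band (go 16 Gd mult S227_256_660_808 (Tr.lf 13430704260 99445447 12089258196146291747061760) 128 192 192 256 384 448)
  (go 16 Gd mult S227_256_660_808 (Tr.lf 13439091272 99322567 91532744093746795118592) 128 256 192 224 448 464)) = true := by decide +kernel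
  have c3 : (go 16 Gd mult S227_256_586_660 (Tr.lf 13438699656 103652039 80998029914180154705313792) 128 256 192 256 384 448) = true := by decide +kernel
  have c4 : (go 16 Gd mult S198_227_660_808 (Tr.lf 13440156292 103648199 51983810243429054512365568) 128 192 192 256 384 416) = true := by decide +kernel
  have c5 : (go 16 Gd mult S227_256_660_808 (Tr.lf 13430703236 103770823 0) 192 256 192 256 384 448) = true := by decide +kernel
  have c6 : (band (go 16 Gd mult S227_256_512_660 (Tr.lf 9135473288 103775046 2258273431040127298351136768) 128 256 192 256 448 464)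
  (band (go 16 Gd mult S198_227_660_808 (Tr.lf 9135473032 103643974 1566819254849548765230006272) 128 256 192 256 448 464)
  (go 16 Gd mult S227_256_512_660 (Tr.lf 9135473284 107707206 13884673266693040312665767936) 128 256 192 256 464 480))) = true := by decide +kernel
  have c7 : (band (go 16 Gd mult S227_256_512_586 (Tr.lf 13438698568 99580488 1011870911017444619229069312) 128 256 224 256 384 448)
  (go 16 Gd mult S198_227_586_660 (Tr.lf 13438698568 95386184 907903290530586510204338176) 128 256 224 256 384 448)) = true := by decide +kernel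
  have c8 : (band (go 16 Gd mult S198_227_512_660 (Tr.lf 9136521860 107842502 2362241051526985407375867904) 128 192 192 256 448 480)
  (go 16 Gd mult S198_227_512_660 (Tr.lf 9135473218 99580742 2559295960124169962852974592) 192 256 192 256 448 480)) = true := by decide +kernel
  have c9 : (go 16 Gd mult S227_256_660_808 (Tr.lf 8598602024 103770950 8146183068193477111163388890) 128 256 224 256 448 464) = true := by decide +kernel
  have c10 : (band (go 16 Gd mult S227_256_512_660 (Tr.sp 1 224 (Tr.lf 4303626788 103910213 17359730000227876636662235165) Tr.skip) 128 256 192 256 480 512)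
  (go 16 Gd mult S198_227_512_660 (Tr.sp 1 224 (Tr.lf 4303495716 99715654 17293679976035038517932983085) Tr.skip) 128 256 192 256 480 512)) = true := by decide +kernel
  (And.intro (Ok.s1 224 (Ok.lf S227_256_512_586_ok (br c0))
  (Ok.lf S227_256_512_586_ok (bl c7)))
  (And.intro (Ok.s3 227 (Ok.s1 224 (Ok.lf S198_227_586_660_ok (bl c0))
  (Ok.lf S198_227_586_660_ok (br c7)))
  (Ok.lf S227_256_586_660_ok c3))
  (And.intro (Ok.s2 480 (Ok.s3 227 (Ok.s0 192 (Ok.lf S198_227_512_660_ok (bl c8))
  (Ok.lf S198_227_512_660_ok (br c8)))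
  (Ok.s2 464 (Ok.lf S227_256_512_660_ok (bl c6))
  (Ok.lf S227_256_512_660_ok (br (br c6)))))
  (Ok.s3 227 (Ok.lf S198_227_512_660_ok (br c10))
  (Ok.lf S227_256_512_660_ok (bl c10))))
  (And.intro (Ok.s3 227 (Ok.s2 416 (Ok.s0 192 (Ok.lf S198_227_660_808_ok c4)
  (Ok.lf S198_227_660_808_ok (br c1)))
  (Ok.lf S198_227_660_808_ok (bl c1)))
  (Ok.s0 192 (Ok.lf S227_256_660_808_ok (bl c2))
  (Ok.lf S227_256_660_808_ok c5)))
  (Ok.s3 227 (Ok.lf S198_227_660_808_ok (bl (br c6)))
  (Ok.s1 224 (Ok.lf S227_256_660_808_ok (br c2))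
  (Ok.lf S227_256_660_808_ok c9)))))))

end Vale.Agent.P098.Ck
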