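import Vale.Agent.P098.CkGd
import Vale.Agent.P098.CkOk
import Vale.Agent.P098.Sh.A28
import Vale.Agent.P098.Sh.A29
import Vale.Agent.P098.Sh.A41
import Vale.Agent.P098.Sh.A43
import Vale.Agent.P098.Sh.A44
import Vale.Agent.P098.Sh.A45
import Vale.Agent.P098.Sh.A49
import Vale.Agent.P098.Sh.A50
import Vale.Agent.P098.Sh.A54
import Vale.Agent.P098.Sh.A55

namespace Vale.Agent.P098.Ck

theorem r33 :
    Ok Gd mult 0 128 64 128 128 256 198 256 216 808 ∧
    Ok Gd mult 0 128 64 128 128 256 256 372 216 808 ∧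
    Ok Gd mult 0 128 64 128 128 256 372 430 216 808 :=
  have c0 : (band (go 16 Gd mult S198_256_364_512 (Tr.lf 622101634 99851207 0) 0 128 64 128 128 256)
  (band (go 16 Gd mult S198_256_512_660 (Tr.lf 622101634 103910598 0) 0 128 64 128 128 256)
  (band (go 16 Gd mult S198_256_660_808 (Tr.lf 622101634 104172614 0) 0 128 64 128 128 256)
  (go 16 Gd mult S256_314_512_660 (Tr.lf 8553538 108239940 0) 0 128 64 128 128 256)))) = true := by decide +kernel
  have c1 : (band (go 16 Gd mult S256_314_660_808 (Tr.lf 9733250 104041541 0) 0 128 64 128 128 256)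
  (band (go 16 Gd mult S372_430_660_808 (Tr.lf 538084482 103775429 0) 0 128 64 128 128 256)
  (band (go 16 Gd mult S314_372_660_808 (Tr.lf 9733186 108239941 0) 0 128 64 128 128 256)
  (band (go 16 Gd mult S314_372_512_660 (Tr.lf 9602114 108239941 0) 0 128 64 128 128 256)
  (go 16 Gd mult S372_430_216_364 (Tr.lf 538084418 107969733 0) 0 128 64 128 128 256))))) = true := by decide +kernel
  have c2 : (band (go 16 Gd mult S372_430_364_512 (Tr.lf 538084418 103775429 0) 0 128 64 128 128 256)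
  (band (go 16 Gd mult S372_430_512_660 (Tr.lf 538084418 103775429 0) 0 128 64 128 128 256)
  (band (go 16 Gd mult S314_372_216_364 (Tr.lf 9601602 104168645 0) 0 128 64 128 128 256)
  (band (go 16 Gd mult S314_372_364_512 (Tr.lf 9601602 108239941 0) 0 128 64 128 128 256)
  (band (go 16 Gd mult S256_285_216_364 (Tr.lf 621945922 104037447 0) 0 128 64 128 128 256)
  (go 16 Gd mult S285_314_216_364 (Tr.lf 8659522 104172485 0) 0 128 64 128 128 256)))))) = true := by decide +kernel
  have c3 : (band (go 16 Gd mult S198_256_216_364 (Tr.lf 622101025 99978183 0) 0 128 64 96 128 256)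
  (band (go 16 Gd mult S256_314_364_512 (Tr.lf 8536610 103918660 0) 0 128 64 96 128 256)
  (band (go 16 Gd mult S256_314_364_512 (Tr.lf 8536610 112430276 0) 0 128 96 128 128 256)
  (go 16 Gd mult S198_256_216_364 (Tr.lf 148514 108239940 0) 0 128 96 128 128 256)))) = true := by decide +kernel
  (And.intro (Ok.s4 512 (Ok.s4 364 (Ok.s1 96 (Ok.lf S198_256_216_364_ok (bl c3))
  (Ok.lf S198_256_216_364_ok (br (br (br c3)))))
  (Ok.lf S198_256_364_512_ok (bl c0)))
  (Ok.s4 660 (Ok.lf S198_256_512_660_ok (bl (br c0)))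
  (Ok.lf S198_256_660_808_ok (bl (br (br c0))))))
  (And.intro (Ok.s3 314 (Ok.s4 512 (Ok.s4 364 (Ok.s3 285 (Ok.lf S256_285_216_364_ok (bl (br (br (br (br c2))))))
  (Ok.lf S285_314_216_364_ok (br (br (br (br (br c2)))))))
  (Ok.s1 96 (Ok.lf S256_314_364_512_ok (bl (br c3)))
  (Ok.lf S256_314_364_512_ok (bl (br (br c3))))))
  (Ok.s4 660 (Ok.lf S256_314_512_660_ok (br (br (br c0))))
  (Ok.lf S256_314_660_808_ok (bl c1))))
  (Ok.s4 512 (Ok.s4 364 (Ok.lf S314_372_216_364_ok (bl (br (br c2))))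
  (Ok.lf S314_372_364_512_ok (bl (br (br (br c2))))))
  (Ok.s4 660 (Ok.lf S314_372_512_660_ok (bl (br (br (br c1)))))
  (Ok.lf S314_372_660_808_ok (bl (br (br c1)))))))
  (Ok.s4 512 (Ok.s4 364 (Ok.lf S372_430_216_364_ok (br (br (br (br c1)))))
  (Ok.lf S372_430_364_512_ok (bl c2)))
  (Ok.s4 660 (Ok.lf S372_430_512_660_ok (bl (br c2)))
  (Ok.lf S372_430_660_808_ok (bl (br c1)))))))

end Vale.Agent.P098.Ck
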