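import Vale.Agent.P098.CkGd
import Vale.Agent.P098.CkOk
import Vale.Agent.P098.Sh.A48
import Vale.Agent.P098.Sh.A49
import Vale.Agent.P098.Sh.A51
import Vale.Agent.P098.Sh.A52

namespace Vale.Agent.P098.Ck

theorem r330 :
    Ok Gd mult 128 256 192 256 384 448 314 372 364 512 ∧
    Ok Gd mult 128 256 192 256 448 512 314 372 364 512 ∧
    Ok Gd mult 128 256 192 256 384 448 314 372 512 660 ∧
    Ok Gd mult 128 256 192 256 448 480 314 372 512 660 :=
  have c0 : (go 16 Gd mult S314_343_364_512 (Tr.lf 4850993288 91454663 203298135341956667132608541) 128 256 192 256 384 448) = true := by decide +kernel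
  have c1 : (band (go 16 Gd mult S343_372_512_660 (Tr.lf 13978862728 99584969 1027772889852697790780538880) 128 192 224 256 384 416)
  (band (go 16 Gd mult S314_343_512_660 (Tr.lf 9137439298 103910343 850029564031630971389345792) 128 192 224 256 384 416)
  (band (go 16 Gd mult S314_343_512_660 (Tr.lf 9137439298 103779271 8618895513358497597322428445) 128 192 224 256 416 448)
  (go 16 Gd mult S314_343_512_660 (Tr.lf 547504706 91331654 249844122141778617047187485) 128 192 192 224 448 480)))) = true := by decide +kernel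
  have c2 : (band (go 16 Gd mult S343_372_512_660 (Tr.lf 13441992772 99449929 136524366128322994765824) 192 256 224 256 384 448)
  (band (go 16 Gd mult S314_343_512_660 (Tr.lf 9136522306 103906374 183065488187493590237184) 192 256 224 256 384 448)
  (band (go 16 Gd mult S314_343_512_660 (Tr.lf 4842603074 99593031 1035517441757396158684069888) 192 256 192 256 448 480)
  (go 16 Gd mult S343_372_512_660 (Tr.lf 9683879044 103525448 2457004041868967629497040896) 192 256 192 256 448 480)))) = true := by decide +kernel
  have c3 : (band (go 16 Gd mult S343_372_512_660 (Tr.lf 9137571908 107969607 101899822425945887735808) 128 256 192 224 384 448)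
  (band (go 16 Gd mult S314_343_512_660 (Tr.lf 4841415716 91458757 101346420103859157139485) 128 256 192 224 384 448)
  (band (go 16 Gd mult S343_372_512_660 (Tr.lf 9683878980 99327048 864072609126343750734315520) 128 192 192 224 448 480)
  (band (go 16 Gd mult S343_372_512_660 (Tr.lf 13978846244 103517129 8131585513971908163135340544) 128 192 224 240 416 448)
  (go 16 Gd mult S343_372_512_660 (Tr.lf 13441975332 99322825 7297681097485334561014415360) 128 192 240 256 416 448))))) = true := by decide +kernel
  have c4 : (band (go 16 Gd mult S343_372_364_512 (Tr.lf 9137570436 99580999 345900007874236219897413632) 128 192 192 256 384 416)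
  (band (go 16 Gd mult S343_372_364_512 (Tr.lf 9137570436 107707463 1121037709427989617957666816) 128 192 192 256 416 448)
  (band (go 16 Gd mult S343_372_364_512 (Tr.lf 4852040772 103906376 1147770011516594117295472640) 128 256 192 224 448 480)
  (go 16 Gd mult S314_343_364_512 (Tr.lf 4841415202 99720261 708916362206071308744130560) 128 256 192 224 448 480)))) = true := by decide +kernel
  have c5 : (band (go 16 Gd mult S314_372_364_512 (Tr.sp 0 192 Tr.skip (Tr.lf 4842619970 103787335 9936564354323924360055750656)) 128 256 224 256 448 480)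
  (go 16 Gd mult S314_372_364_512 (Tr.sp 1 224 (Tr.sp 0 192 Tr.skip (Tr.lf 614761538 99978310 17971886125268982208492734622)) Tr.skip) 128 256 192 256 480 512)) = true := by decide +kernel
  have c6 : (go 16 Gd mult S343_372_364_512 (Tr.lf 9137439874 104037447 48182895520529348820992) 192 256 192 256 384 448) = true := by decide +kernel
  (And.intro (Ok.s3 343 (Ok.lf S314_343_364_512_ok c0)
  (Ok.s0 192 (Ok.s2 416 (Ok.lf S343_372_364_512_ok (bl c4))
  (Ok.lf S343_372_364_512_ok (bl (br c4))))
  (Ok.lf S343_372_364_512_ok c6)))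
  (And.intro (Ok.s2 480 (Ok.s1 224 (Ok.s3 343 (Ok.lf S314_343_364_512_ok (br (br (br c4))))
  (Ok.lf S343_372_364_512_ok (bl (br (br c4)))))
  (Ok.lf S314_372_364_512_ok (bl c5)))
  (Ok.lf S314_372_364_512_ok (br c5)))
  (And.intro (Ok.s1 224 (Ok.s3 343 (Ok.lf S314_343_512_660_ok (bl (br c3)))
  (Ok.lf S343_372_512_660_ok (bl c3)))
  (Ok.s0 192 (Ok.s3 343 (Ok.s2 416 (Ok.lf S314_343_512_660_ok (bl (br c1)))
  (Ok.lf S314_343_512_660_ok (bl (br (br c1)))))
  (Ok.s2 416 (Ok.lf S343_372_512_660_ok (bl c1))
  (Ok.s1 240 (Ok.lf S343_372_512_660_ok (bl (br (br (br c3)))))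
  (Ok.lf S343_372_512_660_ok (br (br (br (br c3))))))))
  (Ok.s3 343 (Ok.lf S314_343_512_660_ok (bl (br c2)))
  (Ok.lf S343_372_512_660_ok (bl c2)))))
  (Ok.s0 192 (Ok.s1 224 (Ok.s3 343 (Ok.lf S314_343_512_660_ok (br (br (br c1))))
  (Ok.lf S343_372_512_660_ok (bl (br (br c3)))))
  (Ok.out rfl))
  (Ok.s3 343 (Ok.lf S314_343_512_660_ok (bl (br (br c2))))
  (Ok.lf S343_372_512_660_ok (br (br (br c2)))))))))

end Vale.Agent.P098.Ck
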