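import Vale.Agent.P098.CkGd
import Vale.Agent.P098.CkOk
import Vale.Agent.P098.Sh.A48
import Vale.Agent.P098.Sh.A49
import Vale.Agent.P098.Sh.A52

namespace Vale.Agent.P098.Ck

theorem r331 :
    Ok Gd mult 128 256 192 256 480 512 314 372 512 660 ∧
    Ok Gd mult 128 256 192 256 384 448 314 372 660 808 :=
  have c0 : (go 16 Gd mult S343_372_660_808 (Tr.lf 13979124360 103648201 947960930255454263020879872) 128 192 224 256 384 400) = true := by decide +kernel
  have c1 : (band (go 16 Gd mult S343_372_660_808 (Tr.lf 13979124868 107580361 8410026479744863353736003584) 128 160 224 256 416 448)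
  (band (go 16 Gd mult S314_343_660_808 (Tr.lf 8599650849 99453639 8528448932002554894312538112) 128 160 224 256 416 448)
  (band (go 16 Gd mult S314_343_660_808 (Tr.lf 13432537668 99576776 155598286261740067880960) 192 256 224 256 384 416)
  (go 16 Gd mult S314_343_660_808 (Tr.lf 9137570338 103910343 329145420536339870940921856) 192 256 224 256 416 448)))) = true := by decide +kernel
  have c2 : (band (go 16 Gd mult S343_372_660_808 (Tr.lf 9138619464 103512905 179302352609809342136320) 128 256 192 224 416 448)
  (band (go 16 Gd mult S343_372_660_808 (Tr.lf 9138618946 103906248 9236650224599960827767816192) 160 192 224 256 432 448)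
  (band (go 16 Gd mult S343_372_660_808 (Tr.lf 13441974850 95386824 1691587165699504732723216384) 160 192 224 256 416 432)
  (go 16 Gd mult S343_372_660_808 (Tr.lf 9137570114 103779526 1327715491198433277002121216) 128 160 224 256 400 416)))) = true := by decide +kernel
  have c3 : (band (go 16 Gd mult S343_372_660_808 (Tr.lf 13433603140 99449801 126489324113426395430912) 192 256 224 256 384 416)
  (band (go 16 Gd mult S343_372_660_808 (Tr.lf 13441991748 103648201 1753184385936763981549010944) 192 256 224 256 416 448)
  (go 16 Gd mult S343_372_660_808 (Tr.lf 13978862210 99453897 1184954294137587686090735616) 160 192 224 256 400 416))) = true := by decide +kernel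
  have c4 : (go 16 Gd mult S314_343_660_808 (Tr.lf 13432554052 103508936 778732400124653104674111488) 128 192 224 256 384 416) = true := by decide +kernel
  have c5 : (go 16 Gd mult S314_343_512_660 (Tr.lf 10633796 108362822 14769413962482088366745139481) 128 256 192 256 480 512) = true := by decide +kernel
  have c6 : (go 16 Gd mult S314_343_660_808 (Tr.lf 4841423908 95390917 120438805426645336326144) 128 256 192 224 384 448) = true := by decide +kernel
  have c7 : (go 16 Gd mult S314_343_660_808 (Tr.lf 9137570369 99584967 994163106617839724831703069) 160 192 224 256 416 448) = true := by decide +kernel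
  have c8 : (go 16 Gd mult S343_372_660_808 (Tr.lf 9137439268 107969607 0) 128 256 192 224 384 416) = true := by decide +kernel
  have c9 : (go 16 Gd mult S343_372_512_660 (Tr.sp 2 496 (Tr.sp 0 192 Tr.skip (Tr.lf 614613314 99978310 18442160925781783638688468339)) Tr.skip) 128 256 192 256 480 512) = true := by decide +kernel
  (And.intro (Ok.s3 343 (Ok.lf S314_343_512_660_ok c5)
  (Ok.lf S343_372_512_660_ok c9))
  (Ok.s1 224 (Ok.s3 343 (Ok.lf S314_343_660_808_ok c6)
  (Ok.s2 416 (Ok.lf S343_372_660_808_ok c8)
  (Ok.lf S343_372_660_808_ok (bl c2))))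
  (Ok.s0 192 (Ok.s2 416 (Ok.s3 343 (Ok.lf S314_343_660_808_ok c4)
  (Ok.s2 400 (Ok.lf S343_372_660_808_ok c0)
  (Ok.s0 160 (Ok.lf S343_372_660_808_ok (br (br (br c2))))
  (Ok.lf S343_372_660_808_ok (br (br c3))))))
  (Ok.s0 160 (Ok.s3 343 (Ok.lf S314_343_660_808_ok (bl (br c1)))
  (Ok.lf S343_372_660_808_ok (bl c1)))
  (Ok.s3 343 (Ok.lf S314_343_660_808_ok c7)
  (Ok.s2 432 (Ok.lf S343_372_660_808_ok (bl (br (br c2))))
  (Ok.lf S343_372_660_808_ok (bl (br c2)))))))
  (Ok.s2 416 (Ok.s3 343 (Ok.lf S314_343_660_808_ok (bl (br (br c1))))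
  (Ok.lf S343_372_660_808_ok (bl c3)))
  (Ok.s3 343 (Ok.lf S314_343_660_808_ok (br (br (br c1))))
  (Ok.lf S343_372_660_808_ok (bl (br c3))))))))

end Vale.Agent.P098.Ck
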