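import Vale.Agent.P098.CkGd
import Vale.Agent.P098.CkOk
import Vale.Agent.P098.Sh.A49
import Vale.Agent.P098.Sh.A52
import Vale.Agent.P098.Sh.A54
import Vale.Agent.P098.Sh.A56

namespace Vale.Agent.P098.Ck

theorem r332 :
    Ok Gd mult 128 256 192 224 448 480 314 372 660 808 ∧
    Ok Gd mult 128 256 224 256 448 480 314 372 660 808 ∧
    Ok Gd mult 128 256 192 256 480 512 314 372 660 808 ∧
    Ok Gd mult 128 256 192 256 384 512 372 430 216 364 :=
  have c0 : (go 16 Gd mult S372_430_216_364 (Tr.lf 9675506824 95390537 1612707043365915319058038784) 128 192 224 256 384 416) = true := by decide +kernel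
  have c1 : (band (go 16 Gd mult S401_430_216_364 (Tr.lf 9675360392 95263561 0) 128 256 192 224 384 448)
  (band (go 16 Gd mult S372_401_216_364 (Tr.lf 9138619460 103775049 19073933525868131385344) 128 256 192 224 384 448)
  (band (go 16 Gd mult S372_401_216_364 (Tr.lf 5380523076 95255624 1882519821299572127360352256) 128 256 192 224 448 480)
  (go 16 Gd mult S401_430_216_364 (Tr.sp 0 192 Tr.skip (Tr.lf 5380391556 103513160 13996455020203242156302794752)) 128 256 192 256 480 512)))) = true := by decide +kernel
  have c2 : (go 16 Gd mult S401_430_216_364 (Tr.lf 9675506760 103644232 2607771660813381303386767360) 128 256 192 224 448 480) = true := by decide +kernel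
  have c3 : (band (go 16 Gd mult S343_372_660_808 (Tr.lf 9147023944 103648328 607343571808890048389054464) 128 256 192 224 448 464)
  (band (go 16 Gd mult S314_343_660_808 (Tr.lf 4841423140 99720261 444289831015294550671360) 128 256 192 224 448 464)
  (band (go 16 Gd mult S343_372_660_808 (Tr.lf 9147024452 99716168 10444641126339609029303599104) 192 256 224 256 448 480)
  (band (go 16 Gd mult S372_430_216_364 (Tr.sp 0 192 Tr.skip (Tr.lf 9137456196 103783367 9037019578694249457794416640)) 128 256 224 256 448 480)
  (go 16 Gd mult S314_343_660_808 (Tr.lf 4842603586 99851334 8211953735150204630075441152) 192 256 224 256 448 480))))) = true := by decide +kernel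
  have c4 : (go 16 Gd mult S314_343_660_808 (Tr.lf 69501508 108100678 12888349645127767196761669633) 128 256 192 256 480 512) = true := by decide +kernel
  have c5 : (band (go 16 Gd mult S401_430_216_364 (Tr.lf 9675359300 103775177 1988682973266064992391659520) 192 256 224 256 384 448)
  (band (go 16 Gd mult S372_401_216_364 (Tr.lf 9137439810 108231751 396527668833598369303625728) 192 256 224 256 384 448)
  (band (go 16 Gd mult S372_401_216_364 (Tr.lf 9138487876 107973576 6499310478095413779111936000) 128 192 224 256 416 448)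
  (band (go 16 Gd mult S401_430_216_364 (Tr.lf 9675358788 99581000 5251620522902175988636975104) 128 192 224 256 416 448)
  (band (go 16 Gd mult S372_401_216_364 (Tr.sp 0 192 Tr.skip (Tr.sp 2 496 (Tr.lf 4842471746 103914566 16063937614212039797622439936) Tr.skip)) 128 256 192 256 480 512)
  (go 16 Gd mult S343_372_660_808 (Tr.sp 2 496 (Tr.sp 0 192 Tr.skip (Tr.lf 4842602818 108104774 18714165159063904411577357794)) Tr.skip) 128 256 192 256 480 512)))))) = true := by decide +kernel
  have c6 : (band (go 16 Gd mult S343_372_660_808 (Tr.lf 547504706 95521862 13717674192017736465342399886) 128 192 192 224 464 480)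
  (go 16 Gd mult S343_372_660_808 (Tr.lf 4842471970 99847238 1324359493495847371986173952) 192 256 192 224 464 480)) = true := by decide +kernel
  have c7 : (go 16 Gd mult S314_343_660_808 (Tr.lf 4841423140 103783493 10940450573722299033005850624) 128 256 192 224 464 480) = true := by decide +kernel
  (And.intro (Ok.s2 464 (Ok.s3 343 (Ok.lf S314_343_660_808_ok (bl (br c3)))
  (Ok.lf S343_372_660_808_ok (bl c3)))
  (Ok.s3 343 (Ok.lf S314_343_660_808_ok c7)
  (Ok.s0 192 (Ok.lf S343_372_660_808_ok (bl c6))
  (Ok.lf S343_372_660_808_ok (br c6)))))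
  (And.intro (Ok.s0 192 (Ok.out rfl)
  (Ok.s3 343 (Ok.lf S314_343_660_808_ok (br (br (br (br c3)))))
  (Ok.lf S343_372_660_808_ok (bl (br (br c3))))))
  (And.intro (Ok.s3 343 (Ok.lf S314_343_660_808_ok c4)
  (Ok.lf S343_372_660_808_ok (br (br (br (br (br c5)))))))
  (Ok.s2 448 (Ok.s1 224 (Ok.s3 401 (Ok.lf S372_401_216_364_ok (bl (br c1)))
  (Ok.lf S401_430_216_364_ok (bl c1)))
  (Ok.s0 192 (Ok.s2 416 (Ok.lf S372_430_216_364_ok c0)
  (Ok.s3 401 (Ok.lf S372_401_216_364_ok (bl (br (br c5))))
  (Ok.lf S401_430_216_364_ok (bl (br (br (br c5)))))))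
  (Ok.s3 401 (Ok.lf S372_401_216_364_ok (bl (br c5)))
  (Ok.lf S401_430_216_364_ok (bl c5)))))
  (Ok.s2 480 (Ok.s1 224 (Ok.s3 401 (Ok.lf S372_401_216_364_ok (bl (br (br c1))))
  (Ok.lf S401_430_216_364_ok c2))
  (Ok.lf S372_430_216_364_ok (bl (br (br (br c3))))))
  (Ok.s3 401 (Ok.lf S372_401_216_364_ok (bl (br (br (br (br c5))))))
  (Ok.lf S401_430_216_364_ok (br (br (br c1))))))))))

end Vale.Agent.P098.Ck
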