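import Vale.Agent.P098.CkGd
import Vale.Agent.P098.CkOk
import Vale.Agent.P098.Sh.A54
import Vale.Agent.P098.Sh.A57

namespace Vale.Agent.P098.Ck

theorem r334 :
    Ok Gd mult 128 256 224 240 384 416 372 430 512 660 ∧
    Ok Gd mult 128 256 240 256 384 416 372 430 512 660 ∧
    Ok Gd mult 128 256 224 256 416 448 372 430 512 660 ∧
    Ok Gd mult 128 192 192 224 448 464 372 430 512 660 :=
  have c0 : (go 16 Gd mult S401_430_512_660 (Tr.lf 13971523656 99580619 1074766265528378052875124736) 128 256 224 240 384 416) = true := by decide +kernel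
  have c1 : (band (go 16 Gd mult S372_401_512_660 (Tr.lf 13978862664 99589065 761678403675252697916571648) 128 256 224 240 384 416)
  (band (go 16 Gd mult S372_401_512_660 (Tr.lf 14516782152 90930250 6852338215637848226879504384) 128 192 224 240 416 432)
  (go 16 Gd mult S401_430_512_660 (Tr.lf 13979779656 99322826 5365315904749099930102005760) 128 192 224 240 416 432))) = true := by decide +kernel
  have c2 : (band (go 16 Gd mult S372_401_512_660 (Tr.lf 13979911240 103386058 7830513031104913893167726592) 128 192 224 240 432 448)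
  (band (go 16 Gd mult S401_430_512_660 (Tr.lf 13970326084 95120329 6400261718801135695118204928) 128 192 224 240 432 448)
  (go 16 Gd mult S372_401_512_660 (Tr.lf 13978862664 99453897 6178152294837249011284443136) 128 192 240 256 416 448))) = true := by decide +kernel
  have c3 : (band (go 16 Gd mult S372_401_512_660 (Tr.lf 9684943492 103648074 1690401962392775954958123008) 128 192 192 224 448 464)
  (band (go 16 Gd mult S372_401_512_660 (Tr.lf 13970474052 103644105 3177139326425814215728037888) 192 256 224 256 416 448)
  (band (go 16 Gd mult S401_430_512_660 (Tr.lf 9675358788 99457865 4162331596933168248513363968) 192 256 224 256 416 448)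
  (go 16 Gd mult S401_430_512_660 (Tr.lf 13970326564 103640009 5121262104899753457011916800) 128 192 240 256 416 448)))) = true := by decide +kernel
  have c4 : (band (go 16 Gd mult S401_430_512_660 (Tr.lf 13970342980 103779145 3977431782974958378078437376) 128 192 240 256 384 416)
  (band (go 16 Gd mult S401_430_512_660 (Tr.lf 9676423746 95259338 2809655650307901913833668608) 160 192 192 224 448 464)
  (go 16 Gd mult S401_430_512_660 (Tr.lf 9676423746 103643850 2448364361708093171321274368) 128 160 192 224 448 464))) = true := by decide +kernel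
  have c5 : (band (go 16 Gd mult S372_401_512_660 (Tr.lf 13970342436 95382473 5059413437094306377034104832) 128 192 240 248 384 400)
  (band (go 16 Gd mult S372_401_512_660 (Tr.lf 13970342436 99584841 4694368346764124957349773312) 128 192 248 256 384 400)
  (band (go 16 Gd mult S372_401_512_660 (Tr.lf 13970342466 107838536 5512899468092435129343934464) 128 160 240 256 400 416)
  (go 16 Gd mult S372_401_512_660 (Tr.lf 13978731074 103648201 2741966171479652104818130944) 160 192 240 256 400 416)))) = true := by decide +kernel
  have c6 : (band (go 16 Gd mult S372_401_512_660 (Tr.lf 13970326052 107969481 26028355888004177330176) 192 256 240 256 384 416)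
  (go 16 Gd mult S401_430_512_660 (Tr.lf 9138422308 107981513 777339302012206559336071168) 192 256 240 256 384 416)) = true := by decide +kernel
  (And.intro (Ok.s3 401 (Ok.lf S372_401_512_660_ok (bl c1))
  (Ok.lf S401_430_512_660_ok c0))
  (And.intro (Ok.s0 192 (Ok.s3 401 (Ok.s2 400 (Ok.s1 248 (Ok.lf S372_401_512_660_ok (bl c5))
  (Ok.lf S372_401_512_660_ok (bl (br c5))))
  (Ok.s0 160 (Ok.lf S372_401_512_660_ok (bl (br (br c5))))
  (Ok.lf S372_401_512_660_ok (br (br (br c5))))))
  (Ok.lf S401_430_512_660_ok (bl c4)))
  (Ok.s3 401 (Ok.lf S372_401_512_660_ok (bl c6))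
  (Ok.lf S401_430_512_660_ok (br c6))))
  (And.intro (Ok.s0 192 (Ok.s1 240 (Ok.s2 432 (Ok.s3 401 (Ok.lf S372_401_512_660_ok (bl (br c1)))
  (Ok.lf S401_430_512_660_ok (br (br c1))))
  (Ok.s3 401 (Ok.lf S372_401_512_660_ok (bl c2))
  (Ok.lf S401_430_512_660_ok (bl (br c2)))))
  (Ok.s3 401 (Ok.lf S372_401_512_660_ok (br (br c2)))
  (Ok.lf S401_430_512_660_ok (br (br (br c3))))))
  (Ok.s3 401 (Ok.lf S372_401_512_660_ok (bl (br c3)))
  (Ok.lf S401_430_512_660_ok (bl (br (br c3))))))
  (Ok.s3 401 (Ok.lf S372_401_512_660_ok (bl c3))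
  (Ok.s0 160 (Ok.lf S401_430_512_660_ok (br (br c4)))
  (Ok.lf S401_430_512_660_ok (bl (br c4))))))))

end Vale.Agent.P098.Ck
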