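import Vale.Agent.P098.CkGd
import Vale.Agent.P098.CkOk
import Vale.Agent.P098.Sh.A54
import Vale.Agent.P098.Sh.A57

namespace Vale.Agent.P098.Ck

theorem r335 :
    Ok Gd mult 128 192 192 224 464 480 372 430 512 660 ∧
    Ok Gd mult 192 256 192 224 448 480 372 430 512 660 ∧
    Ok Gd mult 128 256 224 256 448 480 372 430 512 660 ∧
    Ok Gd mult 128 256 192 256 480 512 372 430 512 660 ∧
    Ok Gd mult 128 256 192 224 384 448 372 430 660 808 :=
  have c0 : (band (go 16 Gd mult S401_430_660_808 (Tr.lf 14516783236 90799178 66389831921280676265984) 160 192 208 224 416 448)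
  (go 16 Gd mult S372_401_660_808 (Tr.lf 13979911236 99322826 105091109150697640165376) 160 192 208 224 416 448)) = true := by decide +kernel
  have c1 : (band (go 16 Gd mult S401_430_660_808 (Tr.lf 13970343048 99441482 0) 128 256 192 224 384 416)
  (band (go 16 Gd mult S372_401_660_808 (Tr.lf 9675490376 91061193 0) 128 256 192 224 384 416)
  (band (go 16 Gd mult S401_430_660_808 (Tr.lf 9675375652 91061320 0) 128 192 192 208 416 448)
  (go 16 Gd mult S372_401_660_808 (Tr.lf 9675359268 99449928 0) 128 192 192 208 416 448)))) = true := by decide +kernel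
  have c2 : (go 16 Gd mult S372_401_660_808 (Tr.lf 13979911236 103386058 637301084184313456467378176) 128 160 208 224 416 448) = true := by decide +kernel
  have c3 : (band (go 16 Gd mult S401_430_512_660 (Tr.lf 5380392068 99449928 14188751664953870531524820992) 192 256 192 256 480 512)
  (band (go 16 Gd mult S401_430_512_660 (Tr.lf 9675359300 99449928 3253233492342194797003341824) 192 256 192 224 448 480)
  (band (go 16 Gd mult S372_401_512_660 (Tr.lf 9675359300 99449928 2132634907656868534859857920) 192 256 192 224 448 480)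
  (band (go 16 Gd mult S372_401_512_660 (Tr.sp 2 496 (Tr.lf 4843520642 103914312 16625060489113984152159387648) Tr.skip) 192 256 192 256 480 512)
  (band (go 16 Gd mult S372_401_512_660 (Tr.lf 9138488386 107846600 9162867398822539205952929792) 192 256 224 256 448 480)
  (go 16 Gd mult S401_430_512_660 (Tr.lf 9675293252 103648073 8812260704197895993960693760) 192 256 224 256 448 480)))))) = true := by decide +kernel
  have c4 : (band (go 16 Gd mult S372_401_660_808 (Tr.lf 9675375684 99453769 32300248873065424879616) 192 256 192 224 416 448)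
  (go 16 Gd mult S401_430_660_808 (Tr.lf 9675359300 95259465 0) 192 256 192 224 416 448)) = true := by decide +kernel
  have c5 : (go 16 Gd mult S401_430_660_808 (Tr.lf 14516781634 90803146 1918757250993991595562369024) 128 160 208 224 432 448) = true := by decide +kernel
  have c6 : (band (go 16 Gd mult S401_430_512_660 (Tr.lf 9676423716 99449801 9075768717048534049465827328) 128 192 192 208 464 480)
  (go 16 Gd mult S372_401_512_660 (Tr.lf 9683763746 99331016 11394618673082553195986681856) 128 192 192 208 464 480)) = true := by decide +kernel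
  have c7 : (go 16 Gd mult S401_430_660_808 (Tr.lf 13970342434 90794953 1199326853421689598717722624) 128 160 208 224 416 432) = true := by decide +kernel
  (And.intro (Ok.s1 208 (Ok.s3 401 (Ok.lf S372_401_512_660_ok (br c6))
  (Ok.lf S401_430_512_660_ok (bl c6)))
  (Ok.out rfl))
  (And.intro (Ok.s3 401 (Ok.lf S372_401_512_660_ok (bl (br (br c3))))
  (Ok.lf S401_430_512_660_ok (bl (br c3))))
  (And.intro (Ok.s0 192 (Ok.out rfl)
  (Ok.s3 401 (Ok.lf S372_401_512_660_ok (bl (br (br (br (br c3))))))
  (Ok.lf S401_430_512_660_ok (br (br (br (br (br c3))))))))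
  (And.intro (Ok.s0 192 (Ok.out rfl)
  (Ok.s3 401 (Ok.lf S372_401_512_660_ok (bl (br (br (br c3)))))
  (Ok.lf S401_430_512_660_ok (bl c3))))
  (Ok.s2 416 (Ok.s3 401 (Ok.lf S372_401_660_808_ok (bl (br c1)))
  (Ok.lf S401_430_660_808_ok (bl c1)))
  (Ok.s0 192 (Ok.s1 208 (Ok.s3 401 (Ok.lf S372_401_660_808_ok (br (br (br c1))))
  (Ok.lf S401_430_660_808_ok (bl (br (br c1)))))
  (Ok.s0 160 (Ok.s3 401 (Ok.lf S372_401_660_808_ok c2)
  (Ok.s2 432 (Ok.lf S401_430_660_808_ok c7)
  (Ok.lf S401_430_660_808_ok c5)))
  (Ok.s3 401 (Ok.lf S372_401_660_808_ok (br c0))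
  (Ok.lf S401_430_660_808_ok (bl c0)))))
  (Ok.s3 401 (Ok.lf S372_401_660_808_ok (bl c4))
  (Ok.lf S401_430_660_808_ok (br c4)))))))))

end Vale.Agent.P098.Ck
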