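import Vale.Agent.P098.CkGd
import Vale.Agent.P098.CkOk
import Vale.Agent.P098.Sh.A53
import Vale.Agent.P098.Sh.A54
import Vale.Agent.P098.Sh.A56
import Vale.Agent.P098.Sh.A57

namespace Vale.Agent.P098.Ck

theorem r336 :
    Ok Gd mult 128 192 224 240 384 416 372 430 660 808 ∧
    Ok Gd mult 128 192 240 256 384 416 372 430 660 808 ∧
    Ok Gd mult 128 160 224 240 416 448 372 430 660 808 ∧
    Ok Gd mult 160 192 224 240 416 432 372 430 660 808 :=
  have c0 : (band (go 16 Gd mult S401_430_660_808 (Tr.lf 13970473608 103779145 4033034530797770669650083840) 128 192 240 256 384 400)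
  (band (go 16 Gd mult S401_430_660_808 (Tr.lf 13978862152 107842505 4201121779306246167842521088) 128 192 240 256 400 416)
  (go 16 Gd mult S401_430_660_808 (Tr.lf 18811749444 99060555 1059089484552939501856292864) 128 160 224 240 384 416))) = true := by decide +kernel
  have c1 : (band (go 16 Gd mult S372_401_660_808 (Tr.lf 13979912260 103647947 58882007083280888758272) 160 192 224 240 384 416)
  (band (go 16 Gd mult S401_430_660_808 (Tr.lf 14508393540 90794827 30326447257178502856704) 160 192 224 240 384 416)
  (go 16 Gd mult S372_401_660_808 (Tr.lf 14516782148 99056714 7011991538968847423234899968) 128 160 224 240 416 432))) = true := by decide +kernel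
  have c2 : (band (go 16 Gd mult S372_401_660_808 (Tr.lf 13979124804 103525448 4877056765047845076317765632) 128 160 248 256 384 416)
  (band (go 16 Gd mult S372_401_660_808 (Tr.lf 18275140132 94997323 68695674930494370217984) 160 192 240 248 384 400)
  (go 16 Gd mult S372_401_660_808 (Tr.lf 13980172836 103525194 5205724341117255896962957312) 128 160 240 248 384 400))) = true := by decide +kernel
  have c3 : (band (go 16 Gd mult S372_386_660_808 (Tr.lf 18275124292 99318603 2216133393730520923032780800) 160 192 240 256 400 416)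
  (band (go 16 Gd mult S386_401_660_808 (Tr.lf 18274861636 90803019 2635577489620095911983906816) 160 192 240 256 400 416)
  (band (go 16 Gd mult S372_386_660_808 (Tr.lf 18275123748 95255371 2032334204743958705343561728) 160 192 248 256 384 400)
  (go 16 Gd mult S386_401_660_808 (Tr.lf 18273813028 94997322 2380472540565772415440781312) 160 192 248 256 384 400)))) = true := by decide +kernel
  have c4 : (band (go 16 Gd mult S401_430_660_808 (Tr.lf 14516781636 95128522 5294039788577107009184202752) 128 160 224 240 416 432)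
  (go 16 Gd mult S401_430_660_808 (Tr.lf 13979910722 99322826 2663338677306152143462334464) 160 192 224 240 416 432)) = true := by decide +kernel
  have c5 : (band (go 16 Gd mult S372_401_660_808 (Tr.lf 14516781380 99187786 1841306622198906156180570112) 160 192 224 240 416 424)
  (band (go 16 Gd mult S372_401_660_808 (Tr.lf 13979910468 103386058 2217318062081397720401051648) 160 192 224 240 424 432)
  (band (go 16 Gd mult S372_401_660_808 (Tr.lf 13978862146 99453897 710874078247896632132632576) 128 160 224 240 384 400)
  (band (go 16 Gd mult S372_401_660_808 (Tr.lf 13978862146 99322825 1131663402949327793881415680) 128 160 224 240 400 416)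
  (go 16 Gd mult S372_401_660_808 (Tr.lf 13978862116 103652424 5702683518725990770213388288) 128 160 240 248 400 416))))) = true := by decide +kernel
  (And.intro (Ok.s0 160 (Ok.s3 401 (Ok.s2 400 (Ok.lf S372_401_660_808_ok (bl (br (br c5))))
  (Ok.lf S372_401_660_808_ok (bl (br (br (br c5))))))
  (Ok.lf S401_430_660_808_ok (br (br c0))))
  (Ok.s3 401 (Ok.lf S372_401_660_808_ok (bl c1))
  (Ok.lf S401_430_660_808_ok (bl (br c1)))))
  (And.intro (Ok.s3 401 (Ok.s0 160 (Ok.s1 248 (Ok.s2 400 (Ok.lf S372_401_660_808_ok (br (br c2)))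
  (Ok.lf S372_401_660_808_ok (br (br (br (br c5))))))
  (Ok.lf S372_401_660_808_ok (bl c2)))
  (Ok.s2 400 (Ok.s1 248 (Ok.lf S372_401_660_808_ok (bl (br c2)))
  (Ok.s3 386 (Ok.lf S372_386_660_808_ok (bl (br (br c3))))
  (Ok.lf S386_401_660_808_ok (br (br (br c3))))))
  (Ok.s3 386 (Ok.lf S372_386_660_808_ok (bl c3))
  (Ok.lf S386_401_660_808_ok (bl (br c3))))))
  (Ok.s2 400 (Ok.lf S401_430_660_808_ok (bl c0))
  (Ok.lf S401_430_660_808_ok (bl (br c0)))))
  (And.intro (Ok.s2 432 (Ok.s3 401 (Ok.lf S372_401_660_808_ok (br (br c1)))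
  (Ok.lf S401_430_660_808_ok (bl c4)))
  (Ok.out rfl))
  (Ok.s3 401 (Ok.s2 424 (Ok.lf S372_401_660_808_ok (bl c5))
  (Ok.lf S372_401_660_808_ok (bl (br c5))))
  (Ok.lf S401_430_660_808_ok (br c4))))))

end Vale.Agent.P098.Ck
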