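import Vale.Agent.P098.CkGd
import Vale.Agent.P098.CkOk
import Vale.Agent.P098.Sh.A53
import Vale.Agent.P098.Sh.A54
import Vale.Agent.P098.Sh.A56
import Vale.Agent.P098.Sh.A57

namespace Vale.Agent.P098.Ck

theorem r337 :
    Ok Gd mult 160 192 224 240 432 448 372 430 660 808 ∧
    Ok Gd mult 128 192 240 256 416 448 372 430 660 808 ∧
    Ok Gd mult 192 256 224 256 384 448 372 430 660 808 ∧
    Ok Gd mult 128 256 192 256 448 480 372 430 660 808 :=
  have c0 : (band (go 16 Gd mult S401_430_660_808 (Tr.lf 13970344004 103648201 1751733512621597674149249024) 192 256 224 256 384 448)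
  (band (go 16 Gd mult S401_430_660_808 (Tr.lf 9675375684 99449928 3198846274260134898660343808) 192 256 192 224 448 480)
  (band (go 16 Gd mult S372_401_660_808 (Tr.lf 9683895364 95263816 1944114938607988818470502400) 192 256 192 224 448 480)
  (go 16 Gd mult S372_401_660_808 (Tr.lf 14516782148 99056714 7911460572280564304830267392) 160 192 224 240 432 448)))) = true := by decide +kernel
  have c1 : (band (go 16 Gd mult S372_401_660_808 (Tr.lf 13978862660 107711433 6442713819680517918667309056) 160 192 240 256 416 448)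
  (band (go 16 Gd mult S401_430_660_808 (Tr.lf 13970326562 103640009 5268690697154291812997791744) 160 192 240 256 416 448)
  (band (go 16 Gd mult S372_401_660_808 (Tr.lf 9683894820 103517256 1061673652028855454942625792) 128 192 192 208 448 464)
  (band (go 16 Gd mult S401_430_660_808 (Tr.lf 14516781636 94866378 1910250350496959698741035008) 128 192 192 208 448 464)
  (go 16 Gd mult S401_430_660_808 (Tr.lf 10221814852 90799305 9196726231549417328304193536) 128 192 192 208 464 480))))) = true := by decide +kernel
  have c2 : (band (go 16 Gd mult S372_386_660_808 (Tr.lf 13978846276 103783369 86017167615707639185408) 192 256 224 256 384 416)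
  (band (go 16 Gd mult S386_401_660_808 (Tr.lf 13433447492 99449801 21951625728618114383872) 192 256 224 256 384 416)
  (band (go 16 Gd mult S372_386_660_808 (Tr.lf 13978846276 107715529 2350314013998223317425717248) 192 256 224 256 416 448)
  (go 16 Gd mult S386_401_660_808 (Tr.lf 13970326596 103644105 3011493984110840093140320256) 192 256 224 256 416 448)))) = true := by decide +kernel
  have c3 : (band (go 16 Gd mult S372_401_660_808 (Tr.lf 9675490372 107711560 9361141895457412994727477248) 192 256 224 256 448 480)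
  (band (go 16 Gd mult S401_430_660_808 (Tr.lf 9675359300 103648073 8657547105335186962465685504) 192 256 224 256 448 480)
  (band (go 16 Gd mult S372_401_660_808 (Tr.lf 9675489826 103517128 9607842194338778739694895104) 128 160 208 224 448 464)
  (band (go 16 Gd mult S401_430_660_808 (Tr.lf 9675375138 103644359 7505388521169740466101420032) 128 160 208 224 448 464)
  (band (go 16 Gd mult S401_430_660_808 (Tr.lf 13978731074 95128521 6258764898472590304293683200) 160 192 224 240 432 448)
  (band (go 16 Gd mult S401_430_660_808 (Tr.lf 13979779650 94866378 3338017439776331431472529408) 160 192 208 224 448 464)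
  (go 16 Gd mult S372_401_660_808 (Tr.lf 9683894818 99454024 2192042333351600892778708992) 160 192 208 224 448 464))))))) = true := by decide +kernel
  have c4 : (go 16 Gd mult S372_401_660_808 (Tr.lf 9683894820 107846600 11741620486533568013692567552) 128 192 192 208 464 480) = true := by decide +kernel
  (And.intro (Ok.s3 401 (Ok.lf S372_401_660_808_ok (br (br (br c0))))
  (Ok.lf S401_430_660_808_ok (bl (br (br (br (br c3)))))))
  (And.intro (Ok.s0 160 (Ok.out rfl)
  (Ok.s3 401 (Ok.lf S372_401_660_808_ok (bl c1))
  (Ok.lf S401_430_660_808_ok (bl (br c1)))))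
  (And.intro (Ok.s3 401 (Ok.s2 416 (Ok.s3 386 (Ok.lf S372_386_660_808_ok (bl c2))
  (Ok.lf S386_401_660_808_ok (bl (br c2))))
  (Ok.s3 386 (Ok.lf S372_386_660_808_ok (bl (br (br c2))))
  (Ok.lf S386_401_660_808_ok (br (br (br c2))))))
  (Ok.lf S401_430_660_808_ok (bl c0)))
  (Ok.s1 224 (Ok.s0 192 (Ok.s2 464 (Ok.s1 208 (Ok.s3 401 (Ok.lf S372_401_660_808_ok (bl (br (br c1))))
  (Ok.lf S401_430_660_808_ok (bl (br (br (br c1))))))
  (Ok.s3 401 (Ok.s0 160 (Ok.lf S372_401_660_808_ok (bl (br (br c3))))
  (Ok.lf S372_401_660_808_ok (br (br (br (br (br (br c3))))))))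
  (Ok.s0 160 (Ok.lf S401_430_660_808_ok (bl (br (br (br c3)))))
  (Ok.lf S401_430_660_808_ok (bl (br (br (br (br (br c3))))))))))
  (Ok.s1 208 (Ok.s3 401 (Ok.lf S372_401_660_808_ok c4)
  (Ok.lf S401_430_660_808_ok (br (br (br (br c1))))))
  (Ok.out rfl)))
  (Ok.s3 401 (Ok.lf S372_401_660_808_ok (bl (br (br c0))))
  (Ok.lf S401_430_660_808_ok (bl (br c0)))))
  (Ok.s0 192 (Ok.out rfl)
  (Ok.s3 401 (Ok.lf S372_401_660_808_ok (bl c3))
  (Ok.lf S401_430_660_808_ok (bl (br c3)))))))))

end Vale.Agent.P098.Ck
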