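import Vale.Agent.P098.CkGd
import Vale.Agent.P098.CkOk
import Vale.Agent.P098.Sh.A54
import Vale.Agent.P098.Sh.A57
import Vale.Agent.P098.Sh.A58
import Vale.Agent.P098.Sh.A59

namespace Vale.Agent.P098.Ck

theorem r338 :
    Ok Gd mult 128 256 192 256 480 512 372 430 660 808 ∧
    Ok Gd mult 128 256 192 256 384 512 430 488 216 512 ∧
    Ok Gd mult 128 192 192 256 384 512 430 488 512 660 :=
  have c0 : (band (go 16 Gd mult S430_488_216_364 (Tr.lf 9666988168 91061065 218815573350247880621817856) 128 256 192 224 384 448)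
  (go 16 Gd mult S430_488_216_364 (Tr.lf 5380408452 99326920 6478673054027621468871852032) 128 192 192 256 448 480)) = true := by decide +kernel
  have c1 : (go 16 Gd mult S459_488_364_512 (Tr.lf 9666922632 95517513 1716674663852773428082769920) 128 256 192 256 384 448) = true := by decide +kernel
  have c2 : (go 16 Gd mult S430_459_364_512 (Tr.lf 9675376772 95517641 2118038035964830314085220352) 192 256 192 256 384 448) = true := by decide +kernel
  have c3 : (band (go 16 Gd mult S430_488_364_512 (Tr.lf 5380408456 99326920 6478675931719655426643263488) 128 192 192 256 448 480)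
  (band (go 16 Gd mult S430_488_364_512 (Tr.lf 5380408452 95259465 6944073652555602974071586816) 192 256 192 256 448 480)
  (go 16 Gd mult S430_488_216_364 (Tr.lf 9666921604 103639881 6944069907866429979512274944) 192 256 192 256 448 480))) = true := by decide +kernel
  have c4 : (band (go 16 Gd mult S430_488_512_660 (Tr.lf 9675311236 86871112 220024499169862509796524032) 128 192 192 224 384 448)
  (go 16 Gd mult S430_488_512_660 (Tr.lf 9675311236 99584841 2611279770367599017365340160) 128 192 224 256 384 448)) = true := by decide +kernel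
  have c5 : (go 16 Gd mult S430_488_512_660 (Tr.sp 2 480 (Tr.sp 1 224 (Tr.lf 9675375748 99445832 3548255277132304370592907264) Tr.skip) Tr.skip) 128 192 192 256 448 512) = true := by decide +kernel
  have c6 : (band (go 16 Gd mult S430_488_216_364 (Tr.sp 0 192 Tr.skip (Tr.lf 5371954308 103504968 13925906997019842168045109248)) 128 256 192 256 480 512)
  (band (go 16 Gd mult S430_488_364_512 (Tr.sp 0 192 Tr.skip (Tr.lf 5371954308 103504968 13925956600314656372734033920)) 128 256 192 256 480 512)
  (go 16 Gd mult S430_488_216_364 (Tr.lf 9675309640 99457865 4926372714929613886927667200) 128 256 224 256 416 448))) = true := by decide +kernel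
  have c7 : (go 16 Gd mult S430_459_364_512 (Tr.lf 9675294852 95390537 1624796301562061610805100544) 128 192 192 256 384 448) = true := by decide +kernel
  have c8 : (go 16 Gd mult S430_488_216_364 (Tr.lf 9675375176 103775177 1823060135978860795456913408) 128 256 224 256 384 416) = true := by decide +kernel
  have c9 : (band (go 16 Gd mult S372_401_660_808 (Tr.sp 1 224 (Tr.lf 624198722 99847112 16992647283252700439451535876) Tr.skip) 192 256 192 256 480 512)
  (go 16 Gd mult S401_430_660_808 (Tr.sp 1 224 (Tr.lf 5380392002 103517128 14337465386519348332774359040) Tr.skip) 192 256 192 256 480 512)) = true := by decide +kernel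
  (And.intro (Ok.s0 192 (Ok.out rfl)
  (Ok.s3 401 (Ok.lf S372_401_660_808_ok (bl c9))
  (Ok.lf S401_430_660_808_ok (br c9))))
  (And.intro (Ok.s4 364 (Ok.s2 448 (Ok.s1 224 (Ok.lf S430_488_216_364_ok (bl c0))
  (Ok.s2 416 (Ok.lf S430_488_216_364_ok c8)
  (Ok.lf S430_488_216_364_ok (br (br c6)))))
  (Ok.s2 480 (Ok.s0 192 (Ok.lf S430_488_216_364_ok (br c0))
  (Ok.lf S430_488_216_364_ok (br (br c3))))
  (Ok.lf S430_488_216_364_ok (bl c6))))
  (Ok.s2 448 (Ok.s3 459 (Ok.s0 192 (Ok.lf S430_459_364_512_ok c7)
  (Ok.lf S430_459_364_512_ok c2))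
  (Ok.lf S459_488_364_512_ok c1))
  (Ok.s2 480 (Ok.s0 192 (Ok.lf S430_488_364_512_ok (bl c3))
  (Ok.lf S430_488_364_512_ok (bl (br c3))))
  (Ok.lf S430_488_364_512_ok (bl (br c6))))))
  (Ok.s2 448 (Ok.s1 224 (Ok.lf S430_488_512_660_ok (bl c4))
  (Ok.lf S430_488_512_660_ok (br c4)))
  (Ok.lf S430_488_512_660_ok c5))))

end Vale.Agent.P098.Ck
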