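import Vale.Agent.P098.CkGd
import Vale.Agent.P098.CkOk
import Vale.Agent.P098.Sh.A0
import Vale.Agent.P098.Sh.A58
import Vale.Agent.P098.Sh.A59

namespace Vale.Agent.P098.Ck

theorem r339 :
    Ok Gd mult 192 256 192 256 384 512 430 488 512 660 ∧
    Ok Gd mult 128 256 192 256 384 512 430 488 660 808 ∧
    Ok Gd mult 128 256 256 320 0 128 24 82 216 512 :=
  have c0 : (band (go 16 Gd mult S430_488_512_660 (Tr.lf 13970344072 90925898 111221175404545884072968192) 192 256 192 224 384 448)
  (go 16 Gd mult S430_459_660_808 (Tr.lf 13970327684 90925898 0) 192 256 192 224 384 448)) = true := by decide +kernel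
  have c1 : (band (go 16 Gd mult S430_459_660_808 (Tr.lf 9675376776 99584841 1619960598283603094106275840) 128 192 192 256 384 448)
  (band (go 16 Gd mult S459_488_660_808 (Tr.lf 5371937924 91188041 1714256812213544169733357568) 128 192 192 256 384 448)
  (go 16 Gd mult S459_488_660_808 (Tr.lf 9666904708 103639881 6942860982046815350337568768) 192 256 192 256 448 480))) = true := by decide +kernel
  have c2 : (band (go 16 Gd mult S430_488_512_660 (Tr.lf 9675375752 103648073 6942860982046815350337568768) 192 256 192 256 448 480)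
  (band (go 16 Gd mult S430_459_660_808 (Tr.lf 9675359364 103648073 6542706535754373093509824512) 192 256 192 256 448 480)
  (go 16 Gd mult S430_488_512_660 (Tr.lf 5372019844 103504968 13926081337198082796722061312) 192 256 192 256 480 512))) = true := by decide +kernel
  have c3 : (band (go 16 Gd mult S430_488_660_808 (Tr.sp 2 480 (Tr.sp 1 224 (Tr.lf 9675375752 99445832 3548259925711810945401815040) Tr.skip) Tr.skip) 128 192 192 256 448 512)
  (go 16 Gd mult S430_488_660_808 (Tr.lf 5372019848 103504968 13926137876468668716500844544) 192 256 192 256 480 512)) = true := by decide +kernel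
  have c4 : (band (go 16 Gd mult S430_488_512_660 (Tr.lf 9675311236 103775177 3149251760096109000109588480) 192 256 224 256 384 448)
  (go 16 Gd mult S430_459_660_808 (Tr.lf 13970327620 103648201 2923182631828173344439533568) 192 256 224 256 384 448)) = true := by decide +kernel
  have c5 : (band (go 16 Gd mult S24_82_216_364 (Tr.lf 17179969608 82537159 883724774138293926710214656) 128 256 288 320 0 128)
  (band (go 16 Gd mult S24_82_364_512 (Tr.lf 17179953224 82537159 906694364710971881029632000) 128 256 288 320 0 128)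
  (band (go 16 Gd mult S24_82_364_512 (Tr.lf 12884984868 95517637 68908771718033862958252032) 128 256 256 288 0 128)
  (go 16 Gd mult S24_82_216_364 (Tr.lf 12884984868 95517637 55610587702272942036484096) 128 256 256 288 0 128)))) = true := by decide +kernel
  have c6 : (go 16 Gd mult S459_488_660_808 (Tr.lf 9666906244 95517513 2278825169973575994321141760) 192 256 192 256 384 448) = true := by decide +kernel
  (And.intro (Ok.s2 448 (Ok.s1 224 (Ok.lf S430_488_512_660_ok (bl c0))
  (Ok.lf S430_488_512_660_ok (bl c4)))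
  (Ok.s2 480 (Ok.lf S430_488_512_660_ok (bl c2))
  (Ok.lf S430_488_512_660_ok (br (br c2)))))
  (And.intro (Ok.s0 192 (Ok.s2 448 (Ok.s3 459 (Ok.lf S430_459_660_808_ok (bl c1))
  (Ok.lf S459_488_660_808_ok (bl (br c1))))
  (Ok.lf S430_488_660_808_ok (bl c3)))
  (Ok.s2 448 (Ok.s3 459 (Ok.s1 224 (Ok.lf S430_459_660_808_ok (br c0))
  (Ok.lf S430_459_660_808_ok (br c4)))
  (Ok.lf S459_488_660_808_ok c6))
  (Ok.s2 480 (Ok.s3 459 (Ok.lf S430_459_660_808_ok (bl (br c2)))
  (Ok.lf S459_488_660_808_ok (br (br c1))))
  (Ok.lf S430_488_660_808_ok (br c3)))))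
  (Ok.s4 364 (Ok.s1 288 (Ok.lf S24_82_216_364_ok (br (br (br c5))))
  (Ok.lf S24_82_216_364_ok (bl c5)))
  (Ok.s1 288 (Ok.lf S24_82_364_512_ok (bl (br (br c5))))
  (Ok.lf S24_82_364_512_ok (bl (br c5)))))))

end Vale.Agent.P098.Ck
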