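import Vale.Agent.P098.CkGd
import Vale.Agent.P098.CkOk
import Vale.Agent.P098.Sh.A0
import Vale.Agent.P098.Sh.A1
import Vale.Agent.P098.Sh.A11
import Vale.Agent.P098.Sh.A17
import Vale.Agent.P098.Sh.A18
import Vale.Agent.P098.Sh.A3
import Vale.Agent.P098.Sh.A4
import Vale.Agent.P098.Sh.A58
import Vale.Agent.P098.Sh.A59
import Vale.Agent.P098.Sh.A8
import Vale.Agent.P098.Sh.A9

namespace Vale.Agent.P098.Ck

theorem r34 :
    Ok Gd mult 0 128 64 128 128 256 430 488 216 808 ∧
    Ok Gd mult 0 128 64 128 256 384 24 140 216 808 ∧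
    Ok Gd mult 0 128 64 128 256 384 140 198 216 808 :=
  have c0 : (band (go 16 Gd mult S82_140_364_512 (Tr.lf 547522692 107981766 0) 0 128 64 128 256 384)
  (band (go 16 Gd mult S82_140_216_364 (Tr.lf 547521668 103787462 0) 0 128 64 128 256 384)
  (go 16 Gd mult S140_198_512_660 (Tr.lf 4304701506 95386439 0) 0 128 64 128 256 384))) = true := by decide +kernel
  have c1 : (band (go 16 Gd mult S24_82_216_364 (Tr.lf 540116100 108096455 0) 0 128 64 128 256 384)
  (band (go 16 Gd mult S24_82_364_512 (Tr.lf 540116100 107838407 0) 0 128 64 128 256 384)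
  (band (go 16 Gd mult S24_82_660_808 (Tr.lf 540116100 108096455 0) 0 128 64 128 256 384)
  (band (go 16 Gd mult S82_140_512_660 (Tr.lf 547521666 103787462 0) 0 128 64 128 256 384)
  (go 16 Gd mult S169_198_216_364 (Tr.lf 9716802 108104901 0) 0 128 64 128 256 384))))) = true := by decide +kernel
  have c2 : (band (go 16 Gd mult S82_140_660_808 (Tr.lf 547521604 103787462 0) 0 128 64 128 256 384)
  (band (go 16 Gd mult S140_198_660_808 (Tr.lf 4304700482 95255367 0) 0 128 64 128 256 384)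
  (band (go 16 Gd mult S24_82_512_660 (Tr.lf 540116034 108096455 0) 0 128 64 128 256 384)
  (band (go 16 Gd mult S140_169_216_364 (Tr.lf 4841423938 103770951 0) 0 128 64 128 256 384)
  (band (go 16 Gd mult S140_169_364_512 (Tr.lf 4841423938 103770951 0) 0 128 64 128 256 384)
  (go 16 Gd mult S169_198_364_512 (Tr.lf 9585730 108112965 0) 0 128 64 128 256 384)))))) = true := by decide +kernel
  have c3 : (band (go 16 Gd mult S430_488_216_364 (Tr.lf 539067458 99589190 0) 0 128 64 128 128 256)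
  (band (go 16 Gd mult S430_488_364_512 (Tr.lf 539067458 99588935 0) 0 128 64 128 128 256)
  (band (go 16 Gd mult S430_488_512_660 (Tr.lf 539067458 99588935 0) 0 128 64 128 128 256)
  (go 16 Gd mult S430_488_660_808 (Tr.lf 539067458 99588935 0) 0 128 64 128 128 256)))) = true := by decide +kernel
  (And.intro (Ok.s4 512 (Ok.s4 364 (Ok.lf S430_488_216_364_ok (bl c3))
  (Ok.lf S430_488_364_512_ok (bl (br c3))))
  (Ok.s4 660 (Ok.lf S430_488_512_660_ok (bl (br (br c3))))
  (Ok.lf S430_488_660_808_ok (br (br (br c3))))))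
  (And.intro (Ok.s3 82 (Ok.s4 512 (Ok.s4 364 (Ok.lf S24_82_216_364_ok (bl c1))
  (Ok.lf S24_82_364_512_ok (bl (br c1))))
  (Ok.s4 660 (Ok.lf S24_82_512_660_ok (bl (br (br c2))))
  (Ok.lf S24_82_660_808_ok (bl (br (br c1))))))
  (Ok.s4 512 (Ok.s4 364 (Ok.lf S82_140_216_364_ok (bl (br c0)))
  (Ok.lf S82_140_364_512_ok (bl c0)))
  (Ok.s4 660 (Ok.lf S82_140_512_660_ok (bl (br (br (br c1)))))
  (Ok.lf S82_140_660_808_ok (bl c2)))))
  (Ok.s4 512 (Ok.s4 364 (Ok.s3 169 (Ok.lf S140_169_216_364_ok (bl (br (br (br c2)))))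
  (Ok.lf S169_198_216_364_ok (br (br (br (br c1))))))
  (Ok.s3 169 (Ok.lf S140_169_364_512_ok (bl (br (br (br (br c2))))))
  (Ok.lf S169_198_364_512_ok (br (br (br (br (br c2))))))))
  (Ok.s4 660 (Ok.lf S140_198_512_660_ok (br (br c0)))
  (Ok.lf S140_198_660_808_ok (bl (br c2)))))))

end Vale.Agent.P098.Ck
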