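import Vale.Agent.P098.CkGd
import Vale.Agent.P098.CkOk
import Vale.Agent.P098.Sh.A1
import Vale.Agent.P098.Sh.A17
import Vale.Agent.P098.Sh.A3
import Vale.Agent.P098.Sh.A4
import Vale.Agent.P098.Sh.A6
import Vale.Agent.P098.Sh.A8

namespace Vale.Agent.P098.Ck

theorem r340 :
    Ok Gd mult 128 256 256 320 0 128 24 82 512 808 ∧
    Ok Gd mult 128 256 256 320 0 128 82 140 216 808 ∧
    Ok Gd mult 128 256 256 320 0 128 140 198 216 364 :=
  have c0 : (go 16 Gd mult S169_198_216_364 (Tr.lf 17726735432 103910471 478734624567393153183645696) 128 256 256 288 64 128) = true := by decide +kernel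
  have c1 : (band (go 16 Gd mult S82_111_660_808 (Tr.lf 12885182536 99584710 62874498454885010211365908) 128 256 288 320 0 128)
  (band (go 16 Gd mult S24_82_512_660 (Tr.lf 17179953224 82537159 961096026593630193891409920) 128 256 288 320 0 128)
  (band (go 16 Gd mult S24_82_660_808 (Tr.lf 17179953224 82537159 1016706614295903135927894016) 128 256 288 320 0 128)
  (go 16 Gd mult S82_140_364_512 (Tr.lf 12885001284 91192134 4630132762501097455616) 128 256 288 320 0 128)))) = true := by decide +kernel
  have c2 : (band (go 16 Gd mult S140_169_216_364 (Tr.lf 12885182536 95648582 0) 128 256 256 288 0 128)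
  (band (go 16 Gd mult S82_140_216_364 (Tr.lf 12886115396 99584966 0) 128 256 256 288 0 128)
  (band (go 16 Gd mult S82_140_364_512 (Tr.lf 12886115364 95521734 0) 128 256 256 288 0 128)
  (band (go 16 Gd mult S82_140_512_660 (Tr.lf 12885066788 95521478 0) 128 256 256 288 0 128)
  (go 16 Gd mult S82_111_660_808 (Tr.lf 8590005282 104176835 0) 128 256 256 288 0 128))))) = true := by decide +kernel
  have c3 : (band (go 16 Gd mult S169_198_216_364 (Tr.lf 22011988008 95242825 1650183743773968823473930240) 128 256 288 304 0 128)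
  (go 16 Gd mult S169_198_216_364 (Tr.lf 22011987016 95378120 0) 128 256 256 288 0 64)) = true := by decide +kernel
  have c4 : (band (go 16 Gd mult S82_140_216_364 (Tr.lf 12885066820 95521478 4076730440289810907136) 128 256 288 320 0 128)
  (go 16 Gd mult S140_169_216_364 (Tr.lf 12885050436 95521606 706012678654943438028406784) 128 256 288 320 0 128)) = true := by decide +kernel
  have c5 : (go 16 Gd mult S169_198_216_364 (Tr.lf 17717011496 99572424 2811961456423627460366565376) 128 256 304 320 0 128) = true := by decide +kernel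
  have c6 : (go 16 Gd mult S111_140_660_808 (Tr.lf 12885042244 95386438 7489378093926077956096) 128 256 256 320 0 128) = true := by decide +kernel
  have c7 : (band (go 16 Gd mult S24_82_512_660 (Tr.lf 12884984868 95517637 99131917208399592325906432) 128 256 256 288 0 128)
  (go 16 Gd mult S24_82_660_808 (Tr.lf 12884984868 95517637 131772914337994580042973184) 128 256 256 288 0 128)) = true := by decide +kernel
  have c8 : (band (go 16 Gd mult S82_140_512_660 (Tr.lf 12884984866 95517637 7489378093926077956096) 128 192 288 320 0 128)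
  (go 16 Gd mult S82_140_512_660 (Tr.lf 12884984849 91327174 4630132762501097455616) 192 256 288 320 0 128)) = true := by decide +kernel
  (And.intro (Ok.s4 660 (Ok.s1 288 (Ok.lf S24_82_512_660_ok (bl c7))
  (Ok.lf S24_82_512_660_ok (bl (br c1))))
  (Ok.s1 288 (Ok.lf S24_82_660_808_ok (br c7))
  (Ok.lf S24_82_660_808_ok (bl (br (br c1))))))
  (And.intro (Ok.s4 512 (Ok.s4 364 (Ok.s1 288 (Ok.lf S82_140_216_364_ok (bl (br c2)))
  (Ok.lf S82_140_216_364_ok (bl c4)))
  (Ok.s1 288 (Ok.lf S82_140_364_512_ok (bl (br (br c2))))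
  (Ok.lf S82_140_364_512_ok (br (br (br c1))))))
  (Ok.s4 660 (Ok.s1 288 (Ok.lf S82_140_512_660_ok (bl (br (br (br c2)))))
  (Ok.s0 192 (Ok.lf S82_140_512_660_ok (bl c8))
  (Ok.lf S82_140_512_660_ok (br c8))))
  (Ok.s3 111 (Ok.s1 288 (Ok.lf S82_111_660_808_ok (br (br (br (br c2)))))
  (Ok.lf S82_111_660_808_ok (bl c1)))
  (Ok.lf S111_140_660_808_ok c6))))
  (Ok.s3 169 (Ok.s1 288 (Ok.lf S140_169_216_364_ok (bl c2))
  (Ok.lf S140_169_216_364_ok (br c4)))
  (Ok.s1 288 (Ok.s2 64 (Ok.lf S169_198_216_364_ok (br c3))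
  (Ok.lf S169_198_216_364_ok c0))
  (Ok.s1 304 (Ok.lf S169_198_216_364_ok (bl c3))
  (Ok.lf S169_198_216_364_ok c5))))))

end Vale.Agent.P098.Ck
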