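import Vale.Agent.P098.CkGd
import Vale.Agent.P098.CkOk
import Vale.Agent.P098.Sh.A10
import Vale.Agent.P098.Sh.A11
import Vale.Agent.P098.Sh.A18
import Vale.Agent.P098.Sh.A19
import Vale.Agent.P098.Sh.A25
import Vale.Agent.P098.Sh.A28
import Vale.Agent.P098.Sh.A36
import Vale.Agent.P098.Sh.A9

namespace Vale.Agent.P098.Ck

theorem r341 :
    Ok Gd mult 128 256 256 320 0 128 140 198 364 512 ∧
    Ok Gd mult 128 256 256 320 0 128 140 198 512 808 ∧
    Ok Gd mult 128 256 256 288 0 128 198 256 216 364 ∧
    Ok Gd mult 128 192 288 320 0 128 198 256 216 364 :=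
  have c0 : (band (go 16 Gd mult S169_198_364_512 (Tr.lf 12894636104 99978438 0) 128 256 256 288 0 128)
  (go 16 Gd mult S140_169_364_512 (Tr.lf 12885051460 95648582 0) 128 256 256 288 0 128)) = true := by decide +kernel
  have c1 : (go 16 Gd mult S169_198_512_660 (Tr.lf 12893571208 99720134 3626777458843887524118528) 128 256 256 320 0 128) = true := by decide +kernel
  have c2 : (go 16 Gd mult S198_227_216_364 (Tr.lf 22031140932 99454025 968349581511317968939646976) 128 192 256 288 0 128) = true := by decide +kernel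
  have c3 : (go 16 Gd mult S227_256_216_364 (Tr.lf 22030075976 99453769 864381961024459859914915840) 128 192 256 288 0 128) = true := by decide +kernel
  have c4 : (go 16 Gd mult S227_256_216_364 (Tr.lf 17717282888 103766728 2490387188406136099894722560) 128 192 288 304 0 128) = true := by decide +kernel
  have c5 : (go 16 Gd mult S140_169_512_660 (Tr.lf 12885051528 95521606 0) 128 256 256 320 0 128) = true := by decide +kernel
  have c6 : (band (go 16 Gd mult S198_227_216_364 (Tr.lf 22029042756 95382217 0) 192 256 256 288 64 128)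
  (go 16 Gd mult S227_256_216_364 (Tr.lf 22029026436 95382217 0) 192 256 256 288 64 128)) = true := by decide +kernel
  have c7 : (band (go 16 Gd mult S227_256_216_364 (Tr.lf 22012249220 103639752 0) 192 256 256 288 0 64)
  (band (go 16 Gd mult S198_227_216_290 (Tr.lf 22011856004 103897800 0) 192 256 256 288 0 64)
  (go 16 Gd mult S198_227_290_364 (Tr.lf 22020244612 99711688 0) 192 256 256 288 0 64))) = true := by decide +kernel
  have c8 : (go 16 Gd mult S198_227_216_364 (Tr.lf 17717281864 103766728 2577429847418389400473567232) 128 192 288 304 0 128) = true := by decide +kernel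
  have c9 : (go 16 Gd mult S140_198_660_808 (Tr.lf 12885197954 95517765 3744689046963038978048) 128 192 256 320 0 128) = true := by decide +kernel
  have c10 : (go 16 Gd mult S169_198_364_512 (Tr.lf 17717011524 95378120 1049347611425498123644960768) 192 256 288 320 0 128) = true := by decide +kernel
  have c11 : (go 16 Gd mult S198_256_216_364 (Tr.lf 13430440996 104045510 4088587121936675868856287232) 128 192 304 320 0 128) = true := by decide +kernel
  have c12 : (go 16 Gd mult S140_169_364_512 (Tr.lf 12885042244 91327302 570612986858104970461315072) 128 256 288 320 0 128) = true := by decide +kernel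
  have c13 : (go 16 Gd mult S169_198_364_512 (Tr.lf 12885042244 95644614 1669526556887802890269229056) 128 192 288 320 0 128) = true := by decide +kernel
  have c14 : (go 16 Gd mult S140_198_660_808 (Tr.lf 8590083138 103914692 0) 192 256 256 320 0 128) = true := by decide +kernel
  (And.intro (Ok.s1 288 (Ok.s3 169 (Ok.lf S140_169_364_512_ok (br c0))
  (Ok.lf S169_198_364_512_ok (bl c0)))
  (Ok.s3 169 (Ok.lf S140_169_364_512_ok c12)
  (Ok.s0 192 (Ok.lf S169_198_364_512_ok c13)
  (Ok.lf S169_198_364_512_ok c10))))
  (And.intro (Ok.s4 660 (Ok.s3 169 (Ok.lf S140_169_512_660_ok c5)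
  (Ok.lf S169_198_512_660_ok c1))
  (Ok.s0 192 (Ok.lf S140_198_660_808_ok c9)
  (Ok.lf S140_198_660_808_ok c14)))
  (And.intro (Ok.s0 192 (Ok.s3 227 (Ok.lf S198_227_216_364_ok c2)
  (Ok.lf S227_256_216_364_ok c3))
  (Ok.s3 227 (Ok.s2 64 (Ok.s4 290 (Ok.lf S198_227_216_290_ok (bl (br c7)))
  (Ok.lf S198_227_290_364_ok (br (br c7))))
  (Ok.lf S198_227_216_364_ok (bl c6)))
  (Ok.s2 64 (Ok.lf S227_256_216_364_ok (bl c7))
  (Ok.lf S227_256_216_364_ok (br c6)))))
  (Ok.s1 304 (Ok.s3 227 (Ok.lf S198_227_216_364_ok c8)
  (Ok.lf S227_256_216_364_ok c4))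
  (Ok.lf S198_256_216_364_ok c11)))))

end Vale.Agent.P098.Ck
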