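import Vale.Agent.P098.CkGd
import Vale.Agent.P098.CkOk
import Vale.Agent.P098.Sh.A25
import Vale.Agent.P098.Sh.A26
import Vale.Agent.P098.Sh.A27
import Vale.Agent.P098.Sh.A28
import Vale.Agent.P098.Sh.A36
import Vale.Agent.P098.Sh.A37
import Vale.Agent.P098.Sh.A38
import Vale.Agent.P098.Sh.A41
import Vale.Agent.P098.Sh.A45

namespace Vale.Agent.P098.Ck

theorem r342 :
    Ok Gd mult 192 256 288 320 0 128 198 256 216 364 ∧
    Ok Gd mult 128 256 256 320 0 128 198 256 364 512 ∧
    Ok Gd mult 128 256 256 320 0 128 198 256 512 808 ∧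
    Ok Gd mult 128 256 256 288 0 128 256 314 216 364 :=
  have c0 : (go 16 Gd mult S198_256_216_364 (Tr.lf 17717299240 99576520 3254428306402581738309025792) 192 256 304 320 0 128) = true := by decide +kernel
  have c1 : (go 16 Gd mult S198_227_216_364 (Tr.lf 22012266564 95238857 0) 192 256 288 304 0 128) = true := by decide +kernel
  have c2 : (go 16 Gd mult S227_256_216_364 (Tr.lf 22012250184 95238857 0) 192 256 288 304 0 128) = true := by decide +kernel
  have c3 : (band (go 16 Gd mult S198_227_364_512 (Tr.lf 22566946888 107842377 139026469255682355091210240) 128 256 256 288 0 128)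
  (go 16 Gd mult S198_227_512_660 (Tr.lf 12893570120 104041414 0) 128 256 256 288 0 128)) = true := by decide +kernel
  have c4 : (band (go 16 Gd mult S227_256_364_512 (Tr.lf 22566946888 107842377 0) 128 256 256 288 0 128)
  (go 16 Gd mult S285_314_216_364 (Tr.lf 12893570120 108235718 0) 128 256 256 288 0 128)) = true := by decide +kernel
  have c5 : (go 16 Gd mult S227_256_512_660 (Tr.lf 12893833348 99716293 165622837287204196934746112) 128 192 256 320 0 128) = true := by decide +kernel
  have c6 : (go 16 Gd mult S256_285_216_364 (Tr.lf 22565898308 107842121 0) 192 256 256 288 0 128) = true := by decide +kernel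
  have c7 : (band (go 16 Gd mult S198_256_364_438 (Tr.lf 17716906024 99580743 1431368170423720942852112384) 128 256 288 304 0 128)
  (band (go 16 Gd mult S198_256_438_512 (Tr.lf 17792402468 103914311 713266233572631213076643840) 128 256 288 304 0 128)
  (band (go 16 Gd mult S198_256_364_438 (Tr.lf 17716904996 99703496 2664472506430642701052411904) 128 256 304 320 0 128)
  (go 16 Gd mult S198_256_438_512 (Tr.lf 17716888612 99449671 1546223612665204640527155200) 128 256 304 320 0 128)))) = true := by decide +kernel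
  have c8 : (band (go 16 Gd mult S198_227_660_808 (Tr.lf 12885181572 95644869 2859245331424980500480) 128 256 256 320 0 128)
  (go 16 Gd mult S227_256_660_808 (Tr.lf 12885181572 99716165 3191286724751752429568) 128 256 256 320 0 128)) = true := by decide +kernel
  have c9 : (go 16 Gd mult S256_285_216_364 (Tr.lf 22028764228 99580489 453347182355485940514816000) 128 192 256 288 0 128) = true := by decide +kernel
  have c10 : (go 16 Gd mult S227_256_512_660 (Tr.lf 12885181506 95648965 0) 192 256 256 320 0 128) = true := by decide +kernel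
  have c11 : (go 16 Gd mult S198_227_512_660 (Tr.lf 12885173284 99712197 498077437681227219978944512) 128 256 288 320 0 128) = true := by decide +kernel
  (And.intro (Ok.s1 304 (Ok.s3 227 (Ok.lf S198_227_216_364_ok c1)
  (Ok.lf S227_256_216_364_ok c2))
  (Ok.lf S198_256_216_364_ok c0))
  (And.intro (Ok.s1 288 (Ok.s3 227 (Ok.lf S198_227_364_512_ok (bl c3))
  (Ok.lf S227_256_364_512_ok (bl c4)))
  (Ok.s4 438 (Ok.s1 304 (Ok.lf S198_256_364_438_ok (bl c7))
  (Ok.lf S198_256_364_438_ok (bl (br (br c7)))))
  (Ok.s1 304 (Ok.lf S198_256_438_512_ok (bl (br c7)))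
  (Ok.lf S198_256_438_512_ok (br (br (br c7)))))))
  (And.intro (Ok.s4 660 (Ok.s3 227 (Ok.s1 288 (Ok.lf S198_227_512_660_ok (br c3))
  (Ok.lf S198_227_512_660_ok c11))
  (Ok.s0 192 (Ok.lf S227_256_512_660_ok c5)
  (Ok.lf S227_256_512_660_ok c10)))
  (Ok.s3 227 (Ok.lf S198_227_660_808_ok (bl c8))
  (Ok.lf S227_256_660_808_ok (br c8))))
  (Ok.s3 285 (Ok.s0 192 (Ok.lf S256_285_216_364_ok c9)
  (Ok.lf S256_285_216_364_ok c6))
  (Ok.lf S285_314_216_364_ok (br c4))))))

end Vale.Agent.P098.Ck
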