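import Vale.Agent.P098.CkGd
import Vale.Agent.P098.CkOk
import Vale.Agent.P098.Sh.A48
import Vale.Agent.P098.Sh.A49
import Vale.Agent.P098.Sh.A52
import Vale.Agent.P098.Sh.A54
import Vale.Agent.P098.Sh.A55
import Vale.Agent.P098.Sh.A56
import Vale.Agent.P098.Sh.A57

namespace Vale.Agent.P098.Ck

theorem r344 :
    Ok Gd mult 128 256 256 320 0 128 314 372 512 808 ∧
    Ok Gd mult 128 256 256 320 0 128 372 430 216 512 ∧
    Ok Gd mult 128 256 256 320 0 128 372 430 512 660 :=
  have c0 : (band (go 16 Gd mult S343_372_512_660 (Tr.lf 12885051528 103906501 0) 128 256 256 320 0 128)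
  (go 16 Gd mult S314_343_660_808 (Tr.lf 12885181576 99716165 6935975771714791407616) 128 256 256 320 0 128)) = true := by decide +kernel
  have c1 : (band (go 16 Gd mult S343_372_660_808 (Tr.lf 12885181576 99712197 534955578137576996864) 128 256 256 320 0 128)
  (go 16 Gd mult S314_343_512_660 (Tr.lf 12885181572 99847237 3191286724751752429568) 128 256 256 320 0 128)) = true := by decide +kernel
  have c2 : (band (go 16 Gd mult S372_401_512_660 (Tr.lf 12885051464 107977797 0) 128 256 256 288 0 128)
  (band (go 16 Gd mult S372_401_364_512 (Tr.lf 17726318664 103779399 0) 128 256 256 288 0 128)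
  (go 16 Gd mult S372_401_216_364 (Tr.lf 17726318664 103779399 0) 128 256 256 288 0 128))) = true := by decide +kernel
  have c3 : (band (go 16 Gd mult S401_430_364_512 (Tr.lf 22012839048 99314377 742280453243382313269592064) 128 256 256 288 64 128)
  (band (go 16 Gd mult S401_430_512_660 (Tr.lf 22012839048 99314377 679416310623421596184870912) 128 256 256 288 64 128)
  (go 16 Gd mult S401_430_216_364 (Tr.lf 22012904520 99314377 803935670043728401179607040) 128 256 256 288 64 128))) = true := by decide +kernel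
  have c4 : (band (go 16 Gd mult S372_430_216_364 (Tr.lf 22011856936 99305802 1664690853609344373570404352) 128 256 288 304 0 128)
  (band (go 16 Gd mult S372_430_364_512 (Tr.lf 22011856936 99305802 1511157274518286468382720000) 128 256 288 304 0 128)
  (band (go 16 Gd mult S372_430_364_512 (Tr.lf 17716888616 99572424 2495222891684594616593547264) 128 256 304 320 0 128)
  (go 16 Gd mult S372_430_216_364 (Tr.lf 17716888612 99580488 2802290049866710426968915968) 128 256 304 320 0 128)))) = true := by decide +kernel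
  have c5 : (go 16 Gd mult S372_430_512_660 (Tr.lf 22011872324 90913226 1235522187646151016549711872) 192 256 288 320 0 128) = true := by decide +kernel
  have c6 : (band (go 16 Gd mult S401_430_216_364 (Tr.lf 22011847752 99580488 0) 128 256 256 288 0 64)
  (band (go 16 Gd mult S401_430_364_512 (Tr.lf 22011782212 95386184 0) 128 256 256 288 0 64)
  (go 16 Gd mult S401_430_512_660 (Tr.lf 22011782212 95378120 0) 128 256 256 288 0 64))) = true := by decide +kernel
  have c7 : (band (go 16 Gd mult S372_430_512_660 (Tr.lf 12884984866 103910214 1575230342957861814642147328) 128 192 288 304 0 128)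
  (go 16 Gd mult S372_430_512_660 (Tr.lf 13430243858 108235718 3121470723713429457151721472) 128 192 304 320 0 128)) = true := by decide +kernel
  (And.intro (Ok.s4 660 (Ok.s3 343 (Ok.lf S314_343_512_660_ok (br c1))
  (Ok.lf S343_372_512_660_ok (bl c0)))
  (Ok.s3 343 (Ok.lf S314_343_660_808_ok (br c0))
  (Ok.lf S343_372_660_808_ok (bl c1))))
  (And.intro (Ok.s4 364 (Ok.s1 288 (Ok.s3 401 (Ok.lf S372_401_216_364_ok (br (br c2)))
  (Ok.s2 64 (Ok.lf S401_430_216_364_ok (bl c6))
  (Ok.lf S401_430_216_364_ok (br (br c3)))))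
  (Ok.s1 304 (Ok.lf S372_430_216_364_ok (bl c4))
  (Ok.lf S372_430_216_364_ok (br (br (br c4))))))
  (Ok.s1 288 (Ok.s3 401 (Ok.lf S372_401_364_512_ok (bl (br c2)))
  (Ok.s2 64 (Ok.lf S401_430_364_512_ok (bl (br c6)))
  (Ok.lf S401_430_364_512_ok (bl c3))))
  (Ok.s1 304 (Ok.lf S372_430_364_512_ok (bl (br c4)))
  (Ok.lf S372_430_364_512_ok (bl (br (br c4)))))))
  (Ok.s1 288 (Ok.s3 401 (Ok.lf S372_401_512_660_ok (bl c2))
  (Ok.s2 64 (Ok.lf S401_430_512_660_ok (br (br c6)))
  (Ok.lf S401_430_512_660_ok (bl (br c3)))))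
  (Ok.s0 192 (Ok.s1 304 (Ok.lf S372_430_512_660_ok (bl c7))
  (Ok.lf S372_430_512_660_ok (br c7)))
  (Ok.lf S372_430_512_660_ok c5)))))

end Vale.Agent.P098.Ck
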