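import Vale.Agent.P098.CkGd
import Vale.Agent.P098.CkOk
import Vale.Agent.P098.Sh.A54
import Vale.Agent.P098.Sh.A55
import Vale.Agent.P098.Sh.A57
import Vale.Agent.P098.Sh.A58
import Vale.Agent.P098.Sh.A59

namespace Vale.Agent.P098.Ck

theorem r345 :
    Ok Gd mult 128 256 256 288 0 128 372 430 660 808 ∧
    Ok Gd mult 128 256 288 320 0 128 372 430 660 808 ∧
    Ok Gd mult 128 256 256 320 0 128 430 488 216 512 ∧
    Ok Gd mult 128 256 256 320 0 128 430 488 512 660 :=
  have c0 : (go 16 Gd mult S430_488_216_364 (Tr.lf 17716906120 103635401 2967912887153914623903662080) 128 192 288 320 0 128) = true := by decide +kernel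
  have c1 : (band (go 16 Gd mult S430_488_216_364 (Tr.lf 22011807880 103635401 0) 128 256 256 288 0 64)
  (band (go 16 Gd mult S401_430_660_808 (Tr.lf 22011790408 99572424 0) 128 256 256 288 0 64)
  (go 16 Gd mult S430_488_216_364 (Tr.lf 22013904008 95378122 1137599196257366053398511616) 128 256 256 288 64 128))) = true := by decide +kernel
  have c2 : (band (go 16 Gd mult S430_488_216_364 (Tr.lf 22011807880 95107530 2668099283889486588576530432) 192 256 288 320 0 128)
  (go 16 Gd mult S430_488_364_512 (Tr.lf 22011807876 95107530 2635458286759891600859463680) 192 256 288 320 0 128)) = true := by decide +kernel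
  have c3 : (band (go 16 Gd mult S430_488_364_512 (Tr.lf 17716840584 103635401 2959450406416612219680718848) 128 192 288 320 0 128)
  (go 16 Gd mult S430_488_512_660 (Tr.lf 17716840584 103635401 2952196851498924444632481792) 128 192 288 320 0 128)) = true := by decide +kernel
  have c4 : (band (go 16 Gd mult S430_488_364_512 (Tr.lf 22013904008 95378122 1137599196257366053398511616) 128 256 256 288 64 128)
  (band (go 16 Gd mult S430_488_512_660 (Tr.lf 22013904008 95378122 1137599196257366053398511616) 128 256 256 288 64 128)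
  (go 16 Gd mult S401_430_660_808 (Tr.lf 22560261192 107711434 646775313493826608467804160) 128 256 256 288 64 128))) = true := by decide +kernel
  have c5 : (go 16 Gd mult S430_488_512_660 (Tr.lf 22011807876 95107530 2602817289630296613142396928) 192 256 288 320 0 128) = true := by decide +kernel
  have c6 : (go 16 Gd mult S372_401_660_808 (Tr.lf 12885051464 108235845 0) 128 256 256 288 0 128) = true := by decide +kernel
  have c7 : (go 16 Gd mult S372_430_660_808 (Tr.lf 17716905000 99707464 1179911599943878074513227776) 128 256 288 304 0 128) = true := by decide +kernel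
  have c8 : (band (go 16 Gd mult S430_488_364_512 (Tr.lf 22011790468 103901768 0) 192 256 256 288 0 64)
  (band (go 16 Gd mult S430_488_512_660 (Tr.lf 22011790468 103901768 0) 192 256 256 288 0 64)
  (band (go 16 Gd mult S430_488_364_512 (Tr.lf 22012838980 99310281 0) 128 192 256 288 0 64)
  (go 16 Gd mult S430_488_512_660 (Tr.lf 22012838466 99568329 0) 128 192 256 288 0 64)))) = true := by decide +kernel
  have c9 : (band (go 16 Gd mult S372_430_660_808 (Tr.lf 17716823076 103643720 2001981157281825913313427456) 192 256 304 320 0 128)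
  (go 16 Gd mult S372_430_660_808 (Tr.lf 13430243874 108235718 3139607820741117720234295296) 128 192 304 320 0 128)) = true := by decide +kernel
  (And.intro (Ok.s3 401 (Ok.lf S372_401_660_808_ok c6)
  (Ok.s2 64 (Ok.lf S401_430_660_808_ok (bl (br c1)))
  (Ok.lf S401_430_660_808_ok (br (br c4)))))
  (And.intro (Ok.s1 304 (Ok.lf S372_430_660_808_ok c7)
  (Ok.s0 192 (Ok.lf S372_430_660_808_ok (br c9))
  (Ok.lf S372_430_660_808_ok (bl c9))))
  (And.intro (Ok.s4 364 (Ok.s1 288 (Ok.s2 64 (Ok.lf S430_488_216_364_ok (bl c1))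
  (Ok.lf S430_488_216_364_ok (br (br c1))))
  (Ok.s0 192 (Ok.lf S430_488_216_364_ok c0)
  (Ok.lf S430_488_216_364_ok (bl c2))))
  (Ok.s1 288 (Ok.s2 64 (Ok.s0 192 (Ok.lf S430_488_364_512_ok (bl (br (br c8))))
  (Ok.lf S430_488_364_512_ok (bl c8)))
  (Ok.lf S430_488_364_512_ok (bl c4)))
  (Ok.s0 192 (Ok.lf S430_488_364_512_ok (bl c3))
  (Ok.lf S430_488_364_512_ok (br c2)))))
  (Ok.s1 288 (Ok.s2 64 (Ok.s0 192 (Ok.lf S430_488_512_660_ok (br (br (br c8))))
  (Ok.lf S430_488_512_660_ok (bl (br c8))))
  (Ok.lf S430_488_512_660_ok (bl (br c4))))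
  (Ok.s0 192 (Ok.lf S430_488_512_660_ok (br c3))
  (Ok.lf S430_488_512_660_ok c5))))))

end Vale.Agent.P098.Ck
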