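import Vale.Agent.P098.CkGd
import Vale.Agent.P098.CkOk
import Vale.Agent.P098.Sh.A0
import Vale.Agent.P098.Sh.A1
import Vale.Agent.P098.Sh.A14
import Vale.Agent.P098.Sh.A17
import Vale.Agent.P098.Sh.A2
import Vale.Agent.P098.Sh.A20
import Vale.Agent.P098.Sh.A4
import Vale.Agent.P098.Sh.A5
import Vale.Agent.P098.Sh.A59
import Vale.Agent.P098.Sh.A8

namespace Vale.Agent.P098.Ck

theorem r346 :
    Ok Gd mult 128 192 256 320 0 128 430 488 660 808 ∧
    Ok Gd mult 192 256 256 320 0 128 430 488 660 808 ∧
    Ok Gd mult 128 256 256 320 128 256 24 140 216 808 ∧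
    Ok Gd mult 128 192 256 288 128 256 140 198 216 364 :=
  have c0 : (band (go 16 Gd mult S82_140_364_512 (Tr.lf 9128020104 112168133 146280024173370130139447296) 128 256 256 320 128 256)
  (go 16 Gd mult S82_140_512_660 (Tr.lf 9128019076 104168645 94296213929941075627081728) 128 256 256 320 128 256)) = true := by decide +kernel
  have c1 : (band (go 16 Gd mult S183_198_216_364 (Tr.lf 17736173636 95251529 0) 128 192 256 272 128 256)
  (go 16 Gd mult S169_183_216_364 (Tr.lf 17736157220 99449801 0) 128 192 256 272 128 256)) = true := by decide +kernel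
  have c2 : (band (go 16 Gd mult S430_488_660_808 (Tr.lf 22011807880 95107530 2588310179794921063045922816) 192 256 288 320 0 128)
  (band (go 16 Gd mult S430_488_660_808 (Tr.lf 22551824516 107699146 1136390270437751424223805440) 128 192 256 288 0 128)
  (go 16 Gd mult S430_488_660_808 (Tr.lf 22013903940 95378377 0) 192 256 256 288 64 128))) = true := by decide +kernel
  have c3 : (go 16 Gd mult S430_488_660_808 (Tr.lf 17716840520 103770696 2745470536344822855757725696) 128 192 288 304 0 128) = true := by decide +kernel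
  have c4 : (go 16 Gd mult S169_198_216_364 (Tr.lf 12894881828 103902279 1188374080681180478736171008) 128 192 272 288 128 256) = true := by decide +kernel
  have c5 : (band (go 16 Gd mult S111_140_216_364 (Tr.lf 9128133764 112168133 176503169663735859507101696) 128 256 256 320 128 256)
  (band (go 16 Gd mult S82_140_660_808 (Tr.lf 8591148100 104037573 113639027043775142422380544) 128 256 256 320 128 256)
  (band (go 16 Gd mult S24_82_216_364 (Tr.lf 8591066180 99847237 510166695877373511726006272) 128 256 256 320 128 256)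
  (band (go 16 Gd mult S24_82_364_512 (Tr.lf 8591066180 99847237 517420250795061286774243328) 128 256 256 320 128 256)
  (band (go 16 Gd mult S82_111_216_364 (Tr.lf 9127994436 112430149 176503169663735859507101696) 128 256 256 320 128 256)
  (go 16 Gd mult S24_82_512_660 (Tr.lf 8591065668 103910724 535554138089280724394835968) 128 256 256 320 128 256)))))) = true := by decide +kernel
  have c6 : (go 16 Gd mult S140_169_216_364 (Tr.lf 13431490628 99711943 476316772928163894834233344) 128 192 256 288 128 256) = true := by decide +kernel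
  have c7 : (go 16 Gd mult S430_488_660_808 (Tr.lf 22011790468 103901768 0) 192 256 256 288 0 64) = true := by decide +kernel
  have c8 : (go 16 Gd mult S24_82_660_808 (Tr.lf 8591057988 103910724 553688025383500162015428608) 128 256 256 320 128 256) = true := by decide +kernel
  have c9 : (go 16 Gd mult S430_488_660_808 (Tr.lf 13421847058 112163782 4811524762066224115330580480) 128 192 304 320 0 128) = true := by decide +kernel
  (And.intro (Ok.s1 288 (Ok.lf S430_488_660_808_ok (bl (br c2)))
  (Ok.s1 304 (Ok.lf S430_488_660_808_ok c3)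
  (Ok.lf S430_488_660_808_ok c9)))
  (And.intro (Ok.s1 288 (Ok.s2 64 (Ok.lf S430_488_660_808_ok c7)
  (Ok.lf S430_488_660_808_ok (br (br c2))))
  (Ok.lf S430_488_660_808_ok (bl c2)))
  (And.intro (Ok.s3 82 (Ok.s4 512 (Ok.s4 364 (Ok.lf S24_82_216_364_ok (bl (br (br c5))))
  (Ok.lf S24_82_364_512_ok (bl (br (br (br c5))))))
  (Ok.s4 660 (Ok.lf S24_82_512_660_ok (br (br (br (br (br c5))))))
  (Ok.lf S24_82_660_808_ok c8)))
  (Ok.s4 512 (Ok.s4 364 (Ok.s3 111 (Ok.lf S82_111_216_364_ok (bl (br (br (br (br c5))))))
  (Ok.lf S111_140_216_364_ok (bl c5)))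
  (Ok.lf S82_140_364_512_ok (bl c0)))
  (Ok.s4 660 (Ok.lf S82_140_512_660_ok (br c0))
  (Ok.lf S82_140_660_808_ok (bl (br c5))))))
  (Ok.s3 169 (Ok.lf S140_169_216_364_ok c6)
  (Ok.s1 272 (Ok.s3 183 (Ok.lf S169_183_216_364_ok (br c1))
  (Ok.lf S183_198_216_364_ok (bl c1)))
  (Ok.lf S169_198_216_364_ok c4))))))

end Vale.Agent.P098.Ck
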