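import Vale.Agent.P098.CkGd
import Vale.Agent.P098.CkOk
import Vale.Agent.P098.Sh.A10
import Vale.Agent.P098.Sh.A17
import Vale.Agent.P098.Sh.A18
import Vale.Agent.P098.Sh.A19
import Vale.Agent.P098.Sh.A25
import Vale.Agent.P098.Sh.A36
import Vale.Agent.P098.Sh.A8
import Vale.Agent.P098.Sh.A9

namespace Vale.Agent.P098.Ck

theorem r347 :
    Ok Gd mult 192 256 256 288 128 256 140 198 216 364 ∧
    Ok Gd mult 128 256 288 320 128 256 140 198 216 364 ∧
    Ok Gd mult 128 256 256 320 128 256 140 198 364 512 ∧
    Ok Gd mult 128 256 256 320 128 256 140 198 512 808 ∧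
    Ok Gd mult 128 192 256 272 128 192 198 256 216 364 :=
  have c0 : (band (go 16 Gd mult S169_198_216_364 (Tr.lf 22031140932 86469451 0) 192 256 256 288 128 256)
  (band (go 16 Gd mult S169_198_364_512 (Tr.lf 17734846530 95255369 0) 192 256 256 288 128 256)
  (go 16 Gd mult S140_169_216_364 (Tr.lf 17727505442 86862793 0) 192 256 256 288 128 256))) = true := by decide +kernel
  have c1 : (band (go 16 Gd mult S169_198_216_364 (Tr.lf 13430704200 103652167 4142988783819334181718065152) 128 256 304 320 128 256)
  (go 16 Gd mult S169_198_364_512 (Tr.lf 8590214184 99720261 2821636607740244497775722902) 128 256 304 320 128 256)) = true := by decide +kernel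
  have c2 : (go 16 Gd mult S169_198_364_512 (Tr.lf 17734862980 99453641 732609046686465279871942656) 128 192 256 288 128 256) = true := by decide +kernel
  have c3 : (band (go 16 Gd mult S169_198_512_660 (Tr.lf 13431490632 107969607 55610587702272942036484096) 128 256 256 288 128 256)
  (go 16 Gd mult S140_169_364_512 (Tr.lf 13431490628 95521735 116056878683004400771792896) 128 256 256 288 128 256)) = true := by decide +kernel
  have c4 : (band (go 16 Gd mult S169_198_660_808 (Tr.lf 12893570184 95394503 136608617616453096741797888) 128 256 256 320 128 256)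
  (band (go 16 Gd mult S140_169_512_660 (Tr.lf 12886099080 95255495 280470790150593968531832832) 128 256 256 320 128 256)
  (go 16 Gd mult S140_169_660_808 (Tr.lf 12885050436 95382215 112430101224160513247674368) 128 256 256 320 128 256))) = true := by decide +kernel
  have c5 : (band (go 16 Gd mult S198_227_216_364 (Tr.lf 17735124036 104037320 0) 128 192 256 272 128 192)
  (go 16 Gd mult S227_256_216_364 (Tr.lf 17734075428 104037064 0) 128 192 256 272 128 192)) = true := by decide +kernel
  have c6 : (band (go 16 Gd mult S169_198_216_364 (Tr.lf 17726456872 95120201 2317510796201244127911739392) 128 256 288 304 128 256)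
  (go 16 Gd mult S169_198_364_512 (Tr.lf 12885042212 95509319 1322572668148543197896573179) 128 256 288 304 128 256)) = true := by decide +kernel
  have c7 : (band (go 16 Gd mult S140_169_216_364 (Tr.lf 8590214212 99843141 1424151545900898058231611439) 128 256 288 320 128 256)
  (band (go 16 Gd mult S169_198_512_660 (Tr.lf 12885050404 95509319 1005860906634767680714048068) 128 256 288 320 128 256)
  (go 16 Gd mult S140_169_364_512 (Tr.lf 8590083108 103906373 1154566622321766817973994177) 128 256 288 320 128 256))) = true := by decide +kernel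
  (And.intro (Ok.s3 169 (Ok.lf S140_169_216_364_ok (br (br c0)))
  (Ok.lf S169_198_216_364_ok (bl c0)))
  (And.intro (Ok.s3 169 (Ok.lf S140_169_216_364_ok (bl c7))
  (Ok.s1 304 (Ok.lf S169_198_216_364_ok (bl c6))
  (Ok.lf S169_198_216_364_ok (bl c1))))
  (And.intro (Ok.s3 169 (Ok.s1 288 (Ok.lf S140_169_364_512_ok (br c3))
  (Ok.lf S140_169_364_512_ok (br (br c7))))
  (Ok.s1 288 (Ok.s0 192 (Ok.lf S169_198_364_512_ok c2)
  (Ok.lf S169_198_364_512_ok (bl (br c0))))
  (Ok.s1 304 (Ok.lf S169_198_364_512_ok (br c6))
  (Ok.lf S169_198_364_512_ok (br c1)))))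
  (And.intro (Ok.s4 660 (Ok.s3 169 (Ok.lf S140_169_512_660_ok (bl (br c4)))
  (Ok.s1 288 (Ok.lf S169_198_512_660_ok (bl c3))
  (Ok.lf S169_198_512_660_ok (bl (br c7)))))
  (Ok.s3 169 (Ok.lf S140_169_660_808_ok (br (br c4)))
  (Ok.lf S169_198_660_808_ok (bl c4))))
  (Ok.s3 227 (Ok.lf S198_227_216_364_ok (bl c5))
  (Ok.lf S227_256_216_364_ok (br c5)))))))

end Vale.Agent.P098.Ck
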