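import Vale.Agent.P098.CkGd
import Vale.Agent.P098.CkOk
import Vale.Agent.P098.Sh.A0
import Vale.Agent.P098.Sh.A28
import Vale.Agent.P098.Sh.A29
import Vale.Agent.P098.Sh.A43
import Vale.Agent.P098.Sh.A44
import Vale.Agent.P098.Sh.A49
import Vale.Agent.P098.Sh.A50
import Vale.Agent.P098.Sh.A54
import Vale.Agent.P098.Sh.A55
import Vale.Agent.P098.Sh.A58
import Vale.Agent.P098.Sh.A59

namespace Vale.Agent.P098.Ck

theorem r35 :
    Ok Gd mult 0 128 64 128 256 384 198 256 216 808 ∧
    Ok Gd mult 0 128 64 128 256 384 256 488 216 808 ∧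
    Ok Gd mult 0 128 64 128 384 448 24 82 216 364 :=
  have c0 : (band (go 16 Gd mult S198_256_216_364 (Tr.lf 8685698 104172485 0) 0 128 64 128 256 384)
  (band (go 16 Gd mult S198_256_364_512 (Tr.lf 8684674 108235717 0) 0 128 64 128 256 384)
  (go 16 Gd mult S256_314_216_364 (Tr.lf 622101634 104041670 0) 0 128 64 128 256 384))) = true := by decide +kernel
  have c1 : (go 16 Gd mult S24_82_216_364 (Tr.lf 539068548 107969733 0) 0 128 64 128 384 448) = true := by decide +kernel
  have c2 : (band (go 16 Gd mult S314_372_660_808 (Tr.lf 623150210 104041543 0) 0 128 64 128 256 384)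
  (band (go 16 Gd mult S314_372_364_512 (Tr.lf 623019138 104172615 0) 0 128 64 128 256 384)
  (band (go 16 Gd mult S314_372_512_660 (Tr.lf 623019138 104041543 0) 0 128 64 128 256 384)
  (go 16 Gd mult S372_430_512_660 (Tr.lf 539133058 107973447 0) 0 128 64 128 256 384)))) = true := by decide +kernel
  have c3 : (band (go 16 Gd mult S372_430_660_808 (Tr.lf 539133058 104037191 0) 0 128 64 128 256 384)
  (band (go 16 Gd mult S198_256_512_660 (Tr.lf 8684610 108239685 0) 0 128 64 128 256 384)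
  (band (go 16 Gd mult S314_372_216_364 (Tr.lf 623150146 108108871 0) 0 128 64 128 256 384)
  (band (go 16 Gd mult S430_488_216_364 (Tr.lf 539068482 95648838 0) 0 128 64 128 256 384)
  (go 16 Gd mult S430_488_364_512 (Tr.lf 539068482 95648838 0) 0 128 64 128 256 384))))) = true := by decide +kernel
  have c4 : (band (go 16 Gd mult S430_488_512_660 (Tr.lf 539068482 95648838 0) 0 128 64 128 256 384)
  (band (go 16 Gd mult S256_314_512_660 (Tr.lf 8553538 108108868 0) 0 128 64 128 256 384)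
  (band (go 16 Gd mult S372_430_216_364 (Tr.lf 539132994 107973702 0) 0 128 64 128 256 384)
  (band (go 16 Gd mult S372_430_364_512 (Tr.lf 539132994 108231750 0) 0 128 64 128 256 384)
  (band (go 16 Gd mult S198_256_660_808 (Tr.lf 8668226 104041540 0) 0 128 64 128 256 384)
  (go 16 Gd mult S256_314_364_512 (Tr.lf 622085186 99974342 0) 0 128 64 128 256 384)))))) = true := by decide +kernel
  have c5 : (band (go 16 Gd mult S430_488_660_808 (Tr.lf 539067458 95648838 0) 0 128 64 128 256 384)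
  (go 16 Gd mult S256_314_660_808 (Tr.lf 9601602 108113092 0) 0 128 64 128 256 384)) = true := by decide +kernel
  (And.intro (Ok.s4 512 (Ok.s4 364 (Ok.lf S198_256_216_364_ok (bl c0))
  (Ok.lf S198_256_364_512_ok (bl (br c0))))
  (Ok.s4 660 (Ok.lf S198_256_512_660_ok (bl (br c3)))
  (Ok.lf S198_256_660_808_ok (bl (br (br (br (br c4))))))))
  (And.intro (Ok.s3 372 (Ok.s3 314 (Ok.s4 512 (Ok.s4 364 (Ok.lf S256_314_216_364_ok (br (br c0)))
  (Ok.lf S256_314_364_512_ok (br (br (br (br (br c4)))))))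
  (Ok.s4 660 (Ok.lf S256_314_512_660_ok (bl (br c4)))
  (Ok.lf S256_314_660_808_ok (br c5))))
  (Ok.s4 512 (Ok.s4 364 (Ok.lf S314_372_216_364_ok (bl (br (br c3))))
  (Ok.lf S314_372_364_512_ok (bl (br c2))))
  (Ok.s4 660 (Ok.lf S314_372_512_660_ok (bl (br (br c2))))
  (Ok.lf S314_372_660_808_ok (bl c2)))))
  (Ok.s3 430 (Ok.s4 512 (Ok.s4 364 (Ok.lf S372_430_216_364_ok (bl (br (br c4))))
  (Ok.lf S372_430_364_512_ok (bl (br (br (br c4))))))
  (Ok.s4 660 (Ok.lf S372_430_512_660_ok (br (br (br c2))))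
  (Ok.lf S372_430_660_808_ok (bl c3))))
  (Ok.s4 512 (Ok.s4 364 (Ok.lf S430_488_216_364_ok (bl (br (br (br c3)))))
  (Ok.lf S430_488_364_512_ok (br (br (br (br c3))))))
  (Ok.s4 660 (Ok.lf S430_488_512_660_ok (bl c4))
  (Ok.lf S430_488_660_808_ok (bl c5))))))
  (Ok.lf S24_82_216_364_ok c1)))

end Vale.Agent.P098.Ck
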