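import Vale.Agent.P098.CkGd
import Vale.Agent.P098.CkOk
import Vale.Agent.P098.Sh.A27
import Vale.Agent.P098.Sh.A29
import Vale.Agent.P098.Sh.A37
import Vale.Agent.P098.Sh.A38
import Vale.Agent.P098.Sh.A41
import Vale.Agent.P098.Sh.A45

namespace Vale.Agent.P098.Ck

theorem r350 :
    Ok Gd mult 128 256 256 288 128 256 198 256 512 586 ∧
    Ok Gd mult 128 256 288 320 128 256 198 256 512 586 ∧
    Ok Gd mult 128 256 256 320 128 256 198 256 586 660 ∧
    Ok Gd mult 128 256 256 320 128 256 198 256 660 808 ∧
    Ok Gd mult 128 256 256 288 128 256 256 314 216 364 :=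
  have c0 : (go 16 Gd mult S227_256_512_586 (Tr.lf 17733814344 99584712 0) 128 256 256 272 128 256) = true := by decide +kernel
  have c1 : (go 16 Gd mult S227_256_586_660 (Tr.lf 17733814404 99322568 397736594653212998478331904) 128 192 256 320 128 256) = true := by decide +kernel
  have c2 : (go 16 Gd mult S256_285_216_364 (Tr.lf 22565914692 99437130 0) 192 256 256 272 128 256) = true := by decide +kernel
  have c3 : (band (go 16 Gd mult S198_256_512_586 (Tr.lf 12885067848 99703623 1009492646553750542358545998) 128 256 288 320 128 256)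
  (go 16 Gd mult S198_256_660_808 (Tr.lf 12885197896 91319238 97950108129412979149837937) 128 256 288 320 128 256)) = true := by decide +kernel
  have c4 : (go 16 Gd mult S198_256_586_660 (Tr.lf 13430327428 107977415 253874422119072126688296960) 192 256 256 320 128 256) = true := by decide +kernel
  have c5 : (band (go 16 Gd mult S198_227_512_586 (Tr.lf 17733814340 103516872 285306493429052485230657536) 128 192 256 288 128 256)
  (band (go 16 Gd mult S285_314_216_364 (Tr.lf 12893571140 108231622 616552168003460879100149760) 128 192 256 288 128 256)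
  (go 16 Gd mult S198_227_586_660 (Tr.lf 13430310980 112294854 105176546306472738199437312) 128 192 256 288 128 256))) = true := by decide +kernel
  have c6 : (band (go 16 Gd mult S198_227_660_808 (Tr.lf 13430442056 103910342 0) 128 256 256 288 128 256)
  (go 16 Gd mult S227_256_660_808 (Tr.lf 13430703176 107973574 0) 128 256 256 288 128 256)) = true := by decide +kernel
  have c7 : (band (go 16 Gd mult S256_285_216_364 (Tr.lf 22574286916 103643594 0) 128 192 256 272 128 256)
  (go 16 Gd mult S256_285_216_364 (Tr.lf 22029027364 90921546 0) 192 256 272 288 128 256)) = true := by decide +kernel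
  have c8 : (go 16 Gd mult S227_256_512_586 (Tr.lf 12893440040 103783366 153533579091057905187684352) 128 256 272 288 128 256) = true := by decide +kernel
  have c9 : (go 16 Gd mult S256_285_216_364 (Tr.lf 12893571108 104033350 1207716893795014545531469824) 128 192 272 288 128 256) = true := by decide +kernel
  have c10 : (band (go 16 Gd mult S285_314_216_364 (Tr.lf 18271717442 103910344 0) 192 256 256 288 128 256)
  (go 16 Gd mult S198_227_512_586 (Tr.lf 13430309922 107977670 0) 192 256 256 288 128 256)) = true := by decide +kernel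
  have c11 : (go 16 Gd mult S198_227_586_660 (Tr.lf 12884976674 95382215 1027624763083262534900582450) 128 192 288 320 128 256) = true := by decide +kernel
  (And.intro (Ok.s3 227 (Ok.s0 192 (Ok.lf S198_227_512_586_ok (bl c5))
  (Ok.lf S198_227_512_586_ok (br c10)))
  (Ok.s1 272 (Ok.lf S227_256_512_586_ok c0)
  (Ok.lf S227_256_512_586_ok c8)))
  (And.intro (Ok.lf S198_256_512_586_ok (bl c3))
  (And.intro (Ok.s0 192 (Ok.s3 227 (Ok.s1 288 (Ok.lf S198_227_586_660_ok (br (br c5)))
  (Ok.lf S198_227_586_660_ok c11))
  (Ok.lf S227_256_586_660_ok c1))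
  (Ok.lf S198_256_586_660_ok c4))
  (And.intro (Ok.s1 288 (Ok.s3 227 (Ok.lf S198_227_660_808_ok (bl c6))
  (Ok.lf S227_256_660_808_ok (br c6)))
  (Ok.lf S198_256_660_808_ok (br c3)))
  (Ok.s0 192 (Ok.s3 285 (Ok.s1 272 (Ok.lf S256_285_216_364_ok (bl c7))
  (Ok.lf S256_285_216_364_ok c9))
  (Ok.lf S285_314_216_364_ok (bl (br c5))))
  (Ok.s3 285 (Ok.s1 272 (Ok.lf S256_285_216_364_ok c2)
  (Ok.lf S256_285_216_364_ok (br c7)))
  (Ok.lf S285_314_216_364_ok (bl c10))))))))

end Vale.Agent.P098.Ck
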