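import Vale.Agent.P098.CkGd
import Vale.Agent.P098.CkOk
import Vale.Agent.P098.Sh.A41
import Vale.Agent.P098.Sh.A42
import Vale.Agent.P098.Sh.A43
import Vale.Agent.P098.Sh.A45
import Vale.Agent.P098.Sh.A46

namespace Vale.Agent.P098.Ck

theorem r351 :
    Ok Gd mult 128 256 288 320 128 256 256 314 216 364 ∧
    Ok Gd mult 128 256 256 320 128 256 256 314 364 512 ∧
    Ok Gd mult 128 256 256 320 128 256 256 314 512 586 :=
  have c0 : (go 16 Gd mult S256_285_364_512 (Tr.lf 22641412164 107968970 0) 128 192 256 272 128 256) = true := by decide +kernel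
  have c1 : (go 16 Gd mult S256_285_512_586 (Tr.lf 17725425796 103643975 83415881553409413054726144) 128 192 256 288 128 256) = true := by decide +kernel
  have c2 : (band (go 16 Gd mult S256_314_216_364 (Tr.lf 17725687844 99572552 1611498117546300689883332608) 192 256 288 304 128 256)
  (go 16 Gd mult S256_314_216_364 (Tr.lf 13430719556 99846983 4372684689546113724912238592) 192 256 304 320 192 256)) = true := by decide +kernel
  have c3 : (go 16 Gd mult S256_314_512_586 (Tr.lf 13430327428 107977670 224860202448321026495348736) 192 256 256 320 128 256) = true := by decide +kernel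
  have c4 : (band (go 16 Gd mult S256_285_364_512 (Tr.lf 22641395780 103643722 0) 192 256 256 288 128 256)
  (go 16 Gd mult S256_285_364_512 (Tr.lf 17188800548 95251144 892187254875596330933157888) 128 192 272 288 128 256)) = true := by decide +kernel
  have c5 : (go 16 Gd mult S256_314_216_364 (Tr.lf 12885198884 104025158 2348953566671489057587659613) 128 192 288 304 128 256) = true := by decide +kernel
  have c6 : (go 16 Gd mult S256_314_216_364 (Tr.lf 17725686340 103639880 3058582323625011812006625280) 192 256 304 320 128 192) = true := by decide +kernel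
  have c7 : (band (go 16 Gd mult S285_314_364_512 (Tr.lf 12893570120 95652806 635894981117294945895448576) 128 256 256 288 192 256)
  (band (go 16 Gd mult S285_314_364_512 (Tr.lf 12893569608 99847110 108803323765316625723555840) 128 256 256 288 128 192)
  (go 16 Gd mult S285_314_364_512 (Tr.lf 12885181508 99711942 1156970565129470316044682077) 128 256 288 320 128 256))) = true := by decide +kernel
  have c8 : (go 16 Gd mult S285_314_512_586 (Tr.lf 12893439106 103783238 342126006950940056441847808) 128 192 256 320 128 256) = true := by decide +kernel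
  have c9 : (go 16 Gd mult S256_285_364_512 (Tr.lf 12885181476 95640646 1084416273998405550716748200) 128 256 288 304 128 256) = true := by decide +kernel
  have c10 : (go 16 Gd mult S256_285_364_512 (Tr.lf 13430432804 103910470 2426314119966560753635295232) 192 256 304 320 128 256) = true := by decide +kernel
  have c11 : (go 16 Gd mult S256_314_216_364 (Tr.sp 0 160 Tr.skip (Tr.lf 13497418770 108231495 5137961315120384207965126656)) 128 192 304 320 128 256) = true := by decide +kernel
  have c12 : (go 16 Gd mult S256_285_512_586 (Tr.lf 12885042210 95382470 956296719124885353524301829) 128 192 288 320 128 256) = true := by decide +kernel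
  have c13 : (go 16 Gd mult S256_285_364_512 (Tr.lf 8590074386 104037445 3404378993018812442950566671) 128 192 304 320 128 256) = true := by decide +kernel
  (And.intro (Ok.s0 192 (Ok.s1 304 (Ok.lf S256_314_216_364_ok c5)
  (Ok.lf S256_314_216_364_ok c11))
  (Ok.s1 304 (Ok.lf S256_314_216_364_ok (bl c2))
  (Ok.s2 192 (Ok.lf S256_314_216_364_ok c6)
  (Ok.lf S256_314_216_364_ok (br c2)))))
  (And.intro (Ok.s3 285 (Ok.s1 288 (Ok.s0 192 (Ok.s1 272 (Ok.lf S256_285_364_512_ok c0)
  (Ok.lf S256_285_364_512_ok (br c4)))
  (Ok.lf S256_285_364_512_ok (bl c4)))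
  (Ok.s1 304 (Ok.lf S256_285_364_512_ok c9)
  (Ok.s0 192 (Ok.lf S256_285_364_512_ok c13)
  (Ok.lf S256_285_364_512_ok c10))))
  (Ok.s1 288 (Ok.s2 192 (Ok.lf S285_314_364_512_ok (bl (br c7)))
  (Ok.lf S285_314_364_512_ok (bl c7)))
  (Ok.lf S285_314_364_512_ok (br (br c7)))))
  (Ok.s0 192 (Ok.s3 285 (Ok.s1 288 (Ok.lf S256_285_512_586_ok c1)
  (Ok.lf S256_285_512_586_ok c12))
  (Ok.lf S285_314_512_586_ok c8))
  (Ok.lf S256_314_512_586_ok c3))))

end Vale.Agent.P098.Ck
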