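import Vale.Agent.P098.CkGd
import Vale.Agent.P098.CkOk
import Vale.Agent.P098.Sh.A42
import Vale.Agent.P098.Sh.A46
import Vale.Agent.P098.Sh.A47
import Vale.Agent.P098.Sh.A48
import Vale.Agent.P098.Sh.A49
import Vale.Agent.P098.Sh.A51
import Vale.Agent.P098.Sh.A52

namespace Vale.Agent.P098.Ck

theorem r352 :
    Ok Gd mult 128 256 256 320 128 256 256 314 586 660 ∧
    Ok Gd mult 128 256 256 320 128 256 256 314 660 808 ∧
    Ok Gd mult 128 256 256 320 128 256 314 372 216 808 :=
  have c0 : (band (go 16 Gd mult S343_372_364_512 (Tr.lf 13423102088 104037319 684252013901880112883695616) 128 256 256 320 128 256)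
  (go 16 Gd mult S285_314_660_808 (Tr.lf 12885181572 99711814 315529638919418214598311936) 128 256 256 320 128 256)) = true := by decide +kernel
  have c1 : (band (go 16 Gd mult S314_372_216_364 (Tr.lf 12885197896 99711687 1577668707733174204892382403) 128 256 288 320 128 256)
  (band (go 16 Gd mult S314_343_364_512 (Tr.lf 12885173316 99580870 818478622180377859721069501) 128 256 288 320 128 256)
  (band (go 16 Gd mult S314_343_512_660 (Tr.lf 12885050436 95644614 172923155036078824048362429) 128 256 288 320 128 256)
  (band (go 16 Gd mult S256_285_660_808 (Tr.lf 8590205988 108112964 444886122017477211927347200) 128 256 288 320 128 256)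
  (go 16 Gd mult S256_285_586_660 (Tr.lf 12885042212 99576774 99173497024398980634447112) 128 256 288 320 128 256))))) = true := by decide +kernel
  have c2 : (band (go 16 Gd mult S343_372_512_660 (Tr.lf 13423102084 108096455 733823488082557948202582016) 128 192 256 320 128 256)
  (go 16 Gd mult S314_343_660_808 (Tr.lf 12894619780 95525958 345767781634389644904693789) 128 192 256 320 128 256)) = true := by decide +kernel
  have c3 : (go 16 Gd mult S343_372_660_808 (Tr.lf 13432555588 104045384 152335352413124051927498799) 128 192 256 288 128 256) = true := by decide +kernel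
  have c4 : (band (go 16 Gd mult S314_343_216_364 (Tr.lf 12893570120 95652551 175294243844121230332395520) 128 256 256 288 128 256)
  (band (go 16 Gd mult S314_343_512_660 (Tr.lf 12894618696 99716039 1752448849901287964719) 128 256 256 288 128 256)
  (band (go 16 Gd mult S256_285_586_660 (Tr.lf 13430309960 107973574 0) 128 256 256 288 128 256)
  (go 16 Gd mult S256_285_660_808 (Tr.lf 12893570116 103783238 0) 128 256 256 288 128 256)))) = true := by decide +kernel
  have c5 : (band (go 16 Gd mult S343_372_216_364 (Tr.lf 12885181508 99838663 291351122527125631104188416) 128 256 256 288 128 256)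
  (go 16 Gd mult S314_343_364_512 (Tr.lf 12893570116 103910087 0) 128 256 256 288 128 256)) = true := by decide +kernel
  have c6 : (go 16 Gd mult S343_372_660_808 (Tr.lf 12885181508 95513287 1158190521903596930066284544) 128 192 288 320 128 256) = true := by decide +kernel
  have c7 : (band (go 16 Gd mult S343_372_660_808 (Tr.lf 8590083202 108112837 338499229492096168917729280) 192 256 256 320 128 256)
  (band (go 16 Gd mult S343_372_512_660 (Tr.lf 12885050434 99711687 505330992598914995027181568) 192 256 256 320 128 256)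
  (go 16 Gd mult S314_343_660_808 (Tr.lf 8590074434 112430276 0) 192 256 256 320 128 256))) = true := by decide +kernel
  have c8 : (go 16 Gd mult S285_314_586_660 (Tr.lf 12893439044 95398726 158369282369516421886509056) 128 256 256 320 128 256) = true := by decide +kernel
  (And.intro (Ok.s3 285 (Ok.s1 288 (Ok.lf S256_285_586_660_ok (bl (br (br c4))))
  (Ok.lf S256_285_586_660_ok (br (br (br (br c1))))))
  (Ok.lf S285_314_586_660_ok c8))
  (And.intro (Ok.s3 285 (Ok.s1 288 (Ok.lf S256_285_660_808_ok (br (br (br c4))))
  (Ok.lf S256_285_660_808_ok (bl (br (br (br c1))))))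
  (Ok.lf S285_314_660_808_ok (br c0)))
  (Ok.s4 512 (Ok.s4 364 (Ok.s1 288 (Ok.s3 343 (Ok.lf S314_343_216_364_ok (bl c4))
  (Ok.lf S343_372_216_364_ok (bl c5)))
  (Ok.lf S314_372_216_364_ok (bl c1)))
  (Ok.s3 343 (Ok.s1 288 (Ok.lf S314_343_364_512_ok (br c5))
  (Ok.lf S314_343_364_512_ok (bl (br c1))))
  (Ok.lf S343_372_364_512_ok (bl c0))))
  (Ok.s4 660 (Ok.s3 343 (Ok.s1 288 (Ok.lf S314_343_512_660_ok (bl (br c4)))
  (Ok.lf S314_343_512_660_ok (bl (br (br c1)))))
  (Ok.s0 192 (Ok.lf S343_372_512_660_ok (bl c2))
  (Ok.lf S343_372_512_660_ok (bl (br c7)))))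
  (Ok.s0 192 (Ok.s3 343 (Ok.lf S314_343_660_808_ok (br c2))
  (Ok.s1 288 (Ok.lf S343_372_660_808_ok c3)
  (Ok.lf S343_372_660_808_ok c6)))
  (Ok.s3 343 (Ok.lf S314_343_660_808_ok (br (br c7)))
  (Ok.lf S343_372_660_808_ok (bl c7))))))))

end Vale.Agent.P098.Ck
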