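import Vale.Agent.P098.CkGd
import Vale.Agent.P098.CkOk
import Vale.Agent.P098.Sh.A54
import Vale.Agent.P098.Sh.A55
import Vale.Agent.P098.Sh.A56
import Vale.Agent.P098.Sh.A57

namespace Vale.Agent.P098.Ck

theorem r353 :
    Ok Gd mult 128 256 256 320 128 256 372 430 216 364 ∧
    Ok Gd mult 128 256 256 320 128 256 372 430 364 512 ∧
    Ok Gd mult 128 256 256 320 128 256 372 430 512 660 :=
  have c0 : (go 16 Gd mult S401_430_364_512 (Tr.lf 22560278600 99314507 0) 128 256 256 272 128 256) = true := by decide +kernel
  have c1 : (band (go 16 Gd mult S372_401_512_660 (Tr.lf 18264246408 103902153 395318743013983740128919552) 128 256 256 288 128 256)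
  (band (go 16 Gd mult S372_401_216_364 (Tr.lf 18264246344 103902153 713266233572631213076643840) 128 256 256 288 128 256)
  (go 16 Gd mult S372_401_364_512 (Tr.lf 18264246344 103902153 546434470465812386967191552) 128 256 256 288 128 256))) = true := by decide +kernel
  have c2 : (band (go 16 Gd mult S401_430_512_660 (Tr.lf 22560278660 99441483 917574697087503543601987584) 128 192 256 288 128 256)
  (go 16 Gd mult S401_430_512_660 (Tr.lf 22560278660 107703115 0) 192 256 256 288 128 256)) = true := by decide +kernel
  have c3 : (go 16 Gd mult S372_401_512_660 (Tr.lf 12886100104 99584967 1941545012018498641037557915) 128 256 288 320 128 256) = true := by decide +kernel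
  have c4 : (go 16 Gd mult S401_430_216_364 (Tr.lf 22560392328 103508811 998572727001683698307301376) 128 256 256 288 192 256) = true := by decide +kernel
  have c5 : (go 16 Gd mult S401_430_216_364 (Tr.lf 22560261256 107703115 938126436020952239571992576) 128 256 256 288 128 192) = true := by decide +kernel
  have c6 : (band (go 16 Gd mult S372_430_216_364 (Tr.lf 17717953608 103508681 4265090291600411728363388928) 128 256 304 320 128 256)
  (band (go 16 Gd mult S401_430_512_660 (Tr.lf 17717862948 95378121 4904612050176550561782956032) 128 256 304 320 128 256)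
  (band (go 16 Gd mult S372_430_216_364 (Tr.lf 17717953576 99441353 2472253301111916662274129920) 128 256 288 304 128 256)
  (band (go 16 Gd mult S372_430_364_512 (Tr.lf 17717953576 99441353 2001981157281825913313427456) 128 256 288 304 128 256)
  (go 16 Gd mult S401_430_512_660 (Tr.lf 17717871652 99449417 2635458286759891600859463680) 128 256 288 304 128 256))))) = true := by decide +kernel
  have c7 : (go 16 Gd mult S401_430_364_512 (Tr.lf 18255792168 103902025 1176284822485034186989109248) 128 256 272 288 128 256) = true := by decide +kernel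
  have c8 : (go 16 Gd mult S372_430_364_512 (Tr.lf 8590017058 108239813 4984423640852141939256983552) 128 192 304 320 128 256) = true := by decide +kernel
  have c9 : (band (go 16 Gd mult S372_401_364_512 (Tr.lf 13422895650 104037319 3033194881413104599337795584) 192 256 304 320 128 256)
  (go 16 Gd mult S401_430_364_512 (Tr.lf 17717858834 99441353 4879224607964643349114126336) 192 256 304 320 128 256)) = true := by decide +kernel
  (And.intro (Ok.s1 288 (Ok.s3 401 (Ok.lf S372_401_216_364_ok (bl (br c1)))
  (Ok.s2 192 (Ok.lf S401_430_216_364_ok c5)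
  (Ok.lf S401_430_216_364_ok c4)))
  (Ok.s1 304 (Ok.lf S372_430_216_364_ok (bl (br (br c6))))
  (Ok.lf S372_430_216_364_ok (bl c6))))
  (And.intro (Ok.s1 288 (Ok.s3 401 (Ok.lf S372_401_364_512_ok (br (br c1)))
  (Ok.s1 272 (Ok.lf S401_430_364_512_ok c0)
  (Ok.lf S401_430_364_512_ok c7)))
  (Ok.s1 304 (Ok.lf S372_430_364_512_ok (bl (br (br (br c6)))))
  (Ok.s0 192 (Ok.lf S372_430_364_512_ok c8)
  (Ok.s3 401 (Ok.lf S372_401_364_512_ok (bl c9))
  (Ok.lf S401_430_364_512_ok (br c9))))))
  (Ok.s1 288 (Ok.s3 401 (Ok.lf S372_401_512_660_ok (bl c1))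
  (Ok.s0 192 (Ok.lf S401_430_512_660_ok (bl c2))
  (Ok.lf S401_430_512_660_ok (br c2))))
  (Ok.s3 401 (Ok.lf S372_401_512_660_ok c3)
  (Ok.s1 304 (Ok.lf S401_430_512_660_ok (br (br (br (br c6)))))
  (Ok.lf S401_430_512_660_ok (bl (br c6))))))))

end Vale.Agent.P098.Ck
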