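import Vale.Agent.P098.CkGd
import Vale.Agent.P098.CkOk
import Vale.Agent.P098.Sh.A54
import Vale.Agent.P098.Sh.A57
import Vale.Agent.P098.Sh.A58
import Vale.Agent.P098.Sh.A59

namespace Vale.Agent.P098.Ck

theorem r354 :
    Ok Gd mult 128 256 256 288 128 256 372 430 660 808 ∧
    Ok Gd mult 128 256 288 320 128 256 372 430 660 808 ∧
    Ok Gd mult 128 256 256 320 128 256 430 488 216 512 :=
  have c0 : (go 16 Gd mult S430_488_216_364 (Tr.lf 18255874184 107834185 1441039576980637976249761792) 128 192 272 288 128 256) = true := by decide +kernel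
  have c1 : (go 16 Gd mult S430_488_364_512 (Tr.lf 18255874184 107834185 1441039576980637976249761792) 128 192 272 288 128 256) = true := by decide +kernel
  have c2 : (go 16 Gd mult S372_401_660_808 (Tr.lf 13432555592 104172488 322784614236399665282023424) 128 256 256 288 128 256) = true := by decide +kernel
  have c3 : (band (go 16 Gd mult S401_430_660_808 (Tr.lf 22560409672 99314507 0) 128 256 256 272 128 256)
  (go 16 Gd mult S459_488_216_364 (Tr.lf 22560213064 95120203 0) 128 256 256 272 128 256)) = true := by decide +kernel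
  have c4 : (band (go 16 Gd mult S430_459_216_364 (Tr.lf 22560409672 95120203 0) 128 256 256 272 128 256)
  (go 16 Gd mult S459_488_364_512 (Tr.lf 22560213064 95120203 0) 128 256 256 272 128 256)) = true := by decide +kernel
  have c5 : (go 16 Gd mult S430_459_364_512 (Tr.lf 22560278600 95120203 0) 128 256 256 272 128 256) = true := by decide +kernel
  have c6 : (go 16 Gd mult S372_401_660_808 (Tr.lf 13424150600 107973576 1751750815732841132870926509) 128 256 288 320 128 256) = true := by decide +kernel
  have c7 : (band (go 16 Gd mult S430_488_216_364 (Tr.lf 17717889096 99310281 2854273860110139481481281536) 128 192 288 304 128 256)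
  (band (go 16 Gd mult S430_488_364_512 (Tr.lf 17717889096 99310281 2854273860110139481481281536) 128 192 288 304 128 256)
  (band (go 16 Gd mult S430_488_364_512 (Tr.lf 22550775844 103500363 0) 192 256 272 288 128 256)
  (go 16 Gd mult S430_488_216_364 (Tr.lf 22550775844 103500363 0) 192 256 272 288 128 256)))) = true := by decide +kernel
  have c8 : (go 16 Gd mult S401_430_660_808 (Tr.lf 18255856680 103902025 1147270602814283086796161024) 128 256 272 288 128 256) = true := by decide +kernel
  have c9 : (go 16 Gd mult S401_430_660_808 (Tr.lf 17717871652 99449417 2582265550696847917172391936) 128 256 288 304 128 256) = true := by decide +kernel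
  have c10 : (band (go 16 Gd mult S430_488_216_364 (Tr.lf 17718920228 103635913 3317292449022542455393746944) 192 256 288 304 128 256)
  (band (go 16 Gd mult S430_488_364_512 (Tr.lf 17718920228 103635913 3299158561728323017773154304) 192 256 288 304 128 256)
  (band (go 16 Gd mult S430_488_364_512 (Tr.lf 17717871652 99314377 6219923341917267103863275520) 128 256 304 320 128 256)
  (band (go 16 Gd mult S430_488_216_364 (Tr.lf 17717871652 99314377 6227176896834954878911512576) 128 256 304 320 128 256)
  (go 16 Gd mult S401_430_660_808 (Tr.lf 17717863460 99572425 4754705248544336544119390208) 128 256 304 320 128 256))))) = true := by decide +kernel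
  (And.intro (Ok.s3 401 (Ok.lf S372_401_660_808_ok c2)
  (Ok.s1 272 (Ok.lf S401_430_660_808_ok (bl c3))
  (Ok.lf S401_430_660_808_ok c8)))
  (And.intro (Ok.s3 401 (Ok.lf S372_401_660_808_ok c6)
  (Ok.s1 304 (Ok.lf S401_430_660_808_ok c9)
  (Ok.lf S401_430_660_808_ok (br (br (br (br c10)))))))
  (Ok.s4 364 (Ok.s1 288 (Ok.s1 272 (Ok.s3 459 (Ok.lf S430_459_216_364_ok (bl c4))
  (Ok.lf S459_488_216_364_ok (br c3)))
  (Ok.s0 192 (Ok.lf S430_488_216_364_ok c0)
  (Ok.lf S430_488_216_364_ok (br (br (br c7))))))
  (Ok.s1 304 (Ok.s0 192 (Ok.lf S430_488_216_364_ok (bl c7))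
  (Ok.lf S430_488_216_364_ok (bl c10)))
  (Ok.lf S430_488_216_364_ok (bl (br (br (br c10)))))))
  (Ok.s1 288 (Ok.s1 272 (Ok.s3 459 (Ok.lf S430_459_364_512_ok c5)
  (Ok.lf S459_488_364_512_ok (br c4)))
  (Ok.s0 192 (Ok.lf S430_488_364_512_ok c1)
  (Ok.lf S430_488_364_512_ok (bl (br (br c7))))))
  (Ok.s1 304 (Ok.s0 192 (Ok.lf S430_488_364_512_ok (bl (br c7)))
  (Ok.lf S430_488_364_512_ok (bl (br c10))))
  (Ok.lf S430_488_364_512_ok (bl (br (br c10)))))))))

end Vale.Agent.P098.Ck
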