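import Vale.Agent.P098.CkGd
import Vale.Agent.P098.CkOk
import Vale.Agent.P098.Sh.A0
import Vale.Agent.P098.Sh.A58
import Vale.Agent.P098.Sh.A59

namespace Vale.Agent.P098.Ck

theorem r355 :
    Ok Gd mult 128 256 256 288 128 256 430 488 512 660 ∧
    Ok Gd mult 128 256 288 320 128 256 430 488 512 660 ∧
    Ok Gd mult 128 256 256 320 128 256 430 488 660 808 ∧
    Ok Gd mult 128 256 256 320 256 384 24 82 216 512 :=
  have c0 : (band (go 16 Gd mult S430_459_512_660 (Tr.lf 22560278664 99314507 0) 128 256 256 272 128 256)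
  (go 16 Gd mult S459_488_512_660 (Tr.lf 22560213064 95120203 0) 128 256 256 272 128 256)) = true := by decide +kernel
  have c1 : (go 16 Gd mult S430_488_512_660 (Tr.lf 18255874184 107834185 1441039576980637976249761792) 128 192 272 288 128 256) = true := by decide +kernel
  have c2 : (band (go 16 Gd mult S430_459_660_808 (Tr.lf 22560278664 99314507 0) 128 256 256 272 128 256)
  (go 16 Gd mult S459_488_660_808 (Tr.lf 22560213064 95120203 0) 128 256 256 272 128 256)) = true := by decide +kernel
  have c3 : (go 16 Gd mult S430_488_660_808 (Tr.lf 18255874184 107834185 1441039576980637976249761792) 128 192 272 288 128 256) = true := by decide +kernel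
  have c4 : (band (go 16 Gd mult S430_488_660_808 (Tr.lf 17717954632 99310281 2854273860110139481481281536) 128 192 288 304 128 256)
  (band (go 16 Gd mult S430_488_512_660 (Tr.lf 17717889096 99310281 2854273860110139481481281536) 128 192 288 304 128 256)
  (go 16 Gd mult S430_488_512_660 (Tr.lf 22550775844 103500363 0) 192 256 272 288 128 256))) = true := by decide +kernel
  have c5 : (go 16 Gd mult S430_488_660_808 (Tr.lf 22550775844 103500363 0) 192 256 272 288 128 256) = true := by decide +kernel
  have c6 : (band (go 16 Gd mult S430_488_512_660 (Tr.lf 17718920228 103635913 3279815748614488950977855488) 192 256 288 304 128 256)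
  (band (go 16 Gd mult S430_488_660_808 (Tr.lf 17718920228 99441609 3271353267877186546754912256) 192 256 288 304 128 256)
  (band (go 16 Gd mult S430_488_660_808 (Tr.lf 17717871652 99314377 6209043009540735441290919936) 128 256 304 320 128 256)
  (go 16 Gd mult S430_488_512_660 (Tr.lf 17717871652 99314377 6212669786999579328815038464) 128 256 304 320 128 256)))) = true := by decide +kernel
  have c7 : (band (go 16 Gd mult S24_82_216_364 (Tr.lf 9127937090 108227398 1826686913437704682981031936) 128 192 256 320 256 384)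
  (band (go 16 Gd mult S24_82_364_512 (Tr.lf 9127937090 112163654 1826686913437704682981031936) 128 192 256 320 256 384)
  (band (go 16 Gd mult S24_82_364_512 (Tr.lf 4296098849 108108996 1692496147460480844588646400) 192 256 256 320 256 384)
  (go 16 Gd mult S24_82_216_364 (Tr.lf 4296098849 108108996 1692496147460480844588646400) 192 256 256 320 256 384)))) = true := by decide +kernel
  (And.intro (Ok.s1 272 (Ok.s3 459 (Ok.lf S430_459_512_660_ok (bl c0))
  (Ok.lf S459_488_512_660_ok (br c0)))
  (Ok.s0 192 (Ok.lf S430_488_512_660_ok c1)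
  (Ok.lf S430_488_512_660_ok (br (br c4)))))
  (And.intro (Ok.s1 304 (Ok.s0 192 (Ok.lf S430_488_512_660_ok (bl (br c4)))
  (Ok.lf S430_488_512_660_ok (bl c6)))
  (Ok.lf S430_488_512_660_ok (br (br (br c6)))))
  (And.intro (Ok.s1 288 (Ok.s1 272 (Ok.s3 459 (Ok.lf S430_459_660_808_ok (bl c2))
  (Ok.lf S459_488_660_808_ok (br c2)))
  (Ok.s0 192 (Ok.lf S430_488_660_808_ok c3)
  (Ok.lf S430_488_660_808_ok c5)))
  (Ok.s1 304 (Ok.s0 192 (Ok.lf S430_488_660_808_ok (bl c4))
  (Ok.lf S430_488_660_808_ok (bl (br c6))))
  (Ok.lf S430_488_660_808_ok (bl (br (br c6))))))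
  (Ok.s4 364 (Ok.s0 192 (Ok.lf S24_82_216_364_ok (bl c7))
  (Ok.lf S24_82_216_364_ok (br (br (br c7)))))
  (Ok.s0 192 (Ok.lf S24_82_364_512_ok (bl (br c7)))
  (Ok.lf S24_82_364_512_ok (bl (br (br c7)))))))))

end Vale.Agent.P098.Ck
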