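import Vale.Agent.P098.CkGd
import Vale.Agent.P098.CkOk
import Vale.Agent.P098.Sh.A1
import Vale.Agent.P098.Sh.A17
import Vale.Agent.P098.Sh.A3
import Vale.Agent.P098.Sh.A4
import Vale.Agent.P098.Sh.A5
import Vale.Agent.P098.Sh.A8

namespace Vale.Agent.P098.Ck

theorem r356 :
    Ok Gd mult 128 256 256 320 256 384 24 82 512 808 ∧
    Ok Gd mult 128 256 256 320 256 384 82 140 216 808 ∧
    Ok Gd mult 128 256 256 288 256 384 140 198 216 364 :=
  have c0 : (band (go 16 Gd mult S82_140_660_808 (Tr.lf 9128151172 108227526 1950045529942080162474491904) 128 192 256 320 256 384)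
  (band (go 16 Gd mult S111_140_512_660 (Tr.lf 9136392322 107977670 2022589472379348676478238720) 128 192 256 320 256 384)
  (go 16 Gd mult S24_82_512_660 (Tr.lf 9127937090 112163654 1826686913437704682981031936) 128 192 256 320 256 384))) = true := by decide +kernel
  have c1 : (band (go 16 Gd mult S82_140_216_364 (Tr.lf 9128019080 107973829 2444448007260780191255887872) 128 256 256 320 256 320)
  (band (go 16 Gd mult S82_140_364_512 (Tr.lf 9128019076 107973829 2400926677754653540966465536) 128 256 256 320 256 320)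
  (go 16 Gd mult S82_140_364_512 (Tr.lf 9136407684 107846598 3522910852727577048598446080) 128 192 256 320 320 384))) = true := by decide +kernel
  have c2 : (go 16 Gd mult S169_198_216_364 (Tr.lf 13440156740 103652168 1288714923709194700236783616) 128 192 256 288 256 320) = true := by decide +kernel
  have c3 : (go 16 Gd mult S82_140_216_364 (Tr.lf 9129067652 108096710 3607533686298985203905855488) 128 192 256 320 320 384) = true := by decide +kernel
  have c4 : (go 16 Gd mult S140_169_216_364 (Tr.lf 9136523332 108104774 1173866970845804928639696896) 128 192 256 288 256 384) = true := by decide +kernel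
  have c5 : (band (go 16 Gd mult S169_198_216_364 (Tr.lf 9135474722 104041414 1809761951963099874535145472) 192 256 256 288 256 384)
  (band (go 16 Gd mult S140_169_216_364 (Tr.lf 8591131682 103775302 0) 192 256 256 288 256 384)
  (go 16 Gd mult S169_198_216_364 (Tr.lf 8599650850 99847238 3039239510511177745211326464) 128 192 256 288 320 384))) = true := by decide +kernel
  have c6 : (band (go 16 Gd mult S24_82_660_808 (Tr.lf 9127937090 112163654 1826686913437704682981031936) 128 192 256 320 256 384)
  (band (go 16 Gd mult S82_111_512_660 (Tr.lf 9127937090 104037190 1864203421919469252609310720) 128 192 256 320 256 384)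
  (band (go 16 Gd mult S24_82_660_808 (Tr.lf 4296098849 108108996 1692496147460480844588646400) 192 256 256 320 256 384)
  (band (go 16 Gd mult S82_140_512_660 (Tr.lf 8591066178 103906246 2304212612185483206989971456) 192 256 256 320 256 384)
  (band (go 16 Gd mult S82_140_660_808 (Tr.lf 8591131682 103906246 2190573585141708064567590912) 192 256 256 320 256 384)
  (go 16 Gd mult S24_82_512_660 (Tr.lf 4296098849 108108996 1692496147460480844588646400) 192 256 256 320 256 384)))))) = true := by decide +kernel
  have c7 : (band (go 16 Gd mult S82_140_364_512 (Tr.lf 4296098370 108371140 4141779857999719552543358976) 192 256 256 320 320 384)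
  (go 16 Gd mult S82_140_216_364 (Tr.lf 4296163874 104176836 4263881365780797099188682752) 192 256 256 320 320 384)) = true := by decide +kernel
  (And.intro (Ok.s4 660 (Ok.s0 192 (Ok.lf S24_82_512_660_ok (br (br c0)))
  (Ok.lf S24_82_512_660_ok (br (br (br (br (br c6)))))))
  (Ok.s0 192 (Ok.lf S24_82_660_808_ok (bl c6))
  (Ok.lf S24_82_660_808_ok (bl (br (br c6))))))
  (And.intro (Ok.s4 512 (Ok.s4 364 (Ok.s2 320 (Ok.lf S82_140_216_364_ok (bl c1))
  (Ok.s0 192 (Ok.lf S82_140_216_364_ok c3)
  (Ok.lf S82_140_216_364_ok (br c7))))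
  (Ok.s2 320 (Ok.lf S82_140_364_512_ok (bl (br c1)))
  (Ok.s0 192 (Ok.lf S82_140_364_512_ok (br (br c1)))
  (Ok.lf S82_140_364_512_ok (bl c7)))))
  (Ok.s4 660 (Ok.s0 192 (Ok.s3 111 (Ok.lf S82_111_512_660_ok (bl (br c6)))
  (Ok.lf S111_140_512_660_ok (bl (br c0))))
  (Ok.lf S82_140_512_660_ok (bl (br (br (br c6))))))
  (Ok.s0 192 (Ok.lf S82_140_660_808_ok (bl c0))
  (Ok.lf S82_140_660_808_ok (bl (br (br (br (br c6)))))))))
  (Ok.s0 192 (Ok.s3 169 (Ok.lf S140_169_216_364_ok c4)
  (Ok.s2 320 (Ok.lf S169_198_216_364_ok c2)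
  (Ok.lf S169_198_216_364_ok (br (br c5)))))
  (Ok.s3 169 (Ok.lf S140_169_216_364_ok (bl (br c5)))
  (Ok.lf S169_198_216_364_ok (bl c5))))))

end Vale.Agent.P098.Ck
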