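import Vale.Agent.P098.CkGd
import Vale.Agent.P098.CkOk
import Vale.Agent.P098.Sh.A10
import Vale.Agent.P098.Sh.A17
import Vale.Agent.P098.Sh.A18
import Vale.Agent.P098.Sh.A19
import Vale.Agent.P098.Sh.A8
import Vale.Agent.P098.Sh.A9

namespace Vale.Agent.P098.Ck

theorem r357 :
    Ok Gd mult 128 256 288 320 256 320 140 198 216 364 ∧
    Ok Gd mult 128 256 288 320 320 384 140 198 216 364 ∧
    Ok Gd mult 128 256 256 320 256 384 140 198 364 512 ∧
    Ok Gd mult 128 256 256 320 256 384 140 198 512 660 :=
  have c0 : (band (go 16 Gd mult S169_198_364_512 (Tr.lf 8590215304 95517638 6473797764036339230551572480) 192 256 288 320 256 384)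
  (go 16 Gd mult S169_198_364_512 (Tr.lf 8599651364 99585222 2288496576530493027718791168) 128 256 256 288 320 384)) = true := by decide +kernel
  have c1 : (go 16 Gd mult S169_198_364_512 (Tr.lf 13439894600 103648200 1224641855269619353977356288) 128 256 256 288 256 320) = true := by decide +kernel
  have c2 : (go 16 Gd mult S140_169_364_512 (Tr.lf 9136523332 103914566 1165404490108502524416753664) 128 256 256 288 256 384) = true := by decide +kernel
  have c3 : (band (go 16 Gd mult S169_198_512_660 (Tr.lf 13431489156 103771207 2498849669143438504117665792) 128 192 256 320 256 320)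
  (band (go 16 Gd mult S140_169_512_660 (Tr.lf 9136390722 112434373 2294541205628566173592322048) 128 192 256 320 256 320)
  (band (go 16 Gd mult S169_198_512_660 (Tr.lf 9135474754 108104646 2647547544956037892606525440) 192 256 256 320 256 384)
  (band (go 16 Gd mult S140_169_512_660 (Tr.lf 8590074946 95517510 2553251331026096816979443712) 192 256 256 320 256 384)
  (band (go 16 Gd mult S140_169_512_660 (Tr.sp 1 288 (Tr.lf 9136382498 103914438 2000773983902898286546124800) Tr.skip) 128 192 256 320 320 384)
  (go 16 Gd mult S169_198_512_660 (Tr.sp 1 288 (Tr.lf 8599519778 104037446 2003190083101440542488133632) Tr.skip) 128 192 256 320 320 384)))))) = true := by decide +kernel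
  have c4 : (band (go 16 Gd mult S169_198_216_364 (Tr.lf 4295238210 108240068 11482532498043660952312676381) 192 256 288 320 320 384)
  (band (go 16 Gd mult S140_169_364_512 (Tr.lf 4295041553 104045636 7681762674305424801004519424) 192 256 288 320 320 384)
  (band (go 16 Gd mult S140_169_216_364 (Tr.lf 4296089889 108239941 8114640390206311693895598080) 192 256 288 320 320 384)
  (band (go 16 Gd mult S140_169_364_512 (Tr.sp 2 320 (Tr.lf 4295041570 104180676 4057290136141710184240971805) Tr.skip) 128 192 288 320 256 384)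
  (band (go 16 Gd mult S169_198_216_364 (Tr.lf 8590074402 95648582 5915359499139674048189956096) 128 192 288 320 256 320)
  (band (go 16 Gd mult S169_198_364_512 (Tr.sp 2 320 (Tr.lf 8590074146 99711814 4980850580325270142408523805) Tr.skip) 128 192 288 320 256 384)
  (band (go 16 Gd mult S140_169_216_364 (Tr.lf 4295106849 112438212 4308753661035905942200254464) 128 192 288 320 256 320)
  (go 16 Gd mult S169_198_216_364 (Tr.lf 4295106850 112176324 8640241015689440377533562909) 192 256 304 320 256 320)))))))) = true := by decide +kernel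
  have c5 : (band (go 16 Gd mult S140_169_216_364 (Tr.lf 4295106849 108112964 4306193769467309120303398912) 192 256 288 320 256 320)
  (go 16 Gd mult S140_169_364_512 (Tr.lf 4295041313 112176196 4282015253075016536809275392) 192 256 288 320 256 320)) = true := by decide +kernel
  have c6 : (go 16 Gd mult S169_198_216_364 (Tr.lf 8590074130 95644614 4487532642409503496509325312) 192 256 288 304 256 320) = true := by decide +kernel
  (And.intro (Ok.s3 169 (Ok.s0 192 (Ok.lf S140_169_216_364_ok (bl (br (br (br (br (br (br c4))))))))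
  (Ok.lf S140_169_216_364_ok (bl c5)))
  (Ok.s0 192 (Ok.lf S169_198_216_364_ok (bl (br (br (br (br c4))))))
  (Ok.s1 304 (Ok.lf S169_198_216_364_ok c6)
  (Ok.lf S169_198_216_364_ok (br (br (br (br (br (br (br c4)))))))))))
  (And.intro (Ok.s0 192 (Ok.out rfl)
  (Ok.s3 169 (Ok.lf S140_169_216_364_ok (bl (br (br c4))))
  (Ok.lf S169_198_216_364_ok (bl c4))))
  (And.intro (Ok.s1 288 (Ok.s3 169 (Ok.lf S140_169_364_512_ok c2)
  (Ok.s2 320 (Ok.lf S169_198_364_512_ok c1)
  (Ok.lf S169_198_364_512_ok (br c0))))
  (Ok.s3 169 (Ok.s0 192 (Ok.lf S140_169_364_512_ok (bl (br (br (br c4)))))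
  (Ok.s2 320 (Ok.lf S140_169_364_512_ok (br c5))
  (Ok.lf S140_169_364_512_ok (bl (br c4)))))
  (Ok.s0 192 (Ok.lf S169_198_364_512_ok (bl (br (br (br (br (br c4)))))))
  (Ok.lf S169_198_364_512_ok (bl c0)))))
  (Ok.s3 169 (Ok.s0 192 (Ok.s2 320 (Ok.lf S140_169_512_660_ok (bl (br c3)))
  (Ok.lf S140_169_512_660_ok (bl (br (br (br (br c3)))))))
  (Ok.lf S140_169_512_660_ok (bl (br (br (br c3))))))
  (Ok.s0 192 (Ok.s2 320 (Ok.lf S169_198_512_660_ok (bl c3))
  (Ok.lf S169_198_512_660_ok (br (br (br (br (br c3)))))))
  (Ok.lf S169_198_512_660_ok (bl (br (br c3)))))))))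

end Vale.Agent.P098.Ck
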