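import Vale.Agent.P098.CkGd
import Vale.Agent.P098.CkOk
import Vale.Agent.P098.Sh.A10
import Vale.Agent.P098.Sh.A19
import Vale.Agent.P098.Sh.A25
import Vale.Agent.P098.Sh.A36

namespace Vale.Agent.P098.Ck

theorem r358 :
    Ok Gd mult 128 256 256 320 256 384 140 169 660 808 ∧
    Ok Gd mult 128 256 256 320 256 384 169 198 660 808 ∧
    Ok Gd mult 128 256 256 320 256 384 198 227 216 364 ∧
    Ok Gd mult 128 256 256 288 256 384 227 256 216 364 :=
  have c0 : (go 16 Gd mult S227_256_216_364 (Tr.lf 18346443848 103778762 0) 128 256 256 272 256 320) = true := by decide +kernel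
  have c1 : (go 16 Gd mult S198_227_216_364 (Tr.lf 13440156740 107969735 1362459398705687079893860352) 128 192 256 288 256 320) = true := by decide +kernel
  have c2 : (go 16 Gd mult S198_227_216_364 (Tr.lf 13430703170 99707592 1975384789250304071469891584) 192 256 256 288 256 320) = true := by decide +kernel
  have c3 : (band (go 16 Gd mult S227_256_216_364 (Tr.lf 12893570088 91319239 1732390699507763607353950208) 128 256 272 288 256 320)
  (band (go 16 Gd mult S227_256_216_364 (Tr.lf 13438829636 103651912 3879442955143345021632118784) 128 192 256 288 320 384)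
  (band (go 16 Gd mult S198_227_216_364 (Tr.lf 8598602788 103914310 3878234029323730392457412608) 128 192 256 288 320 384)
  (band (go 16 Gd mult S198_227_216_364 (Tr.sp 2 320 (Tr.lf 13497549380 103901896 6785742739421796735412666397) Tr.skip) 128 192 288 320 256 384)
  (band (go 16 Gd mult S140_169_660_808 (Tr.sp 2 320 (Tr.lf 4295106833 108113091 3131208520102267771225636893) Tr.skip) 128 192 288 320 256 384)
  (band (go 16 Gd mult S169_198_660_808 (Tr.sp 2 320 (Tr.lf 8590074129 103906245 3194038591585924346768523264) Tr.skip) 128 192 288 320 256 384)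
  (go 16 Gd mult S198_227_216_364 (Tr.lf 8598602274 99847110 4278388475616172649285156864) 192 256 256 288 320 384))))))) = true := by decide +kernel
  have c4 : (band (go 16 Gd mult S169_198_660_808 (Tr.lf 13430442018 103774664 1214970448712702320579706880) 128 192 256 288 256 384)
  (go 16 Gd mult S169_198_660_808 (Tr.lf 8598602818 103914310 2399717751935038911791759360) 192 256 256 320 256 384)) = true := by decide +kernel
  have c5 : (go 16 Gd mult S227_256_216_364 (Tr.lf 13430441026 99576520 4280806327255401907634569216) 192 256 256 288 320 384) = true := by decide +kernel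
  have c6 : (go 16 Gd mult S140_169_660_808 (Tr.lf 9136391204 112299078 887351551597137814234333184) 128 256 256 288 256 384) = true := by decide +kernel
  have c7 : (band (go 16 Gd mult S198_227_216_364 (Tr.lf 13497541156 103905992 5695249536204518042040795136) 192 256 288 304 256 320)
  (go 16 Gd mult S198_227_216_364 (Tr.lf 9135464740 108231750 10807796827354784821873213440) 192 256 304 320 256 320)) = true := by decide +kernel
  have c8 : (go 16 Gd mult S198_227_216_364 (Tr.lf 4295246370 103918788 10737751035252280548369825821) 192 256 288 304 320 384) = true := by decide +kernel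
  have c9 : (go 16 Gd mult S140_169_660_808 (Tr.lf 4295041569 108109123 3617106052286970490720878592) 192 256 288 320 256 384) = true := by decide +kernel
  have c10 : (go 16 Gd mult S198_227_216_364 (Tr.lf 9135333650 99580871 79104849645656272424192966523) 192 256 304 320 320 384) = true := by decide +kernel
  (And.intro (Ok.s1 288 (Ok.lf S140_169_660_808_ok c6)
  (Ok.s0 192 (Ok.lf S140_169_660_808_ok (bl (br (br (br (br c3))))))
  (Ok.lf S140_169_660_808_ok c9)))
  (And.intro (Ok.s0 192 (Ok.s1 288 (Ok.lf S169_198_660_808_ok (bl c4))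
  (Ok.lf S169_198_660_808_ok (bl (br (br (br (br (br c3))))))))
  (Ok.lf S169_198_660_808_ok (br c4)))
  (And.intro (Ok.s1 288 (Ok.s2 320 (Ok.s0 192 (Ok.lf S198_227_216_364_ok c1)
  (Ok.lf S198_227_216_364_ok c2))
  (Ok.s0 192 (Ok.lf S198_227_216_364_ok (bl (br (br c3))))
  (Ok.lf S198_227_216_364_ok (br (br (br (br (br (br c3)))))))))
  (Ok.s0 192 (Ok.lf S198_227_216_364_ok (bl (br (br (br c3)))))
  (Ok.s1 304 (Ok.s2 320 (Ok.lf S198_227_216_364_ok (bl c7))
  (Ok.lf S198_227_216_364_ok c8))
  (Ok.s2 320 (Ok.lf S198_227_216_364_ok (br c7))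
  (Ok.lf S198_227_216_364_ok c10)))))
  (Ok.s2 320 (Ok.s1 272 (Ok.lf S227_256_216_364_ok c0)
  (Ok.lf S227_256_216_364_ok (bl c3)))
  (Ok.s0 192 (Ok.lf S227_256_216_364_ok (bl (br c3)))
  (Ok.lf S227_256_216_364_ok c5))))))

end Vale.Agent.P098.Ck
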