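import Vale.Agent.P098.CkGd
import Vale.Agent.P098.CkOk
import Vale.Agent.P098.Sh.A26
import Vale.Agent.P098.Sh.A36
import Vale.Agent.P098.Sh.A37

namespace Vale.Agent.P098.Ck

theorem r359 :
    Ok Gd mult 128 256 288 320 256 384 227 256 216 364 ∧
    Ok Gd mult 128 192 256 288 256 384 198 256 364 512 :=
  have c0 : (band (go 16 Gd mult S227_256_364_512 (Tr.lf 13438846020 103778888 2730963426509447305661251584) 128 192 256 288 320 384)
  (band (go 16 Gd mult S198_227_364_512 (Tr.lf 13430440996 103770696 2730963426509447305661251584) 128 192 256 288 320 384)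
  (band (go 16 Gd mult S227_256_364_512 (Tr.lf 13438845986 108100423 0) 128 160 264 272 256 320)
  (band (go 16 Gd mult S198_227_364_512 (Tr.lf 13430440466 108100295 0) 128 160 264 272 256 320)
  (band (go 16 Gd mult S198_227_364_512 (Tr.lf 12893569554 95513415 1630840930660134756678631424) 128 192 272 288 256 320)
  (band (go 16 Gd mult S227_256_364_512 (Tr.lf 12893569572 99707719 1632049856479749385853337600) 128 192 272 288 256 320)
  (go 16 Gd mult S198_227_364_512 (Tr.lf 13438829073 107969351 0) 128 160 256 264 288 320))))))) = true := by decide +kernel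
  have c1 : (band (go 16 Gd mult S227_256_364_512 (Tr.lf 17734075426 99572297 0) 160 192 256 264 256 320)
  (band (go 16 Gd mult S198_227_364_512 (Tr.lf 13438845970 107973447 0) 160 192 256 264 256 320)
  (band (go 16 Gd mult S227_256_364_512 (Tr.lf 17734074914 99707592 0) 128 160 256 264 256 288)
  (go 16 Gd mult S198_227_364_512 (Tr.lf 17733812754 103512521 0) 128 160 256 264 256 288)))) = true := by decide +kernel
  have c2 : (band (go 16 Gd mult S227_256_216_364 (Tr.sp 2 320 (Tr.lf 13505937988 103910088 6786931152475515359549128811) Tr.skip) 128 192 288 320 256 384)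
  (go 16 Gd mult S227_256_216_364 (Tr.lf 9202582052 108112838 10741354090171500746613194752) 192 256 288 304 320 384)) = true := by decide +kernel
  have c3 : (band (go 16 Gd mult S227_256_364_512 (Tr.lf 18346165266 112167497 0) 160 192 264 272 256 320)
  (band (go 16 Gd mult S198_227_364_512 (Tr.lf 13430440465 107965255 0) 160 192 264 272 256 320)
  (go 16 Gd mult S227_256_364_512 (Tr.lf 13438829090 107969351 0) 128 160 256 264 288 320))) = true := by decide +kernel
  have c4 : (band (go 16 Gd mult S227_256_216_364 (Tr.lf 13497541156 103906247 5696458462024132671215501312) 192 256 288 304 256 320)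
  (go 16 Gd mult S227_256_216_364 (Tr.lf 13430432036 99580616 10604697289659527120522575872) 192 256 304 320 256 320)) = true := by decide +kernel
  have c5 : (go 16 Gd mult S227_256_216_364 (Tr.lf 9202442514 99843015 79104849645656272424192966523) 192 256 304 320 320 384) = true := by decide +kernel
  (And.intro (Ok.s0 192 (Ok.lf S227_256_216_364_ok (bl c2))
  (Ok.s1 304 (Ok.s2 320 (Ok.lf S227_256_216_364_ok (bl c4))
  (Ok.lf S227_256_216_364_ok (br c2)))
  (Ok.s2 320 (Ok.lf S227_256_216_364_ok (br c4))
  (Ok.lf S227_256_216_364_ok c5))))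
  (Ok.s2 320 (Ok.s1 272 (Ok.s0 160 (Ok.s1 264 (Ok.s2 288 (Ok.s3 227 (Ok.lf S198_227_364_512_ok (br (br (br c1))))
  (Ok.lf S227_256_364_512_ok (bl (br (br c1)))))
  (Ok.s3 227 (Ok.lf S198_227_364_512_ok (br (br (br (br (br (br c0)))))))
  (Ok.lf S227_256_364_512_ok (br (br c3)))))
  (Ok.s3 227 (Ok.lf S198_227_364_512_ok (bl (br (br (br c0)))))
  (Ok.lf S227_256_364_512_ok (bl (br (br c0))))))
  (Ok.s1 264 (Ok.s3 227 (Ok.lf S198_227_364_512_ok (bl (br c1)))
  (Ok.lf S227_256_364_512_ok (bl c1)))
  (Ok.s3 227 (Ok.lf S198_227_364_512_ok (bl (br c3)))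
  (Ok.lf S227_256_364_512_ok (bl c3)))))
  (Ok.s3 227 (Ok.lf S198_227_364_512_ok (bl (br (br (br (br c0))))))
  (Ok.lf S227_256_364_512_ok (bl (br (br (br (br (br c0)))))))))
  (Ok.s3 227 (Ok.lf S198_227_364_512_ok (bl (br c0)))
  (Ok.lf S227_256_364_512_ok (bl c0)))))

end Vale.Agent.P098.Ck
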