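import Vale.Agent.P098.CkGd
import Vale.Agent.P098.CkOk
import Vale.Agent.P098.Sh.A0
import Vale.Agent.P098.Sh.A1

namespace Vale.Agent.P098.Ck

theorem r36 :
    Ok Gd mult 0 128 64 128 448 512 24 82 216 364 ∧
    Ok Gd mult 0 128 64 128 384 512 24 82 364 512 ∧
    Ok Gd mult 0 128 64 128 384 512 24 82 512 660 ∧
    Ok Gd mult 0 128 64 128 384 448 24 82 660 808 :=
  have c0 : (band (go 16 Gd mult S24_82_216_364 (Tr.lf 5372019848 103771207 0) 0 128 64 128 480 496)
  (band (go 16 Gd mult S24_82_364_512 (Tr.lf 5371954312 103771207 0) 0 128 64 128 480 496)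
  (go 16 Gd mult S24_82_512_660 (Tr.lf 5371953800 103771207 0) 0 128 64 128 480 496))) = true := by decide +kernel
  have c1 : (band (go 16 Gd mult S24_82_364_512 (Tr.lf 539067524 107969733 0) 0 128 64 128 384 448)
  (band (go 16 Gd mult S24_82_512_660 (Tr.lf 539067524 107969733 0) 0 128 64 128 384 448)
  (band (go 16 Gd mult S24_82_660_808 (Tr.lf 539067524 107969733 0) 0 128 64 128 384 448)
  (band (go 16 Gd mult S24_82_364_512 (Tr.lf 5371954244 99318855 7380900041599013051543257088) 0 128 96 128 496 512)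
  (go 16 Gd mult S24_82_512_660 (Tr.lf 9666921028 103505095 7380900373640406377668018176) 0 128 96 128 496 512))))) = true := by decide +kernel
  have c2 : (band (go 16 Gd mult S53_82_216_364 (Tr.lf 9683747912 99192135 65684170173484991078465536) 0 128 64 96 496 512)
  (band (go 16 Gd mult S53_82_364_512 (Tr.lf 9675293768 99183943 72943240667702692784439296) 0 128 64 96 496 512)
  (band (go 16 Gd mult S53_82_512_660 (Tr.lf 9675293768 99183943 80209486945279571886276608) 0 128 64 96 496 512)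
  (band (go 16 Gd mult S24_53_216_364 (Tr.lf 10203776068 99175241 314762162132231528925888512) 0 128 64 96 496 512)
  (band (go 16 Gd mult S24_53_364_512 (Tr.lf 10203776068 99175241 314762162132231528948563968) 0 128 64 96 496 512)
  (go 16 Gd mult S24_53_512_660 (Tr.lf 10203776068 99175241 314762162132231529001844736) 0 128 64 96 496 512)))))) = true := by decide +kernel
  have c3 : (go 16 Gd mult S24_82_216_364 (Tr.lf 5372019780 99318855 7380900041599013051529953280) 0 128 96 128 496 512) = true := by decide +kernel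
  have c4 : (band (go 16 Gd mult S24_82_216_364 (Tr.lf 4834018436 95382598 0) 0 128 64 128 448 480)
  (band (go 16 Gd mult S24_82_512_660 (Tr.lf 4834018436 95382598 0) 0 128 64 128 448 480)
  (go 16 Gd mult S24_82_364_512 (Tr.lf 4834018436 95382598 0) 0 128 64 128 448 480))) = true := by decide +kernel
  (And.intro (Ok.s2 480 (Ok.lf S24_82_216_364_ok (bl c4))
  (Ok.s2 496 (Ok.lf S24_82_216_364_ok (bl c0))
  (Ok.s1 96 (Ok.s3 53 (Ok.lf S24_53_216_364_ok (bl (br (br (br c2)))))
  (Ok.lf S53_82_216_364_ok (bl c2)))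
  (Ok.lf S24_82_216_364_ok c3))))
  (And.intro (Ok.s2 448 (Ok.lf S24_82_364_512_ok (bl c1))
  (Ok.s2 480 (Ok.lf S24_82_364_512_ok (br (br c4)))
  (Ok.s2 496 (Ok.lf S24_82_364_512_ok (bl (br c0)))
  (Ok.s1 96 (Ok.s3 53 (Ok.lf S24_53_364_512_ok (bl (br (br (br (br c2))))))
  (Ok.lf S53_82_364_512_ok (bl (br c2))))
  (Ok.lf S24_82_364_512_ok (bl (br (br (br c1)))))))))
  (And.intro (Ok.s2 448 (Ok.lf S24_82_512_660_ok (bl (br c1)))
  (Ok.s2 480 (Ok.lf S24_82_512_660_ok (bl (br c4)))
  (Ok.s2 496 (Ok.lf S24_82_512_660_ok (br (br c0)))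
  (Ok.s1 96 (Ok.s3 53 (Ok.lf S24_53_512_660_ok (br (br (br (br (br c2))))))
  (Ok.lf S53_82_512_660_ok (bl (br (br c2)))))
  (Ok.lf S24_82_512_660_ok (br (br (br (br c1)))))))))
  (Ok.lf S24_82_660_808_ok (bl (br (br c1)))))))

end Vale.Agent.P098.Ck
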