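import Vale.Agent.P098.CkGd
import Vale.Agent.P098.CkOk
import Vale.Agent.P098.Sh.A26
import Vale.Agent.P098.Sh.A27
import Vale.Agent.P098.Sh.A28
import Vale.Agent.P098.Sh.A37

namespace Vale.Agent.P098.Ck

theorem r360 :
    Ok Gd mult 192 256 256 288 256 384 198 256 364 512 ∧
    Ok Gd mult 128 256 288 320 256 384 198 256 364 512 ∧
    Ok Gd mult 128 256 256 288 256 384 198 256 512 660 :=
  have c0 : (band (go 16 Gd mult S198_256_364_512 (Tr.lf 8598620228 103910342 6122052075220538726219101191) 128 192 288 320 256 384)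
  (go 16 Gd mult S198_256_364_512 (Tr.lf 8590231570 104033222 4635021592402488255823478784) 192 256 288 304 256 384)) = true := by decide +kernel
  have c1 : (band (go 16 Gd mult S227_256_364_512 (Tr.lf 18346427460 99584458 363886671704003381586558976) 192 256 256 288 256 320)
  (band (go 16 Gd mult S198_227_364_512 (Tr.lf 13430441026 99584839 363886671704003381586558976) 192 256 256 288 256 320)
  (band (go 16 Gd mult S198_227_364_512 (Tr.lf 9135473186 108104646 3115401837146899383217815552) 192 256 256 288 320 384)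
  (go 16 Gd mult S227_256_364_512 (Tr.lf 13430441026 99445448 3115401837146899383217815552) 192 256 256 288 320 384)))) = true := by decide +kernel
  have c2 : (band (go 16 Gd mult S227_256_512_660 (Tr.lf 13430703172 107969223 2001981157281825913313427456) 128 192 256 288 320 384)
  (band (go 16 Gd mult S198_227_512_660 (Tr.lf 13430441028 99445320 2003190083101440542488133632) 128 192 256 288 320 384)
  (band (go 16 Gd mult S198_227_512_660 (Tr.lf 13430442052 103774792 0) 192 256 256 288 256 384)
  (go 16 Gd mult S227_256_512_660 (Tr.lf 13430442052 103775047 0) 192 256 256 288 256 384)))) = true := by decide +kernel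
  have c3 : (band (go 16 Gd mult S227_256_512_660 (Tr.lf 17734075426 99449544 0) 160 192 256 272 256 320)
  (band (go 16 Gd mult S198_227_512_660 (Tr.lf 13438829602 108100423 0) 160 192 256 272 256 320)
  (band (go 16 Gd mult S227_256_512_660 (Tr.lf 17734074914 99453512 0) 128 160 256 264 256 288)
  (band (go 16 Gd mult S198_227_512_660 (Tr.lf 17733796370 99445448 0) 128 160 256 264 256 288)
  (band (go 16 Gd mult S198_227_512_660 (Tr.lf 13430440466 104032967 0) 128 160 264 272 256 320)
  (band (go 16 Gd mult S227_256_512_660 (Tr.lf 13438829602 104033095 0) 128 160 264 272 256 320)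
  (go 16 Gd mult S227_256_512_660 (Tr.lf 12893569572 99711942 1523246532714432760129781760) 128 192 272 288 256 320))))))) = true := by decide +kernel
  have c4 : (band (go 16 Gd mult S227_256_512_660 (Tr.lf 13438829090 103910087 0) 128 160 256 264 288 320)
  (band (go 16 Gd mult S198_227_512_660 (Tr.lf 13438828818 103910087 0) 128 160 256 264 288 320)
  (go 16 Gd mult S198_227_512_660 (Tr.lf 12893569554 99711687 1526873310173276647653900288) 128 192 272 288 256 320))) = true := by decide +kernel
  have c5 : (band (go 16 Gd mult S198_256_364_512 (Tr.lf 8590082594 104033222 7743224126506020643784367200) 192 256 304 320 256 320)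
  (go 16 Gd mult S198_256_364_512 (Tr.lf 9202450962 99711943 79104849645656272424192966523) 192 256 304 320 320 384)) = true := by decide +kernel
  (And.intro (Ok.s2 320 (Ok.s3 227 (Ok.lf S198_227_364_512_ok (bl (br c1)))
  (Ok.lf S227_256_364_512_ok (bl c1)))
  (Ok.s3 227 (Ok.lf S198_227_364_512_ok (bl (br (br c1))))
  (Ok.lf S227_256_364_512_ok (br (br (br c1))))))
  (And.intro (Ok.s0 192 (Ok.lf S198_256_364_512_ok (bl c0))
  (Ok.s1 304 (Ok.lf S198_256_364_512_ok (br c0))
  (Ok.s2 320 (Ok.lf S198_256_364_512_ok (bl c5))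
  (Ok.lf S198_256_364_512_ok (br c5)))))
  (Ok.s0 192 (Ok.s2 320 (Ok.s1 272 (Ok.s0 160 (Ok.s1 264 (Ok.s2 288 (Ok.s3 227 (Ok.lf S198_227_512_660_ok (bl (br (br (br c3)))))
  (Ok.lf S227_256_512_660_ok (bl (br (br c3)))))
  (Ok.s3 227 (Ok.lf S198_227_512_660_ok (bl (br c4)))
  (Ok.lf S227_256_512_660_ok (bl c4))))
  (Ok.s3 227 (Ok.lf S198_227_512_660_ok (bl (br (br (br (br c3))))))
  (Ok.lf S227_256_512_660_ok (bl (br (br (br (br (br c3)))))))))
  (Ok.s3 227 (Ok.lf S198_227_512_660_ok (bl (br c3)))
  (Ok.lf S227_256_512_660_ok (bl c3))))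
  (Ok.s3 227 (Ok.lf S198_227_512_660_ok (br (br c4)))
  (Ok.lf S227_256_512_660_ok (br (br (br (br (br (br c3)))))))))
  (Ok.s3 227 (Ok.lf S198_227_512_660_ok (bl (br c2)))
  (Ok.lf S227_256_512_660_ok (bl c2))))
  (Ok.s3 227 (Ok.lf S198_227_512_660_ok (bl (br (br c2))))
  (Ok.lf S227_256_512_660_ok (br (br (br c2))))))))

end Vale.Agent.P098.Ck
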