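import Vale.Agent.P098.CkGd
import Vale.Agent.P098.CkOk
import Vale.Agent.P098.Sh.A27
import Vale.Agent.P098.Sh.A37
import Vale.Agent.P098.Sh.A38
import Vale.Agent.P098.Sh.A41
import Vale.Agent.P098.Sh.A45

namespace Vale.Agent.P098.Ck

theorem r361 :
    Ok Gd mult 128 256 288 320 256 384 198 256 512 660 ∧
    Ok Gd mult 128 256 256 320 256 384 198 256 660 808 ∧
    Ok Gd mult 128 256 256 320 256 320 256 314 216 364 :=
  have c0 : (go 16 Gd mult S227_256_660_808 (Tr.lf 13430719560 103647943 2030995376952577013506375680) 128 256 256 288 320 384) = true := by decide +kernel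
  have c1 : (go 16 Gd mult S198_227_660_808 (Tr.lf 13430704196 107969223 1218597226171546208103825408) 128 192 256 288 256 384) = true := by decide +kernel
  have c2 : (band (go 16 Gd mult S227_256_660_808 (Tr.lf 13430703176 103779270 857128406106772084866678784) 128 256 256 288 256 320)
  (go 16 Gd mult S256_285_290_364 (Tr.lf 18346181704 104036810 1266954258956131375092072448) 128 256 256 288 256 320)) = true := by decide +kernel
  have c3 : (go 16 Gd mult S285_314_216_364 (Tr.lf 13430703236 103902023 3076716210919231249627217920) 128 192 256 320 256 320) = true := by decide +kernel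
  have c4 : (go 16 Gd mult S256_285_216_290 (Tr.lf 18346165320 104036810 1297177404446497104459726848) 128 256 256 288 256 320) = true := by decide +kernel
  have c5 : (go 16 Gd mult S285_314_216_364 (Tr.lf 13430441092 99584839 3346306668693293555586695168) 192 256 256 320 256 320) = true := by decide +kernel
  have c6 : (go 16 Gd mult S198_227_660_808 (Tr.lf 13430442018 103770951 0) 192 256 256 288 256 384) = true := by decide +kernel
  have c7 : (band (go 16 Gd mult S227_256_512_660 (Tr.lf 8598594594 99974341 4222787148179424709443586032) 192 256 288 320 256 384)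
  (band (go 16 Gd mult S227_256_660_808 (Tr.lf 8598594594 104041541 3339082886828703646635327517) 192 256 288 320 256 384)
  (band (go 16 Gd mult S198_227_512_660 (Tr.lf 8590074914 99973958 4256627810863109324140445696) 192 256 288 320 256 384)
  (band (go 16 Gd mult S198_227_660_808 (Tr.lf 8590074913 104041413 3666672010891170286883831808) 192 256 288 320 256 384)
  (band (go 16 Gd mult S198_227_512_660 (Tr.sp 2 320 (Tr.lf 8590074146 99839045 3932685644989340310784966656) Tr.skip) 128 192 288 320 256 384)
  (band (go 16 Gd mult S198_227_660_808 (Tr.sp 2 320 (Tr.lf 8590074146 99843013 3172261158769241964956811419) Tr.skip) 128 192 288 320 256 384)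
  (band (go 16 Gd mult S256_285_216_364 (Tr.lf 8598594084 99982405 5997515615668478495869042765) 128 192 288 320 256 320)
  (go 16 Gd mult S227_256_512_660 (Tr.sp 2 320 (Tr.lf 8590074402 99839045 3828721234235951027222216704) Tr.skip) 128 192 288 320 256 384)))))))) = true := by decide +kernel
  have c8 : (band (go 16 Gd mult S256_285_216_364 (Tr.lf 8590205458 108235845 4601171669453278638931705856) 192 256 288 304 256 320)
  (go 16 Gd mult S256_285_216_364 (Tr.lf 13430432034 103902151 8771991443438243969073414144) 192 256 304 320 256 320)) = true := by decide +kernel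
  have c9 : (go 16 Gd mult S227_256_660_808 (Tr.sp 2 320 (Tr.lf 8598463010 103914437 2909914220865510289614635588) Tr.skip) 128 192 288 320 256 384) = true := by decide +kernel
  (And.intro (Ok.s3 227 (Ok.s0 192 (Ok.lf S198_227_512_660_ok (bl (br (br (br (br c7))))))
  (Ok.lf S198_227_512_660_ok (bl (br (br c7)))))
  (Ok.s0 192 (Ok.lf S227_256_512_660_ok (br (br (br (br (br (br (br c7))))))))
  (Ok.lf S227_256_512_660_ok (bl c7))))
  (And.intro (Ok.s1 288 (Ok.s3 227 (Ok.s0 192 (Ok.lf S198_227_660_808_ok c1)
  (Ok.lf S198_227_660_808_ok c6))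
  (Ok.s2 320 (Ok.lf S227_256_660_808_ok (bl c2))
  (Ok.lf S227_256_660_808_ok c0)))
  (Ok.s3 227 (Ok.s0 192 (Ok.lf S198_227_660_808_ok (bl (br (br (br (br (br c7)))))))
  (Ok.lf S198_227_660_808_ok (bl (br (br (br c7))))))
  (Ok.s0 192 (Ok.lf S227_256_660_808_ok c9)
  (Ok.lf S227_256_660_808_ok (bl (br c7))))))
  (Ok.s3 285 (Ok.s1 288 (Ok.s4 290 (Ok.lf S256_285_216_290_ok c4)
  (Ok.lf S256_285_290_364_ok (br c2)))
  (Ok.s0 192 (Ok.lf S256_285_216_364_ok (bl (br (br (br (br (br (br c7))))))))
  (Ok.s1 304 (Ok.lf S256_285_216_364_ok (bl c8))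
  (Ok.lf S256_285_216_364_ok (br c8)))))
  (Ok.s0 192 (Ok.lf S285_314_216_364_ok c3)
  (Ok.lf S285_314_216_364_ok c5)))))

end Vale.Agent.P098.Ck
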