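import Vale.Agent.P098.CkGd
import Vale.Agent.P098.CkOk
import Vale.Agent.P098.Sh.A41
import Vale.Agent.P098.Sh.A42
import Vale.Agent.P098.Sh.A43
import Vale.Agent.P098.Sh.A45

namespace Vale.Agent.P098.Ck

theorem r362 :
    Ok Gd mult 128 256 256 320 320 384 256 314 216 364 ∧
    Ok Gd mult 128 256 256 320 256 384 256 314 364 512 ∧
    Ok Gd mult 128 256 256 320 256 384 256 285 512 660 :=
  have c0 : (band (go 16 Gd mult S256_285_364_512 (Tr.lf 18346444868 103905993 0) 192 256 256 288 256 384)
  (go 16 Gd mult S285_314_364_512 (Tr.lf 13430442050 108104391 0) 192 256 256 288 256 384)) = true := by decide +kernel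
  have c1 : (go 16 Gd mult S256_285_364_512 (Tr.lf 22641411140 103643594 0) 128 192 256 272 256 320) = true := by decide +kernel
  have c2 : (go 16 Gd mult S256_285_512_660 (Tr.lf 17734059140 99576520 1184747303222336591212052480) 128 192 256 288 256 320) = true := by decide +kernel
  have c3 : (go 16 Gd mult S285_314_364_512 (Tr.lf 13430442052 104164039 1162986638469273266067341312) 128 192 256 288 256 384) = true := by decide +kernel
  have c4 : (band (go 16 Gd mult S256_285_216_364 (Tr.lf 13438829636 107973447 3075507285099616620452511744) 128 192 256 288 320 384)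
  (band (go 16 Gd mult S256_285_364_512 (Tr.lf 13438829636 107842375 2154305810553269189326405632) 128 192 256 288 320 384)
  (band (go 16 Gd mult S256_285_512_660 (Tr.sp 1 288 (Tr.lf 13430441028 108096199 2003190083101440542488133632) Tr.skip) 128 192 256 320 320 384)
  (band (go 16 Gd mult S285_314_216_364 (Tr.sp 1 288 (Tr.lf 8598602308 99974213 2095068445392152359765803008) Tr.skip) 128 192 256 320 320 384)
  (go 16 Gd mult S256_285_512_660 (Tr.lf 13430441028 99715783 4405325686675708712629305344) 192 256 256 320 320 384))))) = true := by decide +kernel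
  have c5 : (go 16 Gd mult S256_285_512_660 (Tr.lf 13430440578 99589062 2501267520782667762467078144) 192 256 256 320 256 320) = true := by decide +kernel
  have c6 : (go 16 Gd mult S256_285_216_364 (Tr.lf 13430441026 103906119 3323337078120615601267277824) 192 256 256 288 320 384) = true := by decide +kernel
  have c7 : (go 16 Gd mult S285_314_216_364 (Tr.lf 9135473730 108362949 6032539839876999581783818240) 192 256 256 320 320 384) = true := by decide +kernel
  have c8 : (band (go 16 Gd mult S256_314_364_512 (Tr.lf 8590230050 99847237 5042429593612618287699460096) 192 256 288 320 256 320)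
  (go 16 Gd mult S256_314_364_512 (Tr.lf 8590230049 99716165 8727235491798008012203884544) 224 256 288 320 320 384)) = true := by decide +kernel
  have c9 : (go 16 Gd mult S256_285_216_364 (Tr.sp 0 192 Tr.skip (Tr.lf 8590205508 95517638 11673454989474496129697579008)) 128 256 288 320 320 384) = true := by decide +kernel
  have c10 : (go 16 Gd mult S256_285_364_512 (Tr.lf 12893569572 99584711 1581274972055934960515678208) 128 192 272 288 256 320) = true := by decide +kernel
  have c11 : (band (go 16 Gd mult S256_314_364_512 (Tr.sp 0 160 Tr.skip (Tr.sp 2 320 (Tr.lf 8598487586 103914565 4676170947321896963418357760) Tr.skip)) 128 192 288 320 256 384)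
  (go 16 Gd mult S256_314_364_512 (Tr.lf 8598487585 95656774 8195423589351958513045143755) 192 224 288 320 320 384)) = true := by decide +kernel
  have c12 : (go 16 Gd mult S256_285_512_660 (Tr.lf 8598594082 99974213 3412855585343628801906376733) 128 192 288 320 256 320) = true := by decide +kernel
  (And.intro (Ok.s3 285 (Ok.s1 288 (Ok.s0 192 (Ok.lf S256_285_216_364_ok (bl c4))
  (Ok.lf S256_285_216_364_ok c6))
  (Ok.lf S256_285_216_364_ok c9))
  (Ok.s0 192 (Ok.lf S285_314_216_364_ok (bl (br (br (br c4)))))
  (Ok.lf S285_314_216_364_ok c7)))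
  (And.intro (Ok.s0 192 (Ok.s1 288 (Ok.s3 285 (Ok.s2 320 (Ok.s1 272 (Ok.lf S256_285_364_512_ok c1)
  (Ok.lf S256_285_364_512_ok c10))
  (Ok.lf S256_285_364_512_ok (bl (br c4))))
  (Ok.lf S285_314_364_512_ok c3))
  (Ok.lf S256_314_364_512_ok (bl c11)))
  (Ok.s1 288 (Ok.s3 285 (Ok.lf S256_285_364_512_ok (bl c0))
  (Ok.lf S285_314_364_512_ok (br c0)))
  (Ok.s2 320 (Ok.lf S256_314_364_512_ok (bl c8))
  (Ok.s0 224 (Ok.lf S256_314_364_512_ok (br c11))
  (Ok.lf S256_314_364_512_ok (br c8))))))
  (Ok.s2 320 (Ok.s0 192 (Ok.s1 288 (Ok.lf S256_285_512_660_ok c2)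
  (Ok.lf S256_285_512_660_ok c12))
  (Ok.lf S256_285_512_660_ok c5))
  (Ok.s0 192 (Ok.lf S256_285_512_660_ok (bl (br (br c4))))
  (Ok.lf S256_285_512_660_ok (br (br (br (br c4)))))))))

end Vale.Agent.P098.Ck
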