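import Vale.Agent.P098.CkGd
import Vale.Agent.P098.CkOk
import Vale.Agent.P098.Sh.A42
import Vale.Agent.P098.Sh.A46
import Vale.Agent.P098.Sh.A47
import Vale.Agent.P098.Sh.A51

namespace Vale.Agent.P098.Ck

theorem r363 :
    Ok Gd mult 128 256 256 320 256 384 285 314 512 660 ∧
    Ok Gd mult 128 256 256 320 256 384 256 314 660 808 ∧
    Ok Gd mult 128 256 256 320 256 384 314 372 216 364 :=
  have c0 : (band (go 16 Gd mult S285_314_660_808 (Tr.lf 12893586504 95513287 2188186613360221094888144925) 128 256 256 288 320 384)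
  (band (go 16 Gd mult S256_285_660_808 (Tr.lf 13430441032 103902150 2189364659322093435392884736) 128 256 256 288 320 384)
  (band (go 16 Gd mult S285_314_512_660 (Tr.lf 8598602820 108231749 2018925746092125148722233344) 128 256 256 288 320 384)
  (go 16 Gd mult S285_314_512_660 (Tr.lf 12893569604 99711687 863173035204845230740209664) 128 256 256 288 256 320)))) = true := by decide +kernel
  have c1 : (band (go 16 Gd mult S256_285_660_808 (Tr.lf 12893569608 95394630 1262118555677672858393247744) 128 256 256 288 256 320)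
  (band (go 16 Gd mult S285_314_660_808 (Tr.lf 8598602276 104045509 1333448370321660731453341696) 128 256 256 288 256 320)
  (band (go 16 Gd mult S285_314_660_808 (Tr.lf 8590214178 108239940 2681457788758368539732082688) 192 256 288 320 256 384)
  (band (go 16 Gd mult S285_314_512_660 (Tr.lf 8590214178 104041413 3527696934264477286603423744) 192 256 288 320 256 384)
  (band (go 16 Gd mult S256_285_660_808 (Tr.lf 8598594594 108231749 2819246426181938038624288971) 192 256 288 320 256 384)
  (band (go 16 Gd mult S343_372_216_364 (Tr.lf 8591123490 104176582 4338834766596904108020465664) 192 256 288 320 256 384)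
  (go 16 Gd mult S285_314_660_808 (Tr.lf 8598602770 112298949 2190647814839860671803293696) 128 192 288 304 256 384))))))) = true := by decide +kernel
  have c2 : (go 16 Gd mult S343_372_216_364 (Tr.lf 9128134722 104041414 1171449986203547134639210496) 128 192 256 288 256 384) = true := by decide +kernel
  have c3 : (go 16 Gd mult S314_343_216_364 (Tr.lf 9135473282 108235845 2579847699057618658822979584) 128 192 256 320 256 320) = true := by decide +kernel
  have c4 : (go 16 Gd mult S343_372_216_364 (Tr.lf 9128002626 99982278 0) 192 256 256 288 256 384) = true := by decide +kernel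
  have c5 : (band (go 16 Gd mult S314_343_216_364 (Tr.lf 8598594114 104037573 2698322429379852317944184832) 192 256 256 320 256 320)
  (band (go 16 Gd mult S314_343_216_364 (Tr.sp 1 288 (Tr.lf 8599642690 108108997 2006836819937409283674603520) Tr.skip) 128 192 256 320 320 384)
  (go 16 Gd mult S314_343_216_364 (Tr.lf 8598594114 104172358 5163322175574081205170077696) 192 256 256 320 320 384))) = true := by decide +kernel
  have c6 : (go 16 Gd mult S256_285_660_808 (Tr.lf 8590205970 108104517 2220829030880946859360124928) 128 192 288 304 256 384) = true := by decide +kernel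
  have c7 : (band (go 16 Gd mult S285_314_512_660 (Tr.sp 2 320 (Tr.lf 8598463010 103914437 3056225124928993159681999080) Tr.skip) 128 192 288 320 256 384)
  (go 16 Gd mult S343_372_216_364 (Tr.sp 2 320 (Tr.lf 8591122978 104041669 4267549371725875176023195695) Tr.skip) 128 192 288 320 256 384)) = true := by decide +kernel
  (And.intro (Ok.s1 288 (Ok.s2 320 (Ok.lf S285_314_512_660_ok (br (br (br c0))))
  (Ok.lf S285_314_512_660_ok (bl (br (br c0)))))
  (Ok.s0 192 (Ok.lf S285_314_512_660_ok (bl c7))
  (Ok.lf S285_314_512_660_ok (bl (br (br (br c1)))))))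
  (And.intro (Ok.s1 288 (Ok.s3 285 (Ok.s2 320 (Ok.lf S256_285_660_808_ok (bl c1))
  (Ok.lf S256_285_660_808_ok (bl (br c0))))
  (Ok.s2 320 (Ok.lf S285_314_660_808_ok (bl (br c1)))
  (Ok.lf S285_314_660_808_ok (bl c0))))
  (Ok.s0 192 (Ok.s1 304 (Ok.s3 285 (Ok.lf S256_285_660_808_ok c6)
  (Ok.lf S285_314_660_808_ok (br (br (br (br (br (br c1))))))))
  (Ok.out rfl))
  (Ok.s3 285 (Ok.lf S256_285_660_808_ok (bl (br (br (br (br c1))))))
  (Ok.lf S285_314_660_808_ok (bl (br (br c1)))))))
  (Ok.s3 343 (Ok.s2 320 (Ok.s0 192 (Ok.lf S314_343_216_364_ok c3)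
  (Ok.lf S314_343_216_364_ok (bl c5)))
  (Ok.s0 192 (Ok.lf S314_343_216_364_ok (bl (br c5)))
  (Ok.lf S314_343_216_364_ok (br (br c5)))))
  (Ok.s1 288 (Ok.s0 192 (Ok.lf S343_372_216_364_ok c2)
  (Ok.lf S343_372_216_364_ok c4))
  (Ok.s0 192 (Ok.lf S343_372_216_364_ok (br c7))
  (Ok.lf S343_372_216_364_ok (bl (br (br (br (br (br c1))))))))))))

end Vale.Agent.P098.Ck
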