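import Vale.Agent.P098.CkGd
import Vale.Agent.P098.CkOk
import Vale.Agent.P098.Sh.A48
import Vale.Agent.P098.Sh.A50
import Vale.Agent.P098.Sh.A51
import Vale.Agent.P098.Sh.A52

namespace Vale.Agent.P098.Ck

theorem r364 :
    Ok Gd mult 128 256 256 320 256 320 314 372 364 512 ∧
    Ok Gd mult 128 256 256 320 320 384 314 372 364 512 ∧
    Ok Gd mult 128 256 256 320 256 384 314 372 512 660 :=
  have c0 : (band (go 16 Gd mult S343_372_512_660 (Tr.lf 13432554632 108104648 1163022148451615156954202141) 128 256 256 288 256 320)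
  (band (go 16 Gd mult S314_343_512_660 (Tr.lf 13432537672 107973576 968391695441268903194329117) 128 256 256 288 256 320)
  (go 16 Gd mult S343_372_512_660 (Tr.lf 13432554020 99584840 4789896323574681140251852800) 128 192 256 272 368 384))) = true := by decide +kernel
  have c1 : (band (go 16 Gd mult S343_372_364_512 (Tr.lf 13432554564 103775176 2009300548629112757751382016) 128 192 256 288 320 384)
  (band (go 16 Gd mult S314_343_364_512 (Tr.lf 13431489602 103901896 2000839838779241429645393920) 128 192 256 288 320 384)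
  (band (go 16 Gd mult S314_343_364_512 (Tr.lf 9135473284 104041541 2391262760575830433646772224) 128 192 256 320 256 320)
  (band (go 16 Gd mult S343_372_364_512 (Tr.lf 13431358596 103779271 2631839884122857177471778816) 128 192 256 320 256 320)
  (go 16 Gd mult S343_372_364_512 (Tr.lf 9137439874 112433992 5258827315323636909971865600) 192 256 256 320 320 384))))) = true := by decide +kernel
  have c2 : (go 16 Gd mult S314_372_512_660 (Tr.sp 2 320 (Tr.sp 0 160 Tr.skip (Tr.lf 8591278658 104041669 3878310564864892213387067392)) Tr.skip) 128 192 288 320 256 384) = true := by decide +kernel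
  have c3 : (band (go 16 Gd mult S314_343_512_660 (Tr.lf 8590215202 108108741 3782828815586821972296728576) 192 256 288 320 256 384)
  (band (go 16 Gd mult S343_372_512_660 (Tr.lf 8591131714 99982278 4244626894124332027436072960) 192 256 288 320 256 384)
  (band (go 16 Gd mult S314_343_512_660 (Tr.lf 13432538148 104029383 1503997576642608626413666333) 128 192 256 272 320 384)
  (band (go 16 Gd mult S314_343_512_660 (Tr.lf 13431489602 103906247 1760270204618471510778904605) 192 256 256 288 320 384)
  (band (go 16 Gd mult S343_372_512_660 (Tr.lf 13432407108 103779272 2315139153655919511989125120) 192 256 256 288 320 384)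
  (band (go 16 Gd mult S314_343_512_660 (Tr.lf 13431489570 107965383 2714148186268592921628377088) 160 192 272 288 320 384)
  (go 16 Gd mult S343_372_512_660 (Tr.lf 13432538146 108104520 3084080593875313871661563904) 160 192 272 288 320 384))))))) = true := by decide +kernel
  have c4 : (go 16 Gd mult S343_372_512_660 (Tr.lf 13432537668 99716167 1480997309126373194229350400) 128 192 256 272 320 352) = true := by decide +kernel
  have c5 : (go 16 Gd mult S343_372_512_660 (Tr.lf 13433602340 103779145 4249467780937879826364104704) 128 192 256 272 352 368) = true := by decide +kernel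
  have c6 : (go 16 Gd mult S314_343_364_512 (Tr.lf 8598471746 99978309 4793407292374230279210926080) 192 256 256 320 320 384) = true := by decide +kernel
  have c7 : (band (go 16 Gd mult S343_372_364_512 (Tr.lf 9128002114 112307142 2759977646180198405854199808) 192 256 256 320 256 320)
  (go 16 Gd mult S314_343_364_512 (Tr.lf 8598463042 99851333 2611279770367599017365340160) 192 256 256 320 256 320)) = true := by decide +kernel
  (And.intro (Ok.s3 343 (Ok.s0 192 (Ok.lf S314_343_364_512_ok (bl (br (br c1))))
  (Ok.lf S314_343_364_512_ok (br c7)))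
  (Ok.s0 192 (Ok.lf S343_372_364_512_ok (bl (br (br (br c1)))))
  (Ok.lf S343_372_364_512_ok (bl c7))))
  (And.intro (Ok.s0 192 (Ok.s1 288 (Ok.s3 343 (Ok.lf S314_343_364_512_ok (bl (br c1)))
  (Ok.lf S343_372_364_512_ok (bl c1)))
  (Ok.out rfl))
  (Ok.s3 343 (Ok.lf S314_343_364_512_ok c6)
  (Ok.lf S343_372_364_512_ok (br (br (br (br c1)))))))
  (Ok.s1 288 (Ok.s2 320 (Ok.s3 343 (Ok.lf S314_343_512_660_ok (bl (br c0)))
  (Ok.lf S343_372_512_660_ok (bl c0)))
  (Ok.s0 192 (Ok.s1 272 (Ok.s3 343 (Ok.lf S314_343_512_660_ok (bl (br (br c3))))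
  (Ok.s2 352 (Ok.lf S343_372_512_660_ok c4)
  (Ok.s2 368 (Ok.lf S343_372_512_660_ok c5)
  (Ok.lf S343_372_512_660_ok (br (br c0))))))
  (Ok.s0 160 (Ok.out rfl)
  (Ok.s3 343 (Ok.lf S314_343_512_660_ok (bl (br (br (br (br (br c3)))))))
  (Ok.lf S343_372_512_660_ok (br (br (br (br (br (br c3))))))))))
  (Ok.s3 343 (Ok.lf S314_343_512_660_ok (bl (br (br (br c3)))))
  (Ok.lf S343_372_512_660_ok (bl (br (br (br (br c3)))))))))
  (Ok.s0 192 (Ok.lf S314_372_512_660_ok c2)
  (Ok.s3 343 (Ok.lf S314_343_512_660_ok (bl c3))
  (Ok.lf S343_372_512_660_ok (bl (br c3))))))))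

end Vale.Agent.P098.Ck
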