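import Vale.Agent.P098.CkGd
import Vale.Agent.P098.CkOk
import Vale.Agent.P098.Sh.A49
import Vale.Agent.P098.Sh.A50
import Vale.Agent.P098.Sh.A52

namespace Vale.Agent.P098.Ck

theorem r365 :
    Ok Gd mult 128 256 256 288 256 320 314 372 660 734 ∧
    Ok Gd mult 128 256 256 288 256 320 314 372 734 808 ∧
    Ok Gd mult 128 192 256 288 320 384 314 372 660 808 :=
  have c0 : (band (go 16 Gd mult S343_372_660_808 (Tr.lf 18274091656 103775305 3786441684200915186564988928) 128 192 256 272 336 352)
  (go 16 Gd mult S343_372_660_808 (Tr.lf 18274091560 103643978 4354653034115713684507263005) 128 192 256 264 352 368)) = true := by decide +kernel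
  have c1 : (band (go 16 Gd mult S343_372_660_808 (Tr.lf 17728833604 99445578 2913652379756908336530849792) 160 192 272 288 320 384)
  (band (go 16 Gd mult S314_343_660_808 (Tr.lf 13432554530 103779399 2756490602807712868183572480) 160 192 272 288 320 384)
  (go 16 Gd mult S314_343_660_808 (Tr.lf 13432554020 108100679 1563236362216530007802445871) 128 192 256 272 320 352))) = true := by decide +kernel
  have c2 : (band (go 16 Gd mult S343_372_660_808 (Tr.lf 18274091592 107969609 1483415492806995779350691840) 128 192 256 272 320 336)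
  (go 16 Gd mult S343_372_660_808 (Tr.lf 18274091592 99449674 4960360047688657890174828544) 128 192 256 264 368 384)) = true := by decide +kernel
  have c3 : (band (go 16 Gd mult S343_372_734_808 (Tr.lf 17736960068 95386697 42113924883177786900527) 128 160 256 272 256 320)
  (band (go 16 Gd mult S314_343_734_808 (Tr.lf 13432406562 95656903 52813049956603652997120) 128 160 256 272 256 320)
  (band (go 16 Gd mult S343_372_734_808 (Tr.lf 17727522884 103774921 1520885792194855706552172544) 128 160 272 288 256 320)
  (go 16 Gd mult S314_343_734_808 (Tr.lf 13431357986 99851206 1623648582039283549922656256) 128 160 272 288 256 320)))) = true := by decide +kernel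
  have c4 : (band (go 16 Gd mult S343_372_660_734 (Tr.lf 17727390792 99576649 1520880959156071168974258176) 128 192 272 288 256 320)
  (go 16 Gd mult S343_372_660_734 (Tr.lf 13433472068 104041289 37280877935865884377135) 128 192 256 272 256 320)) = true := by decide +kernel
  have c5 : (go 16 Gd mult S343_372_660_808 (Tr.sp 0 160 Tr.skip (Tr.lf 18274092068 107838282 3894089799065078921582084096)) 128 192 264 272 352 384) = true := by decide +kernel
  have c6 : (band (go 16 Gd mult S314_372_734_808 (Tr.lf 13431505988 103910343 0) 192 256 256 288 256 320)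
  (go 16 Gd mult S314_372_660_734 (Tr.lf 9136407620 104045638 0) 192 256 256 288 256 320)) = true := by decide +kernel
  have c7 : (band (go 16 Gd mult S343_372_734_808 (Tr.lf 13433472130 108235593 1096535858513735952323379247) 160 192 256 288 256 320)
  (go 16 Gd mult S314_343_734_808 (Tr.lf 13432406594 112168007 1106216543853845870211170603) 160 192 256 288 256 320)) = true := by decide +kernel
  have c8 : (go 16 Gd mult S314_343_660_808 (Tr.lf 13432816164 107969607 4487670384247501885731241984) 128 192 256 272 352 384) = true := by decide +kernel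
  have c9 : (go 16 Gd mult S314_343_660_734 (Tr.lf 13431358532 108104519 1268214024010576046671593501) 128 192 256 288 256 320) = true := by decide +kernel
  (And.intro (Ok.s0 192 (Ok.s3 343 (Ok.lf S314_343_660_734_ok c9)
  (Ok.s1 272 (Ok.lf S343_372_660_734_ok (br c4))
  (Ok.lf S343_372_660_734_ok (bl c4))))
  (Ok.lf S314_372_660_734_ok (br c6)))
  (And.intro (Ok.s0 192 (Ok.s0 160 (Ok.s1 272 (Ok.s3 343 (Ok.lf S314_343_734_808_ok (bl (br c3)))
  (Ok.lf S343_372_734_808_ok (bl c3)))
  (Ok.s3 343 (Ok.lf S314_343_734_808_ok (br (br (br c3))))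
  (Ok.lf S343_372_734_808_ok (bl (br (br c3))))))
  (Ok.s3 343 (Ok.lf S314_343_734_808_ok (br c7))
  (Ok.lf S343_372_734_808_ok (bl c7))))
  (Ok.lf S314_372_734_808_ok (bl c6)))
  (Ok.s1 272 (Ok.s3 343 (Ok.s2 352 (Ok.lf S314_343_660_808_ok (br (br c1)))
  (Ok.lf S314_343_660_808_ok c8))
  (Ok.s2 352 (Ok.s2 336 (Ok.lf S343_372_660_808_ok (bl c2))
  (Ok.lf S343_372_660_808_ok (bl c0)))
  (Ok.s1 264 (Ok.s2 368 (Ok.lf S343_372_660_808_ok (br c0))
  (Ok.lf S343_372_660_808_ok (br c2)))
  (Ok.lf S343_372_660_808_ok c5))))
  (Ok.s0 160 (Ok.out rfl)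
  (Ok.s3 343 (Ok.lf S314_343_660_808_ok (bl (br c1)))
  (Ok.lf S343_372_660_808_ok (bl c1)))))))

end Vale.Agent.P098.Ck
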