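import Vale.Agent.P098.CkGd
import Vale.Agent.P098.CkOk
import Vale.Agent.P098.Sh.A49
import Vale.Agent.P098.Sh.A50
import Vale.Agent.P098.Sh.A52
import Vale.Agent.P098.Sh.A54
import Vale.Agent.P098.Sh.A56

namespace Vale.Agent.P098.Ck

theorem r366 :
    Ok Gd mult 192 256 256 288 320 384 314 372 660 808 ∧
    Ok Gd mult 128 256 288 320 256 384 314 372 660 808 ∧
    Ok Gd mult 128 256 256 320 256 384 372 430 216 364 ∧
    Ok Gd mult 128 256 256 288 256 384 372 430 364 512 :=
  have c0 : (go 16 Gd mult S372_401_364_512 (Tr.lf 13970474120 107842505 2213580991539737123467821056) 128 192 256 288 320 384) = true := by decide +kernel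
  have c1 : (band (go 16 Gd mult S401_430_364_512 (Tr.lf 13424035972 107969480 1765031696637358595071016960) 192 256 256 288 256 384)
  (band (go 16 Gd mult S372_401_364_512 (Tr.lf 13424019524 104033224 113639027043775142422380544) 192 256 256 288 256 384)
  (band (go 16 Gd mult S372_401_216_364 (Tr.lf 13424019524 104033224 287724345068281743580069888) 192 256 256 288 256 384)
  (go 16 Gd mult S372_401_364_512 (Tr.lf 13432407108 108108616 1211343671253858433055588352) 128 192 256 288 256 320)))) = true := by decide +kernel
  have c2 : (band (go 16 Gd mult S401_430_216_364 (Tr.lf 13424018568 107969480 1288714923709194700236783616) 128 256 256 288 256 320)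
  (go 16 Gd mult S401_430_216_364 (Tr.lf 13424018504 99580872 3167385647390328437730181120) 128 256 256 288 320 384)) = true := by decide +kernel
  have c3 : (go 16 Gd mult S314_343_660_808 (Tr.lf 13432554564 103775431 1657531690694591997951148079) 192 256 256 288 320 384) = true := by decide +kernel
  have c4 : (go 16 Gd mult S343_372_660_808 (Tr.lf 13432554564 103648200 3000635603367919043814948893) 192 256 256 288 352 384) = true := by decide +kernel
  have c5 : (band (go 16 Gd mult S314_343_660_808 (Tr.lf 12893571140 91327175 3327085382729417087317442560) 192 256 288 320 256 384)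
  (band (go 16 Gd mult S343_372_660_808 (Tr.lf 9137571906 108362696 4117722315376736054054551599) 192 256 288 320 256 384)
  (go 16 Gd mult S343_372_660_808 (Tr.lf 13432537666 103779272 2103576581847777519783051311) 192 256 256 288 320 352))) = true := by decide +kernel
  have c6 : (go 16 Gd mult S372_401_216_364 (Tr.lf 13424150596 108092360 1214970448712702320579706880) 128 192 256 288 256 384) = true := by decide +kernel
  have c7 : (go 16 Gd mult S314_372_660_808 (Tr.sp 2 320 (Tr.sp 0 160 Tr.skip (Tr.lf 8591279170 99847365 3632919689664854667229659136)) Tr.skip) 128 192 288 320 256 384) = true := by decide +kernel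
  have c8 : (go 16 Gd mult S401_430_364_512 (Tr.lf 13424018564 103779144 1285088146250350812712665088) 128 192 256 288 256 320) = true := by decide +kernel
  have c9 : (go 16 Gd mult S372_430_216_364 (Tr.lf 8590099492 104041286 10759446730589600115628769387) 192 256 304 320 256 384) = true := by decide +kernel
  have c10 : (band (go 16 Gd mult S401_430_364_512 (Tr.lf 13423952962 103635912 2727336649050603418137133056) 128 160 256 288 320 384)
  (go 16 Gd mult S401_430_364_512 (Tr.lf 13423952962 103898056 3019896697397343678416027648) 160 192 256 288 320 384)) = true := by decide +kernel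
  have c11 : (band (go 16 Gd mult S372_430_216_364 (Tr.sp 0 160 Tr.skip (Tr.lf 8591131682 99843142 6743416223967905427610402816)) 128 192 288 320 256 384)
  (go 16 Gd mult S372_430_216_364 (Tr.lf 8591131666 112176070 5829440302181741880433180672) 192 256 288 304 256 384)) = true := by decide +kernel
  (And.intro (Ok.s3 343 (Ok.lf S314_343_660_808_ok c3)
  (Ok.s2 352 (Ok.lf S343_372_660_808_ok (br (br c5)))
  (Ok.lf S343_372_660_808_ok c4)))
  (And.intro (Ok.s0 192 (Ok.lf S314_372_660_808_ok c7)
  (Ok.s3 343 (Ok.lf S314_343_660_808_ok (bl c5))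
  (Ok.lf S343_372_660_808_ok (bl (br c5)))))
  (And.intro (Ok.s1 288 (Ok.s3 401 (Ok.s0 192 (Ok.lf S372_401_216_364_ok c6)
  (Ok.lf S372_401_216_364_ok (bl (br (br c1)))))
  (Ok.s2 320 (Ok.lf S401_430_216_364_ok (bl c2))
  (Ok.lf S401_430_216_364_ok (br c2))))
  (Ok.s0 192 (Ok.lf S372_430_216_364_ok (bl c11))
  (Ok.s1 304 (Ok.lf S372_430_216_364_ok (br c11))
  (Ok.lf S372_430_216_364_ok c9))))
  (Ok.s0 192 (Ok.s2 320 (Ok.s3 401 (Ok.lf S372_401_364_512_ok (br (br (br c1))))
  (Ok.lf S401_430_364_512_ok c8))
  (Ok.s3 401 (Ok.lf S372_401_364_512_ok c0)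
  (Ok.s0 160 (Ok.lf S401_430_364_512_ok (bl c10))
  (Ok.lf S401_430_364_512_ok (br c10)))))
  (Ok.s3 401 (Ok.lf S372_401_364_512_ok (bl (br c1)))
  (Ok.lf S401_430_364_512_ok (bl c1)))))))

end Vale.Agent.P098.Ck
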