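import Vale.Agent.P098.CkGd
import Vale.Agent.P098.CkOk
import Vale.Agent.P098.Sh.A53
import Vale.Agent.P098.Sh.A54
import Vale.Agent.P098.Sh.A55
import Vale.Agent.P098.Sh.A56
import Vale.Agent.P098.Sh.A57

namespace Vale.Agent.P098.Ck

theorem r367 :
    Ok Gd mult 128 256 288 320 256 384 372 430 364 512 ∧
    Ok Gd mult 128 256 256 320 256 384 372 430 512 660 ∧
    Ok Gd mult 128 256 256 288 256 320 372 401 660 808 :=
  have c0 : (go 16 Gd mult S372_430_512_660 (Tr.lf 8591279240 108235846 6343260357276169495147184128) 192 256 288 320 256 320) = true := by decide +kernel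
  have c1 : (go 16 Gd mult S401_430_512_660 (Tr.lf 13424034952 107969480 1281461368791506925188546560) 128 256 256 288 256 320) = true := by decide +kernel
  have c2 : (band (go 16 Gd mult S372_401_512_660 (Tr.lf 13433603144 108104394 11234075303787997495325) 128 256 256 272 256 320)
  (go 16 Gd mult S372_401_512_660 (Tr.lf 13424165928 104033224 1577679941443641927129890816) 128 256 272 288 256 320)) = true := by decide +kernel
  have c3 : (band (go 16 Gd mult S372_386_660_808 (Tr.lf 18273814600 103779401 29994414026750612668445) 128 192 256 272 256 320)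
  (go 16 Gd mult S372_386_660_808 (Tr.lf 17727506504 95255369 1532963816323861109182300160) 128 192 272 288 256 320)) = true := by decide +kernel
  have c4 : (go 16 Gd mult S401_430_512_660 (Tr.lf 13433455752 103648201 2995737808340745521884823552) 128 192 256 288 320 384) = true := by decide +kernel
  have c5 : (go 16 Gd mult S386_401_660_808 (Tr.lf 13432538244 108108616 1189594591056073397509292032) 128 192 256 288 256 320) = true := by decide +kernel
  have c6 : (band (go 16 Gd mult S372_401_512_660 (Tr.lf 13970342980 103779145 3733279827987169988921262080) 128 160 256 272 352 384)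
  (band (go 16 Gd mult S372_401_512_660 (Tr.lf 13978731586 99589065 2548484876833053780261994496) 160 192 256 272 352 384)
  (band (go 16 Gd mult S372_401_512_660 (Tr.lf 13970342436 91323337 1274232071342276078200684573) 128 192 256 264 320 352)
  (go 16 Gd mult S372_401_512_660 (Tr.lf 13433471524 103910217 2955880740077420536928403456) 128 192 264 272 320 352)))) = true := by decide +kernel
  have c7 : (band (go 16 Gd mult S372_430_364_512 (Tr.lf 8591148068 103918534 5652937132518006020926078976) 192 256 288 304 256 384)
  (go 16 Gd mult S372_430_364_512 (Tr.lf 13422986276 103770952 10596262811079728607398985728) 192 256 304 320 256 384)) = true := by decide +kernel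
  have c8 : (go 16 Gd mult S372_430_512_660 (Tr.lf 8591147588 104037446 5807759050661915874908176384) 128 192 288 320 256 320) = true := by decide +kernel
  have c9 : (band (go 16 Gd mult S372_401_512_660 (Tr.lf 13432407108 103910344 2790204536359611098260832256) 192 256 256 288 320 384)
  (band (go 16 Gd mult S401_430_512_660 (Tr.lf 13423952964 99580872 3250801528943737850784907264) 192 256 256 288 320 384)
  (go 16 Gd mult S372_401_512_660 (Tr.sp 0 160 Tr.skip (Tr.lf 13432407074 107969480 3659514637297082833437720576)) 128 192 272 288 320 384))) = true := by decide +kernel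
  have c10 : (go 16 Gd mult S372_401_660_808 (Tr.lf 13424018498 104033224 0) 192 256 256 288 256 320) = true := by decide +kernel
  have c11 : (go 16 Gd mult S372_430_364_512 (Tr.sp 0 160 Tr.skip (Tr.sp 2 320 (Tr.lf 8591065634 99843142 5868175882192361619489554432) Tr.skip)) 128 192 288 320 256 384) = true := by decide +kernel
  have c12 : (go 16 Gd mult S372_430_512_660 (Tr.sp 0 192 Tr.skip (Tr.lf 8591065634 103910470 11231081646041251485472260096)) 128 256 288 320 320 384) = true := by decide +kernel
  (And.intro (Ok.s0 192 (Ok.lf S372_430_364_512_ok c11)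
  (Ok.s1 304 (Ok.lf S372_430_364_512_ok (bl c7))
  (Ok.lf S372_430_364_512_ok (br c7))))
  (And.intro (Ok.s2 320 (Ok.s1 288 (Ok.s3 401 (Ok.s1 272 (Ok.lf S372_401_512_660_ok (bl c2))
  (Ok.lf S372_401_512_660_ok (br c2)))
  (Ok.lf S401_430_512_660_ok c1))
  (Ok.s0 192 (Ok.lf S372_430_512_660_ok c8)
  (Ok.lf S372_430_512_660_ok c0)))
  (Ok.s1 288 (Ok.s0 192 (Ok.s3 401 (Ok.s1 272 (Ok.s2 352 (Ok.s1 264 (Ok.lf S372_401_512_660_ok (bl (br (br c6))))
  (Ok.lf S372_401_512_660_ok (br (br (br c6)))))
  (Ok.s0 160 (Ok.lf S372_401_512_660_ok (bl c6))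
  (Ok.lf S372_401_512_660_ok (bl (br c6)))))
  (Ok.lf S372_401_512_660_ok (br (br c9))))
  (Ok.lf S401_430_512_660_ok c4))
  (Ok.s3 401 (Ok.lf S372_401_512_660_ok (bl c9))
  (Ok.lf S401_430_512_660_ok (bl (br c9)))))
  (Ok.lf S372_430_512_660_ok c12)))
  (Ok.s0 192 (Ok.s3 386 (Ok.s1 272 (Ok.lf S372_386_660_808_ok (bl c3))
  (Ok.lf S372_386_660_808_ok (br c3)))
  (Ok.lf S386_401_660_808_ok c5))
  (Ok.lf S372_401_660_808_ok c10))))

end Vale.Agent.P098.Ck
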