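import Vale.Agent.P098.CkGd
import Vale.Agent.P098.CkOk
import Vale.Agent.P098.Sh.A53
import Vale.Agent.P098.Sh.A54
import Vale.Agent.P098.Sh.A55
import Vale.Agent.P098.Sh.A56
import Vale.Agent.P098.Sh.A57
import Vale.Agent.P098.Sh.A58

namespace Vale.Agent.P098.Ck

theorem r368 :
    Ok Gd mult 128 256 256 288 256 320 401 430 660 808 ∧
    Ok Gd mult 128 256 288 320 256 320 372 430 660 808 ∧
    Ok Gd mult 128 256 256 320 320 384 372 430 660 808 ∧
    Ok Gd mult 128 256 256 288 256 384 430 488 216 364 :=
  have c0 : (go 16 Gd mult S430_488_216_364 (Tr.lf 13424035976 107969480 1364877250344916338243272704) 128 256 256 288 256 320) = true := by decide +kernel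
  have c1 : (go 16 Gd mult S401_430_660_808 (Tr.lf 13424166024 107969480 1276625665513048408489721856) 128 256 256 288 256 320) = true := by decide +kernel
  have c2 : (band (go 16 Gd mult S372_386_660_808 (Tr.lf 18274091592 95128394 4158789397822923345816977408) 128 192 256 264 352 368)
  (band (go 16 Gd mult S386_401_660_808 (Tr.lf 18273813032 99322698 3832361238010295764494843904) 128 192 256 264 352 368)
  (go 16 Gd mult S386_401_660_808 (Tr.lf 18265424968 99445578 1262151741370261461876604928) 128 192 256 264 320 352))) = true := by decide +kernel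
  have c3 : (go 16 Gd mult S372_386_660_808 (Tr.lf 18274075720 95259466 1231948223215590159471869952) 128 192 256 264 320 352) = true := by decide +kernel
  have c4 : (band (go 16 Gd mult S372_401_660_808 (Tr.lf 13433603204 103910090 2715268789086026307542515741) 192 256 256 288 320 384)
  (band (go 16 Gd mult S401_430_660_808 (Tr.lf 13424018500 99580872 3227831938371059896465489920) 192 256 256 288 320 384)
  (band (go 16 Gd mult S401_430_660_808 (Tr.lf 13970326664 103648201 4560108331701485638976012288) 128 192 256 288 352 384)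
  (go 16 Gd mult S401_430_660_808 (Tr.lf 8591131208 104041542 6662400337605461922059124736) 128 256 288 320 256 320)))) = true := by decide +kernel
  have c5 : (band (go 16 Gd mult S372_401_660_808 (Tr.sp 0 160 Tr.skip (Tr.lf 13432554564 107969480 3568870546652342922258677760)) 128 192 272 288 320 384)
  (band (go 16 Gd mult S372_401_660_808 (Tr.lf 18273829416 103648074 3018744882697381254013124608) 128 192 264 272 320 336)
  (go 16 Gd mult S372_401_660_808 (Tr.lf 18273829416 103648074 3267812507585958366869979136) 128 192 264 272 336 352))) = true := by decide +kernel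
  have c6 : (go 16 Gd mult S430_488_216_364 (Tr.lf 13423969352 99580872 3935053542845617963668602880) 128 256 256 288 320 384) = true := by decide +kernel
  have c7 : (go 16 Gd mult S372_401_660_808 (Tr.lf 18274091556 99322698 4210804087888910763585175552) 160 192 256 264 368 384) = true := by decide +kernel
  have c8 : (go 16 Gd mult S401_430_660_808 (Tr.lf 13970342532 103779273 2972748590432373140602486784) 128 192 256 288 320 352) = true := by decide +kernel
  have c9 : (go 16 Gd mult S372_401_660_808 (Tr.sp 0 160 Tr.skip (Tr.lf 18273813540 99453770 3583382286620480973452607488)) 128 192 264 272 352 384) = true := by decide +kernel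
  have c10 : (band (go 16 Gd mult S372_401_660_808 (Tr.lf 8591131204 103906374 4520270355818276943405514752) 128 192 288 320 256 320)
  (go 16 Gd mult S372_401_660_808 (Tr.lf 9137438994 99454151 79104849645656272424192966523) 128 160 256 264 368 384)) = true := by decide +kernel
  have c11 : (go 16 Gd mult S372_430_660_808 (Tr.sp 0 192 Tr.skip (Tr.lf 8591147554 99847238 11092066761362801896934146077)) 128 256 288 320 320 384) = true := by decide +kernel
  have c12 : (go 16 Gd mult S372_401_660_808 (Tr.lf 8591122978 108112838 4708810505605454201790398464) 192 256 288 320 256 320) = true := by decide +kernel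
  (And.intro (Ok.lf S401_430_660_808_ok c1)
  (And.intro (Ok.s3 401 (Ok.s0 192 (Ok.lf S372_401_660_808_ok (bl c10))
  (Ok.lf S372_401_660_808_ok c12))
  (Ok.lf S401_430_660_808_ok (br (br (br c4)))))
  (And.intro (Ok.s1 288 (Ok.s0 192 (Ok.s3 401 (Ok.s1 272 (Ok.s2 352 (Ok.s1 264 (Ok.s3 386 (Ok.lf S372_386_660_808_ok c3)
  (Ok.lf S386_401_660_808_ok (br (br c2))))
  (Ok.s2 336 (Ok.lf S372_401_660_808_ok (bl (br c5)))
  (Ok.lf S372_401_660_808_ok (br (br c5)))))
  (Ok.s1 264 (Ok.s2 368 (Ok.s3 386 (Ok.lf S372_386_660_808_ok (bl c2))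
  (Ok.lf S386_401_660_808_ok (bl (br c2))))
  (Ok.s0 160 (Ok.lf S372_401_660_808_ok (br c10))
  (Ok.lf S372_401_660_808_ok c7)))
  (Ok.lf S372_401_660_808_ok c9)))
  (Ok.lf S372_401_660_808_ok (bl c5)))
  (Ok.s2 352 (Ok.lf S401_430_660_808_ok c8)
  (Ok.lf S401_430_660_808_ok (bl (br (br c4))))))
  (Ok.s3 401 (Ok.lf S372_401_660_808_ok (bl c4))
  (Ok.lf S401_430_660_808_ok (bl (br c4)))))
  (Ok.lf S372_430_660_808_ok c11))
  (Ok.s2 320 (Ok.lf S430_488_216_364_ok c0)
  (Ok.lf S430_488_216_364_ok c6)))))

end Vale.Agent.P098.Ck
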