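import Vale.Agent.P098.CkGd
import Vale.Agent.P098.CkOk
import Vale.Agent.P098.Sh.A58
import Vale.Agent.P098.Sh.A59

namespace Vale.Agent.P098.Ck

theorem r369 :
    Ok Gd mult 128 256 288 320 256 384 430 488 216 364 ∧
    Ok Gd mult 128 256 256 320 256 384 430 488 364 512 ∧
    Ok Gd mult 128 256 256 320 256 384 430 488 512 660 ∧
    Ok Gd mult 128 256 256 288 256 384 430 488 660 808 :=
  have c0 : (band (go 16 Gd mult S430_488_364_512 (Tr.lf 13424035976 107969480 1364877250344916338243272704) 128 256 256 288 256 320)
  (go 16 Gd mult S430_459_512_660 (Tr.lf 13424018568 107969480 1345534437231082271447973888) 128 256 256 288 256 320)) = true := by decide +kernel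
  have c1 : (band (go 16 Gd mult S430_459_660_808 (Tr.lf 13424018568 107969480 1345534437231082271447973888) 128 256 256 288 256 320)
  (band (go 16 Gd mult S459_488_512_660 (Tr.lf 18265228360 107707338 1364877250344916338243272704) 128 256 256 288 256 320)
  (go 16 Gd mult S459_488_660_808 (Tr.lf 18265228360 107707338 1364877250344916338243272704) 128 256 256 288 256 320))) = true := by decide +kernel
  have c2 : (band (go 16 Gd mult S430_488_660_808 (Tr.lf 13424034888 99580872 3935053542845617963668602880) 128 256 256 288 320 384)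
  (band (go 16 Gd mult S430_488_512_660 (Tr.lf 13423969352 99580872 3935053542845617963668602880) 128 256 256 288 320 384)
  (band (go 16 Gd mult S430_488_364_512 (Tr.lf 13423969352 99580872 3935053542845617963668602880) 128 256 256 288 320 384)
  (go 16 Gd mult S430_488_364_512 (Tr.lf 13422920776 99707720 14258071116534936486484639744) 192 256 304 320 256 384)))) = true := by decide +kernel
  have c3 : (band (go 16 Gd mult S430_488_216_364 (Tr.lf 13422920776 99707720 14289503187844916845027000320) 192 256 304 320 256 384)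
  (go 16 Gd mult S430_488_512_660 (Tr.lf 13422921796 99707720 14226639045224956127942279168) 192 256 304 320 256 384)) = true := by decide +kernel
  have c4 : (band (go 16 Gd mult S430_488_216_364 (Tr.sp 1 304 (Tr.lf 8591066146 103906374 6038584468975072727657349120) Tr.skip) 128 192 288 320 256 384)
  (band (go 16 Gd mult S430_488_512_660 (Tr.sp 1 304 (Tr.lf 8591066146 103906374 6037375543155458098482642944) Tr.skip) 128 192 288 320 256 384)
  (band (go 16 Gd mult S430_488_364_512 (Tr.sp 1 304 (Tr.lf 8591066146 103906374 6038584468975072727657349120) Tr.skip) 128 192 288 320 256 384)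
  (band (go 16 Gd mult S430_488_216_364 (Tr.lf 8591065634 99974214 10734059288342227055888105501) 192 256 288 304 320 384)
  (band (go 16 Gd mult S430_488_364_512 (Tr.lf 8591065634 99974214 10734062700981717793274593280) 192 256 288 304 320 384)
  (band (go 16 Gd mult S430_488_512_660 (Tr.lf 8591065634 99974214 10734065910715186618736574464) 192 256 288 304 320 384)
  (band (go 16 Gd mult S430_488_512_660 (Tr.lf 13432341026 108108744 5692831684565288783691382784) 192 256 288 304 256 320)
  (go 16 Gd mult S430_488_216_364 (Tr.lf 13432332834 103914440 5692831684565288783691382784) 192 256 288 304 256 320)))))))) = true := by decide +kernel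
  have c5 : (go 16 Gd mult S430_488_364_512 (Tr.lf 13432332834 103914440 5692831684565288783691382784) 192 256 288 304 256 320) = true := by decide +kernel
  (And.intro (Ok.s0 192 (Ok.lf S430_488_216_364_ok (bl c4))
  (Ok.s1 304 (Ok.s2 320 (Ok.lf S430_488_216_364_ok (br (br (br (br (br (br (br c4))))))))
  (Ok.lf S430_488_216_364_ok (bl (br (br (br c4))))))
  (Ok.lf S430_488_216_364_ok (bl c3))))
  (And.intro (Ok.s1 288 (Ok.s2 320 (Ok.lf S430_488_364_512_ok (bl c0))
  (Ok.lf S430_488_364_512_ok (bl (br (br c2)))))
  (Ok.s0 192 (Ok.lf S430_488_364_512_ok (bl (br (br c4))))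
  (Ok.s1 304 (Ok.s2 320 (Ok.lf S430_488_364_512_ok c5)
  (Ok.lf S430_488_364_512_ok (bl (br (br (br (br c4)))))))
  (Ok.lf S430_488_364_512_ok (br (br (br c2)))))))
  (And.intro (Ok.s1 288 (Ok.s2 320 (Ok.s3 459 (Ok.lf S430_459_512_660_ok (br c0))
  (Ok.lf S459_488_512_660_ok (bl (br c1))))
  (Ok.lf S430_488_512_660_ok (bl (br c2))))
  (Ok.s0 192 (Ok.lf S430_488_512_660_ok (bl (br c4)))
  (Ok.s1 304 (Ok.s2 320 (Ok.lf S430_488_512_660_ok (bl (br (br (br (br (br (br c4))))))))
  (Ok.lf S430_488_512_660_ok (bl (br (br (br (br (br c4))))))))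
  (Ok.lf S430_488_512_660_ok (br c3)))))
  (Ok.s2 320 (Ok.s3 459 (Ok.lf S430_459_660_808_ok (bl c1))
  (Ok.lf S459_488_660_808_ok (br (br c1))))
  (Ok.lf S430_488_660_808_ok (bl c2))))))

end Vale.Agent.P098.Ck
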