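import Vale.Agent.P098.CkGd
import Vale.Agent.P098.CkOk
import Vale.Agent.P098.Sh.A0
import Vale.Agent.P098.Sh.A1
import Vale.Agent.P098.Sh.A2
import Vale.Agent.P098.Sh.A5

namespace Vale.Agent.P098.Ck

theorem r37 :
    Ok Gd mult 0 128 64 128 448 512 24 82 660 808 ∧
    Ok Gd mult 0 128 64 128 384 512 82 140 216 364 ∧
    Ok Gd mult 0 128 64 128 384 448 82 140 364 512 ∧
    Ok Gd mult 0 128 64 128 448 480 82 140 364 512 :=
  have c0 : (band (go 16 Gd mult S111_140_216_364 (Tr.lf 9683894920 95259720 18921213829493847194559578112) 0 128 64 96 504 512)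
  (band (go 16 Gd mult S82_111_216_364 (Tr.lf 9675358788 95120456 17804267165179548586121101312) 0 128 64 96 504 512)
  (go 16 Gd mult S111_140_216_364 (Tr.lf 9674458244 103374023 31746846550854138331136) 0 128 64 128 480 496))) = true := by decide +kernel
  have c1 : (band (go 16 Gd mult S53_82_660_808 (Tr.lf 9675359368 90926407 82631968717474049497694208) 0 128 64 96 496 512)
  (go 16 Gd mult S24_53_660_808 (Tr.lf 10203776068 99175241 314762162132231529015214080) 0 128 64 96 496 512)) = true := by decide +kernel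
  have c2 : (band (go 16 Gd mult S111_140_216_364 (Tr.lf 9137440900 94849865 0) 0 128 64 128 384 448)
  (band (go 16 Gd mult S111_140_364_512 (Tr.lf 9137439876 90655561 0) 0 128 64 128 384 448)
  (band (go 16 Gd mult S82_111_216_364 (Tr.lf 9137439876 86596552 0) 0 128 64 128 384 448)
  (band (go 16 Gd mult S82_111_364_512 (Tr.lf 9137374340 86596552 0) 0 128 64 128 384 448)
  (go 16 Gd mult S82_111_216_364 (Tr.lf 9137439364 86596552 0) 0 128 64 128 448 480))))) = true := by decide +kernel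
  have c3 : (band (go 16 Gd mult S111_140_216_364 (Tr.lf 9137570948 99179464 0) 0 128 64 128 448 480)
  (band (go 16 Gd mult S111_140_364_512 (Tr.lf 9137439876 99179464 0) 0 128 64 128 448 480)
  (band (go 16 Gd mult S24_82_660_808 (Tr.lf 4834017924 95382598 0) 0 128 64 128 448 480)
  (band (go 16 Gd mult S82_111_364_512 (Tr.lf 9137373828 86596552 0) 0 128 64 128 448 480)
  (band (go 16 Gd mult S111_140_216_364 (Tr.lf 9682829892 99454023 8073430382392107725548945408) 0 128 96 128 496 512)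
  (go 16 Gd mult S24_82_660_808 (Tr.lf 5371953732 95382599 7380900373640406377785917440) 0 128 96 128 496 512)))))) = true := by decide +kernel
  have c4 : (band (go 16 Gd mult S24_82_660_808 (Tr.lf 5371953800 103771207 0) 0 128 64 128 480 496)
  (band (go 16 Gd mult S82_111_216_364 (Tr.lf 5379343492 95386567 23372024741390001897472) 0 128 64 128 480 496)
  (band (go 16 Gd mult S82_111_216_364 (Tr.lf 9675358788 99322824 7730181448342424673862025216) 0 128 96 128 496 512)
  (band (go 16 Gd mult S82_111_216_364 (Tr.lf 9675358532 99314760 0) 0 128 64 96 496 504)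
  (go 16 Gd mult S111_140_216_364 (Tr.lf 9674441028 99445831 0) 0 128 64 96 496 504))))) = true := by decide +kernel
  (And.intro (Ok.s2 480 (Ok.lf S24_82_660_808_ok (bl (br (br c3))))
  (Ok.s2 496 (Ok.lf S24_82_660_808_ok (bl c4))
  (Ok.s1 96 (Ok.s3 53 (Ok.lf S24_53_660_808_ok (br c1))
  (Ok.lf S53_82_660_808_ok (bl c1)))
  (Ok.lf S24_82_660_808_ok (br (br (br (br (br c3)))))))))
  (And.intro (Ok.s2 448 (Ok.s3 111 (Ok.lf S82_111_216_364_ok (bl (br (br c2))))
  (Ok.lf S111_140_216_364_ok (bl c2)))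
  (Ok.s2 480 (Ok.s3 111 (Ok.lf S82_111_216_364_ok (br (br (br (br c2)))))
  (Ok.lf S111_140_216_364_ok (bl c3)))
  (Ok.s2 496 (Ok.s3 111 (Ok.lf S82_111_216_364_ok (bl (br c4)))
  (Ok.lf S111_140_216_364_ok (br (br c0))))
  (Ok.s1 96 (Ok.s2 504 (Ok.s3 111 (Ok.lf S82_111_216_364_ok (bl (br (br (br c4)))))
  (Ok.lf S111_140_216_364_ok (br (br (br (br c4))))))
  (Ok.s3 111 (Ok.lf S82_111_216_364_ok (bl (br c0)))
  (Ok.lf S111_140_216_364_ok (bl c0))))
  (Ok.s3 111 (Ok.lf S82_111_216_364_ok (bl (br (br c4))))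
  (Ok.lf S111_140_216_364_ok (bl (br (br (br (br c3)))))))))))
  (And.intro (Ok.s3 111 (Ok.lf S82_111_364_512_ok (bl (br (br (br c2)))))
  (Ok.lf S111_140_364_512_ok (bl (br c2))))
  (Ok.s3 111 (Ok.lf S82_111_364_512_ok (bl (br (br (br c3)))))
  (Ok.lf S111_140_364_512_ok (bl (br c3)))))))

end Vale.Agent.P098.Ck
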