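import Vale.Agent.P098.CkGd
import Vale.Agent.P098.CkOk
import Vale.Agent.P098.Sh.A0
import Vale.Agent.P098.Sh.A1
import Vale.Agent.P098.Sh.A3
import Vale.Agent.P098.Sh.A4
import Vale.Agent.P098.Sh.A59

namespace Vale.Agent.P098.Ck

theorem r370 :
    Ok Gd mult 128 256 288 320 256 384 430 488 660 808 ∧
    Ok Gd mult 128 256 256 320 384 512 24 140 216 808 :=
  have c0 : (band (go 16 Gd mult S82_140_512_660 (Tr.lf 698648708 103779400 5922524806489655623559222628) 128 192 256 320 384 448)
  (band (go 16 Gd mult S24_82_364_512 (Tr.lf 690061890 103783750 4844162421647675370917794281) 128 192 256 320 384 448)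
  (band (go 16 Gd mult S24_82_512_660 (Tr.lf 690061890 99589446 4844154600127420488698892449) 128 192 256 320 384 448)
  (go 16 Gd mult S24_82_660_808 (Tr.lf 690061890 108113094 4844156905864310397742878474) 128 192 256 320 384 448)))) = true := by decide +kernel
  have c1 : (band (go 16 Gd mult S82_140_660_808 (Tr.lf 698647684 108100680 5912852311288573744624308839) 128 192 256 320 384 448)
  (go 16 Gd mult S24_82_216_364 (Tr.lf 4296098338 95378374 4844156352712508389029515927) 128 192 256 320 384 448)) = true := by decide +kernel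
  have c2 : (go 16 Gd mult S430_488_660_808 (Tr.lf 13422921800 99707720 14212131935389580577845805056) 192 256 304 320 256 384) = true := by decide +kernel
  have c3 : (band (go 16 Gd mult S82_140_364_512 (Tr.lf 690127492 99720263 5871748832280841070469513999) 128 192 256 320 384 416)
  (band (go 16 Gd mult S82_140_216_364 (Tr.lf 690258500 99720263 5827015367265260123812660138) 128 192 256 320 384 416)
  (band (go 16 Gd mult S82_140_364_512 (Tr.lf 690127172 99724359 8526551354761783610859069624) 128 256 256 320 416 448)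
  (go 16 Gd mult S82_140_216_364 (Tr.lf 690127428 99724359 8919452246153145451277066406) 128 256 256 320 416 448)))) = true := by decide +kernel
  have c4 : (band (go 16 Gd mult S430_488_660_808 (Tr.sp 1 304 (Tr.lf 8591066146 103906374 6037375543155458098482642944) Tr.skip) 128 192 288 320 256 384)
  (band (go 16 Gd mult S430_488_660_808 (Tr.lf 8591065634 99974214 10732858423741609738906894336) 192 256 288 304 320 384)
  (go 16 Gd mult S430_488_660_808 (Tr.lf 13432340770 103914440 5691622758745674154516676608) 192 256 288 304 256 320))) = true := by decide +kernel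
  have c5 : (band (go 16 Gd mult S82_140_512_660 (Tr.lf 4296098370 99851205 6025542362660543042731114496) 192 256 256 320 384 448)
  (band (go 16 Gd mult S82_140_660_808 (Tr.lf 4296163874 99851205 5463320836575056694719021056) 192 256 256 320 384 448)
  (band (go 16 Gd mult S24_82_216_364 (Tr.lf 4296090145 108231876 3693268378922692128727367680) 192 256 256 320 384 448)
  (band (go 16 Gd mult S24_82_364_512 (Tr.lf 4296090145 108231876 3686014824005004353679130624) 192 256 256 320 384 448)
  (band (go 16 Gd mult S24_82_512_660 (Tr.lf 4296090145 108231876 3671507714169628803582656512) 192 256 256 320 384 448)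
  (go 16 Gd mult S24_82_660_808 (Tr.lf 4296090145 108231876 3657000604334253253486182400) 192 256 256 320 384 448)))))) = true := by decide +kernel
  have c6 : (band (go 16 Gd mult S82_140_216_364 (Tr.lf 4296163618 108108996 6894642244502550783857786880) 192 256 256 320 384 416)
  (go 16 Gd mult S82_140_364_512 (Tr.lf 4296098082 108108996 6617778051072784064600604672) 192 256 256 320 384 416)) = true := by decide +kernel
  (And.intro (Ok.s0 192 (Ok.lf S430_488_660_808_ok (bl c4))
  (Ok.s1 304 (Ok.s2 320 (Ok.lf S430_488_660_808_ok (br (br c4)))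
  (Ok.lf S430_488_660_808_ok (bl (br c4))))
  (Ok.lf S430_488_660_808_ok c2)))
  (Ok.s3 82 (Ok.s4 512 (Ok.s4 364 (Ok.s2 448 (Ok.s0 192 (Ok.lf S24_82_216_364_ok (br c1))
  (Ok.lf S24_82_216_364_ok (bl (br (br c5)))))
  (Ok.out rfl))
  (Ok.s2 448 (Ok.s0 192 (Ok.lf S24_82_364_512_ok (bl (br c0)))
  (Ok.lf S24_82_364_512_ok (bl (br (br (br c5))))))
  (Ok.out rfl)))
  (Ok.s4 660 (Ok.s2 448 (Ok.s0 192 (Ok.lf S24_82_512_660_ok (bl (br (br c0))))
  (Ok.lf S24_82_512_660_ok (bl (br (br (br (br c5)))))))
  (Ok.out rfl))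
  (Ok.s2 448 (Ok.s0 192 (Ok.lf S24_82_660_808_ok (br (br (br c0))))
  (Ok.lf S24_82_660_808_ok (br (br (br (br (br c5)))))))
  (Ok.out rfl))))
  (Ok.s4 512 (Ok.s4 364 (Ok.s2 448 (Ok.s2 416 (Ok.s0 192 (Ok.lf S82_140_216_364_ok (bl (br c3)))
  (Ok.lf S82_140_216_364_ok (bl c6)))
  (Ok.lf S82_140_216_364_ok (br (br (br c3)))))
  (Ok.out rfl))
  (Ok.s2 448 (Ok.s2 416 (Ok.s0 192 (Ok.lf S82_140_364_512_ok (bl c3))
  (Ok.lf S82_140_364_512_ok (br c6)))
  (Ok.lf S82_140_364_512_ok (bl (br (br c3)))))
  (Ok.out rfl)))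
  (Ok.s4 660 (Ok.s2 448 (Ok.s0 192 (Ok.lf S82_140_512_660_ok (bl c0))
  (Ok.lf S82_140_512_660_ok (bl c5)))
  (Ok.out rfl))
  (Ok.s2 448 (Ok.s0 192 (Ok.lf S82_140_660_808_ok (bl c1))
  (Ok.lf S82_140_660_808_ok (bl (br c5))))
  (Ok.out rfl))))))

end Vale.Agent.P098.Ck
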