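import Vale.Agent.P098.CkGd
import Vale.Agent.P098.CkOk
import Vale.Agent.P098.Sh.A10
import Vale.Agent.P098.Sh.A11
import Vale.Agent.P098.Sh.A18
import Vale.Agent.P098.Sh.A19
import Vale.Agent.P098.Sh.A25
import Vale.Agent.P098.Sh.A28
import Vale.Agent.P098.Sh.A36
import Vale.Agent.P098.Sh.A9

namespace Vale.Agent.P098.Ck

theorem r371 :
    Ok Gd mult 128 256 256 320 384 512 140 198 216 364 ∧
    Ok Gd mult 128 256 256 320 384 512 140 198 364 512 ∧
    Ok Gd mult 128 256 256 320 384 512 140 198 512 808 ∧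
    Ok Gd mult 128 256 256 320 384 512 198 256 216 364 :=
  have c0 : (band (go 16 Gd mult S198_256_216_364 (Tr.lf 8598618402 91196358 9112882828255074718935154688) 192 256 256 288 384 416)
  (band (go 16 Gd mult S140_198_216_364 (Tr.lf 4296180002 104168645 8114393259175675303286538240) 192 256 256 288 384 416)
  (band (go 16 Gd mult S169_198_364_512 (Tr.lf 4303495441 104037445 7233003178754326352267051008) 192 256 256 288 384 416)
  (band (go 16 Gd mult S198_256_216_364 (Tr.lf 4303651106 99974213 12950191796620588638235793386) 192 256 256 288 416 448)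
  (band (go 16 Gd mult S169_198_364_512 (Tr.lf 9576721 112299205 10420234220808939972406870045) 192 256 256 288 416 448)
  (band (go 16 Gd mult S140_198_216_364 (Tr.lf 1196578 112430149 11754382959169782971796752213) 192 256 256 288 416 448)
  (band (go 16 Gd mult S140_198_216_364 (Tr.sp 2 416 (Tr.sp 0 160 Tr.skip (Tr.sp 1 288 (Tr.lf 4833050913 103906501 6484035836124456547665313792) Tr.skip)) Tr.skip) 128 192 256 320 384 448)
  (go 16 Gd mult S169_198_364_512 (Tr.sp 2 416 (Tr.lf 4303495457 108104645 5801865389717341968005070848) Tr.skip) 128 192 256 288 384 448)))))))) = true := by decide +kernel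
  have c1 : (band (go 16 Gd mult S140_169_364_512 (Tr.lf 76694050 108104901 5166944728962439791512453933) 128 192 256 288 384 448)
  (band (go 16 Gd mult S140_169_512_660 (Tr.lf 613564962 104041669 5667441789050700480829063544) 128 192 256 288 384 448)
  (go 16 Gd mult S140_169_660_808 (Tr.lf 613687842 99855429 5912847329311225361364484125) 128 192 256 288 384 448))) = true := by decide +kernel
  have c2 : (band (go 16 Gd mult S227_256_216_364 (Tr.sp 2 416 (Tr.lf 8598593826 95521606 7201595918315125133071619960) Tr.skip) 128 192 256 288 384 448)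
  (band (go 16 Gd mult S169_198_512_660 (Tr.sp 2 416 (Tr.lf 8598462754 99580742 5324253673801947736356945920) Tr.skip) 128 192 256 288 384 448)
  (band (go 16 Gd mult S169_198_660_808 (Tr.sp 2 416 (Tr.lf 8598462754 99715782 5889987054130698761386590208) Tr.skip) 128 192 256 288 384 448)
  (band (go 16 Gd mult S198_227_216_364 (Tr.sp 2 416 (Tr.lf 4303495442 99978181 7200477086393567373225361485) Tr.skip) 128 192 256 288 384 448)
  (band (go 16 Gd mult S169_198_512_660 (Tr.lf 4303495713 104172485 5455882223920821465448972288) 192 256 256 288 384 448)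
  (band (go 16 Gd mult S169_198_660_808 (Tr.lf 8598462994 99719878 3530063393274717190142033920) 192 256 256 288 384 448)
  (band (go 16 Gd mult S140_169_364_512 (Tr.lf 4296155665 104041541 5729401174099797252358799360) 192 256 256 288 384 448)
  (go 16 Gd mult S140_169_512_660 (Tr.lf 4296155665 108104773 4015033773655531193863503872) 192 256 256 288 384 448)))))))) = true := by decide +kernel
  have c3 : (go 16 Gd mult S140_169_660_808 (Tr.lf 4295107089 104176580 3447931552682790551556194304) 192 256 256 288 384 448) = true := by decide +kernel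
  (And.intro (Ok.s2 448 (Ok.s0 192 (Ok.lf S140_198_216_364_ok (bl (br (br (br (br (br (br c0))))))))
  (Ok.s1 288 (Ok.s2 416 (Ok.lf S140_198_216_364_ok (bl (br c0)))
  (Ok.lf S140_198_216_364_ok (bl (br (br (br (br (br c0))))))))
  (Ok.out rfl)))
  (Ok.out rfl))
  (And.intro (Ok.s2 448 (Ok.s1 288 (Ok.s3 169 (Ok.s0 192 (Ok.lf S140_169_364_512_ok (bl c1))
  (Ok.lf S140_169_364_512_ok (bl (br (br (br (br (br (br c2)))))))))
  (Ok.s0 192 (Ok.lf S169_198_364_512_ok (br (br (br (br (br (br (br c0))))))))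
  (Ok.s2 416 (Ok.lf S169_198_364_512_ok (bl (br (br c0))))
  (Ok.lf S169_198_364_512_ok (bl (br (br (br (br c0)))))))))
  (Ok.s0 192 (Ok.out rfl)
  (Ok.out rfl)))
  (Ok.out rfl))
  (And.intro (Ok.s4 660 (Ok.s2 448 (Ok.s1 288 (Ok.s3 169 (Ok.s0 192 (Ok.lf S140_169_512_660_ok (bl (br c1)))
  (Ok.lf S140_169_512_660_ok (br (br (br (br (br (br (br c2)))))))))
  (Ok.s0 192 (Ok.lf S169_198_512_660_ok (bl (br c2)))
  (Ok.lf S169_198_512_660_ok (bl (br (br (br (br c2))))))))
  (Ok.s0 192 (Ok.out rfl)
  (Ok.out rfl)))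
  (Ok.out rfl))
  (Ok.s2 448 (Ok.s1 288 (Ok.s3 169 (Ok.s0 192 (Ok.lf S140_169_660_808_ok (br (br c1)))
  (Ok.lf S140_169_660_808_ok c3))
  (Ok.s0 192 (Ok.lf S169_198_660_808_ok (bl (br (br c2))))
  (Ok.lf S169_198_660_808_ok (bl (br (br (br (br (br c2)))))))))
  (Ok.s0 192 (Ok.out rfl)
  (Ok.out rfl)))
  (Ok.out rfl)))
  (Ok.s0 192 (Ok.s1 288 (Ok.s2 448 (Ok.s3 227 (Ok.lf S198_227_216_364_ok (bl (br (br (br c2)))))
  (Ok.lf S227_256_216_364_ok (bl c2)))
  (Ok.out rfl))
  (Ok.out rfl))
  (Ok.s2 448 (Ok.s1 288 (Ok.s2 416 (Ok.lf S198_256_216_364_ok (bl c0))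
  (Ok.lf S198_256_216_364_ok (bl (br (br (br c0))))))
  (Ok.out rfl))
  (Ok.out rfl))))))

end Vale.Agent.P098.Ck
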