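import Vale.Agent.P098.CkGd
import Vale.Agent.P098.CkOk
import Vale.Agent.P098.Sh.A26
import Vale.Agent.P098.Sh.A27
import Vale.Agent.P098.Sh.A28
import Vale.Agent.P098.Sh.A37
import Vale.Agent.P098.Sh.A38
import Vale.Agent.P098.Sh.A41
import Vale.Agent.P098.Sh.A43
import Vale.Agent.P098.Sh.A45

namespace Vale.Agent.P098.Ck

theorem r372 :
    Ok Gd mult 128 256 256 288 384 448 198 256 364 512 ∧
    Ok Gd mult 128 256 288 320 384 448 198 256 364 512 ∧
    Ok Gd mult 128 256 256 320 384 512 198 256 512 808 ∧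
    Ok Gd mult 128 256 256 320 384 512 256 314 216 364 :=
  have c0 : (band (go 16 Gd mult S227_256_660_808 (Tr.sp 0 160 Tr.skip (Tr.lf 12893570114 91056584 5575606573601770260939999593)) 128 192 256 288 384 448)
  (band (go 16 Gd mult S227_256_660_808 (Tr.lf 12893570084 95255239 3157714240833411404332531712) 192 256 256 288 384 448)
  (band (go 16 Gd mult S227_256_512_660 (Tr.lf 8598602786 103910214 5250364834586334505748922368) 192 256 256 288 384 448)
  (band (go 16 Gd mult S227_256_364_512 (Tr.lf 8598602274 99711942 7679096806192124517733629952) 192 256 256 288 384 448)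
  (band (go 16 Gd mult S198_227_660_808 (Tr.lf 8598594594 95390534 3503467025243195348298498048) 192 256 256 288 384 448)
  (band (go 16 Gd mult S198_227_512_660 (Tr.lf 8598463522 99715910 5488523221050416453166039040) 192 256 256 288 384 448)
  (band (go 16 Gd mult S285_314_216_364 (Tr.lf 8598594082 103910214 6768775664022308749179879424) 192 256 256 288 384 448)
  (go 16 Gd mult S227_256_512_660 (Tr.sp 2 416 (Tr.lf 8598602276 103783110 5415987671873538702683668480) Tr.skip) 128 192 256 288 384 448)))))))) = true := by decide +kernel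
  have c1 : (band (go 16 Gd mult S198_256_364_512 (Tr.lf 4295131684 103906246 79104849645656272424192966523) 128 256 288 320 384 448)
  (go 16 Gd mult S256_314_216_364 (Tr.lf 4295246372 99711942 79104849645656272424192966523) 128 256 288 320 384 448)) = true := by decide +kernel
  have c2 : (band (go 16 Gd mult S285_314_216_364 (Tr.sp 2 416 (Tr.lf 8598602018 107977414 5451072216956857626155548672) Tr.skip) 128 192 256 288 384 448)
  (band (go 16 Gd mult S227_256_364_512 (Tr.sp 2 416 (Tr.lf 8598471202 99584838 6143761015281545465856786432) Tr.skip) 128 192 256 288 384 448)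
  (band (go 16 Gd mult S198_227_660_808 (Tr.sp 2 416 (Tr.lf 8598594082 99715782 5898349073899775743391432704) Tr.skip) 128 192 256 288 384 448)
  (band (go 16 Gd mult S256_285_216_364 (Tr.sp 2 416 (Tr.lf 8598593826 99584838 6547542239032831610208649216) Tr.skip) 128 192 256 288 384 448)
  (band (go 16 Gd mult S198_227_512_660 (Tr.sp 2 416 (Tr.lf 8598463010 99588806 5305975422288607447785406464) Tr.skip) 128 192 256 288 384 448)
  (band (go 16 Gd mult S256_285_216_364 (Tr.lf 8598593826 99720006 8194099205347956546158460928) 192 256 256 288 384 416)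
  (band (go 16 Gd mult S198_227_364_512 (Tr.lf 8598462738 95525702 7679096806192124517733629952) 192 256 256 288 384 416)
  (go 16 Gd mult S198_227_364_512 (Tr.sp 2 416 (Tr.sp 0 160 Tr.skip (Tr.lf 8598462737 95390534 6143822553627938259801538589)) Tr.skip) 128 192 256 288 384 448)))))))) = true := by decide +kernel
  have c3 : (band (go 16 Gd mult S256_285_216_364 (Tr.lf 4303495458 104045509 11873090283986176338654331053) 192 256 256 288 416 448)
  (go 16 Gd mult S198_227_364_512 (Tr.lf 4303495441 108108741 11094564874771704287468519453) 192 256 256 288 416 448)) = true := by decide +kernel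
  (And.intro (Ok.s3 227 (Ok.s0 192 (Ok.lf S198_227_364_512_ok (br (br (br (br (br (br (br c2))))))))
  (Ok.s2 416 (Ok.lf S198_227_364_512_ok (bl (br (br (br (br (br (br c2))))))))
  (Ok.lf S198_227_364_512_ok (br c3))))
  (Ok.s0 192 (Ok.lf S227_256_364_512_ok (bl (br c2)))
  (Ok.lf S227_256_364_512_ok (bl (br (br (br c0)))))))
  (And.intro (Ok.lf S198_256_364_512_ok (bl c1))
  (And.intro (Ok.s4 660 (Ok.s2 448 (Ok.s1 288 (Ok.s3 227 (Ok.s0 192 (Ok.lf S198_227_512_660_ok (bl (br (br (br (br c2))))))
  (Ok.lf S198_227_512_660_ok (bl (br (br (br (br (br c0))))))))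
  (Ok.s0 192 (Ok.lf S227_256_512_660_ok (br (br (br (br (br (br (br c0))))))))
  (Ok.lf S227_256_512_660_ok (bl (br (br c0))))))
  (Ok.s0 192 (Ok.out rfl)
  (Ok.out rfl)))
  (Ok.out rfl))
  (Ok.s2 448 (Ok.s1 288 (Ok.s3 227 (Ok.s0 192 (Ok.lf S198_227_660_808_ok (bl (br (br c2))))
  (Ok.lf S198_227_660_808_ok (bl (br (br (br (br c0)))))))
  (Ok.s0 192 (Ok.lf S227_256_660_808_ok (bl c0))
  (Ok.lf S227_256_660_808_ok (bl (br c0)))))
  (Ok.s0 192 (Ok.out rfl)
  (Ok.out rfl)))
  (Ok.out rfl)))
  (Ok.s2 448 (Ok.s1 288 (Ok.s3 285 (Ok.s0 192 (Ok.lf S256_285_216_364_ok (bl (br (br (br c2)))))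
  (Ok.s2 416 (Ok.lf S256_285_216_364_ok (bl (br (br (br (br (br c2)))))))
  (Ok.lf S256_285_216_364_ok (bl c3))))
  (Ok.s0 192 (Ok.lf S285_314_216_364_ok (bl c2))
  (Ok.lf S285_314_216_364_ok (bl (br (br (br (br (br (br c0))))))))))
  (Ok.lf S256_314_216_364_ok (br c1)))
  (Ok.out rfl)))))

end Vale.Agent.P098.Ck
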