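import Vale.Agent.P098.CkGd
import Vale.Agent.P098.CkOk
import Vale.Agent.P098.Sh.A41
import Vale.Agent.P098.Sh.A42
import Vale.Agent.P098.Sh.A45
import Vale.Agent.P098.Sh.A46
import Vale.Agent.P098.Sh.A48
import Vale.Agent.P098.Sh.A49
import Vale.Agent.P098.Sh.A51

namespace Vale.Agent.P098.Ck

theorem r373 :
    Ok Gd mult 128 256 256 320 384 512 256 314 364 512 ∧
    Ok Gd mult 128 256 256 320 384 512 256 314 512 808 ∧
    Ok Gd mult 128 256 256 320 384 512 314 372 216 512 :=
  have c0 : (go 16 Gd mult S314_372_364_512 (Tr.sp 1 288 (Tr.sp 2 448 (Tr.sp 1 272 (Tr.sp 2 416 (Tr.lf 9137849416 104041415 5064392084192592069048401920) Tr.skip) Tr.skip) Tr.skip) Tr.skip) 128 192 256 320 384 512) = true := by decide +kernel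
  have c1 : (go 16 Gd mult S256_285_660_808 (Tr.lf 12893832324 91187911 4111563648493288436847673373) 192 256 256 320 384 448) = true := by decide +kernel
  have c2 : (band (go 16 Gd mult S314_372_216_364 (Tr.lf 9136538178 108112838 6131671757085399174109724672) 192 256 256 288 384 416)
  (go 16 Gd mult S314_372_216_364 (Tr.sp 0 160 Tr.skip (Tr.lf 9137586753 108235719 4982101417147430539014176768)) 128 192 256 288 384 416)) = true := by decide +kernel
  have c3 : (band (go 16 Gd mult S285_314_660_808 (Tr.sp 1 288 (Tr.lf 8598602818 108104645 2368390439684653149793026048) Tr.skip) 192 256 256 320 384 448)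
  (band (go 16 Gd mult S256_285_512_660 (Tr.lf 8598602786 99851205 3822623441621457450420928512) 192 256 256 288 384 448)
  (band (go 16 Gd mult S285_314_512_660 (Tr.lf 8598602786 99978181 3348811976346176270920318976) 192 256 256 288 384 448)
  (band (go 16 Gd mult S343_372_364_512 (Tr.sp 1 288 (Tr.lf 9137439810 108112839 5892358696676023377309204480) Tr.skip) 192 256 256 320 384 448)
  (band (go 16 Gd mult S256_285_364_512 (Tr.lf 8598594594 99846982 6901757504179917958397558784) 192 256 256 288 384 448)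
  (band (go 16 Gd mult S285_314_364_512 (Tr.lf 8598602274 104045254 5702527901992984956435955712) 192 256 256 288 384 448)
  (band (go 16 Gd mult S314_343_364_512 (Tr.sp 1 288 (Tr.lf 9136391202 108239814 4903508215457923855923806208) Tr.skip) 192 256 256 320 384 448)
  (go 16 Gd mult S256_285_512_660 (Tr.sp 2 416 (Tr.lf 8598602276 103910341 5772620788659854309221990400) Tr.skip) 128 192 256 288 384 448)))))))) = true := by decide +kernel
  have c4 : (go 16 Gd mult S314_372_216_364 (Tr.sp 0 192 Tr.skip (Tr.lf 4841439778 103914693 8746954249564239097074024477)) 128 256 256 288 416 448) = true := by decide +kernel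
  have c5 : (band (go 16 Gd mult S285_314_512_660 (Tr.sp 2 416 (Tr.lf 8598602274 104037317 5928656262756141293476249600) Tr.skip) 128 192 256 288 384 448)
  (band (go 16 Gd mult S256_285_364_512 (Tr.sp 2 416 (Tr.lf 8598594082 99711814 5551387363670377170250760192) Tr.skip) 128 192 256 288 384 448)
  (go 16 Gd mult S285_314_364_512 (Tr.sp 2 416 (Tr.lf 8675017250 99843270 5182742077644628752642932765) Tr.skip) 128 192 256 288 384 448))) = true := by decide +kernel
  have c6 : (band (go 16 Gd mult S256_285_660_808 (Tr.lf 13430440466 108096326 4817610084681723864474976256) 160 192 256 272 384 416)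
  (go 16 Gd mult S285_314_660_808 (Tr.lf 8598602257 104172612 4818866105038958674134958080) 160 192 256 272 384 416)) = true := by decide +kernel
  have c7 : (go 16 Gd mult S314_372_216_364 (Tr.lf 4295115284 103648198 79104849645656272424192966523) 128 256 288 320 384 448) = true := by decide +kernel
  (And.intro (Ok.s2 448 (Ok.s1 288 (Ok.s3 285 (Ok.s0 192 (Ok.lf S256_285_364_512_ok (bl (br c5)))
  (Ok.lf S256_285_364_512_ok (bl (br (br (br (br c3)))))))
  (Ok.s0 192 (Ok.lf S285_314_364_512_ok (br (br c5)))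
  (Ok.lf S285_314_364_512_ok (bl (br (br (br (br (br c3)))))))))
  (Ok.s0 192 (Ok.out rfl)
  (Ok.out rfl)))
  (Ok.out rfl))
  (And.intro (Ok.s4 660 (Ok.s2 448 (Ok.s1 288 (Ok.s3 285 (Ok.s0 192 (Ok.lf S256_285_512_660_ok (br (br (br (br (br (br (br c3))))))))
  (Ok.lf S256_285_512_660_ok (bl (br c3))))
  (Ok.s0 192 (Ok.lf S285_314_512_660_ok (bl c5))
  (Ok.lf S285_314_512_660_ok (bl (br (br c3))))))
  (Ok.s0 192 (Ok.out rfl)
  (Ok.out rfl)))
  (Ok.out rfl))
  (Ok.s0 192 (Ok.s1 288 (Ok.s2 448 (Ok.s1 272 (Ok.s2 416 (Ok.s0 160 (Ok.out rfl)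
  (Ok.s3 285 (Ok.lf S256_285_660_808_ok (bl c6))
  (Ok.lf S285_314_660_808_ok (br c6))))
  (Ok.out rfl))
  (Ok.out rfl))
  (Ok.out rfl))
  (Ok.out rfl))
  (Ok.s2 448 (Ok.s3 285 (Ok.lf S256_285_660_808_ok c1)
  (Ok.lf S285_314_660_808_ok (bl c3)))
  (Ok.out rfl))))
  (Ok.s4 364 (Ok.s2 448 (Ok.s1 288 (Ok.s2 416 (Ok.s0 192 (Ok.lf S314_372_216_364_ok (br c2))
  (Ok.lf S314_372_216_364_ok (bl c2)))
  (Ok.lf S314_372_216_364_ok c4))
  (Ok.lf S314_372_216_364_ok c7))
  (Ok.out rfl))
  (Ok.s0 192 (Ok.lf S314_372_364_512_ok c0)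
  (Ok.s2 448 (Ok.s3 343 (Ok.lf S314_343_364_512_ok (bl (br (br (br (br (br (br c3))))))))
  (Ok.lf S343_372_364_512_ok (bl (br (br (br c3))))))
  (Ok.out rfl))))))

end Vale.Agent.P098.Ck
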