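import Vale.Agent.P098.CkGd
import Vale.Agent.P098.CkOk
import Vale.Agent.P098.Sh.A48
import Vale.Agent.P098.Sh.A49
import Vale.Agent.P098.Sh.A51
import Vale.Agent.P098.Sh.A52
import Vale.Agent.P098.Sh.A53
import Vale.Agent.P098.Sh.A54
import Vale.Agent.P098.Sh.A55
import Vale.Agent.P098.Sh.A57

namespace Vale.Agent.P098.Ck

theorem r374 :
    Ok Gd mult 128 256 256 320 384 512 314 372 512 660 ∧
    Ok Gd mult 128 256 256 320 384 512 314 372 660 808 ∧
    Ok Gd mult 128 256 256 320 384 512 372 430 216 512 ∧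
    Ok Gd mult 128 256 256 320 384 512 372 430 512 660 :=
  have c0 : (band (go 16 Gd mult S314_343_660_808 (Tr.lf 13432816772 99323079 5637386508817124795204239360) 192 256 256 320 384 416)
  (go 16 Gd mult S372_401_512_660 (Tr.lf 13432423556 95386696 10482667355253618341262131200) 192 256 256 320 384 416)) = true := by decide +kernel
  have c1 : (go 16 Gd mult S343_372_660_808 (Tr.sp 0 176 Tr.skip (Tr.lf 13978862722 103779273 5242094900963673481825746944)) 160 192 256 288 384 416) = true := by decide +kernel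
  have c2 : (band (go 16 Gd mult S372_430_364_512 (Tr.sp 0 160 Tr.skip (Tr.sp 1 288 (Tr.lf 9137588290 103779399 6649257973236891625719857152) Tr.skip)) 128 192 256 320 384 448)
  (band (go 16 Gd mult S372_430_216_364 (Tr.sp 0 160 Tr.skip (Tr.lf 9137456194 103787463 6687889679631632306291081216)) 128 192 256 288 384 448)
  (band (go 16 Gd mult S372_430_216_364 (Tr.lf 9129067586 108235719 8099802991418015470531379200) 192 256 256 288 384 448)
  (band (go 16 Gd mult S372_430_364_512 (Tr.sp 1 288 (Tr.lf 9137457220 108235847 8074438367828527436577898496) Tr.skip) 192 256 256 320 384 448)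
  (go 16 Gd mult S401_430_512_660 (Tr.sp 1 288 (Tr.lf 9137374276 108235847 8017596035684220686651359232) Tr.skip) 192 256 256 320 384 448))))) = true := by decide +kernel
  have c3 : (go 16 Gd mult S314_343_660_808 (Tr.lf 13432554562 103508936 5575829447141994915818373120) 160 192 256 288 384 416) = true := by decide +kernel
  have c4 : (band (go 16 Gd mult S372_401_512_660 (Tr.lf 13970342980 107707337 4502322393257576424355659776) 128 192 256 272 384 416)
  (go 16 Gd mult S401_430_512_660 (Tr.lf 9137373732 103914439 5171919206862657246862508032) 128 192 256 272 384 416)) = true := by decide +kernel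
  have c5 : (go 16 Gd mult S314_343_512_660 (Tr.sp 1 288 (Tr.lf 9136522308 108239814 3642727620582823999343427584) Tr.skip) 192 256 256 320 384 448) = true := by decide +kernel
  have c6 : (band (go 16 Gd mult S357_372_660_808 (Tr.lf 13441975364 103783369 4369203696705684363974541312) 192 256 256 288 384 416)
  (band (go 16 Gd mult S343_357_660_808 (Tr.lf 13432529476 99580872 3562871573245852207525396480) 192 256 256 288 384 416)
  (band (go 16 Gd mult S343_372_512_660 (Tr.lf 13432406596 99453896 5371358762959738383496118272) 192 256 256 288 384 416)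
  (band (go 16 Gd mult S343_372_512_660 (Tr.lf 9137439266 103787463 7602161819260871604235665408) 192 256 256 288 416 448)
  (band (go 16 Gd mult S314_343_660_808 (Tr.sp 1 288 (Tr.lf 9136521762 107977670 6059601305667132766298308637) Tr.skip) 192 256 256 320 416 448)
  (go 16 Gd mult S343_372_660_808 (Tr.sp 1 288 (Tr.lf 9137439298 108108743 6855061194870800714922196992) Tr.skip) 192 256 256 320 416 448)))))) = true := by decide +kernel
  have c7 : (band (go 16 Gd mult S343_372_512_660 (Tr.lf 13432537634 103640008 5174392195819922823061700608) 160 192 256 272 384 416)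
  (go 16 Gd mult S314_343_512_660 (Tr.lf 9137439265 103910343 5517738381104362471504740352) 160 192 256 272 384 416)) = true := by decide +kernel
  have c8 : (go 16 Gd mult S372_401_512_660 (Tr.lf 9137439298 103648455 13945396148154429173034647552) 192 256 256 320 416 448) = true := by decide +kernel
  have c9 : (go 16 Gd mult S372_430_216_364 (Tr.lf 4295041572 99707974 79104849645656272424192966523) 128 256 288 320 384 448) = true := by decide +kernel
  (And.intro (Ok.s2 448 (Ok.s0 192 (Ok.s1 288 (Ok.s1 272 (Ok.s2 416 (Ok.s0 160 (Ok.out rfl)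
  (Ok.s3 343 (Ok.lf S314_343_512_660_ok (br c7))
  (Ok.lf S343_372_512_660_ok (bl c7))))
  (Ok.out rfl))
  (Ok.out rfl))
  (Ok.out rfl))
  (Ok.s3 343 (Ok.lf S314_343_512_660_ok c5)
  (Ok.s1 288 (Ok.s2 416 (Ok.lf S343_372_512_660_ok (bl (br (br c6))))
  (Ok.lf S343_372_512_660_ok (bl (br (br (br c6))))))
  (Ok.out rfl))))
  (Ok.out rfl))
  (And.intro (Ok.s2 448 (Ok.s0 192 (Ok.s1 288 (Ok.s2 416 (Ok.s0 160 (Ok.out rfl)
  (Ok.s3 343 (Ok.lf S314_343_660_808_ok c3)
  (Ok.lf S343_372_660_808_ok c1)))
  (Ok.out rfl))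
  (Ok.out rfl))
  (Ok.s2 416 (Ok.s3 343 (Ok.lf S314_343_660_808_ok (bl c0))
  (Ok.s1 288 (Ok.s3 357 (Ok.lf S343_357_660_808_ok (bl (br c6)))
  (Ok.lf S357_372_660_808_ok (bl c6)))
  (Ok.out rfl)))
  (Ok.s3 343 (Ok.lf S314_343_660_808_ok (bl (br (br (br (br c6))))))
  (Ok.lf S343_372_660_808_ok (br (br (br (br (br c6)))))))))
  (Ok.out rfl))
  (And.intro (Ok.s4 364 (Ok.s2 448 (Ok.s1 288 (Ok.s0 192 (Ok.lf S372_430_216_364_ok (bl (br c2)))
  (Ok.lf S372_430_216_364_ok (bl (br (br c2)))))
  (Ok.lf S372_430_216_364_ok c9))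
  (Ok.out rfl))
  (Ok.s2 448 (Ok.s0 192 (Ok.lf S372_430_364_512_ok (bl c2))
  (Ok.lf S372_430_364_512_ok (bl (br (br (br c2))))))
  (Ok.out rfl)))
  (Ok.s0 192 (Ok.s1 288 (Ok.s2 448 (Ok.s1 272 (Ok.s2 416 (Ok.s3 401 (Ok.lf S372_401_512_660_ok (bl c4))
  (Ok.lf S401_430_512_660_ok (br c4)))
  (Ok.out rfl))
  (Ok.out rfl))
  (Ok.out rfl))
  (Ok.out rfl))
  (Ok.s2 448 (Ok.s3 401 (Ok.s2 416 (Ok.lf S372_401_512_660_ok (br c0))
  (Ok.lf S372_401_512_660_ok c8))
  (Ok.lf S401_430_512_660_ok (br (br (br (br c2))))))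
  (Ok.out rfl))))))

end Vale.Agent.P098.Ck
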