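import Vale.Agent.P098.CkGd
import Vale.Agent.P098.CkOk
import Vale.Agent.P098.Sh.A0
import Vale.Agent.P098.Sh.A1
import Vale.Agent.P098.Sh.A54
import Vale.Agent.P098.Sh.A57
import Vale.Agent.P098.Sh.A58
import Vale.Agent.P098.Sh.A59

namespace Vale.Agent.P098.Ck

theorem r375 :
    Ok Gd mult 128 256 256 320 384 512 372 430 660 808 ∧
    Ok Gd mult 128 256 256 320 384 512 430 488 216 808 ∧
    Ok Gd mult 128 256 320 384 0 128 24 82 216 808 :=
  have c0 : (go 16 Gd mult S372_401_660_808 (Tr.lf 13433603140 95390665 6605683277300159733697609728) 192 256 256 288 384 416) = true := by decide +kernel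
  have c1 : (band (go 16 Gd mult S372_401_660_808 (Tr.lf 13978846276 107973577 4677533497626157445738921984) 160 192 256 272 384 416)
  (band (go 16 Gd mult S401_430_660_808 (Tr.lf 13432406562 95255496 5130823550415247107772383232) 160 192 256 272 384 416)
  (band (go 16 Gd mult S401_430_660_808 (Tr.lf 9137439812 112430151 7960776522162333115440168960) 192 256 256 288 384 448)
  (band (go 16 Gd mult S430_488_512_660 (Tr.sp 2 448 (Tr.sp 1 288 (Tr.lf 9128985666 103906375 9635138782328594522408222720) Tr.skip) Tr.skip) 192 256 256 320 384 512)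
  (band (go 16 Gd mult S430_488_660_808 (Tr.sp 2 448 (Tr.sp 1 288 (Tr.lf 9128985666 103906375 9635138782328594522408222720) Tr.skip) Tr.skip) 192 256 256 320 384 512)
  (band (go 16 Gd mult S430_488_216_364 (Tr.sp 2 448 (Tr.sp 1 288 (Tr.lf 9128985634 112163911 9635138782328594522408222720) Tr.skip) Tr.skip) 192 256 256 320 384 512)
  (band (go 16 Gd mult S430_488_364_512 (Tr.sp 2 448 (Tr.sp 1 288 (Tr.lf 9128985634 112163911 9635138782328594522408222720) Tr.skip) Tr.skip) 192 256 256 320 384 512)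
  (go 16 Gd mult S430_488_364_512 (Tr.sp 1 288 (Tr.sp 2 448 (Tr.sp 0 160 Tr.skip (Tr.lf 9128985634 107965511 7931845995377620124777250816)) Tr.skip) Tr.skip) 128 192 256 320 384 512)))))))) = true := by decide +kernel
  have c2 : (band (go 16 Gd mult S24_82_216_364 (Tr.lf 17179969572 86731463 1514796724890308994368798720) 192 256 320 336 0 128)
  (band (go 16 Gd mult S24_82_512_660 (Tr.lf 17179969572 86731463 1656241045785220607809421312) 192 256 320 336 0 128)
  (band (go 16 Gd mult S24_82_660_808 (Tr.lf 17179969572 86731463 1757790814632849458484740096) 192 256 320 336 0 128)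
  (go 16 Gd mult S24_82_364_512 (Tr.lf 17179969572 86731463 1557109128576821015483514880) 192 256 320 336 0 128)))) = true := by decide +kernel
  have c3 : (band (go 16 Gd mult S430_488_512_660 (Tr.sp 1 288 (Tr.sp 2 448 (Tr.sp 0 160 Tr.skip (Tr.lf 9128985634 107965511 7931849537157535911622213632)) Tr.skip) Tr.skip) 128 192 256 320 384 512)
  (band (go 16 Gd mult S430_488_660_808 (Tr.sp 1 288 (Tr.sp 2 448 (Tr.sp 0 160 Tr.skip (Tr.lf 9128985634 107965511 7931851178912691922196561920)) Tr.skip) Tr.skip) 128 192 256 320 384 512)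
  (go 16 Gd mult S430_488_216_364 (Tr.sp 1 288 (Tr.sp 2 448 (Tr.sp 0 160 Tr.skip (Tr.lf 9128985633 107973575 7931842582721790799215853568)) Tr.skip) Tr.skip) 128 192 256 320 384 512))) = true := by decide +kernel
  have c4 : (go 16 Gd mult S372_401_660_808 (Tr.lf 9137439266 103910471 9468757378031591241291923456) 192 256 256 288 416 448) = true := by decide +kernel
  have c5 : (band (go 16 Gd mult S24_82_216_364 (Tr.lf 8590008849 91187783 79104849627246683614353555456) 192 256 336 352 0 128)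
  (band (go 16 Gd mult S24_82_364_512 (Tr.lf 8590004754 95377991 79104849627246683614353555456) 192 256 336 352 0 128)
  (band (go 16 Gd mult S24_82_512_660 (Tr.lf 8590004753 95377991 79104849627246683614353555456) 192 256 336 352 0 128)
  (go 16 Gd mult S24_82_660_808 (Tr.lf 8590004753 95377991 79104849627246683614353555456) 192 256 336 352 0 128)))) = true := by decide +kernel
  (And.intro (Ok.s0 192 (Ok.s1 288 (Ok.s2 448 (Ok.s1 272 (Ok.s2 416 (Ok.s0 160 (Ok.out rfl)
  (Ok.s3 401 (Ok.lf S372_401_660_808_ok (bl c1))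
  (Ok.lf S401_430_660_808_ok (bl (br c1)))))
  (Ok.out rfl))
  (Ok.out rfl))
  (Ok.out rfl))
  (Ok.out rfl))
  (Ok.s2 448 (Ok.s1 288 (Ok.s3 401 (Ok.s2 416 (Ok.lf S372_401_660_808_ok c0)
  (Ok.lf S372_401_660_808_ok c4))
  (Ok.lf S401_430_660_808_ok (bl (br (br c1)))))
  (Ok.out rfl))
  (Ok.out rfl)))
  (And.intro (Ok.s4 512 (Ok.s4 364 (Ok.s0 192 (Ok.lf S430_488_216_364_ok (br (br c3)))
  (Ok.lf S430_488_216_364_ok (bl (br (br (br (br (br c1))))))))
  (Ok.s0 192 (Ok.lf S430_488_364_512_ok (br (br (br (br (br (br (br c1))))))))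
  (Ok.lf S430_488_364_512_ok (bl (br (br (br (br (br (br c1))))))))))
  (Ok.s4 660 (Ok.s0 192 (Ok.lf S430_488_512_660_ok (bl c3))
  (Ok.lf S430_488_512_660_ok (bl (br (br (br c1))))))
  (Ok.s0 192 (Ok.lf S430_488_660_808_ok (bl (br c3)))
  (Ok.lf S430_488_660_808_ok (bl (br (br (br (br c1)))))))))
  (Ok.s4 512 (Ok.s4 364 (Ok.s1 352 (Ok.s0 192 (Ok.out rfl)
  (Ok.s1 336 (Ok.lf S24_82_216_364_ok (bl c2))
  (Ok.lf S24_82_216_364_ok (bl c5))))
  (Ok.out rfl))
  (Ok.s1 352 (Ok.s0 192 (Ok.out rfl)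
  (Ok.s1 336 (Ok.lf S24_82_364_512_ok (br (br (br c2))))
  (Ok.lf S24_82_364_512_ok (bl (br c5)))))
  (Ok.out rfl)))
  (Ok.s4 660 (Ok.s1 352 (Ok.s0 192 (Ok.out rfl)
  (Ok.s1 336 (Ok.lf S24_82_512_660_ok (bl (br c2)))
  (Ok.lf S24_82_512_660_ok (bl (br (br c5))))))
  (Ok.out rfl))
  (Ok.s1 352 (Ok.s0 192 (Ok.out rfl)
  (Ok.s1 336 (Ok.lf S24_82_660_808_ok (bl (br (br c2))))
  (Ok.lf S24_82_660_808_ok (br (br (br c5))))))
  (Ok.out rfl))))))

end Vale.Agent.P098.Ck
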