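import Vale.Agent.P098.CkGd
import Vale.Agent.P098.CkOk
import Vale.Agent.P098.Sh.A11
import Vale.Agent.P098.Sh.A17
import Vale.Agent.P098.Sh.A18
import Vale.Agent.P098.Sh.A28
import Vale.Agent.P098.Sh.A29
import Vale.Agent.P098.Sh.A3
import Vale.Agent.P098.Sh.A4
import Vale.Agent.P098.Sh.A41
import Vale.Agent.P098.Sh.A42
import Vale.Agent.P098.Sh.A43
import Vale.Agent.P098.Sh.A44
import Vale.Agent.P098.Sh.A45
import Vale.Agent.P098.Sh.A46
import Vale.Agent.P098.Sh.A8
import Vale.Agent.P098.Sh.A9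

namespace Vale.Agent.P098.Ck

theorem r376 :
    Ok Gd mult 128 256 320 384 0 128 82 140 216 808 ∧
    Ok Gd mult 128 256 320 384 0 128 140 256 216 808 ∧
    Ok Gd mult 128 256 320 384 0 128 256 314 216 808 :=
  have c0 : (band (go 16 Gd mult S256_314_364_512 (Tr.sp 1 352 (Tr.sp 0 192 Tr.skip (Tr.lf 13422330948 104033350 4914283456733467595180605440)) Tr.skip) 128 256 320 384 0 128)
  (band (go 16 Gd mult S198_256_512_660 (Tr.sp 1 352 (Tr.sp 0 192 Tr.skip (Tr.lf 8590230596 108236100 4110380418980005586197807104)) Tr.skip) 128 256 320 384 0 128)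
  (band (go 16 Gd mult S198_256_438_512 (Tr.lf 13421937732 104033350 4691841105924375827034669056) 192 256 320 352 0 128)
  (go 16 Gd mult S198_256_660_808 (Tr.sp 0 192 Tr.skip (Tr.sp 1 352 (Tr.lf 12885197858 95386566 2848254373924238801726603264) Tr.skip)) 128 256 320 384 0 128)))) = true := by decide +kernel
  have c1 : (band (go 16 Gd mult S256_285_660_808 (Tr.lf 17180411940 90925895 170471213478841352095531008) 192 256 320 336 0 128)
  (go 16 Gd mult S285_314_660_808 (Tr.lf 17180411940 86989639 478747297480571791645605888) 192 256 320 336 0 128)) = true := by decide +kernel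
  have c2 : (band (go 16 Gd mult S256_314_512_660 (Tr.sp 1 352 (Tr.sp 0 192 Tr.skip (Tr.lf 8590230594 104176836 3527670684547660397911474176)) Tr.skip) 128 256 320 384 0 128)
  (band (go 16 Gd mult S256_285_216_364 (Tr.lf 17717019716 103635784 6037375543155458098482642944) 192 256 320 352 0 128)
  (band (go 16 Gd mult S169_198_216_364 (Tr.lf 17717011524 95374152 5993854213649331448193220608) 192 256 320 352 0 128)
  (band (go 16 Gd mult S169_198_364_512 (Tr.lf 13422044228 108104646 5122218697707183813230067712) 192 256 320 352 0 128)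
  (band (go 16 Gd mult S140_198_512_660 (Tr.sp 1 352 (Tr.sp 0 192 Tr.skip (Tr.lf 8590083140 99855556 4091027460156930979149119488)) Tr.skip) 128 256 320 384 0 128)
  (go 16 Gd mult S198_256_216_364 (Tr.sp 1 352 (Tr.sp 0 192 Tr.skip (Tr.lf 17717019684 103504457 7501384710708774029051822080)) Tr.skip) 128 256 320 384 0 128)))))) = true := by decide +kernel
  have c3 : (band (go 16 Gd mult S198_256_364_438 (Tr.lf 13421921348 107969606 5857245596032878351451422720) 192 256 320 352 0 128)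
  (band (go 16 Gd mult S140_169_216_364 (Tr.lf 13422961732 103775430 4488741568229118125684031488) 192 256 320 352 0 128)
  (band (go 16 Gd mult S285_314_216_364 (Tr.lf 13422043716 108104646 4997699338286877008235331584) 192 256 320 352 0 128)
  (band (go 16 Gd mult S82_140_216_364 (Tr.sp 1 352 (Tr.sp 0 192 Tr.skip (Tr.lf 12885050402 91192134 3225439229644003104234930176)) Tr.skip) 128 256 320 384 0 128)
  (band (go 16 Gd mult S140_169_364_512 (Tr.lf 8590074946 104045764 4115192418192329386122805248) 192 256 320 352 0 128)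
  (band (go 16 Gd mult S140_198_660_808 (Tr.sp 0 192 Tr.skip (Tr.sp 1 352 (Tr.lf 8590083106 104045764 2843431896961281134776287232) Tr.skip)) 128 256 320 384 0 128)
  (band (go 16 Gd mult S82_140_364_512 (Tr.sp 1 352 (Tr.sp 0 192 Tr.skip (Tr.lf 12884984866 91192134 2955848771869940798275452928)) Tr.skip) 128 256 320 384 0 128)
  (go 16 Gd mult S82_140_512_660 (Tr.sp 1 352 (Tr.sp 0 192 Tr.skip (Tr.lf 12884984866 95386438 2350176604201618254975729664)) Tr.skip) 128 256 320 384 0 128)))))))) = true := by decide +kernel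
  have c4 : (go 16 Gd mult S82_140_660_808 (Tr.sp 1 352 (Tr.sp 0 192 Tr.skip (Tr.lf 12884984866 95386438 1726370881280469600827342848)) Tr.skip) 128 256 320 384 0 128) = true := by decide +kernel
  have c5 : (go 16 Gd mult S256_314_660_808 (Tr.lf 8590082578 99445447 79104849627246683614353555456) 192 256 336 352 0 128) = true := by decide +kernel
  (And.intro (Ok.s4 512 (Ok.s4 364 (Ok.lf S82_140_216_364_ok (bl (br (br (br c3)))))
  (Ok.lf S82_140_364_512_ok (bl (br (br (br (br (br (br c3)))))))))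
  (Ok.s4 660 (Ok.lf S82_140_512_660_ok (br (br (br (br (br (br (br c3))))))))
  (Ok.lf S82_140_660_808_ok c4)))
  (And.intro (Ok.s3 198 (Ok.s4 512 (Ok.s4 364 (Ok.s1 352 (Ok.s0 192 (Ok.out rfl)
  (Ok.s3 169 (Ok.lf S140_169_216_364_ok (bl (br c3)))
  (Ok.lf S169_198_216_364_ok (bl (br (br c2))))))
  (Ok.out rfl))
  (Ok.s1 352 (Ok.s0 192 (Ok.out rfl)
  (Ok.s3 169 (Ok.lf S140_169_364_512_ok (bl (br (br (br (br c3))))))
  (Ok.lf S169_198_364_512_ok (bl (br (br (br c2)))))))
  (Ok.out rfl)))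
  (Ok.s4 660 (Ok.lf S140_198_512_660_ok (bl (br (br (br (br c2))))))
  (Ok.lf S140_198_660_808_ok (bl (br (br (br (br (br c3)))))))))
  (Ok.s4 512 (Ok.s4 364 (Ok.lf S198_256_216_364_ok (br (br (br (br (br c2))))))
  (Ok.s1 352 (Ok.s0 192 (Ok.out rfl)
  (Ok.s4 438 (Ok.lf S198_256_364_438_ok (bl c3))
  (Ok.lf S198_256_438_512_ok (bl (br (br c0))))))
  (Ok.out rfl)))
  (Ok.s4 660 (Ok.lf S198_256_512_660_ok (bl (br c0)))
  (Ok.lf S198_256_660_808_ok (br (br (br c0)))))))
  (Ok.s4 512 (Ok.s4 364 (Ok.s1 352 (Ok.s0 192 (Ok.out rfl)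
  (Ok.s3 285 (Ok.lf S256_285_216_364_ok (bl (br c2)))
  (Ok.lf S285_314_216_364_ok (bl (br (br c3))))))
  (Ok.out rfl))
  (Ok.lf S256_314_364_512_ok (bl c0)))
  (Ok.s4 660 (Ok.lf S256_314_512_660_ok (bl c2))
  (Ok.s1 352 (Ok.s0 192 (Ok.out rfl)
  (Ok.s1 336 (Ok.s3 285 (Ok.lf S256_285_660_808_ok (bl c1))
  (Ok.lf S285_314_660_808_ok (br c1)))
  (Ok.lf S256_314_660_808_ok c5)))
  (Ok.out rfl))))))

end Vale.Agent.P098.Ck
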