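import Vale.Agent.P098.CkGd
import Vale.Agent.P098.CkOk
import Vale.Agent.P098.Sh.A0
import Vale.Agent.P098.Sh.A1
import Vale.Agent.P098.Sh.A3
import Vale.Agent.P098.Sh.A4
import Vale.Agent.P098.Sh.A49
import Vale.Agent.P098.Sh.A50
import Vale.Agent.P098.Sh.A54
import Vale.Agent.P098.Sh.A55
import Vale.Agent.P098.Sh.A58
import Vale.Agent.P098.Sh.A59

namespace Vale.Agent.P098.Ck

theorem r377 :
    Ok Gd mult 128 256 320 384 0 128 314 372 216 808 ∧
    Ok Gd mult 128 256 320 384 0 128 372 488 216 808 ∧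
    Ok Gd mult 128 256 320 384 128 256 24 140 216 808 :=
  have c0 : (band (go 16 Gd mult S372_430_512_660 (Tr.sp 1 352 (Tr.sp 0 192 Tr.skip (Tr.lf 13421938824 103906119 5487314295230801823991332864)) Tr.skip) 128 256 320 384 0 128)
  (band (go 16 Gd mult S314_372_512_660 (Tr.sp 1 352 (Tr.sp 0 192 Tr.skip (Tr.lf 13497435204 108235846 4099495456470711422527995904)) Tr.skip) 128 256 320 384 0 128)
  (go 16 Gd mult S372_430_216_364 (Tr.sp 1 352 (Tr.sp 0 192 Tr.skip (Tr.lf 17716823108 99568201 6138925312003086949157961728)) Tr.skip) 128 256 320 384 0 128))) = true := by decide +kernel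
  have c1 : (band (go 16 Gd mult S82_140_660_808 (Tr.sp 0 192 Tr.skip (Tr.lf 8590231684 103910341 7901620876077462819193225216)) 128 256 320 384 128 256)
  (band (go 16 Gd mult S24_82_216_364 (Tr.sp 0 192 Tr.skip (Tr.lf 8590017602 99846981 5469273932937198992677994525)) 128 256 320 384 128 256)
  (band (go 16 Gd mult S24_82_364_512 (Tr.sp 0 192 Tr.skip (Tr.lf 8590009410 103910213 5439050787446833263310340125)) 128 256 320 384 128 256)
  (go 16 Gd mult S24_82_512_660 (Tr.sp 0 192 Tr.skip (Tr.lf 8590009410 103910213 5374977719007257917050912797)) 128 256 320 384 128 256)))) = true := by decide +kernel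
  have c2 : (band (go 16 Gd mult S82_140_216_364 (Tr.sp 1 352 (Tr.sp 0 192 Tr.skip (Tr.lf 8590100612 99716037 6131716195291872740419567616)) Tr.skip) 128 256 320 384 128 256)
  (band (go 16 Gd mult S82_140_364_512 (Tr.sp 1 352 (Tr.sp 0 192 Tr.skip (Tr.lf 8590099524 99716037 5854872182600122659411853312)) Tr.skip) 128 256 320 384 128 256)
  (go 16 Gd mult S82_140_512_660 (Tr.sp 1 352 (Tr.sp 0 192 Tr.skip (Tr.lf 8590017602 103779269 5330198708928766924361302016)) Tr.skip) 128 256 320 384 128 256))) = true := by decide +kernel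
  have c3 : (band (go 16 Gd mult S314_372_660_808 (Tr.sp 1 352 (Tr.sp 0 192 Tr.skip (Tr.lf 12885197890 99584966 3982226792722760967600996352)) Tr.skip) 128 256 320 384 0 128)
  (band (go 16 Gd mult S314_372_364_512 (Tr.sp 1 352 (Tr.sp 0 192 Tr.skip (Tr.lf 13422052420 103910342 4245754082420956049587568640)) Tr.skip) 128 256 320 384 0 128)
  (band (go 16 Gd mult S314_372_216_364 (Tr.sp 1 352 (Tr.sp 0 192 Tr.skip (Tr.lf 13421921348 103910342 4596335966174820122232881152)) Tr.skip) 128 256 320 384 0 128)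
  (go 16 Gd mult S372_430_364_512 (Tr.sp 1 352 (Tr.sp 0 192 Tr.skip (Tr.lf 13421921348 107969351 5748442272267561725727866880)) Tr.skip) 128 256 320 384 0 128)))) = true := by decide +kernel
  have c4 : (band (go 16 Gd mult S430_488_216_364 (Tr.sp 1 352 (Tr.lf 17716823080 95246921 10799334346617482417650270208) Tr.skip) 128 256 320 384 0 128)
  (band (go 16 Gd mult S430_488_364_512 (Tr.sp 1 352 (Tr.lf 17716823080 95246921 10579309847447619907853746176) Tr.skip) 128 256 320 384 0 128)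
  (band (go 16 Gd mult S430_488_512_660 (Tr.sp 1 352 (Tr.lf 17716823080 95246921 10362912125736601285581340672) Tr.skip) 128 256 320 384 0 128)
  (go 16 Gd mult S430_488_660_808 (Tr.sp 1 352 (Tr.lf 17716823080 103504457 10266198060167430951604846592) Tr.skip) 128 256 320 384 0 128)))) = true := by decide +kernel
  have c5 : (go 16 Gd mult S372_430_660_808 (Tr.lf 13421920804 108104646 4213106481356982673851023360) 192 256 320 336 0 128) = true := by decide +kernel
  have c6 : (go 16 Gd mult S24_82_660_808 (Tr.sp 0 192 Tr.skip (Tr.lf 8590009410 103910213 5312113576387297199966191645)) 128 256 320 384 128 256) = true := by decide +kernel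
  have c7 : (go 16 Gd mult S372_430_660_808 (Tr.lf 9126879761 99838791 79104849627246683614353555456) 192 256 336 352 0 128) = true := by decide +kernel
  (And.intro (Ok.s4 512 (Ok.s4 364 (Ok.lf S314_372_216_364_ok (bl (br (br c3))))
  (Ok.lf S314_372_364_512_ok (bl (br c3))))
  (Ok.s4 660 (Ok.lf S314_372_512_660_ok (bl (br c0)))
  (Ok.lf S314_372_660_808_ok (bl c3))))
  (And.intro (Ok.s3 430 (Ok.s4 512 (Ok.s4 364 (Ok.lf S372_430_216_364_ok (br (br c0)))
  (Ok.lf S372_430_364_512_ok (br (br (br c3)))))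
  (Ok.s4 660 (Ok.lf S372_430_512_660_ok (bl c0))
  (Ok.s1 352 (Ok.s0 192 (Ok.out rfl)
  (Ok.s1 336 (Ok.lf S372_430_660_808_ok c5)
  (Ok.lf S372_430_660_808_ok c7)))
  (Ok.out rfl))))
  (Ok.s4 512 (Ok.s4 364 (Ok.lf S430_488_216_364_ok (bl c4))
  (Ok.lf S430_488_364_512_ok (bl (br c4))))
  (Ok.s4 660 (Ok.lf S430_488_512_660_ok (bl (br (br c4))))
  (Ok.lf S430_488_660_808_ok (br (br (br c4)))))))
  (Ok.s3 82 (Ok.s4 512 (Ok.s4 364 (Ok.lf S24_82_216_364_ok (bl (br c1)))
  (Ok.lf S24_82_364_512_ok (bl (br (br c1)))))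
  (Ok.s4 660 (Ok.lf S24_82_512_660_ok (br (br (br c1))))
  (Ok.lf S24_82_660_808_ok c6)))
  (Ok.s4 512 (Ok.s4 364 (Ok.lf S82_140_216_364_ok (bl c2))
  (Ok.lf S82_140_364_512_ok (bl (br c2))))
  (Ok.s4 660 (Ok.lf S82_140_512_660_ok (br (br c2)))
  (Ok.lf S82_140_660_808_ok (bl c1)))))))

end Vale.Agent.P098.Ck
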