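import Vale.Agent.P098.CkGd
import Vale.Agent.P098.CkOk
import Vale.Agent.P098.Sh.A11
import Vale.Agent.P098.Sh.A17
import Vale.Agent.P098.Sh.A28
import Vale.Agent.P098.Sh.A29
import Vale.Agent.P098.Sh.A41
import Vale.Agent.P098.Sh.A43
import Vale.Agent.P098.Sh.A44
import Vale.Agent.P098.Sh.A45
import Vale.Agent.P098.Sh.A49
import Vale.Agent.P098.Sh.A50
import Vale.Agent.P098.Sh.A8

namespace Vale.Agent.P098.Ck

theorem r378 :
    Ok Gd mult 128 256 320 384 128 256 140 198 216 512 ∧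
    Ok Gd mult 128 256 320 384 128 256 140 198 512 808 ∧
    Ok Gd mult 128 256 320 384 128 256 198 256 216 808 ∧
    Ok Gd mult 128 256 320 384 128 256 256 372 216 808 :=
  have c0 : (band (go 16 Gd mult S140_198_364_512 (Tr.sp 0 192 Tr.skip (Tr.sp 1 352 (Tr.sp 1 336 (Tr.sp 0 224 Tr.skip (Tr.lf 13422331972 103643975 6380710475926012784099196928)) Tr.skip) Tr.skip)) 128 256 320 384 128 256)
  (go 16 Gd mult S256_314_512_660 (Tr.sp 0 192 Tr.skip (Tr.sp 0 224 Tr.skip (Tr.sp 1 352 (Tr.sp 1 336 (Tr.lf 8590230561 108240068 4288088770030173769855468680) Tr.skip) Tr.skip))) 128 256 320 384 128 256)) = true := by decide +kernel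
  have c1 : (band (go 16 Gd mult S140_198_660_808 (Tr.sp 1 352 (Tr.sp 0 192 Tr.skip (Tr.lf 13497567364 108231495 5743651892639292313397362688)) Tr.skip) 128 256 320 384 128 256)
  (go 16 Gd mult S198_256_216_364 (Tr.sp 1 352 (Tr.sp 0 192 Tr.skip (Tr.lf 13430457412 107842503 12376982541214573490641829888)) Tr.skip) 128 256 320 384 128 256)) = true := by decide +kernel
  have c2 : (go 16 Gd mult S256_314_364_512 (Tr.sp 0 192 Tr.skip (Tr.sp 1 352 (Tr.sp 1 336 (Tr.sp 0 224 Tr.skip (Tr.lf 13430720580 108104519 6097821834136189557217951744)) Tr.skip) Tr.skip)) 128 256 320 384 128 256) = true := by decide +kernel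
  have c3 : (band (go 16 Gd mult S198_256_364_512 (Tr.sp 1 336 (Tr.lf 13430456904 103783239 4795808726411233936059400192) Tr.skip) 192 256 320 352 128 192)
  (go 16 Gd mult S198_256_364_512 (Tr.sp 1 336 (Tr.lf 13497565732 104045383 7277733969043808668189917213) Tr.skip) 192 256 320 352 192 256)) = true := by decide +kernel
  have c4 : (band (go 16 Gd mult S198_256_512_660 (Tr.sp 0 192 Tr.skip (Tr.sp 1 352 (Tr.sp 1 336 (Tr.lf 8590231588 104041541 5252823914848315477513732173) Tr.skip) Tr.skip)) 128 256 320 384 128 256)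
  (band (go 16 Gd mult S140_198_512_660 (Tr.sp 0 192 Tr.skip (Tr.sp 1 352 (Tr.sp 1 336 (Tr.lf 13430457380 107842375 5240710196119780474333691904) Tr.skip) Tr.skip)) 128 256 320 384 128 256)
  (band (go 16 Gd mult S314_372_364_512 (Tr.sp 0 192 Tr.skip (Tr.sp 1 352 (Tr.sp 1 336 (Tr.lf 13422068772 107973319 5528426147919508680067776512) Tr.skip) Tr.skip)) 128 256 320 384 128 256)
  (band (go 16 Gd mult S314_372_512_660 (Tr.sp 0 192 Tr.skip (Tr.sp 1 352 (Tr.sp 1 336 (Tr.lf 13497566244 104049351 5197211685236073002759618560) Tr.skip) Tr.skip)) 128 256 320 384 128 256)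
  (go 16 Gd mult S140_169_216_364 (Tr.lf 13423100964 103767111 5703712016941820446263738368) 192 256 320 336 128 256))))) = true := by decide +kernel
  have c5 : (go 16 Gd mult S256_314_660_808 (Tr.sp 0 192 Tr.skip (Tr.sp 1 352 (Tr.lf 8590230562 104168644 4427101348631703963639480320) Tr.skip)) 128 256 320 384 128 256) = true := by decide +kernel
  have c6 : (band (go 16 Gd mult S314_372_660_808 (Tr.sp 1 352 (Tr.sp 1 336 (Tr.sp 0 192 Tr.skip (Tr.lf 8590230562 99855556 4823635954459184573630713425)) Tr.skip) Tr.skip) 128 256 320 384 128 256)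
  (band (go 16 Gd mult S314_372_216_364 (Tr.sp 0 192 Tr.skip (Tr.sp 1 352 (Tr.sp 1 336 (Tr.lf 13422052388 107973319 5935825774307829247807324160) Tr.skip) Tr.skip)) 128 256 320 384 128 256)
  (band (go 16 Gd mult S169_198_216_364 (Tr.lf 13430432804 107846471 7814496497988962985300721664) 192 256 320 336 128 256)
  (band (go 16 Gd mult S198_256_660_808 (Tr.sp 1 352 (Tr.sp 1 336 (Tr.sp 0 192 Tr.skip (Tr.lf 8590214178 103914692 3653392901385814088712589066)) Tr.skip) Tr.skip) 128 256 320 384 128 256)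
  (band (go 16 Gd mult S256_285_216_364 (Tr.lf 13430432804 107977543 7862853530773548152288968704) 192 256 320 336 128 256)
  (go 16 Gd mult S285_314_216_364 (Tr.lf 13430432804 103910215 6199371602983818407893270528) 192 256 320 336 128 256)))))) = true := by decide +kernel
  (And.intro (Ok.s4 364 (Ok.s0 192 (Ok.out rfl)
  (Ok.s1 352 (Ok.s1 336 (Ok.s3 169 (Ok.lf S140_169_216_364_ok (br (br (br (br c4)))))
  (Ok.lf S169_198_216_364_ok (bl (br (br c6)))))
  (Ok.out rfl))
  (Ok.out rfl)))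
  (Ok.lf S140_198_364_512_ok (bl c0)))
  (And.intro (Ok.s4 660 (Ok.lf S140_198_512_660_ok (bl (br c4)))
  (Ok.lf S140_198_660_808_ok (bl c1)))
  (And.intro (Ok.s4 512 (Ok.s4 364 (Ok.lf S198_256_216_364_ok (br c1))
  (Ok.s0 192 (Ok.out rfl)
  (Ok.s1 352 (Ok.s2 192 (Ok.lf S198_256_364_512_ok (bl c3))
  (Ok.lf S198_256_364_512_ok (br c3)))
  (Ok.out rfl))))
  (Ok.s4 660 (Ok.lf S198_256_512_660_ok (bl c4))
  (Ok.lf S198_256_660_808_ok (bl (br (br (br c6)))))))
  (Ok.s3 314 (Ok.s4 512 (Ok.s4 364 (Ok.s0 192 (Ok.out rfl)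
  (Ok.s1 352 (Ok.s1 336 (Ok.s3 285 (Ok.lf S256_285_216_364_ok (bl (br (br (br (br c6))))))
  (Ok.lf S285_314_216_364_ok (br (br (br (br (br c6)))))))
  (Ok.out rfl))
  (Ok.out rfl)))
  (Ok.lf S256_314_364_512_ok c2))
  (Ok.s4 660 (Ok.lf S256_314_512_660_ok (br c0))
  (Ok.lf S256_314_660_808_ok c5)))
  (Ok.s4 512 (Ok.s4 364 (Ok.lf S314_372_216_364_ok (bl (br c6)))
  (Ok.lf S314_372_364_512_ok (bl (br (br c4)))))
  (Ok.s4 660 (Ok.lf S314_372_512_660_ok (bl (br (br (br c4)))))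
  (Ok.lf S314_372_660_808_ok (bl c6))))))))

end Vale.Agent.P098.Ck
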