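import Vale.Agent.P098.CkGd
import Vale.Agent.P098.CkOk
import Vale.Agent.P098.Sh.A0
import Vale.Agent.P098.Sh.A1
import Vale.Agent.P098.Sh.A54
import Vale.Agent.P098.Sh.A55
import Vale.Agent.P098.Sh.A57
import Vale.Agent.P098.Sh.A58
import Vale.Agent.P098.Sh.A59

namespace Vale.Agent.P098.Ck

theorem r379 :
    Ok Gd mult 128 256 320 384 128 256 372 430 216 808 ∧
    Ok Gd mult 128 256 320 384 128 256 430 488 216 808 ∧
    Ok Gd mult 128 256 320 384 256 512 24 488 216 808 ∧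
    Ok Gd mult 256 384 0 64 0 128 24 82 216 808 :=
  have c0 : (band (go 16 Gd mult S372_430_512_660 (Tr.sp 0 192 Tr.skip (Tr.sp 1 352 (Tr.sp 1 336 (Tr.sp 0 224 Tr.skip (Tr.lf 13423118408 103775303 7101230264416331772224077824)) Tr.skip) Tr.skip)) 128 256 320 384 128 256)
  (go 16 Gd mult S372_430_216_364 (Tr.sp 0 192 Tr.skip (Tr.sp 1 352 (Tr.sp 0 224 Tr.skip (Tr.sp 1 336 (Tr.lf 13422903842 108096583 8073206623386493628687843328) Tr.skip)) Tr.skip)) 128 256 320 384 128 256)) = true := by decide +kernel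
  have c1 : (band (go 16 Gd mult S24_82_216_364 (Tr.lf 13423970436 90655560 0) 256 384 0 64 0 64)
  (band (go 16 Gd mult S24_82_364_512 (Tr.lf 13423970436 90655560 0) 256 384 0 64 0 64)
  (go 16 Gd mult S24_82_512_660 (Tr.lf 13423970436 90655815 0) 256 384 0 64 0 64))) = true := by decide +kernel
  have c2 : (go 16 Gd mult S24_82_660_808 (Tr.lf 13423970436 90913863 0) 256 384 0 64 0 64) = true := by decide +kernel
  have c3 : (band (go 16 Gd mult S430_488_512_660 (Tr.sp 0 192 Tr.skip (Tr.lf 13422904452 103636040 20163673745352400004924309504)) 128 256 320 384 128 256)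
  (band (go 16 Gd mult S430_488_660_808 (Tr.sp 0 192 Tr.skip (Tr.lf 13422904452 99441736 20134659525681648904731361280)) 128 256 320 384 128 256)
  (band (go 16 Gd mult S430_488_216_364 (Tr.sp 0 192 Tr.skip (Tr.lf 13422903940 99707848 20296655585510009214141988864)) 128 256 320 384 128 256)
  (go 16 Gd mult S430_488_364_512 (Tr.sp 0 192 Tr.skip (Tr.lf 13422903940 99707848 20230164665431204609533149184)) 128 256 320 384 128 256)))) = true := by decide +kernel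
  have c4 : (band (go 16 Gd mult S24_82_216_364 (Tr.lf 4835082882 103644103 0) 256 384 0 64 64 128)
  (band (go 16 Gd mult S24_82_364_512 (Tr.lf 4835066498 99449799 0) 256 384 0 64 64 128)
  (band (go 16 Gd mult S24_82_512_660 (Tr.lf 4835066498 99449799 0) 256 384 0 64 64 128)
  (go 16 Gd mult S24_82_660_808 (Tr.lf 4835066498 99449799 0) 256 384 0 64 64 128)))) = true := by decide +kernel
  have c5 : (band (go 16 Gd mult S372_430_364_512 (Tr.sp 0 192 Tr.skip (Tr.sp 1 352 (Tr.sp 1 336 (Tr.lf 13422969892 108096583 7462699084481105895461224448) Tr.skip) Tr.skip)) 128 256 320 384 128 256)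
  (band (go 16 Gd mult S372_401_660_808 (Tr.lf 13421921316 108096327 5957586439060892572952035328) 192 256 320 336 128 256)
  (go 16 Gd mult S401_430_660_808 (Tr.lf 13422891538 112159815 8608760761475774353082679296) 192 256 320 336 128 256))) = true := by decide +kernel
  have c6 : (band (go 16 Gd mult S430_488_216_364 (Tr.lf 9127928388 103504841 79104849645656272424192966523) 128 256 320 384 256 384)
  (band (go 16 Gd mult S430_488_364_512 (Tr.lf 9127928388 103504841 79104849645656272424192966523) 128 256 320 384 256 384)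
  (band (go 16 Gd mult S430_488_512_660 (Tr.lf 9127928388 103504841 79104849645656272424192966523) 128 256 320 384 256 384)
  (go 16 Gd mult S430_488_660_808 (Tr.lf 9127928388 103504841 79104849645656272424192966523) 128 256 320 384 256 384)))) = true := by decide +kernel
  (And.intro (Ok.s4 512 (Ok.s4 364 (Ok.lf S372_430_216_364_ok (br c0))
  (Ok.lf S372_430_364_512_ok (bl c5)))
  (Ok.s4 660 (Ok.lf S372_430_512_660_ok (bl c0))
  (Ok.s0 192 (Ok.out rfl)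
  (Ok.s1 352 (Ok.s1 336 (Ok.s3 401 (Ok.lf S372_401_660_808_ok (bl (br c5)))
  (Ok.lf S401_430_660_808_ok (br (br c5))))
  (Ok.out rfl))
  (Ok.out rfl)))))
  (And.intro (Ok.s4 512 (Ok.s4 364 (Ok.lf S430_488_216_364_ok (bl (br (br c3))))
  (Ok.lf S430_488_364_512_ok (br (br (br c3)))))
  (Ok.s4 660 (Ok.lf S430_488_512_660_ok (bl c3))
  (Ok.lf S430_488_660_808_ok (bl (br c3)))))
  (And.intro (Ok.s2 384 (Ok.s3 256 (Ok.s3 140 (Ok.s3 82 (Ok.s4 512 (Ok.s4 364 (Ok.s0 192 (Ok.out rfl)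
  (Ok.out rfl))
  (Ok.s0 192 (Ok.out rfl)
  (Ok.out rfl)))
  (Ok.s4 660 (Ok.s0 192 (Ok.out rfl)
  (Ok.out rfl))
  (Ok.s0 192 (Ok.out rfl)
  (Ok.out rfl))))
  (Ok.s4 512 (Ok.s4 364 (Ok.s0 192 (Ok.out rfl)
  (Ok.out rfl))
  (Ok.s0 192 (Ok.out rfl)
  (Ok.out rfl)))
  (Ok.s4 660 (Ok.s0 192 (Ok.out rfl)
  (Ok.out rfl))
  (Ok.s0 192 (Ok.out rfl)
  (Ok.out rfl)))))
  (Ok.s3 198 (Ok.s4 512 (Ok.s4 364 (Ok.s0 192 (Ok.out rfl)
  (Ok.out rfl))
  (Ok.s0 192 (Ok.out rfl)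
  (Ok.out rfl)))
  (Ok.s4 660 (Ok.s0 192 (Ok.out rfl)
  (Ok.out rfl))
  (Ok.s0 192 (Ok.out rfl)
  (Ok.out rfl))))
  (Ok.s4 512 (Ok.s4 364 (Ok.s0 192 (Ok.out rfl)
  (Ok.out rfl))
  (Ok.s0 192 (Ok.out rfl)
  (Ok.out rfl)))
  (Ok.s4 660 (Ok.s0 192 (Ok.out rfl)
  (Ok.out rfl))
  (Ok.s0 192 (Ok.out rfl)
  (Ok.out rfl))))))
  (Ok.s3 372 (Ok.s3 314 (Ok.s4 512 (Ok.s4 364 (Ok.s0 192 (Ok.out rfl)
  (Ok.out rfl))
  (Ok.s0 192 (Ok.out rfl)
  (Ok.out rfl)))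
  (Ok.s4 660 (Ok.s0 192 (Ok.out rfl)
  (Ok.out rfl))
  (Ok.s0 192 (Ok.out rfl)
  (Ok.out rfl))))
  (Ok.s4 512 (Ok.s4 364 (Ok.s0 192 (Ok.out rfl)
  (Ok.out rfl))
  (Ok.s0 192 (Ok.out rfl)
  (Ok.out rfl)))
  (Ok.s4 660 (Ok.s0 192 (Ok.out rfl)
  (Ok.out rfl))
  (Ok.s0 192 (Ok.out rfl)
  (Ok.out rfl)))))
  (Ok.s3 430 (Ok.s4 512 (Ok.s4 364 (Ok.s0 192 (Ok.out rfl)
  (Ok.out rfl))
  (Ok.s0 192 (Ok.out rfl)
  (Ok.out rfl)))
  (Ok.s4 660 (Ok.s0 192 (Ok.out rfl)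
  (Ok.out rfl))
  (Ok.s0 192 (Ok.out rfl)
  (Ok.out rfl))))
  (Ok.s4 512 (Ok.s4 364 (Ok.lf S430_488_216_364_ok (bl c6))
  (Ok.lf S430_488_364_512_ok (bl (br c6))))
  (Ok.s4 660 (Ok.lf S430_488_512_660_ok (bl (br (br c6))))
  (Ok.lf S430_488_660_808_ok (br (br (br c6)))))))))
  (Ok.out rfl))
  (Ok.s4 512 (Ok.s4 364 (Ok.s2 64 (Ok.lf S24_82_216_364_ok (bl c1))
  (Ok.lf S24_82_216_364_ok (bl c4)))
  (Ok.s2 64 (Ok.lf S24_82_364_512_ok (bl (br c1)))
  (Ok.lf S24_82_364_512_ok (bl (br c4)))))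
  (Ok.s4 660 (Ok.s2 64 (Ok.lf S24_82_512_660_ok (br (br c1)))
  (Ok.lf S24_82_512_660_ok (bl (br (br c4)))))
  (Ok.s2 64 (Ok.lf S24_82_660_808_ok c2)
  (Ok.lf S24_82_660_808_ok (br (br (br c4))))))))))

end Vale.Agent.P098.Ck
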