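import Vale.Agent.P098.CkGd
import Vale.Agent.P098.CkOk
import Vale.Agent.P098.Sh.A2
import Vale.Agent.P098.Sh.A3
import Vale.Agent.P098.Sh.A4
import Vale.Agent.P098.Sh.A5
import Vale.Agent.P098.Sh.A6

namespace Vale.Agent.P098.Ck

theorem r38 :
    Ok Gd mult 0 128 64 128 480 496 82 140 364 512 ∧
    Ok Gd mult 0 128 64 128 496 512 82 140 364 512 ∧
    Ok Gd mult 0 128 64 128 384 512 82 140 512 808 :=
  have c0 : (go 16 Gd mult S82_140_512_660 (Tr.lf 9137588356 99179464 0) 0 128 64 128 384 448) = true := by decide +kernel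
  have c1 : (go 16 Gd mult S82_140_660_808 (Tr.lf 4842621060 107580614 0) 0 128 64 128 384 448) = true := by decide +kernel
  have c2 : (band (go 16 Gd mult S82_111_512_660 (Tr.lf 9675375752 99314760 6254080716749974420630536192) 0 128 64 128 496 512)
  (go 16 Gd mult S82_111_660_808 (Tr.lf 9675490440 99314760 6246857488279543081055813632) 0 128 64 128 496 512)) = true := by decide +kernel
  have c3 : (band (go 16 Gd mult S111_140_512_660 (Tr.lf 9683895428 99454024 6507863938166342687026839552) 0 128 64 128 496 512)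
  (go 16 Gd mult S111_140_660_808 (Tr.lf 5379474564 91057223 6487330055681140677429690368) 0 128 64 128 496 512)) = true := by decide +kernel
  have c4 : (band (go 16 Gd mult S82_140_660_808 (Tr.lf 4842620036 103644358 0) 0 128 64 128 448 480)
  (band (go 16 Gd mult S111_140_512_660 (Tr.lf 9137439812 94985160 0) 0 128 64 128 448 480)
  (band (go 16 Gd mult S82_111_512_660 (Tr.lf 4842406532 95255750 0) 0 128 64 128 448 480)
  (band (go 16 Gd mult S111_140_512_660 (Tr.lf 4842472068 103644358 10145709240540253388800) 0 128 64 128 480 496)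
  (go 16 Gd mult S82_111_512_660 (Tr.lf 9137373828 90926151 8042780493781783281664) 0 128 64 128 480 496))))) = true := by decide +kernel
  have c5 : (band (go 16 Gd mult S111_140_364_512 (Tr.lf 9682699396 103382215 14443800609714578915328) 0 128 64 128 480 496)
  (band (go 16 Gd mult S82_111_364_512 (Tr.lf 5379342980 95386567 15532158510063442460672) 0 128 64 128 480 496)
  (band (go 16 Gd mult S82_111_660_808 (Tr.lf 5379342980 103644103 534955578137578897408) 0 128 64 128 480 496)
  (band (go 16 Gd mult S111_140_660_808 (Tr.lf 4842463876 103652422 0) 0 128 64 128 480 496)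
  (band (go 16 Gd mult S82_111_364_512 (Tr.lf 9675358788 99314760 17741445486964555710040375296) 0 128 64 96 504 512)
  (go 16 Gd mult S111_140_364_512 (Tr.lf 9683763780 99454024 18802754096374587337234972672) 0 128 64 96 504 512)))))) = true := by decide +kernel
  have c6 : (band (go 16 Gd mult S111_140_364_512 (Tr.lf 9674310212 99445831 8033542452725947424512671744) 0 128 96 128 496 512)
  (band (go 16 Gd mult S82_111_364_512 (Tr.lf 9675293252 107838408 7712046675604489698182955008) 0 128 96 128 496 512)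
  (band (go 16 Gd mult S111_140_364_512 (Tr.lf 9674309956 99445831 0) 0 128 64 96 496 504)
  (go 16 Gd mult S82_111_364_512 (Tr.lf 9675292996 99314760 0) 0 128 64 96 496 504)))) = true := by decide +kernel
  (And.intro (Ok.s3 111 (Ok.lf S82_111_364_512_ok (bl (br c5)))
  (Ok.lf S111_140_364_512_ok (bl c5)))
  (And.intro (Ok.s1 96 (Ok.s2 504 (Ok.s3 111 (Ok.lf S82_111_364_512_ok (br (br (br c6))))
  (Ok.lf S111_140_364_512_ok (bl (br (br c6)))))
  (Ok.s3 111 (Ok.lf S82_111_364_512_ok (bl (br (br (br (br c5))))))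
  (Ok.lf S111_140_364_512_ok (br (br (br (br (br c5))))))))
  (Ok.s3 111 (Ok.lf S82_111_364_512_ok (bl (br c6)))
  (Ok.lf S111_140_364_512_ok (bl c6))))
  (Ok.s4 660 (Ok.s2 448 (Ok.lf S82_140_512_660_ok c0)
  (Ok.s2 480 (Ok.s3 111 (Ok.lf S82_111_512_660_ok (bl (br (br c4))))
  (Ok.lf S111_140_512_660_ok (bl (br c4))))
  (Ok.s2 496 (Ok.s3 111 (Ok.lf S82_111_512_660_ok (br (br (br (br c4)))))
  (Ok.lf S111_140_512_660_ok (bl (br (br (br c4))))))
  (Ok.s3 111 (Ok.lf S82_111_512_660_ok (bl c2))
  (Ok.lf S111_140_512_660_ok (bl c3))))))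
  (Ok.s2 448 (Ok.lf S82_140_660_808_ok c1)
  (Ok.s2 480 (Ok.lf S82_140_660_808_ok (bl c4))
  (Ok.s3 111 (Ok.s2 496 (Ok.lf S82_111_660_808_ok (bl (br (br c5))))
  (Ok.lf S82_111_660_808_ok (br c2)))
  (Ok.s2 496 (Ok.lf S111_140_660_808_ok (bl (br (br (br c5)))))
  (Ok.lf S111_140_660_808_ok (br c3)))))))))

end Vale.Agent.P098.Ck
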