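import Vale.Agent.P098.CkGd
import Vale.Agent.P098.CkOk
import Vale.Agent.P098.Sh.A11
import Vale.Agent.P098.Sh.A17
import Vale.Agent.P098.Sh.A18
import Vale.Agent.P098.Sh.A2
import Vale.Agent.P098.Sh.A3
import Vale.Agent.P098.Sh.A4
import Vale.Agent.P098.Sh.A5
import Vale.Agent.P098.Sh.A6
import Vale.Agent.P098.Sh.A8
import Vale.Agent.P098.Sh.A9

namespace Vale.Agent.P098.Ck

theorem r380 :
    Ok Gd mult 256 384 0 64 0 128 82 140 216 364 ∧
    Ok Gd mult 256 384 0 64 0 128 82 140 364 512 ∧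
    Ok Gd mult 256 384 0 64 0 128 82 140 512 808 ∧
    Ok Gd mult 256 384 0 64 0 128 140 198 216 808 :=
  have c0 : (band (go 16 Gd mult S82_111_364_512 (Tr.lf 13423954056 86457288 0) 256 384 0 64 0 64)
  (band (go 16 Gd mult S82_111_216_364 (Tr.lf 13424019588 86457288 0) 256 384 0 64 0 64)
  (band (go 16 Gd mult S82_111_512_660 (Tr.lf 13424019588 86457288 0) 256 384 0 64 0 64)
  (go 16 Gd mult S111_140_364_512 (Tr.lf 9136317572 94989127 0) 256 384 0 64 0 64)))) = true := by decide +kernel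
  have c1 : (band (go 16 Gd mult S82_111_660_808 (Tr.lf 13424019588 86715336 0) 256 384 0 64 0 64)
  (band (go 16 Gd mult S111_140_216_364 (Tr.lf 4842603652 103779398 0) 256 384 0 64 0 64)
  (band (go 16 Gd mult S111_140_512_660 (Tr.lf 9136383108 99449798 0) 256 384 0 64 0 64)
  (go 16 Gd mult S111_140_660_808 (Tr.lf 9136383108 95255494 0) 256 384 0 64 0 64)))) = true := by decide +kernel
  have c2 : (band (go 16 Gd mult S140_169_364_512 (Tr.lf 547652738 99585094 0) 256 384 0 64 0 128)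
  (band (go 16 Gd mult S140_169_216_364 (Tr.lf 547636354 103914438 0) 256 384 0 64 0 128)
  (band (go 16 Gd mult S169_198_216_364 (Tr.lf 9716802 99847492 0) 256 384 0 64 0 128)
  (go 16 Gd mult S169_198_364_512 (Tr.lf 9585730 104168772 0) 256 384 0 64 0 128)))) = true := by decide +kernel
  have c3 : (go 16 Gd mult S140_198_512_660 (Tr.lf 8599537732 90917831 0) 256 384 0 32 0 128) = true := by decide +kernel
  have c4 : (go 16 Gd mult S140_198_660_808 (Tr.lf 8599521410 91052871 0) 256 320 0 64 0 128) = true := by decide +kernel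
  have c5 : (go 16 Gd mult S140_198_512_660 (Tr.lf 546604098 91200581 0) 256 384 32 64 0 128) = true := by decide +kernel
  have c6 : (go 16 Gd mult S140_198_660_808 (Tr.lf 546473089 99585093 0) 320 384 0 64 0 128) = true := by decide +kernel
  have c7 : (band (go 16 Gd mult S82_140_216_364 (Tr.lf 4842488450 103648326 0) 256 384 0 64 64 128)
  (band (go 16 Gd mult S82_140_512_660 (Tr.lf 4842488450 103648326 0) 256 384 0 64 64 128)
  (band (go 16 Gd mult S82_140_364_512 (Tr.lf 4842488450 103648326 0) 256 384 0 64 64 128)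
  (go 16 Gd mult S82_140_660_808 (Tr.lf 4842472066 103648326 0) 256 384 0 64 64 128)))) = true := by decide +kernel
  (And.intro (Ok.s2 64 (Ok.s3 111 (Ok.lf S82_111_216_364_ok (bl (br c0)))
  (Ok.lf S111_140_216_364_ok (bl (br c1))))
  (Ok.lf S82_140_216_364_ok (bl c7)))
  (And.intro (Ok.s2 64 (Ok.s3 111 (Ok.lf S82_111_364_512_ok (bl c0))
  (Ok.lf S111_140_364_512_ok (br (br (br c0)))))
  (Ok.lf S82_140_364_512_ok (bl (br (br c7)))))
  (And.intro (Ok.s4 660 (Ok.s2 64 (Ok.s3 111 (Ok.lf S82_111_512_660_ok (bl (br (br c0))))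
  (Ok.lf S111_140_512_660_ok (bl (br (br c1)))))
  (Ok.lf S82_140_512_660_ok (bl (br c7))))
  (Ok.s2 64 (Ok.s3 111 (Ok.lf S82_111_660_808_ok (bl c1))
  (Ok.lf S111_140_660_808_ok (br (br (br c1)))))
  (Ok.lf S82_140_660_808_ok (br (br (br c7))))))
  (Ok.s4 512 (Ok.s4 364 (Ok.s3 169 (Ok.lf S140_169_216_364_ok (bl (br c2)))
  (Ok.lf S169_198_216_364_ok (bl (br (br c2)))))
  (Ok.s3 169 (Ok.lf S140_169_364_512_ok (bl c2))
  (Ok.lf S169_198_364_512_ok (br (br (br c2))))))
  (Ok.s4 660 (Ok.s1 32 (Ok.lf S140_198_512_660_ok c3)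
  (Ok.lf S140_198_512_660_ok c5))
  (Ok.s0 320 (Ok.lf S140_198_660_808_ok c4)
  (Ok.lf S140_198_660_808_ok c6)))))))

end Vale.Agent.P098.Ck
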