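import Vale.Agent.P098.CkGd
import Vale.Agent.P098.CkOk
import Vale.Agent.P098.Sh.A25
import Vale.Agent.P098.Sh.A27
import Vale.Agent.P098.Sh.A28
import Vale.Agent.P098.Sh.A36
import Vale.Agent.P098.Sh.A37
import Vale.Agent.P098.Sh.A38
import Vale.Agent.P098.Sh.A42
import Vale.Agent.P098.Sh.A43
import Vale.Agent.P098.Sh.A46

namespace Vale.Agent.P098.Ck

theorem r381 :
    Ok Gd mult 256 384 0 64 0 128 198 256 216 512 ∧
    Ok Gd mult 256 384 0 64 0 128 198 256 512 808 ∧
    Ok Gd mult 256 384 0 64 0 128 256 314 216 512 ∧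
    Ok Gd mult 256 384 0 64 0 128 256 314 512 660 ∧
    Ok Gd mult 256 384 0 32 0 128 256 314 660 808 :=
  have c0 : (band (go 16 Gd mult S256_314_216_364 (Tr.lf 9734276 95657029 0) 256 384 0 64 0 128)
  (go 16 Gd mult S198_227_512_660 (Tr.lf 4303627396 107838405 0) 256 384 0 64 0 128)) = true := by decide +kernel
  have c1 : (band (go 16 Gd mult S256_314_364_512 (Tr.lf 4303652996 107977541 0) 256 384 0 64 0 128)
  (go 16 Gd mult S198_227_216_364 (Tr.lf 4303635524 103910341 0) 256 384 0 64 0 128)) = true := by decide +kernel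
  have c2 : (go 16 Gd mult S285_314_512_660 (Tr.lf 12893833348 86333769 0) 256 384 0 32 0 128) = true := by decide +kernel
  have c3 : (band (go 16 Gd mult S198_256_364_512 (Tr.lf 4303652932 103914309 0) 256 384 0 64 0 128)
  (band (go 16 Gd mult S227_256_512_660 (Tr.lf 8598603908 90921671 0) 256 384 0 64 0 128)
  (go 16 Gd mult S227_256_216_364 (Tr.lf 4303635524 103910341 0) 256 384 0 64 0 128))) = true := by decide +kernel
  have c4 : (go 16 Gd mult S198_227_660_808 (Tr.lf 8598603908 94992967 0) 256 384 0 64 0 128) = true := by decide +kernel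
  have c5 : (band (go 16 Gd mult S227_256_660_808 (Tr.lf 12893832264 90786376 0) 256 384 0 32 0 64)
  (go 16 Gd mult S256_285_660_808 (Tr.lf 12893832324 90794695 0) 256 384 0 32 0 64)) = true := by decide +kernel
  have c6 : (band (go 16 Gd mult S285_314_660_808 (Tr.lf 12893832324 86600391 0) 256 384 0 32 0 64)
  (go 16 Gd mult S256_285_512_660 (Tr.lf 12893832260 82270537 0) 256 384 0 32 0 64)) = true := by decide +kernel
  have c7 : (band (go 16 Gd mult S227_256_660_808 (Tr.lf 4303626818 103910213 0) 256 384 0 32 64 128)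
  (band (go 16 Gd mult S256_285_660_808 (Tr.lf 4303626818 103910468 0) 256 384 0 32 64 128)
  (band (go 16 Gd mult S256_285_512_660 (Tr.lf 4303626786 99457861 0) 256 384 0 32 64 128)
  (band (go 16 Gd mult S285_314_660_808 (Tr.lf 4303626786 99716164 0) 256 384 0 32 64 128)
  (band (go 16 Gd mult S227_256_660_808 (Tr.lf 4303627298 103779396 0) 256 384 32 64 0 128)
  (band (go 16 Gd mult S256_285_512_660 (Tr.lf 4303496226 103779141 0) 256 384 32 64 0 128)
  (go 16 Gd mult S285_314_512_660 (Tr.lf 4303496226 99585092 0) 256 384 32 64 0 128))))))) = true := by decide +kernel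
  (And.intro (Ok.s4 364 (Ok.s3 227 (Ok.lf S198_227_216_364_ok (br c1))
  (Ok.lf S227_256_216_364_ok (br (br c3))))
  (Ok.lf S198_256_364_512_ok (bl c3)))
  (And.intro (Ok.s4 660 (Ok.s3 227 (Ok.lf S198_227_512_660_ok (br c0))
  (Ok.lf S227_256_512_660_ok (bl (br c3))))
  (Ok.s3 227 (Ok.lf S198_227_660_808_ok c4)
  (Ok.s1 32 (Ok.s2 64 (Ok.lf S227_256_660_808_ok (bl c5))
  (Ok.lf S227_256_660_808_ok (bl c7)))
  (Ok.lf S227_256_660_808_ok (bl (br (br (br (br c7)))))))))
  (And.intro (Ok.s4 364 (Ok.lf S256_314_216_364_ok (bl c0))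
  (Ok.lf S256_314_364_512_ok (bl c1)))
  (And.intro (Ok.s3 285 (Ok.s1 32 (Ok.s2 64 (Ok.lf S256_285_512_660_ok (br c6))
  (Ok.lf S256_285_512_660_ok (bl (br (br c7)))))
  (Ok.lf S256_285_512_660_ok (bl (br (br (br (br (br c7))))))))
  (Ok.s1 32 (Ok.lf S285_314_512_660_ok c2)
  (Ok.lf S285_314_512_660_ok (br (br (br (br (br (br c7)))))))))
  (Ok.s3 285 (Ok.s2 64 (Ok.lf S256_285_660_808_ok (br c5))
  (Ok.lf S256_285_660_808_ok (bl (br c7))))
  (Ok.s2 64 (Ok.lf S285_314_660_808_ok (bl c6))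
  (Ok.lf S285_314_660_808_ok (bl (br (br (br c7)))))))))))

end Vale.Agent.P098.Ck
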