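import Vale.Agent.P098.CkGd
import Vale.Agent.P098.CkOk
import Vale.Agent.P098.Sh.A44
import Vale.Agent.P098.Sh.A48
import Vale.Agent.P098.Sh.A49
import Vale.Agent.P098.Sh.A50
import Vale.Agent.P098.Sh.A51
import Vale.Agent.P098.Sh.A52
import Vale.Agent.P098.Sh.A54
import Vale.Agent.P098.Sh.A55

namespace Vale.Agent.P098.Ck

theorem r382 :
    Ok Gd mult 256 384 32 64 0 128 256 314 660 808 ∧
    Ok Gd mult 256 384 0 64 0 128 314 372 216 808 ∧
    Ok Gd mult 256 384 0 64 0 128 372 430 216 808 :=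
  have c0 : (band (go 16 Gd mult S256_314_660_808 (Tr.lf 8598620228 99449542 0) 256 384 32 64 0 128)
  (band (go 16 Gd mult S314_372_512_660 (Tr.lf 546604098 91327557 0) 256 384 32 64 0 128)
  (band (go 16 Gd mult S372_430_364_512 (Tr.lf 546407458 95652933 0) 256 384 32 64 0 128)
  (band (go 16 Gd mult S314_343_660_808 (Tr.lf 4841423906 99585093 0) 256 384 32 64 0 128)
  (go 16 Gd mult S372_430_660_808 (Tr.lf 4841423906 112299077 0) 256 384 32 64 0 128))))) = true := by decide +kernel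
  have c1 : (go 16 Gd mult S314_343_660_808 (Tr.lf 12893570184 86727112 0) 256 384 0 32 0 64) = true := by decide +kernel
  have c2 : (band (go 16 Gd mult S314_372_216_364 (Tr.lf 546604162 91200581 0) 256 384 0 64 0 128)
  (band (go 16 Gd mult S343_372_660_808 (Tr.lf 4305732740 99585094 0) 256 384 0 64 0 128)
  (band (go 16 Gd mult S314_343_364_512 (Tr.lf 4303496260 99584837 0) 256 384 0 64 0 128)
  (go 16 Gd mult S343_372_364_512 (Tr.lf 546456642 99716165 0) 256 384 0 64 0 128)))) = true := by decide +kernel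
  have c3 : (band (go 16 Gd mult S314_343_512_660 (Tr.lf 8598603844 95119943 0) 256 384 0 32 0 128)
  (band (go 16 Gd mult S372_430_216_364 (Tr.lf 547522626 103914438 0) 256 384 0 32 0 128)
  (band (go 16 Gd mult S372_430_364_512 (Tr.lf 547522626 103914438 0) 256 384 0 32 0 128)
  (band (go 16 Gd mult S372_430_512_660 (Tr.lf 547522626 99720134 0) 256 384 0 32 0 128)
  (go 16 Gd mult S343_372_512_660 (Tr.lf 10634306 104041414 0) 256 384 0 32 0 128))))) = true := by decide +kernel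
  have c4 : (go 16 Gd mult S372_430_660_808 (Tr.lf 547521602 95525830 0) 256 384 0 32 0 128) = true := by decide +kernel
  have c5 : (band (go 16 Gd mult S372_430_512_660 (Tr.lf 546391074 103910469 0) 256 384 32 64 0 128)
  (go 16 Gd mult S372_430_216_364 (Tr.lf 538067490 103902277 0) 256 384 32 64 0 128)) = true := by decide +kernel
  have c6 : (go 16 Gd mult S314_343_660_808 (Tr.lf 4304552482 99585093 0) 256 384 0 32 64 128) = true := by decide +kernel
  (And.intro (Ok.lf S256_314_660_808_ok (bl c0))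
  (And.intro (Ok.s4 512 (Ok.s4 364 (Ok.lf S314_372_216_364_ok (bl c2))
  (Ok.s3 343 (Ok.lf S314_343_364_512_ok (bl (br (br c2))))
  (Ok.lf S343_372_364_512_ok (br (br (br c2))))))
  (Ok.s4 660 (Ok.s1 32 (Ok.s3 343 (Ok.lf S314_343_512_660_ok (bl c3))
  (Ok.lf S343_372_512_660_ok (br (br (br (br c3))))))
  (Ok.lf S314_372_512_660_ok (bl (br c0))))
  (Ok.s3 343 (Ok.s1 32 (Ok.s2 64 (Ok.lf S314_343_660_808_ok c1)
  (Ok.lf S314_343_660_808_ok c6))
  (Ok.lf S314_343_660_808_ok (bl (br (br (br c0))))))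
  (Ok.lf S343_372_660_808_ok (bl (br c2))))))
  (Ok.s4 512 (Ok.s4 364 (Ok.s1 32 (Ok.lf S372_430_216_364_ok (bl (br c3)))
  (Ok.lf S372_430_216_364_ok (br c5)))
  (Ok.s1 32 (Ok.lf S372_430_364_512_ok (bl (br (br c3))))
  (Ok.lf S372_430_364_512_ok (bl (br (br c0))))))
  (Ok.s4 660 (Ok.s1 32 (Ok.lf S372_430_512_660_ok (bl (br (br (br c3)))))
  (Ok.lf S372_430_512_660_ok (bl c5)))
  (Ok.s1 32 (Ok.lf S372_430_660_808_ok c4)
  (Ok.lf S372_430_660_808_ok (br (br (br (br c0))))))))))

end Vale.Agent.P098.Ck
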