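import Vale.Agent.P098.CkGd
import Vale.Agent.P098.CkOk
import Vale.Agent.P098.Sh.A0
import Vale.Agent.P098.Sh.A1
import Vale.Agent.P098.Sh.A3
import Vale.Agent.P098.Sh.A4
import Vale.Agent.P098.Sh.A58
import Vale.Agent.P098.Sh.A59

namespace Vale.Agent.P098.Ck

theorem r383 :
    Ok Gd mult 256 384 0 64 0 128 430 488 216 512 ∧
    Ok Gd mult 256 384 0 64 0 128 430 488 512 808 ∧
    Ok Gd mult 256 384 0 64 128 256 24 140 216 808 :=
  have c0 : (band (go 16 Gd mult S82_140_216_364 (Tr.lf 547653764 112290886 0) 256 384 0 64 128 256)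
  (go 16 Gd mult S24_82_364_512 (Tr.lf 1076988036 103636039 0) 256 384 0 64 128 256)) = true := by decide +kernel
  have c1 : (band (go 16 Gd mult S82_140_364_512 (Tr.lf 547522692 112290886 0) 256 384 0 64 128 256)
  (go 16 Gd mult S82_140_512_660 (Tr.lf 547522692 112299205 0) 256 384 0 64 128 256)) = true := by decide +kernel
  have c2 : (band (go 16 Gd mult S24_82_660_808 (Tr.lf 1076988036 103636039 0) 256 384 0 64 128 256)
  (go 16 Gd mult S82_140_660_808 (Tr.lf 547522690 112299205 0) 256 384 0 64 128 256)) = true := by decide +kernel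
  have c3 : (band (go 16 Gd mult S24_82_512_660 (Tr.lf 1153533057 95648585 0) 256 384 0 32 128 256)
  (go 16 Gd mult S24_82_216_364 (Tr.lf 1153532993 103906121 0) 256 384 0 32 128 256)) = true := by decide +kernel
  have c4 : (band (go 16 Gd mult S430_488_216_364 (Tr.lf 614564930 108240069 0) 256 384 0 32 0 128)
  (band (go 16 Gd mult S430_488_364_512 (Tr.lf 614564930 108240069 0) 256 384 0 32 0 128)
  (band (go 16 Gd mult S430_488_512_660 (Tr.lf 614564930 108240069 0) 256 384 0 32 0 128)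
  (go 16 Gd mult S430_488_660_808 (Tr.lf 614564930 108240069 0) 256 384 0 32 0 128)))) = true := by decide +kernel
  have c5 : (band (go 16 Gd mult S24_82_216_364 (Tr.lf 1076970562 91053127 0) 256 384 32 64 128 256)
  (go 16 Gd mult S24_82_512_660 (Tr.lf 1076970562 95247431 0) 256 384 32 64 128 256)) = true := by decide +kernel
  have c6 : (band (go 16 Gd mult S430_488_216_364 (Tr.lf 538001954 95652805 0) 256 384 32 64 0 128)
  (band (go 16 Gd mult S430_488_364_512 (Tr.lf 538001954 95652805 0) 256 384 32 64 0 128)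
  (band (go 16 Gd mult S430_488_512_660 (Tr.lf 538001954 95652805 0) 256 384 32 64 0 128)
  (go 16 Gd mult S430_488_660_808 (Tr.lf 538001954 95652805 0) 256 384 32 64 0 128)))) = true := by decide +kernel
  (And.intro (Ok.s4 364 (Ok.s1 32 (Ok.lf S430_488_216_364_ok (bl c4))
  (Ok.lf S430_488_216_364_ok (bl c6)))
  (Ok.s1 32 (Ok.lf S430_488_364_512_ok (bl (br c4)))
  (Ok.lf S430_488_364_512_ok (bl (br c6)))))
  (And.intro (Ok.s4 660 (Ok.s1 32 (Ok.lf S430_488_512_660_ok (bl (br (br c4))))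
  (Ok.lf S430_488_512_660_ok (bl (br (br c6)))))
  (Ok.s1 32 (Ok.lf S430_488_660_808_ok (br (br (br c4))))
  (Ok.lf S430_488_660_808_ok (br (br (br c6))))))
  (Ok.s3 82 (Ok.s4 512 (Ok.s4 364 (Ok.s1 32 (Ok.lf S24_82_216_364_ok (br c3))
  (Ok.lf S24_82_216_364_ok (bl c5)))
  (Ok.lf S24_82_364_512_ok (br c0)))
  (Ok.s4 660 (Ok.s1 32 (Ok.lf S24_82_512_660_ok (bl c3))
  (Ok.lf S24_82_512_660_ok (br c5)))
  (Ok.lf S24_82_660_808_ok (bl c2))))
  (Ok.s4 512 (Ok.s4 364 (Ok.lf S82_140_216_364_ok (bl c0))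
  (Ok.lf S82_140_364_512_ok (bl c1)))
  (Ok.s4 660 (Ok.lf S82_140_512_660_ok (br c1))
  (Ok.lf S82_140_660_808_ok (br c2)))))))

end Vale.Agent.P098.Ck
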