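import Vale.Agent.P098.CkGd
import Vale.Agent.P098.CkOk
import Vale.Agent.P098.Sh.A11
import Vale.Agent.P098.Sh.A17
import Vale.Agent.P098.Sh.A26
import Vale.Agent.P098.Sh.A27
import Vale.Agent.P098.Sh.A28
import Vale.Agent.P098.Sh.A29
import Vale.Agent.P098.Sh.A37
import Vale.Agent.P098.Sh.A41
import Vale.Agent.P098.Sh.A42
import Vale.Agent.P098.Sh.A43
import Vale.Agent.P098.Sh.A45
import Vale.Agent.P098.Sh.A46
import Vale.Agent.P098.Sh.A8

namespace Vale.Agent.P098.Ck

theorem r384 :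
    Ok Gd mult 256 384 0 64 128 256 140 198 216 808 ∧
    Ok Gd mult 256 384 0 64 128 256 198 256 216 808 ∧
    Ok Gd mult 256 384 0 64 128 256 256 314 216 808 :=
  have c0 : (band (go 16 Gd mult S198_256_216_364 (Tr.lf 1227393154 87395527 0) 256 384 0 64 128 256)
  (go 16 Gd mult S140_198_364_512 (Tr.lf 1160021122 87006279 0) 256 384 0 64 128 256)) = true := by decide +kernel
  have c1 : (band (go 16 Gd mult S140_198_660_808 (Tr.lf 1160022146 87002183 0) 256 384 0 64 128 256)
  (band (go 16 Gd mult S256_314_216_364 (Tr.lf 77104258 99716293 0) 256 384 0 64 128 256)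
  (go 16 Gd mult S198_227_364_512 (Tr.lf 690242689 99593287 0) 256 384 0 64 128 256))) = true := by decide +kernel
  have c2 : (band (go 16 Gd mult S140_198_512_660 (Tr.lf 1160021122 82938951 0) 256 384 0 64 128 256)
  (band (go 16 Gd mult S256_285_512_660 (Tr.lf 689194114 99716166 0) 256 384 0 64 128 256)
  (band (go 16 Gd mult S140_169_216_364 (Tr.lf 1160922242 95394760 0) 256 384 0 64 128 256)
  (band (go 16 Gd mult S256_285_660_808 (Tr.lf 8660098 108108740 0) 256 384 0 64 128 256)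
  (go 16 Gd mult S227_256_512_660 (Tr.lf 689194050 95394886 0) 256 384 0 64 128 256))))) = true := by decide +kernel
  have c3 : (band (go 16 Gd mult S198_256_660_808 (Tr.lf 9732674 99720388 0) 256 384 0 64 128 192)
  (go 16 Gd mult S198_256_660_808 (Tr.lf 690258498 99593414 0) 256 384 0 64 192 256)) = true := by decide +kernel
  have c4 : (band (go 16 Gd mult S285_314_364_512 (Tr.lf 76825666 103783748 0) 256 384 0 64 128 256)
  (band (go 16 Gd mult S285_314_660_808 (Tr.lf 9716802 99593412 0) 256 384 0 64 128 256)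
  (band (go 16 Gd mult S169_198_216_364 (Tr.lf 1227113537 83205191 0) 256 384 0 64 128 256)
  (band (go 16 Gd mult S227_256_364_512 (Tr.lf 689194049 95398982 0) 256 384 0 64 128 256)
  (band (go 16 Gd mult S198_227_512_660 (Tr.lf 690242625 91200838 0) 256 384 0 64 128 256)
  (band (go 16 Gd mult S256_285_364_512 (Tr.lf 75777089 99851332 0) 256 384 0 64 128 256)
  (go 16 Gd mult S285_314_512_660 (Tr.lf 9716801 103914692 0) 256 384 0 64 128 256))))))) = true := by decide +kernel
  (And.intro (Ok.s4 512 (Ok.s4 364 (Ok.s3 169 (Ok.lf S140_169_216_364_ok (bl (br (br c2))))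
  (Ok.lf S169_198_216_364_ok (bl (br (br c4)))))
  (Ok.lf S140_198_364_512_ok (br c0)))
  (Ok.s4 660 (Ok.lf S140_198_512_660_ok (bl c2))
  (Ok.lf S140_198_660_808_ok (bl c1))))
  (And.intro (Ok.s4 512 (Ok.s4 364 (Ok.lf S198_256_216_364_ok (bl c0))
  (Ok.s3 227 (Ok.lf S198_227_364_512_ok (br (br c1)))
  (Ok.lf S227_256_364_512_ok (bl (br (br (br c4)))))))
  (Ok.s4 660 (Ok.s3 227 (Ok.lf S198_227_512_660_ok (bl (br (br (br (br c4))))))
  (Ok.lf S227_256_512_660_ok (br (br (br (br c2))))))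
  (Ok.s2 192 (Ok.lf S198_256_660_808_ok (bl c3))
  (Ok.lf S198_256_660_808_ok (br c3)))))
  (Ok.s4 512 (Ok.s4 364 (Ok.lf S256_314_216_364_ok (bl (br c1)))
  (Ok.s3 285 (Ok.lf S256_285_364_512_ok (bl (br (br (br (br (br c4)))))))
  (Ok.lf S285_314_364_512_ok (bl c4))))
  (Ok.s4 660 (Ok.s3 285 (Ok.lf S256_285_512_660_ok (bl (br c2)))
  (Ok.lf S285_314_512_660_ok (br (br (br (br (br (br c4))))))))
  (Ok.s3 285 (Ok.lf S256_285_660_808_ok (bl (br (br (br c2)))))
  (Ok.lf S285_314_660_808_ok (bl (br c4))))))))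

end Vale.Agent.P098.Ck
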