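import Vale.Agent.P098.CkGd
import Vale.Agent.P098.CkOk
import Vale.Agent.P098.Sh.A48
import Vale.Agent.P098.Sh.A49
import Vale.Agent.P098.Sh.A51
import Vale.Agent.P098.Sh.A52
import Vale.Agent.P098.Sh.A54
import Vale.Agent.P098.Sh.A55
import Vale.Agent.P098.Sh.A57
import Vale.Agent.P098.Sh.A58

namespace Vale.Agent.P098.Ck

theorem r385 :
    Ok Gd mult 256 384 0 64 128 256 314 372 216 512 ∧
    Ok Gd mult 256 384 0 64 128 256 314 372 512 808 ∧
    Ok Gd mult 256 384 0 64 128 256 372 430 216 808 ∧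
    Ok Gd mult 256 384 0 64 128 256 430 488 216 512 :=
  have c0 : (band (go 16 Gd mult S314_372_216_364 (Tr.lf 614762626 91589702 0) 256 384 0 64 128 256)
  (band (go 16 Gd mult S372_401_660_808 (Tr.lf 615811202 95783752 0) 256 384 0 64 128 256)
  (go 16 Gd mult S343_372_364_512 (Tr.lf 614614146 91589702 0) 256 384 0 64 128 256))) = true := by decide +kernel
  have c1 : (band (go 16 Gd mult S372_430_512_660 (Tr.lf 1152682114 86997960 0) 256 384 0 32 128 256)
  (band (go 16 Gd mult S372_430_364_512 (Tr.lf 1152551042 91192264 0) 256 384 0 32 128 256)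
  (go 16 Gd mult S372_430_216_364 (Tr.lf 1152682050 91192264 0) 256 384 0 32 128 256))) = true := by decide +kernel
  have c2 : (band (go 16 Gd mult S430_488_364_512 (Tr.lf 1152485506 95521863 0) 256 384 0 32 128 256)
  (band (go 16 Gd mult S430_488_216_364 (Tr.lf 1152550978 95521863 0) 256 384 0 32 128 256)
  (band (go 16 Gd mult S401_430_660_808 (Tr.lf 1152534594 87256263 0) 256 384 0 32 128 256)
  (band (go 16 Gd mult S343_372_660_808 (Tr.lf 4842603586 107969606 0) 256 384 0 32 128 256)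
  (band (go 16 Gd mult S343_372_660_808 (Tr.lf 4842603586 103779398 0) 256 384 32 64 128 256)
  (go 16 Gd mult S372_430_216_364 (Tr.lf 547505186 95521862 0) 256 384 32 64 128 256)))))) = true := by decide +kernel
  have c3 : (band (go 16 Gd mult S314_343_660_808 (Tr.lf 547636354 99585094 0) 256 384 0 64 128 256)
  (band (go 16 Gd mult S314_343_512_660 (Tr.lf 547505282 99585094 0) 256 384 0 64 128 256)
  (band (go 16 Gd mult S343_372_512_660 (Tr.lf 547505282 95390790 0) 256 384 0 64 128 256)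
  (go 16 Gd mult S314_343_364_512 (Tr.lf 546456642 95390789 0) 256 384 0 64 128 256)))) = true := by decide +kernel
  have c4 : (band (go 16 Gd mult S372_430_512_660 (Tr.lf 547521602 99716166 0) 256 384 32 64 128 256)
  (band (go 16 Gd mult S372_430_364_512 (Tr.lf 547521570 99716166 0) 256 384 32 64 128 256)
  (band (go 16 Gd mult S401_430_660_808 (Tr.lf 547439650 99716166 0) 256 384 32 64 128 256)
  (band (go 16 Gd mult S430_488_216_364 (Tr.lf 539051042 99716038 0) 256 384 32 64 128 256)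
  (go 16 Gd mult S430_488_364_512 (Tr.lf 547439649 95521862 0) 256 384 32 64 128 256))))) = true := by decide +kernel
  (And.intro (Ok.s4 364 (Ok.lf S314_372_216_364_ok (bl c0))
  (Ok.s3 343 (Ok.lf S314_343_364_512_ok (br (br (br c3))))
  (Ok.lf S343_372_364_512_ok (br (br c0)))))
  (And.intro (Ok.s4 660 (Ok.s3 343 (Ok.lf S314_343_512_660_ok (bl (br c3)))
  (Ok.lf S343_372_512_660_ok (bl (br (br c3)))))
  (Ok.s3 343 (Ok.lf S314_343_660_808_ok (bl c3))
  (Ok.s1 32 (Ok.lf S343_372_660_808_ok (bl (br (br (br c2)))))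
  (Ok.lf S343_372_660_808_ok (bl (br (br (br (br c2)))))))))
  (And.intro (Ok.s4 512 (Ok.s4 364 (Ok.s1 32 (Ok.lf S372_430_216_364_ok (br (br c1)))
  (Ok.lf S372_430_216_364_ok (br (br (br (br (br c2)))))))
  (Ok.s1 32 (Ok.lf S372_430_364_512_ok (bl (br c1)))
  (Ok.lf S372_430_364_512_ok (bl (br c4)))))
  (Ok.s4 660 (Ok.s1 32 (Ok.lf S372_430_512_660_ok (bl c1))
  (Ok.lf S372_430_512_660_ok (bl c4)))
  (Ok.s3 401 (Ok.lf S372_401_660_808_ok (bl (br c0)))
  (Ok.s1 32 (Ok.lf S401_430_660_808_ok (bl (br (br c2))))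
  (Ok.lf S401_430_660_808_ok (bl (br (br c4))))))))
  (Ok.s4 364 (Ok.s1 32 (Ok.lf S430_488_216_364_ok (bl (br c2)))
  (Ok.lf S430_488_216_364_ok (bl (br (br (br c4))))))
  (Ok.s1 32 (Ok.lf S430_488_364_512_ok (bl c2))
  (Ok.lf S430_488_364_512_ok (br (br (br (br c4))))))))))

end Vale.Agent.P098.Ck
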