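import Vale.Agent.P098.CkGd
import Vale.Agent.P098.CkOk
import Vale.Agent.P098.Sh.A0
import Vale.Agent.P098.Sh.A1
import Vale.Agent.P098.Sh.A3
import Vale.Agent.P098.Sh.A4
import Vale.Agent.P098.Sh.A59

namespace Vale.Agent.P098.Ck

theorem r386 :
    Ok Gd mult 256 384 0 64 128 256 430 488 512 808 ∧
    Ok Gd mult 256 384 0 64 256 384 24 140 216 808 :=
  have c0 : (band (go 16 Gd mult S430_488_512_660 (Tr.lf 1152485506 95521863 0) 256 384 0 32 128 256)
  (go 16 Gd mult S430_488_660_808 (Tr.lf 1152550978 95521863 0) 256 384 0 32 128 256)) = true := by decide +kernel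
  have c1 : (band (go 16 Gd mult S82_140_216_364 (Tr.lf 1160939586 103779527 0) 256 384 0 32 256 384)
  (band (go 16 Gd mult S82_140_364_512 (Tr.lf 1160939585 107973831 0) 256 384 0 32 256 384)
  (band (go 16 Gd mult S82_140_512_660 (Tr.lf 1160939585 99716295 0) 256 384 0 32 256 384)
  (band (go 16 Gd mult S24_82_216_364 (Tr.lf 1690403905 99441737 0) 256 384 0 32 256 384)
  (band (go 16 Gd mult S24_82_364_512 (Tr.lf 1690403905 99441737 0) 256 384 0 32 256 384)
  (go 16 Gd mult S24_82_512_660 (Tr.lf 1690403905 99441737 0) 256 384 0 32 256 384)))))) = true := by decide +kernel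
  have c2 : (band (go 16 Gd mult S82_140_216_364 (Tr.lf 547521602 107973829 0) 256 384 32 64 256 384)
  (band (go 16 Gd mult S82_140_364_512 (Tr.lf 547521602 103910597 0) 256 384 32 64 256 384)
  (band (go 16 Gd mult S24_82_216_364 (Tr.lf 1076986946 103636039 0) 256 384 32 64 256 384)
  (band (go 16 Gd mult S24_82_364_512 (Tr.lf 1076986946 103636039 0) 256 384 32 64 256 384)
  (band (go 16 Gd mult S24_82_512_660 (Tr.lf 1076986946 103636039 0) 256 384 32 64 256 384)
  (band (go 16 Gd mult S24_82_660_808 (Tr.lf 1076971586 103636039 0) 256 384 32 64 256 384)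
  (go 16 Gd mult S82_140_512_660 (Tr.lf 547521570 103910597 0) 256 384 32 64 256 384))))))) = true := by decide +kernel
  have c3 : (band (go 16 Gd mult S82_140_660_808 (Tr.lf 547505218 103910597 0) 256 384 32 64 256 384)
  (band (go 16 Gd mult S82_140_660_808 (Tr.lf 1160922177 103779527 0) 256 384 0 32 256 384)
  (go 16 Gd mult S24_82_660_808 (Tr.lf 1690403905 99441737 0) 256 384 0 32 256 384))) = true := by decide +kernel
  have c4 : (band (go 16 Gd mult S430_488_512_660 (Tr.lf 547439649 95521862 0) 256 384 32 64 128 256)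
  (go 16 Gd mult S430_488_660_808 (Tr.lf 547439649 95521862 0) 256 384 32 64 128 256)) = true := by decide +kernel
  (And.intro (Ok.s4 660 (Ok.s1 32 (Ok.lf S430_488_512_660_ok (bl c0))
  (Ok.lf S430_488_512_660_ok (bl c4)))
  (Ok.s1 32 (Ok.lf S430_488_660_808_ok (br c0))
  (Ok.lf S430_488_660_808_ok (br c4))))
  (Ok.s3 82 (Ok.s4 512 (Ok.s4 364 (Ok.s1 32 (Ok.lf S24_82_216_364_ok (bl (br (br (br c1)))))
  (Ok.lf S24_82_216_364_ok (bl (br (br c2)))))
  (Ok.s1 32 (Ok.lf S24_82_364_512_ok (bl (br (br (br (br c1))))))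
  (Ok.lf S24_82_364_512_ok (bl (br (br (br c2)))))))
  (Ok.s4 660 (Ok.s1 32 (Ok.lf S24_82_512_660_ok (br (br (br (br (br c1))))))
  (Ok.lf S24_82_512_660_ok (bl (br (br (br (br c2)))))))
  (Ok.s1 32 (Ok.lf S24_82_660_808_ok (br (br c3)))
  (Ok.lf S24_82_660_808_ok (bl (br (br (br (br (br c2))))))))))
  (Ok.s4 512 (Ok.s4 364 (Ok.s1 32 (Ok.lf S82_140_216_364_ok (bl c1))
  (Ok.lf S82_140_216_364_ok (bl c2)))
  (Ok.s1 32 (Ok.lf S82_140_364_512_ok (bl (br c1)))
  (Ok.lf S82_140_364_512_ok (bl (br c2)))))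
  (Ok.s4 660 (Ok.s1 32 (Ok.lf S82_140_512_660_ok (bl (br (br c1))))
  (Ok.lf S82_140_512_660_ok (br (br (br (br (br (br c2))))))))
  (Ok.s1 32 (Ok.lf S82_140_660_808_ok (bl (br c3)))
  (Ok.lf S82_140_660_808_ok (bl c3)))))))

end Vale.Agent.P098.Ck
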