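import Vale.Agent.P098.CkGd
import Vale.Agent.P098.CkOk
import Vale.Agent.P098.Sh.A11
import Vale.Agent.P098.Sh.A17
import Vale.Agent.P098.Sh.A18
import Vale.Agent.P098.Sh.A28
import Vale.Agent.P098.Sh.A29
import Vale.Agent.P098.Sh.A43
import Vale.Agent.P098.Sh.A44
import Vale.Agent.P098.Sh.A48
import Vale.Agent.P098.Sh.A49
import Vale.Agent.P098.Sh.A51
import Vale.Agent.P098.Sh.A8
import Vale.Agent.P098.Sh.A9

namespace Vale.Agent.P098.Ck

theorem r387 :
    Ok Gd mult 256 384 0 64 256 384 140 198 216 512 ∧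
    Ok Gd mult 256 384 0 64 256 384 140 198 512 808 ∧
    Ok Gd mult 256 384 0 64 256 384 198 256 216 808 ∧
    Ok Gd mult 256 384 0 64 256 384 256 314 216 808 ∧
    Ok Gd mult 256 384 0 64 256 384 314 372 216 512 :=
  have c0 : (band (go 16 Gd mult S198_256_216_364 (Tr.lf 1227131010 99843271 0) 256 384 0 64 256 384)
  (band (go 16 Gd mult S314_372_216_364 (Tr.lf 614762626 104168518 0) 256 384 0 64 256 384)
  (go 16 Gd mult S256_314_216_364 (Tr.lf 76842049 104041796 0) 256 384 0 64 256 384))) = true := by decide +kernel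
  have c1 : (band (go 16 Gd mult S169_198_216_364 (Tr.lf 1236551810 95784136 0) 256 384 0 64 256 384)
  (band (go 16 Gd mult S140_198_660_808 (Tr.lf 1160021122 91323463 0) 256 384 0 64 256 384)
  (band (go 16 Gd mult S198_256_660_808 (Tr.lf 690259074 103910726 0) 256 384 0 64 256 384)
  (go 16 Gd mult S256_314_364_512 (Tr.lf 76842049 112176324 0) 256 384 0 64 256 384)))) = true := by decide +kernel
  have c2 : (band (go 16 Gd mult S140_169_216_364 (Tr.lf 1236550786 99978312 0) 256 384 0 64 256 384)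
  (band (go 16 Gd mult S198_256_364_512 (Tr.lf 1227129922 91589703 0) 256 384 0 64 256 384)
  (band (go 16 Gd mult S198_256_512_660 (Tr.lf 690259010 99851462 0) 256 384 0 64 256 384)
  (band (go 16 Gd mult S256_314_660_808 (Tr.lf 9733186 103779652 0) 256 384 0 64 256 384)
  (go 16 Gd mult S140_169_364_512 (Tr.lf 1228031106 99720136 0) 256 384 0 64 256 384))))) = true := by decide +kernel
  have c3 : (band (go 16 Gd mult S256_314_512_660 (Tr.lf 9602114 95518020 0) 256 384 0 64 256 384)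
  (band (go 16 Gd mult S343_372_364_512 (Tr.lf 614614145 104045510 0) 256 384 0 64 256 384)
  (band (go 16 Gd mult S169_198_364_512 (Tr.lf 1228162113 95652936 0) 256 384 0 64 256 384)
  (go 16 Gd mult S314_343_364_512 (Tr.lf 546448449 103775301 0) 256 384 0 64 256 384)))) = true := by decide +kernel
  have c4 : (band (go 16 Gd mult S140_198_512_660 (Tr.lf 1228047425 91454536 0) 256 384 0 32 256 384)
  (go 16 Gd mult S140_198_512_660 (Tr.lf 1159889954 91323463 0) 256 384 32 64 256 384)) = true := by decide +kernel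
  (And.intro (Ok.s4 364 (Ok.s3 169 (Ok.lf S140_169_216_364_ok (bl c2))
  (Ok.lf S169_198_216_364_ok (bl c1)))
  (Ok.s3 169 (Ok.lf S140_169_364_512_ok (br (br (br (br c2)))))
  (Ok.lf S169_198_364_512_ok (bl (br (br c3))))))
  (And.intro (Ok.s4 660 (Ok.s1 32 (Ok.lf S140_198_512_660_ok (bl c4))
  (Ok.lf S140_198_512_660_ok (br c4)))
  (Ok.lf S140_198_660_808_ok (bl (br c1))))
  (And.intro (Ok.s4 512 (Ok.s4 364 (Ok.lf S198_256_216_364_ok (bl c0))
  (Ok.lf S198_256_364_512_ok (bl (br c2))))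
  (Ok.s4 660 (Ok.lf S198_256_512_660_ok (bl (br (br c2))))
  (Ok.lf S198_256_660_808_ok (bl (br (br c1))))))
  (And.intro (Ok.s4 512 (Ok.s4 364 (Ok.lf S256_314_216_364_ok (br (br c0)))
  (Ok.lf S256_314_364_512_ok (br (br (br c1)))))
  (Ok.s4 660 (Ok.lf S256_314_512_660_ok (bl c3))
  (Ok.lf S256_314_660_808_ok (bl (br (br (br c2)))))))
  (Ok.s4 364 (Ok.lf S314_372_216_364_ok (bl (br c0)))
  (Ok.s3 343 (Ok.lf S314_343_364_512_ok (br (br (br c3))))
  (Ok.lf S343_372_364_512_ok (bl (br c3)))))))))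

end Vale.Agent.P098.Ck
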