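import Vale.Agent.P098.CkGd
import Vale.Agent.P098.CkOk
import Vale.Agent.P098.Sh.A48
import Vale.Agent.P098.Sh.A49
import Vale.Agent.P098.Sh.A52
import Vale.Agent.P098.Sh.A54
import Vale.Agent.P098.Sh.A56
import Vale.Agent.P098.Sh.A57
import Vale.Agent.P098.Sh.A58
import Vale.Agent.P098.Sh.A59

namespace Vale.Agent.P098.Ck

theorem r388 :
    Ok Gd mult 256 384 0 64 256 384 314 372 512 808 ∧
    Ok Gd mult 256 384 0 64 256 384 372 488 216 808 :=
  have c0 : (band (go 16 Gd mult S372_401_660_808 (Tr.lf 615811204 108239560 0) 256 384 0 64 256 384)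
  (go 16 Gd mult S372_401_364_512 (Tr.lf 614746242 108239814 0) 256 384 0 64 256 384)) = true := by decide +kernel
  have c1 : (band (go 16 Gd mult S343_372_660_808 (Tr.lf 4842621058 107711558 0) 256 384 0 64 256 384)
  (band (go 16 Gd mult S343_372_512_660 (Tr.lf 547506306 99589062 0) 256 384 0 64 256 384)
  (band (go 16 Gd mult S401_430_216_364 (Tr.lf 1152534658 99580872 0) 256 384 0 64 256 384)
  (go 16 Gd mult S372_401_216_364 (Tr.lf 614614146 108239814 0) 256 384 0 64 256 384)))) = true := by decide +kernel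
  have c2 : (band (go 16 Gd mult S430_488_216_364 (Tr.lf 1152551042 95517767 0) 256 384 0 32 256 384)
  (band (go 16 Gd mult S430_488_660_808 (Tr.lf 1152551042 95517767 0) 256 384 0 32 256 384)
  (go 16 Gd mult S430_488_512_660 (Tr.lf 1152485506 95517767 0) 256 384 0 32 256 384))) = true := by decide +kernel
  have c3 : (go 16 Gd mult S430_488_364_512 (Tr.lf 1152485506 95517767 0) 256 384 0 32 256 384) = true := by decide +kernel
  have c4 : (band (go 16 Gd mult S401_430_364_512 (Tr.lf 1152534658 99580872 0) 256 384 0 64 256 384)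
  (band (go 16 Gd mult S372_401_512_660 (Tr.lf 614615170 108239814 0) 256 384 0 64 256 384)
  (band (go 16 Gd mult S401_430_512_660 (Tr.lf 1152534658 99580872 0) 256 384 0 64 256 384)
  (band (go 16 Gd mult S314_343_660_808 (Tr.lf 547636354 107842630 0) 256 384 0 64 256 384)
  (go 16 Gd mult S314_343_512_660 (Tr.lf 547505218 103906374 0) 256 384 0 64 256 384))))) = true := by decide +kernel
  have c5 : (go 16 Gd mult S401_430_660_808 (Tr.lf 1152533122 99580872 0) 256 384 0 64 256 320) = true := by decide +kernel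
  have c6 : (band (go 16 Gd mult S430_488_660_808 (Tr.lf 1152484417 95386568 0) 256 384 32 64 256 384)
  (band (go 16 Gd mult S430_488_364_512 (Tr.lf 1152468001 95644871 0) 256 384 32 64 256 384)
  (band (go 16 Gd mult S430_488_512_660 (Tr.lf 1152468001 91450312 0) 256 384 32 64 256 384)
  (go 16 Gd mult S430_488_216_364 (Tr.lf 1152468001 95644871 0) 256 384 32 64 256 384)))) = true := by decide +kernel
  have c7 : (go 16 Gd mult S401_430_660_808 (Tr.lf 614548097 112430277 0) 256 384 0 64 320 384) = true := by decide +kernel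
  (And.intro (Ok.s4 660 (Ok.s3 343 (Ok.lf S314_343_512_660_ok (br (br (br (br c4)))))
  (Ok.lf S343_372_512_660_ok (bl (br c1))))
  (Ok.s3 343 (Ok.lf S314_343_660_808_ok (bl (br (br (br c4)))))
  (Ok.lf S343_372_660_808_ok (bl c1))))
  (Ok.s3 430 (Ok.s4 512 (Ok.s4 364 (Ok.s3 401 (Ok.lf S372_401_216_364_ok (br (br (br c1))))
  (Ok.lf S401_430_216_364_ok (bl (br (br c1)))))
  (Ok.s3 401 (Ok.lf S372_401_364_512_ok (br c0))
  (Ok.lf S401_430_364_512_ok (bl c4))))
  (Ok.s4 660 (Ok.s3 401 (Ok.lf S372_401_512_660_ok (bl (br c4)))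
  (Ok.lf S401_430_512_660_ok (bl (br (br c4)))))
  (Ok.s3 401 (Ok.lf S372_401_660_808_ok (bl c0))
  (Ok.s2 320 (Ok.lf S401_430_660_808_ok c5)
  (Ok.lf S401_430_660_808_ok c7)))))
  (Ok.s4 512 (Ok.s4 364 (Ok.s1 32 (Ok.lf S430_488_216_364_ok (bl c2))
  (Ok.lf S430_488_216_364_ok (br (br (br c6)))))
  (Ok.s1 32 (Ok.lf S430_488_364_512_ok c3)
  (Ok.lf S430_488_364_512_ok (bl (br c6)))))
  (Ok.s4 660 (Ok.s1 32 (Ok.lf S430_488_512_660_ok (br (br c2)))
  (Ok.lf S430_488_512_660_ok (bl (br (br c6)))))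
  (Ok.s1 32 (Ok.lf S430_488_660_808_ok (bl (br c2)))
  (Ok.lf S430_488_660_808_ok (bl c6)))))))

end Vale.Agent.P098.Ck
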