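import Vale.Agent.P098.CkGd
import Vale.Agent.P098.CkOk
import Vale.Agent.P098.Sh.A0
import Vale.Agent.P098.Sh.A1

namespace Vale.Agent.P098.Ck

theorem r389 :
    Ok Gd mult 256 384 0 64 384 448 24 82 216 364 ∧
    Ok Gd mult 256 384 0 64 448 512 24 82 216 364 ∧
    Ok Gd mult 256 384 0 64 384 448 24 82 364 512 ∧
    Ok Gd mult 256 384 0 64 448 480 24 82 364 512 :=
  have c0 : (band (go 16 Gd mult S53_82_216_364 (Tr.lf 13969279112 94587466 0) 256 384 32 64 384 448)
  (band (go 16 Gd mult S53_82_364_512 (Tr.lf 13432342664 82004554 0) 256 384 32 64 384 448)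
  (go 16 Gd mult S24_53_216_364 (Tr.lf 9666898052 99171400 0) 256 384 32 64 384 448))) = true := by decide +kernel
  have c1 : (band (go 16 Gd mult S53_82_216_364 (Tr.lf 9675360392 103378247 172876392204891971982983168) 256 384 0 32 480 512)
  (band (go 16 Gd mult S53_82_216_364 (Tr.lf 9675360388 94854344 0) 256 384 0 32 448 480)
  (go 16 Gd mult S53_82_364_512 (Tr.lf 9675294856 94854344 0) 256 384 0 32 448 480))) = true := by decide +kernel
  have c2 : (band (go 16 Gd mult S53_82_364_512 (Tr.lf 9675294856 99318983 0) 256 384 32 64 448 480)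
  (band (go 16 Gd mult S53_82_216_364 (Tr.lf 9675294852 99318983 0) 256 384 32 64 448 480)
  (band (go 16 Gd mult S24_53_216_364 (Tr.lf 9666905220 99437767 0) 256 384 32 64 448 480)
  (band (go 16 Gd mult S24_53_364_512 (Tr.lf 9666905220 99437767 0) 256 384 32 64 448 480)
  (go 16 Gd mult S24_53_216_364 (Tr.lf 9666905220 94981447 0) 256 384 0 32 480 496))))) = true := by decide +kernel
  have c3 : (band (go 16 Gd mult S24_82_364_512 (Tr.lf 1153534082 103910217 0) 256 384 0 32 384 448)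
  (go 16 Gd mult S24_82_216_364 (Tr.lf 1153533058 103910217 0) 256 384 0 32 384 448)) = true := by decide +kernel
  have c4 : (band (go 16 Gd mult S24_53_216_364 (Tr.lf 9666906244 94981192 0) 256 384 0 32 448 480)
  (band (go 16 Gd mult S24_53_364_512 (Tr.lf 9666906244 94981192 0) 256 384 0 32 448 480)
  (band (go 16 Gd mult S24_53_216_364 (Tr.lf 9666906244 103242696 0) 256 384 32 64 480 512)
  (go 16 Gd mult S53_82_216_364 (Tr.lf 9675294852 103373896 0) 256 384 32 64 480 512)))) = true := by decide +kernel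
  have c5 : (go 16 Gd mult S24_53_364_512 (Tr.lf 9666898052 99171400 0) 256 384 32 64 384 448) = true := by decide +kernel
  have c6 : (go 16 Gd mult S24_53_216_364 (Tr.lf 9666905220 99310791 489614956943924815756001280) 256 384 0 32 496 512) = true := by decide +kernel
  (And.intro (Ok.s1 32 (Ok.lf S24_82_216_364_ok (br c3))
  (Ok.s3 53 (Ok.lf S24_53_216_364_ok (br (br c0)))
  (Ok.lf S53_82_216_364_ok (bl c0))))
  (And.intro (Ok.s2 480 (Ok.s1 32 (Ok.s3 53 (Ok.lf S24_53_216_364_ok (bl c4))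
  (Ok.lf S53_82_216_364_ok (bl (br c1))))
  (Ok.s3 53 (Ok.lf S24_53_216_364_ok (bl (br (br c2))))
  (Ok.lf S53_82_216_364_ok (bl (br c2)))))
  (Ok.s3 53 (Ok.s1 32 (Ok.s2 496 (Ok.lf S24_53_216_364_ok (br (br (br (br c2)))))
  (Ok.lf S24_53_216_364_ok c6))
  (Ok.lf S24_53_216_364_ok (bl (br (br c4)))))
  (Ok.s1 32 (Ok.lf S53_82_216_364_ok (bl c1))
  (Ok.lf S53_82_216_364_ok (br (br (br c4)))))))
  (And.intro (Ok.s1 32 (Ok.lf S24_82_364_512_ok (bl c3))
  (Ok.s3 53 (Ok.lf S24_53_364_512_ok c5)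
  (Ok.lf S53_82_364_512_ok (bl (br c0)))))
  (Ok.s1 32 (Ok.s3 53 (Ok.lf S24_53_364_512_ok (bl (br c4)))
  (Ok.lf S53_82_364_512_ok (br (br c1))))
  (Ok.s3 53 (Ok.lf S24_53_364_512_ok (bl (br (br (br c2)))))
  (Ok.lf S53_82_364_512_ok (bl c2)))))))

end Vale.Agent.P098.Ck
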