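import Vale.Agent.P098.CkGd
import Vale.Agent.P098.CkOk
import Vale.Agent.P098.Sh.A12
import Vale.Agent.P098.Sh.A14
import Vale.Agent.P098.Sh.A17
import Vale.Agent.P098.Sh.A7

namespace Vale.Agent.P098.Ck

theorem r39 :
    Ok Gd mult 0 128 64 96 384 512 140 154 216 364 ∧
    Ok Gd mult 0 128 64 96 384 512 154 169 216 364 ∧
    Ok Gd mult 0 128 64 96 384 448 169 198 216 364 ∧
    Ok Gd mult 0 128 64 80 448 512 169 183 216 364 ∧
    Ok Gd mult 0 64 80 96 448 512 169 183 216 364 ∧
    Ok Gd mult 64 96 80 96 448 512 169 183 216 364 :=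
  have c0 : (go 16 Gd mult S140_154_216_364 (Tr.lf 9684142152 107576520 136302991960639876890624) 0 128 64 96 480 512) = true := by decide +kernel
  have c1 : (band (go 16 Gd mult S154_169_216_364 (Tr.lf 13979109416 98925641 110274636072635699560448) 0 128 80 96 480 512)
  (band (go 16 Gd mult S154_169_216_364 (Tr.lf 14515980324 107441225 139715652843600049340416) 64 128 64 80 480 512)
  (go 16 Gd mult S154_169_216_364 (Tr.lf 9683092514 103390279 353107575058948238934016) 0 64 64 80 480 512))) = true := by decide +kernel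
  have c2 : (band (go 16 Gd mult S169_183_216_364 (Tr.lf 13987497028 90680520 124183481104212701478912) 64 128 64 80 496 512)
  (band (go 16 Gd mult S169_183_216_364 (Tr.lf 9683093538 95001671 404500204207938392293376) 0 64 64 80 480 512)
  (band (go 16 Gd mult S169_183_216_364 (Tr.lf 9683092514 107584583 242500897592985765543936) 0 64 80 96 480 512)
  (go 16 Gd mult S169_183_216_364 (Tr.lf 13979108386 90930376 130787415482600720957440) 64 96 80 96 496 512)))) = true := by decide +kernel
  have c3 : (go 16 Gd mult S140_154_216_364 (Tr.lf 9137431588 90921928 0) 0 128 64 96 448 480) = true := by decide +kernel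
  have c4 : (band (go 16 Gd mult S154_169_216_364 (Tr.lf 9137562132 95116232 0) 0 128 80 96 448 480)
  (go 16 Gd mult S154_169_216_364 (Tr.lf 4842594834 103517382 0) 0 128 64 80 448 480)) = true := by decide +kernel
  have c5 : (go 16 Gd mult S169_183_216_364 (Tr.lf 9682829857 107711814 0) 64 96 80 96 480 496) = true := by decide +kernel
  have c6 : (band (go 16 Gd mult S169_198_216_364 (Tr.lf 4841423394 99576647 0) 0 128 64 96 384 448)
  (go 16 Gd mult S140_154_216_364 (Tr.lf 4841411106 99314503 0) 0 128 64 96 384 448)) = true := by decide +kernel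
  have c7 : (go 16 Gd mult S169_183_216_364 (Tr.lf 9682821666 107711559 0) 64 128 64 80 480 496) = true := by decide +kernel
  have c8 : (band (go 16 Gd mult S154_169_216_364 (Tr.lf 4841411090 103509062 0) 0 128 80 96 384 448)
  (go 16 Gd mult S154_169_216_364 (Tr.lf 546443793 107973701 0) 0 128 64 80 384 448)) = true := by decide +kernel
  have c9 : (go 16 Gd mult S169_183_216_364 (Tr.lf 4841415185 103644102 0) 64 128 64 80 448 480) = true := by decide +kernel
  have c10 : (band (go 16 Gd mult S169_183_216_364 (Tr.lf 4841411089 103775174 0) 0 64 80 96 448 480)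
  (band (go 16 Gd mult S169_183_216_364 (Tr.lf 4841411089 103644357 0) 64 96 80 96 448 480)
  (go 16 Gd mult S169_183_216_364 (Tr.lf 4841410833 107838406 0) 0 64 64 80 448 480))) = true := by decide +kernel
  (And.intro (Ok.s2 448 (Ok.lf S140_154_216_364_ok (br c6))
  (Ok.s2 480 (Ok.lf S140_154_216_364_ok c3)
  (Ok.lf S140_154_216_364_ok c0)))
  (And.intro (Ok.s1 80 (Ok.s2 448 (Ok.lf S154_169_216_364_ok (br c8))
  (Ok.s2 480 (Ok.lf S154_169_216_364_ok (br c4))
  (Ok.s0 64 (Ok.lf S154_169_216_364_ok (br (br c1)))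
  (Ok.lf S154_169_216_364_ok (bl (br c1))))))
  (Ok.s2 448 (Ok.lf S154_169_216_364_ok (bl c8))
  (Ok.s2 480 (Ok.lf S154_169_216_364_ok (bl c4))
  (Ok.lf S154_169_216_364_ok (bl c1)))))
  (And.intro (Ok.lf S169_198_216_364_ok (bl c6))
  (And.intro (Ok.s0 64 (Ok.s2 480 (Ok.lf S169_183_216_364_ok (br (br c10)))
  (Ok.lf S169_183_216_364_ok (bl (br c2))))
  (Ok.s2 480 (Ok.lf S169_183_216_364_ok c9)
  (Ok.s2 496 (Ok.lf S169_183_216_364_ok c7)
  (Ok.lf S169_183_216_364_ok (bl c2)))))
  (And.intro (Ok.s2 480 (Ok.lf S169_183_216_364_ok (bl c10))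
  (Ok.lf S169_183_216_364_ok (bl (br (br c2)))))
  (Ok.s2 480 (Ok.lf S169_183_216_364_ok (bl (br c10)))
  (Ok.s2 496 (Ok.lf S169_183_216_364_ok c5)
  (Ok.lf S169_183_216_364_ok (br (br (br c2)))))))))))

end Vale.Agent.P098.Ck
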