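import Vale.Agent.P098.CkGd
import Vale.Agent.P098.CkOk
import Vale.Agent.P098.Sh.A0
import Vale.Agent.P098.Sh.A1

namespace Vale.Agent.P098.Ck

theorem r390 :
    Ok Gd mult 256 384 0 64 480 512 24 53 364 512 ∧
    Ok Gd mult 256 384 0 64 480 512 53 82 364 512 ∧
    Ok Gd mult 256 384 0 64 384 512 24 82 512 660 :=
  have c0 : (band (go 16 Gd mult S24_82_512_660 (Tr.lf 9666922632 99175751 0) 256 384 16 32 448 480)
  (go 16 Gd mult S24_82_512_660 (Tr.lf 1153534082 103910217 0) 256 384 0 32 384 448)) = true := by decide +kernel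
  have c1 : (band (go 16 Gd mult S53_82_512_660 (Tr.lf 9137375368 94858056 0) 256 384 32 64 384 448)
  (band (go 16 Gd mult S24_53_512_660 (Tr.lf 9666898052 99171400 0) 256 384 32 64 384 448)
  (band (go 16 Gd mult S53_82_512_660 (Tr.lf 9675294852 103378247 938126436020952239571992576) 256 384 0 16 480 512)
  (go 16 Gd mult S53_82_364_512 (Tr.lf 9675294852 103378247 933290732742493722873167872) 256 384 0 16 480 512)))) = true := by decide +kernel
  have c2 : (band (go 16 Gd mult S24_53_364_512 (Tr.lf 9666906244 103242696 0) 256 384 32 64 480 512)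
  (band (go 16 Gd mult S53_82_364_512 (Tr.lf 9675294852 103373896 0) 256 384 32 64 480 512)
  (band (go 16 Gd mult S24_53_512_660 (Tr.lf 9666906244 103242696 0) 256 384 32 64 480 512)
  (go 16 Gd mult S53_82_512_660 (Tr.lf 9675294852 103373896 0) 256 384 32 64 480 512)))) = true := by decide +kernel
  have c3 : (band (go 16 Gd mult S53_82_512_660 (Tr.lf 9675360324 103513287 181338872942194376205926400) 256 384 16 32 480 512)
  (band (go 16 Gd mult S53_82_364_512 (Tr.lf 9675294788 103513287 177712095483350488681807872) 256 384 16 32 480 512)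
  (band (go 16 Gd mult S24_53_512_660 (Tr.lf 9666906180 103632071 339708155311710798092435456) 256 384 16 32 480 512)
  (band (go 16 Gd mult S24_53_512_660 (Tr.lf 9666905220 99437767 0) 256 384 32 64 448 480)
  (band (go 16 Gd mult S53_82_512_660 (Tr.lf 9675293828 99318983 0) 256 384 32 64 448 480)
  (go 16 Gd mult S24_53_512_660 (Tr.lf 9666906180 94981447 1091660015112010144759676928) 256 384 0 16 480 512)))))) = true := by decide +kernel
  have c4 : (band (go 16 Gd mult S24_53_364_512 (Tr.lf 9666905220 94981447 0) 256 384 0 32 480 496)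
  (go 16 Gd mult S24_53_364_512 (Tr.lf 9666905220 99310791 489614956943924815756001280) 256 384 0 32 496 512)) = true := by decide +kernel
  have c5 : (go 16 Gd mult S24_82_512_660 (Tr.lf 539051074 104033477 0) 256 384 0 16 448 480) = true := by decide +kernel
  (And.intro (Ok.s1 32 (Ok.s2 496 (Ok.lf S24_53_364_512_ok (bl c4))
  (Ok.lf S24_53_364_512_ok (br c4)))
  (Ok.lf S24_53_364_512_ok (bl c2)))
  (And.intro (Ok.s1 32 (Ok.s1 16 (Ok.lf S53_82_364_512_ok (br (br (br c1))))
  (Ok.lf S53_82_364_512_ok (bl (br c3))))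
  (Ok.lf S53_82_364_512_ok (bl (br c2))))
  (Ok.s2 448 (Ok.s1 32 (Ok.lf S24_82_512_660_ok (br c0))
  (Ok.s3 53 (Ok.lf S24_53_512_660_ok (bl (br c1)))
  (Ok.lf S53_82_512_660_ok (bl c1))))
  (Ok.s2 480 (Ok.s1 32 (Ok.s1 16 (Ok.lf S24_82_512_660_ok c5)
  (Ok.lf S24_82_512_660_ok (bl c0)))
  (Ok.s3 53 (Ok.lf S24_53_512_660_ok (bl (br (br (br c3)))))
  (Ok.lf S53_82_512_660_ok (bl (br (br (br (br c3))))))))
  (Ok.s1 32 (Ok.s1 16 (Ok.s3 53 (Ok.lf S24_53_512_660_ok (br (br (br (br (br c3))))))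
  (Ok.lf S53_82_512_660_ok (bl (br (br c1)))))
  (Ok.s3 53 (Ok.lf S24_53_512_660_ok (bl (br (br c3))))
  (Ok.lf S53_82_512_660_ok (bl c3))))
  (Ok.s3 53 (Ok.lf S24_53_512_660_ok (bl (br (br c2))))
  (Ok.lf S53_82_512_660_ok (br (br (br c2))))))))))

end Vale.Agent.P098.Ck
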