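import Vale.Agent.P098.CkGd
import Vale.Agent.P098.CkOk
import Vale.Agent.P098.Sh.A0
import Vale.Agent.P098.Sh.A1
import Vale.Agent.P098.Sh.A2
import Vale.Agent.P098.Sh.A3
import Vale.Agent.P098.Sh.A5

namespace Vale.Agent.P098.Ck

theorem r391 :
    Ok Gd mult 256 384 0 64 384 448 24 82 660 808 ∧
    Ok Gd mult 256 384 0 64 448 512 24 82 660 808 ∧
    Ok Gd mult 256 384 0 64 384 448 82 140 216 364 :=
  have c0 : (band (go 16 Gd mult S24_82_660_808 (Tr.lf 9666988168 99175751 0) 256 384 16 32 448 480)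
  (go 16 Gd mult S24_82_660_808 (Tr.lf 9666988100 103374023 0) 256 384 48 64 384 448)) = true := by decide +kernel
  have c1 : (go 16 Gd mult S111_140_216_364 (Tr.lf 13440944200 86338377 0) 256 384 48 64 416 448) = true := by decide +kernel
  have c2 : (band (go 16 Gd mult S24_82_660_808 (Tr.lf 9666987144 99175751 0) 256 384 0 16 480 496)
  (go 16 Gd mult S24_82_660_808 (Tr.lf 539132996 107973701 0) 256 384 32 48 384 448)) = true := by decide +kernel
  have c3 : (band (go 16 Gd mult S82_140_216_364 (Tr.lf 1161070722 99589064 0) 256 384 0 32 384 448)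
  (go 16 Gd mult S24_82_660_808 (Tr.lf 1153533058 99715913 0) 256 384 0 32 384 448)) = true := by decide +kernel
  have c4 : (go 16 Gd mult S82_111_216_364 (Tr.lf 13440813128 90667721 0) 256 384 48 64 416 448) = true := by decide +kernel
  have c5 : (band (go 16 Gd mult S53_82_660_808 (Tr.lf 9675359368 99450055 1090451089292395515584970752) 256 384 0 16 496 512)
  (band (go 16 Gd mult S24_53_660_808 (Tr.lf 9666905156 99310791 1269372110595360633441484800) 256 384 0 16 496 512)
  (band (go 16 Gd mult S24_53_660_808 (Tr.lf 9666906244 103242696 0) 256 384 32 64 480 512)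
  (band (go 16 Gd mult S53_82_660_808 (Tr.lf 9675360324 103373896 0) 256 384 32 64 480 512)
  (go 16 Gd mult S24_53_660_808 (Tr.lf 9666905220 99437767 0) 256 384 32 64 448 480))))) = true := by decide +kernel
  have c6 : (band (go 16 Gd mult S53_82_660_808 (Tr.lf 9675294852 99318983 0) 256 384 32 64 448 480)
  (band (go 16 Gd mult S53_82_660_808 (Tr.lf 9675294788 103513287 183756724581423634555338752) 256 384 16 32 480 512)
  (go 16 Gd mult S24_53_660_808 (Tr.lf 9666906180 103632071 339708155311710798092435456) 256 384 16 32 480 512))) = true := by decide +kernel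
  have c7 : (go 16 Gd mult S24_82_660_808 (Tr.lf 539051074 108096709 0) 256 384 0 16 448 480) = true := by decide +kernel
  have c8 : (band (go 16 Gd mult S111_140_216_364 (Tr.lf 547504706 112298950 0) 256 384 32 64 384 416)
  (band (go 16 Gd mult S82_111_216_364 (Tr.lf 547439170 108104901 0) 256 384 32 64 384 416)
  (band (go 16 Gd mult S111_140_216_364 (Tr.lf 547504674 104041414 0) 256 384 32 48 416 448)
  (go 16 Gd mult S82_111_216_364 (Tr.lf 9137365540 94858311 0) 256 384 32 48 416 448)))) = true := by decide +kernel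
  (And.intro (Ok.s1 32 (Ok.lf S24_82_660_808_ok (br c3))
  (Ok.s1 48 (Ok.lf S24_82_660_808_ok (br c2))
  (Ok.lf S24_82_660_808_ok (br c0))))
  (And.intro (Ok.s2 480 (Ok.s1 32 (Ok.s1 16 (Ok.lf S24_82_660_808_ok c7)
  (Ok.lf S24_82_660_808_ok (bl c0)))
  (Ok.s3 53 (Ok.lf S24_53_660_808_ok (br (br (br (br c5)))))
  (Ok.lf S53_82_660_808_ok (bl c6))))
  (Ok.s1 32 (Ok.s1 16 (Ok.s2 496 (Ok.lf S24_82_660_808_ok (bl c2))
  (Ok.s3 53 (Ok.lf S24_53_660_808_ok (bl (br c5)))
  (Ok.lf S53_82_660_808_ok (bl c5))))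
  (Ok.s3 53 (Ok.lf S24_53_660_808_ok (br (br c6)))
  (Ok.lf S53_82_660_808_ok (bl (br c6)))))
  (Ok.s3 53 (Ok.lf S24_53_660_808_ok (bl (br (br c5))))
  (Ok.lf S53_82_660_808_ok (bl (br (br (br c5))))))))
  (Ok.s1 32 (Ok.lf S82_140_216_364_ok (bl c3))
  (Ok.s3 111 (Ok.s2 416 (Ok.lf S82_111_216_364_ok (bl (br c8)))
  (Ok.s1 48 (Ok.lf S82_111_216_364_ok (br (br (br c8))))
  (Ok.lf S82_111_216_364_ok c4)))
  (Ok.s2 416 (Ok.lf S111_140_216_364_ok (bl c8))
  (Ok.s1 48 (Ok.lf S111_140_216_364_ok (bl (br (br c8))))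
  (Ok.lf S111_140_216_364_ok c1)))))))

end Vale.Agent.P098.Ck
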