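import Vale.Agent.P098.CkGd
import Vale.Agent.P098.CkOk
import Vale.Agent.P098.Sh.A2
import Vale.Agent.P098.Sh.A3
import Vale.Agent.P098.Sh.A5

namespace Vale.Agent.P098.Ck

theorem r393 :
    Ok Gd mult 256 384 0 32 496 504 82 140 216 364 ∧
    Ok Gd mult 256 384 32 64 496 504 82 140 216 364 ∧
    Ok Gd mult 256 384 0 64 504 508 82 140 216 364 ∧
    Ok Gd mult 256 384 0 64 508 510 82 140 216 364 ∧
    Ok Gd mult 256 384 0 64 510 512 82 140 216 290 :=
  have c0 : (go 16 Gd mult S82_111_216_364 (Tr.lf 9683895432 103652296 0) 256 384 0 32 496 504) = true := by decide +kernel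
  have c1 : (band (go 16 Gd mult S111_140_216_364 (Tr.lf 13987512712 90799432 0) 256 384 0 32 508 510)
  (go 16 Gd mult S82_111_216_364 (Tr.lf 13977682312 90799048 0) 256 384 0 32 508 510)) = true := by decide +kernel
  have c2 : (band (go 16 Gd mult S111_140_216_364 (Tr.lf 9692283528 99192008 0) 256 384 32 64 496 504)
  (band (go 16 Gd mult S82_111_216_364 (Tr.lf 9682698820 99318855 0) 256 384 32 64 496 504)
  (go 16 Gd mult S111_140_216_364 (Tr.lf 13987251272 98929992 0) 256 384 0 16 496 504))) = true := by decide +kernel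
  have c3 : (go 16 Gd mult S82_111_216_364 (Tr.lf 13977813640 90799048 0) 256 384 0 32 504 508) = true := by decide +kernel
  have c4 : (band (go 16 Gd mult S111_140_216_364 (Tr.lf 13987251272 90807496 0) 256 384 16 32 496 504)
  (band (go 16 Gd mult S111_140_216_364 (Tr.lf 13987250760 90807496 0) 256 384 0 16 504 508)
  (go 16 Gd mult S111_140_216_364 (Tr.lf 9692283460 95255752 0) 256 384 16 32 504 508))) = true := by decide +kernel
  have c5 : (band (go 16 Gd mult S111_140_216_290 (Tr.lf 13987119492 90799177 0) 320 384 0 32 510 512)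
  (band (go 16 Gd mult S82_111_216_290 (Tr.lf 13978648964 94862281 0) 320 384 0 32 510 512)
  (band (go 16 Gd mult S111_140_216_290 (Tr.lf 9692152194 99450056 0) 256 320 0 32 510 512)
  (go 16 Gd mult S82_111_216_290 (Tr.lf 9683681666 95263688 0) 256 320 0 32 510 512)))) = true := by decide +kernel
  have c6 : (band (go 16 Gd mult S111_140_216_364 (Tr.lf 9682829636 99191879 0) 256 384 32 64 504 508)
  (go 16 Gd mult S82_111_216_364 (Tr.lf 5379342626 91188167 0) 256 384 32 64 504 508)) = true := by decide +kernel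
  have c7 : (band (go 16 Gd mult S111_140_216_364 (Tr.lf 4850860354 99462214 0) 256 384 32 64 508 510)
  (go 16 Gd mult S82_111_216_364 (Tr.lf 4842406178 99322950 0) 256 384 32 64 508 510)) = true := by decide +kernel
  have c8 : (band (go 16 Gd mult S82_140_216_290 (Tr.lf 4842422593 99454022 0) 256 320 32 64 510 512)
  (go 16 Gd mult S82_140_216_290 (Tr.lf 4842422561 95259718 0) 320 384 32 64 510 512)) = true := by decide +kernel
  (And.intro (Ok.s3 111 (Ok.lf S82_111_216_364_ok c0)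
  (Ok.s1 16 (Ok.lf S111_140_216_364_ok (br (br c2)))
  (Ok.lf S111_140_216_364_ok (bl c4))))
  (And.intro (Ok.s3 111 (Ok.lf S82_111_216_364_ok (bl (br c2)))
  (Ok.lf S111_140_216_364_ok (bl c2)))
  (And.intro (Ok.s1 32 (Ok.s3 111 (Ok.lf S82_111_216_364_ok c3)
  (Ok.s1 16 (Ok.lf S111_140_216_364_ok (bl (br c4)))
  (Ok.lf S111_140_216_364_ok (br (br c4)))))
  (Ok.s3 111 (Ok.lf S82_111_216_364_ok (br c6))
  (Ok.lf S111_140_216_364_ok (bl c6))))
  (And.intro (Ok.s1 32 (Ok.s3 111 (Ok.lf S82_111_216_364_ok (br c1))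
  (Ok.lf S111_140_216_364_ok (bl c1)))
  (Ok.s3 111 (Ok.lf S82_111_216_364_ok (br c7))
  (Ok.lf S111_140_216_364_ok (bl c7))))
  (Ok.s0 320 (Ok.s1 32 (Ok.s3 111 (Ok.lf S82_111_216_290_ok (br (br (br c5))))
  (Ok.lf S111_140_216_290_ok (bl (br (br c5)))))
  (Ok.lf S82_140_216_290_ok (bl c8)))
  (Ok.s1 32 (Ok.s3 111 (Ok.lf S82_111_216_290_ok (bl (br c5)))
  (Ok.lf S111_140_216_290_ok (bl c5)))
  (Ok.lf S82_140_216_290_ok (br c8))))))))

end Vale.Agent.P098.Ck
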