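import Vale.Agent.P098.CkGd
import Vale.Agent.P098.CkOk
import Vale.Agent.P098.Sh.A2
import Vale.Agent.P098.Sh.A3
import Vale.Agent.P098.Sh.A4
import Vale.Agent.P098.Sh.A5

namespace Vale.Agent.P098.Ck

theorem r394 :
    Ok Gd mult 256 320 0 64 510 512 82 140 290 364 ∧
    Ok Gd mult 320 384 0 64 510 512 82 140 290 364 ∧
    Ok Gd mult 256 384 0 64 384 448 82 140 364 512 ∧
    Ok Gd mult 256 384 0 64 448 512 82 111 364 512 :=
  have c0 : (go 16 Gd mult S111_140_364_512 (Tr.lf 13440813192 86338377 0) 256 384 32 64 416 448) = true := by decide +kernel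
  have c1 : (band (go 16 Gd mult S82_111_364_512 (Tr.lf 13977667720 90532681 0) 256 384 32 64 416 448)
  (band (go 16 Gd mult S82_111_364_512 (Tr.lf 9682700418 99322951 0) 256 320 0 32 480 512)
  (band (go 16 Gd mult S82_111_364_512 (Tr.lf 9674311810 99048392 0) 320 384 0 32 448 480)
  (go 16 Gd mult S82_111_364_512 (Tr.lf 13977666690 103385928 0) 320 384 32 64 464 480)))) = true := by decide +kernel
  have c2 : (band (go 16 Gd mult S82_111_364_512 (Tr.lf 9682716804 107449415 0) 256 320 32 64 448 512)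
  (go 16 Gd mult S82_111_364_512 (Tr.lf 9682716804 107580487 0) 320 384 0 32 480 512)) = true := by decide +kernel
  have c3 : (go 16 Gd mult S82_140_364_512 (Tr.lf 1160939650 99589064 0) 256 384 0 32 384 448) = true := by decide +kernel
  have c4 : (go 16 Gd mult S82_111_364_512 (Tr.lf 9682716802 103254856 0) 320 384 32 64 480 512) = true := by decide +kernel
  have c5 : (go 16 Gd mult S82_111_364_512 (Tr.lf 13977666692 99056584 0) 320 384 32 64 448 464) = true := by decide +kernel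
  have c6 : (band (go 16 Gd mult S111_140_290_364 (Tr.lf 13987119492 90799177 0) 320 384 0 32 510 512)
  (band (go 16 Gd mult S82_111_290_364 (Tr.lf 13978648964 94862281 0) 320 384 0 32 510 512)
  (band (go 16 Gd mult S82_111_290_364 (Tr.lf 9683681602 95263688 0) 256 320 0 32 510 512)
  (go 16 Gd mult S111_140_290_364 (Tr.lf 9692135810 99450056 0) 256 320 0 32 510 512)))) = true := by decide +kernel
  have c7 : (go 16 Gd mult S82_111_364_512 (Tr.lf 9137374274 90659784 0) 256 320 0 32 448 480) = true := by decide +kernel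
  have c8 : (band (go 16 Gd mult S111_140_364_512 (Tr.lf 547504706 104041414 0) 256 384 32 64 384 416)
  (go 16 Gd mult S82_111_364_512 (Tr.lf 547430978 108104901 0) 256 384 32 64 384 416)) = true := by decide +kernel
  have c9 : (band (go 16 Gd mult S82_140_290_364 (Tr.lf 4842422594 99454022 0) 256 320 32 64 510 512)
  (go 16 Gd mult S82_140_290_364 (Tr.lf 4842422561 95259718 0) 320 384 32 64 510 512)) = true := by decide +kernel
  (And.intro (Ok.s1 32 (Ok.s3 111 (Ok.lf S82_111_290_364_ok (bl (br (br c6))))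
  (Ok.lf S111_140_290_364_ok (br (br (br c6)))))
  (Ok.lf S82_140_290_364_ok (bl c9)))
  (And.intro (Ok.s1 32 (Ok.s3 111 (Ok.lf S82_111_290_364_ok (bl (br c6)))
  (Ok.lf S111_140_290_364_ok (bl c6)))
  (Ok.lf S82_140_290_364_ok (br c9)))
  (And.intro (Ok.s1 32 (Ok.lf S82_140_364_512_ok c3)
  (Ok.s3 111 (Ok.s2 416 (Ok.lf S82_111_364_512_ok (br c8))
  (Ok.lf S82_111_364_512_ok (bl c1)))
  (Ok.s2 416 (Ok.lf S111_140_364_512_ok (bl c8))
  (Ok.lf S111_140_364_512_ok c0))))
  (Ok.s0 320 (Ok.s1 32 (Ok.s2 480 (Ok.lf S82_111_364_512_ok c7)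
  (Ok.lf S82_111_364_512_ok (bl (br c1))))
  (Ok.lf S82_111_364_512_ok (bl c2)))
  (Ok.s1 32 (Ok.s2 480 (Ok.lf S82_111_364_512_ok (bl (br (br c1))))
  (Ok.lf S82_111_364_512_ok (br c2)))
  (Ok.s2 480 (Ok.s2 464 (Ok.lf S82_111_364_512_ok c5)
  (Ok.lf S82_111_364_512_ok (br (br (br c1)))))
  (Ok.lf S82_111_364_512_ok c4)))))))

end Vale.Agent.P098.Ck
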