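import Vale.Agent.P098.CkGd
import Vale.Agent.P098.CkOk
import Vale.Agent.P098.Sh.A3
import Vale.Agent.P098.Sh.A4
import Vale.Agent.P098.Sh.A5
import Vale.Agent.P098.Sh.A6

namespace Vale.Agent.P098.Ck

theorem r395 :
    Ok Gd mult 256 384 0 64 448 512 111 125 364 512 ∧
    Ok Gd mult 256 384 0 64 448 512 125 140 364 512 ∧
    Ok Gd mult 256 384 0 64 384 448 82 140 512 660 ∧
    Ok Gd mult 256 384 0 64 448 512 82 111 512 660 :=
  have c0 : (go 16 Gd mult S82_111_512_660 (Tr.lf 13432424584 82135626 0) 256 384 32 64 384 448) = true := by decide +kernel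
  have c1 : (go 16 Gd mult S82_111_512_660 (Tr.lf 9675376776 99314760 0) 256 384 0 32 480 512) = true := by decide +kernel
  have c2 : (go 16 Gd mult S111_125_364_512 (Tr.lf 13977798792 94858057 0) 256 384 0 32 480 512) = true := by decide +kernel
  have c3 : (band (go 16 Gd mult S111_125_364_512 (Tr.lf 13440927880 86596425 0) 256 384 32 64 448 480)
  (go 16 Gd mult S125_140_438_512 (Tr.lf 9137440900 99183687 0) 256 384 32 64 448 480)) = true := by decide +kernel
  have c4 : (band (go 16 Gd mult S111_125_364_512 (Tr.lf 9682831496 99191624 0) 256 384 32 64 480 512)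
  (go 16 Gd mult S125_140_364_438 (Tr.lf 13987104900 94735433 0) 256 384 32 64 480 512)) = true := by decide +kernel
  have c5 : (go 16 Gd mult S125_140_364_438 (Tr.lf 13987235976 94866505 0) 256 384 0 32 480 512) = true := by decide +kernel
  have c6 : (go 16 Gd mult S111_140_512_660 (Tr.lf 13440927880 90524362 0) 256 384 32 64 384 448) = true := by decide +kernel
  have c7 : (band (go 16 Gd mult S125_140_364_438 (Tr.lf 13987104904 94735433 0) 256 384 32 64 448 480)
  (band (go 16 Gd mult S82_111_512_660 (Tr.lf 13432408196 90659529 0) 256 384 32 64 448 480)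
  (go 16 Gd mult S82_111_512_660 (Tr.lf 9674311812 103242696 0) 256 384 0 32 448 480))) = true := by decide +kernel
  have c8 : (band (go 16 Gd mult S125_140_438_512 (Tr.lf 9683749000 103517256 0) 256 384 0 32 480 512)
  (go 16 Gd mult S125_140_438_512 (Tr.lf 4841425032 103648325 0) 256 384 32 64 480 512)) = true := by decide +kernel
  have c9 : (go 16 Gd mult S82_140_512_660 (Tr.lf 1161069698 103783368 0) 256 384 0 32 384 448) = true := by decide +kernel
  have c10 : (band (go 16 Gd mult S111_125_364_512 (Tr.lf 9145821316 94862280 0) 256 384 0 32 448 480)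
  (band (go 16 Gd mult S125_140_438_512 (Tr.lf 9145754756 94862280 0) 256 384 0 32 448 480)
  (go 16 Gd mult S125_140_364_438 (Tr.lf 9145754756 94862280 0) 256 384 0 32 448 480))) = true := by decide +kernel
  have c11 : (go 16 Gd mult S82_111_512_660 (Tr.lf 9674311748 103246664 0) 256 384 32 64 480 512) = true := by decide +kernel
  (And.intro (Ok.s1 32 (Ok.s2 480 (Ok.lf S111_125_364_512_ok (bl c10))
  (Ok.lf S111_125_364_512_ok c2))
  (Ok.s2 480 (Ok.lf S111_125_364_512_ok (bl c3))
  (Ok.lf S111_125_364_512_ok (bl c4))))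
  (And.intro (Ok.s4 438 (Ok.s1 32 (Ok.s2 480 (Ok.lf S125_140_364_438_ok (br (br c10)))
  (Ok.lf S125_140_364_438_ok c5))
  (Ok.s2 480 (Ok.lf S125_140_364_438_ok (bl c7))
  (Ok.lf S125_140_364_438_ok (br c4))))
  (Ok.s1 32 (Ok.s2 480 (Ok.lf S125_140_438_512_ok (bl (br c10)))
  (Ok.lf S125_140_438_512_ok (bl c8)))
  (Ok.s2 480 (Ok.lf S125_140_438_512_ok (br c3))
  (Ok.lf S125_140_438_512_ok (br c8)))))
  (And.intro (Ok.s1 32 (Ok.lf S82_140_512_660_ok c9)
  (Ok.s3 111 (Ok.lf S82_111_512_660_ok c0)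
  (Ok.lf S111_140_512_660_ok c6)))
  (Ok.s1 32 (Ok.s2 480 (Ok.lf S82_111_512_660_ok (br (br c7)))
  (Ok.lf S82_111_512_660_ok c1))
  (Ok.s2 480 (Ok.lf S82_111_512_660_ok (bl (br c7)))
  (Ok.lf S82_111_512_660_ok c11))))))

end Vale.Agent.P098.Ck
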