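import Vale.Agent.P098.CkGd
import Vale.Agent.P098.CkOk
import Vale.Agent.P098.Sh.A3
import Vale.Agent.P098.Sh.A4
import Vale.Agent.P098.Sh.A5
import Vale.Agent.P098.Sh.A6
import Vale.Agent.P098.Sh.A8

namespace Vale.Agent.P098.Ck

theorem r396 :
    Ok Gd mult 256 384 0 64 448 512 111 140 512 660 ∧
    Ok Gd mult 256 384 0 64 384 512 82 140 660 808 ∧
    Ok Gd mult 256 384 0 64 384 448 140 169 216 364 ∧
    Ok Gd mult 256 384 0 32 448 480 140 169 216 364 :=
  have c0 : (band (go 16 Gd mult S111_140_512_660 (Tr.lf 9682847876 103517255 0) 256 384 0 32 480 512)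
  (go 16 Gd mult S82_111_660_808 (Tr.lf 9675360388 99314760 0) 256 384 0 32 480 512)) = true := by decide +kernel
  have c1 : (band (go 16 Gd mult S111_140_512_660 (Tr.lf 8599652488 90794823 0) 256 384 32 64 448 480)
  (go 16 Gd mult S82_111_660_808 (Tr.lf 9137440900 99318727 0) 256 384 32 64 448 480)) = true := by decide +kernel
  have c2 : (band (go 16 Gd mult S82_111_660_808 (Tr.lf 9137440904 90794824 0) 256 384 32 64 384 448)
  (go 16 Gd mult S111_140_660_808 (Tr.lf 9137571972 99175368 0) 256 384 32 64 384 448)) = true := by decide +kernel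
  have c3 : (band (go 16 Gd mult S111_140_512_660 (Tr.lf 9682831492 99191624 0) 256 384 32 64 480 512)
  (band (go 16 Gd mult S111_140_660_808 (Tr.lf 9145960516 90803016 0) 256 384 32 64 480 512)
  (go 16 Gd mult S82_111_660_808 (Tr.lf 9674311748 103246664 0) 256 384 32 64 480 512))) = true := by decide +kernel
  have c4 : (band (go 16 Gd mult S111_140_660_808 (Tr.lf 9145960580 95128647 0) 256 384 0 32 480 512)
  (go 16 Gd mult S111_140_660_808 (Tr.lf 9145959556 99191879 0) 256 384 32 64 448 480)) = true := by decide +kernel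
  have c5 : (band (go 16 Gd mult S82_140_660_808 (Tr.lf 1161069698 103783368 0) 256 384 0 32 384 448)
  (go 16 Gd mult S140_169_216_364 (Tr.lf 1228031041 99851208 0) 256 384 0 32 384 448)) = true := by decide +kernel
  have c6 : (band (go 16 Gd mult S140_169_216_364 (Tr.lf 9145960516 94731208 0) 256 384 32 64 384 448)
  (band (go 16 Gd mult S140_169_216_364 (Tr.lf 9145959556 90667976 0) 256 384 0 32 448 480)
  (band (go 16 Gd mult S111_140_512_660 (Tr.lf 9137439876 94854088 0) 256 384 0 32 448 480)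
  (go 16 Gd mult S82_111_660_808 (Tr.lf 9674310788 99048392 0) 256 384 0 32 448 480)))) = true := by decide +kernel
  have c7 : (go 16 Gd mult S111_140_660_808 (Tr.lf 9137439876 94854088 0) 256 384 0 32 448 480) = true := by decide +kernel
  (And.intro (Ok.s1 32 (Ok.s2 480 (Ok.lf S111_140_512_660_ok (bl (br (br c6))))
  (Ok.lf S111_140_512_660_ok (bl c0)))
  (Ok.s2 480 (Ok.lf S111_140_512_660_ok (bl c1))
  (Ok.lf S111_140_512_660_ok (bl c3))))
  (And.intro (Ok.s2 448 (Ok.s1 32 (Ok.lf S82_140_660_808_ok (bl c5))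
  (Ok.s3 111 (Ok.lf S82_111_660_808_ok (bl c2))
  (Ok.lf S111_140_660_808_ok (br c2))))
  (Ok.s3 111 (Ok.s1 32 (Ok.s2 480 (Ok.lf S82_111_660_808_ok (br (br (br c6))))
  (Ok.lf S82_111_660_808_ok (br c0)))
  (Ok.s2 480 (Ok.lf S82_111_660_808_ok (br c1))
  (Ok.lf S82_111_660_808_ok (br (br c3)))))
  (Ok.s1 32 (Ok.s2 480 (Ok.lf S111_140_660_808_ok c7)
  (Ok.lf S111_140_660_808_ok (bl c4)))
  (Ok.s2 480 (Ok.lf S111_140_660_808_ok (br c4))
  (Ok.lf S111_140_660_808_ok (bl (br c3)))))))
  (And.intro (Ok.s1 32 (Ok.lf S140_169_216_364_ok (br c5))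
  (Ok.lf S140_169_216_364_ok (bl c6)))
  (Ok.lf S140_169_216_364_ok (bl (br c6))))))

end Vale.Agent.P098.Ck
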