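import Vale.Agent.P098.CkGd
import Vale.Agent.P098.CkOk
import Vale.Agent.P098.Sh.A12
import Vale.Agent.P098.Sh.A17
import Vale.Agent.P098.Sh.A7

namespace Vale.Agent.P098.Ck

theorem r397 :
    Ok Gd mult 256 384 32 64 448 480 140 169 216 364 ∧
    Ok Gd mult 256 384 0 64 480 512 140 169 216 364 ∧
    Ok Gd mult 256 384 0 64 384 448 169 198 216 364 ∧
    Ok Gd mult 256 384 0 64 448 464 169 198 216 364 :=
  have c0 : (band (go 16 Gd mult S140_154_216_364 (Tr.lf 13987498116 103251272 0) 320 384 32 64 448 480)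
  (go 16 Gd mult S140_154_216_364 (Tr.lf 13987497028 90799177 0) 256 384 16 32 496 512)) = true := by decide +kernel
  have c1 : (go 16 Gd mult S154_169_216_364 (Tr.lf 9146221704 95255878 0) 256 384 32 64 464 480) = true := by decide +kernel
  have c2 : (go 16 Gd mult S140_154_216_364 (Tr.lf 13987497096 94866505 0) 256 384 0 32 480 496) = true := by decide +kernel
  have c3 : (go 16 Gd mult S140_154_216_364 (Tr.lf 13987497096 99065032 0) 256 384 32 64 480 496) = true := by decide +kernel
  have c4 : (go 16 Gd mult S154_169_216_364 (Tr.lf 13987497096 99065032 0) 256 384 32 64 480 496) = true := by decide +kernel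
  have c5 : (go 16 Gd mult S154_169_216_364 (Tr.lf 13987498116 94735433 0) 256 384 32 64 496 512) = true := by decide +kernel
  have c6 : (band (go 16 Gd mult S169_198_216_364 (Tr.lf 9146237572 99191879 0) 256 384 32 64 448 464)
  (go 16 Gd mult S154_169_216_364 (Tr.lf 13449577604 86346569 0) 256 384 32 64 448 464)) = true := by decide +kernel
  have c7 : (band (go 16 Gd mult S140_154_216_364 (Tr.lf 13987498052 94993736 0) 256 384 0 16 496 512)
  (go 16 Gd mult S154_169_216_364 (Tr.lf 13987498052 94993736 0) 256 384 0 16 496 512)) = true := by decide +kernel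
  have c8 : (band (go 16 Gd mult S154_169_216_364 (Tr.lf 13987497032 94993736 0) 256 384 16 32 480 496)
  (go 16 Gd mult S154_169_216_364 (Tr.lf 13987498052 99056713 0) 256 384 16 32 496 512)) = true := by decide +kernel
  have c9 : (go 16 Gd mult S140_154_216_364 (Tr.lf 13987497092 94735433 0) 256 384 32 64 496 512) = true := by decide +kernel
  have c10 : (go 16 Gd mult S140_154_216_364 (Tr.lf 9682831490 103386183 0) 256 320 32 64 448 480) = true := by decide +kernel
  have c11 : (go 16 Gd mult S154_169_216_364 (Tr.lf 9145951300 99191879 0) 256 384 0 16 480 496) = true := by decide +kernel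
  have c12 : (band (go 16 Gd mult S169_198_216_364 (Tr.lf 4849943618 107715526 0) 256 384 32 64 384 448)
  (go 16 Gd mult S169_198_216_364 (Tr.lf 1228162081 95656904 0) 256 384 0 32 384 448)) = true := by decide +kernel
  have c13 : (go 16 Gd mult S169_198_216_364 (Tr.lf 4841414946 103508934 0) 256 384 0 32 448 464) = true := by decide +kernel
  (And.intro (Ok.s3 154 (Ok.s0 320 (Ok.lf S140_154_216_364_ok c10)
  (Ok.lf S140_154_216_364_ok (bl c0)))
  (Ok.s2 464 (Ok.lf S154_169_216_364_ok (br c6))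
  (Ok.lf S154_169_216_364_ok c1)))
  (And.intro (Ok.s1 32 (Ok.s3 154 (Ok.s2 496 (Ok.lf S140_154_216_364_ok c2)
  (Ok.s1 16 (Ok.lf S140_154_216_364_ok (bl c7))
  (Ok.lf S140_154_216_364_ok (br c0))))
  (Ok.s2 496 (Ok.s1 16 (Ok.lf S154_169_216_364_ok c11)
  (Ok.lf S154_169_216_364_ok (bl c8)))
  (Ok.s1 16 (Ok.lf S154_169_216_364_ok (br c7))
  (Ok.lf S154_169_216_364_ok (br c8)))))
  (Ok.s3 154 (Ok.s2 496 (Ok.lf S140_154_216_364_ok c3)
  (Ok.lf S140_154_216_364_ok c9))
  (Ok.s2 496 (Ok.lf S154_169_216_364_ok c4)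
  (Ok.lf S154_169_216_364_ok c5))))
  (And.intro (Ok.s1 32 (Ok.lf S169_198_216_364_ok (br c12))
  (Ok.lf S169_198_216_364_ok (bl c12)))
  (Ok.s1 32 (Ok.lf S169_198_216_364_ok c13)
  (Ok.lf S169_198_216_364_ok (bl c6))))))

end Vale.Agent.P098.Ck
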