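import Vale.Agent.P098.CkGd
import Vale.Agent.P098.CkOk
import Vale.Agent.P098.Sh.A15
import Vale.Agent.P098.Sh.A18
import Vale.Agent.P098.Sh.A20
import Vale.Agent.P098.Sh.A21
import Vale.Agent.P098.Sh.A9

namespace Vale.Agent.P098.Ck

theorem r399 :
    Ok Gd mult 320 384 32 64 480 512 183 198 216 364 ∧
    Ok Gd mult 256 384 0 64 384 448 140 198 364 512 ∧
    Ok Gd mult 256 384 0 64 448 480 140 198 364 512 :=
  have c0 : (go 16 Gd mult S140_169_364_512 (Tr.lf 9146238024 99450182 0) 256 384 32 48 464 480) = true := by decide +kernel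
  have c1 : (band (go 16 Gd mult S140_169_364_512 (Tr.lf 9146238024 103521478 0) 256 384 48 64 464 480)
  (go 16 Gd mult S183_198_364_512 (Tr.lf 8609350724 91069638 0) 256 384 48 64 464 480)) = true := by decide +kernel
  have c2 : (band (go 16 Gd mult S183_198_216_364 (Tr.lf 13449577604 94997448 0) 320 384 32 64 480 496)
  (band (go 16 Gd mult S183_198_216_364 (Tr.lf 9146221698 95124551 0) 320 384 32 64 496 504)
  (go 16 Gd mult S183_198_216_364 (Tr.lf 8608302146 86735687 0) 320 384 32 64 504 512))) = true := by decide +kernel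
  have c3 : (band (go 16 Gd mult S140_169_364_512 (Tr.lf 13987251272 99188040 0) 256 384 48 64 448 464)
  (go 16 Gd mult S183_198_364_512 (Tr.lf 4304675362 103648325 0) 256 384 48 64 448 464)) = true := by decide +kernel
  have c4 : (go 16 Gd mult S169_183_364_512 (Tr.lf 9146222660 99191879 0) 256 384 48 64 448 480) = true := by decide +kernel
  have c5 : (band (go 16 Gd mult S140_169_364_512 (Tr.lf 9145960516 98925512 0) 256 384 32 64 384 448)
  (band (go 16 Gd mult S169_198_364_512 (Tr.lf 4841423938 103513030 0) 256 384 32 64 384 448)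
  (band (go 16 Gd mult S169_198_364_512 (Tr.lf 1226982433 99843143 0) 256 384 0 32 384 448)
  (band (go 16 Gd mult S140_169_364_512 (Tr.lf 1160922177 99589064 0) 256 384 0 32 384 448)
  (band (go 16 Gd mult S140_169_364_512 (Tr.lf 9145828484 94862280 0) 256 384 0 32 448 480)
  (go 16 Gd mult S169_198_364_512 (Tr.lf 4849943618 103521222 0) 256 384 0 32 448 480)))))) = true := by decide +kernel
  have c6 : (band (go 16 Gd mult S169_183_364_512 (Tr.lf 8608041028 90803015 0) 256 384 32 48 448 480)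
  (go 16 Gd mult S183_198_364_512 (Tr.lf 4313072708 95390917 0) 256 384 32 48 448 480)) = true := by decide +kernel
  have c7 : (go 16 Gd mult S140_169_364_512 (Tr.lf 9145827874 94997575 0) 256 384 32 48 448 464) = true := by decide +kernel
  (And.intro (Ok.s2 496 (Ok.lf S183_198_216_364_ok (bl c2))
  (Ok.s2 504 (Ok.lf S183_198_216_364_ok (bl (br c2)))
  (Ok.lf S183_198_216_364_ok (br (br c2)))))
  (And.intro (Ok.s1 32 (Ok.s3 169 (Ok.lf S140_169_364_512_ok (bl (br (br (br c5)))))
  (Ok.lf S169_198_364_512_ok (bl (br (br c5)))))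
  (Ok.s3 169 (Ok.lf S140_169_364_512_ok (bl c5))
  (Ok.lf S169_198_364_512_ok (bl (br c5)))))
  (Ok.s1 32 (Ok.s3 169 (Ok.lf S140_169_364_512_ok (bl (br (br (br (br c5))))))
  (Ok.lf S169_198_364_512_ok (br (br (br (br (br c5)))))))
  (Ok.s3 169 (Ok.s1 48 (Ok.s2 464 (Ok.lf S140_169_364_512_ok c7)
  (Ok.lf S140_169_364_512_ok c0))
  (Ok.s2 464 (Ok.lf S140_169_364_512_ok (bl c3))
  (Ok.lf S140_169_364_512_ok (bl c1))))
  (Ok.s3 183 (Ok.s1 48 (Ok.lf S169_183_364_512_ok (bl c6))
  (Ok.lf S169_183_364_512_ok c4))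
  (Ok.s1 48 (Ok.lf S183_198_364_512_ok (br c6))
  (Ok.s2 464 (Ok.lf S183_198_364_512_ok (br c3))
  (Ok.lf S183_198_364_512_ok (br c1)))))))))

end Vale.Agent.P098.Ck
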