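import Vale.Agent.P098.CkGd
import Vale.Agent.P098.CkOk
import Vale.Agent.P098.Sh.A58
import Vale.Agent.P098.Sh.A59

namespace Vale.Agent.P098.Ck

theorem r4 :
    Ok Gd mult 0 128 0 64 0 128 430 488 216 364 ∧
    Ok Gd mult 0 128 0 64 0 128 430 488 364 512 ∧
    Ok Gd mult 0 128 0 64 0 128 430 488 512 808 :=
  have c0 : (band (go 16 Gd mult S430_488_364_512 (Tr.lf 13425019016 86453321 0) 0 128 0 32 0 64)
  (go 16 Gd mult S430_488_364_512 (Tr.lf 13425018952 86326217 0) 0 128 0 16 64 128)) = true := by decide +kernel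
  have c1 : (band (go 16 Gd mult S430_488_216_364 (Tr.lf 13425018952 90520521 0) 0 128 0 16 0 64)
  (band (go 16 Gd mult S430_488_660_808 (Tr.lf 13425018952 90520521 0) 0 128 0 16 0 64)
  (go 16 Gd mult S430_488_512_660 (Tr.lf 13425017928 90520521 0) 0 128 0 16 0 64))) = true := by decide +kernel
  have c2 : (go 16 Gd mult S430_488_216_364 (Tr.lf 13425018952 86326217 0) 0 128 0 16 64 128) = true := by decide +kernel
  have c3 : (band (go 16 Gd mult S459_488_512_660 (Tr.lf 13425001608 86330313 0) 0 128 0 32 64 128)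
  (band (go 16 Gd mult S459_488_660_808 (Tr.lf 13425001608 86330313 0) 0 128 0 32 64 128)
  (band (go 16 Gd mult S430_459_660_808 (Tr.lf 9128985668 95112263 0) 0 128 0 32 64 128)
  (go 16 Gd mult S430_459_512_660 (Tr.lf 9128985668 95112263 0) 0 128 0 32 64 128)))) = true := by decide +kernel
  have c4 : (band (go 16 Gd mult S430_488_216_364 (Tr.lf 539050529 104041414 0) 0 128 32 64 0 128)
  (band (go 16 Gd mult S430_488_364_512 (Tr.lf 539050529 104041414 0) 0 128 32 64 0 128)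
  (band (go 16 Gd mult S430_488_512_660 (Tr.lf 539050529 104041414 0) 0 128 32 64 0 128)
  (band (go 16 Gd mult S430_488_660_808 (Tr.lf 539050529 104041414 0) 0 128 32 64 0 128)
  (band (go 16 Gd mult S430_488_216_364 (Tr.lf 539050513 108235845 0) 0 128 16 32 64 128)
  (band (go 16 Gd mult S430_488_364_512 (Tr.lf 539050513 108235845 0) 0 128 16 32 64 128)
  (band (go 16 Gd mult S430_488_512_660 (Tr.lf 539050257 108235845 0) 0 128 16 32 0 64)
  (go 16 Gd mult S430_488_660_808 (Tr.lf 539050257 108235845 0) 0 128 16 32 0 64)))))))) = true := by decide +kernel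
  have c5 : (go 16 Gd mult S430_488_216_364 (Tr.lf 539042065 104041541 0) 0 128 16 32 0 64) = true := by decide +kernel
  (And.intro (Ok.s1 32 (Ok.s2 64 (Ok.s1 16 (Ok.lf S430_488_216_364_ok (bl c1))
  (Ok.lf S430_488_216_364_ok c5))
  (Ok.s1 16 (Ok.lf S430_488_216_364_ok c2)
  (Ok.lf S430_488_216_364_ok (bl (br (br (br (br c4))))))))
  (Ok.lf S430_488_216_364_ok (bl c4)))
  (And.intro (Ok.s1 32 (Ok.s2 64 (Ok.lf S430_488_364_512_ok (bl c0))
  (Ok.s1 16 (Ok.lf S430_488_364_512_ok (br c0))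
  (Ok.lf S430_488_364_512_ok (bl (br (br (br (br (br c4)))))))))
  (Ok.lf S430_488_364_512_ok (bl (br c4))))
  (Ok.s4 660 (Ok.s1 32 (Ok.s2 64 (Ok.s1 16 (Ok.lf S430_488_512_660_ok (br (br c1)))
  (Ok.lf S430_488_512_660_ok (bl (br (br (br (br (br (br c4)))))))))
  (Ok.s3 459 (Ok.lf S430_459_512_660_ok (br (br (br c3))))
  (Ok.lf S459_488_512_660_ok (bl c3))))
  (Ok.lf S430_488_512_660_ok (bl (br (br c4)))))
  (Ok.s1 32 (Ok.s2 64 (Ok.s1 16 (Ok.lf S430_488_660_808_ok (bl (br c1)))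
  (Ok.lf S430_488_660_808_ok (br (br (br (br (br (br (br c4)))))))))
  (Ok.s3 459 (Ok.lf S430_459_660_808_ok (bl (br (br c3))))
  (Ok.lf S459_488_660_808_ok (bl (br c3)))))
  (Ok.lf S430_488_660_808_ok (bl (br (br (br c4)))))))))

end Vale.Agent.P098.Ck
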