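import Vale.Agent.P098.CkGd
import Vale.Agent.P098.CkOk
import Vale.Agent.P098.Sh.A14
import Vale.Agent.P098.Sh.A20
import Vale.Agent.P098.Sh.A21
import Vale.Agent.P098.Sh.A8

namespace Vale.Agent.P098.Ck

theorem r40 :
    Ok Gd mult 96 128 80 96 448 512 169 183 216 364 ∧
    Ok Gd mult 0 128 64 96 448 512 183 198 216 364 ∧
    Ok Gd mult 0 64 96 128 384 512 140 169 216 364 :=
  have c0 : (go 16 Gd mult S183_198_216_290 (Tr.lf 9683109956 103513287 409130344973578469900288) 0 64 80 96 448 512) = true := by decide +kernel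
  have c1 : (go 16 Gd mult S140_169_216_364 (Tr.lf 9683109956 103382215 168621687699906406383616) 0 64 96 112 448 512) = true := by decide +kernel
  have c2 : (band (go 16 Gd mult S183_198_216_290 (Tr.lf 13987251272 99060809 101346420103734601187328) 0 128 64 80 496 512)
  (go 16 Gd mult S183_198_216_290 (Tr.lf 18819090500 94731210 74764653730744812699648) 64 128 80 96 496 512)) = true := by decide +kernel
  have c3 : (band (go 16 Gd mult S140_169_216_364 (Tr.lf 13977815108 99191752 62645142874317637287936) 0 64 112 128 480 512)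
  (go 16 Gd mult S140_169_216_364 (Tr.lf 9682846754 107715655 0) 0 64 112 128 448 480)) = true := by decide +kernel
  have c4 : (band (go 16 Gd mult S183_198_290_364 (Tr.lf 13987234948 99196104 55137326199092174389248) 64 128 64 96 496 512)
  (go 16 Gd mult S183_198_290_364 (Tr.lf 13977797700 98917321 0) 0 128 64 96 480 496)) = true := by decide +kernel
  have c5 : (go 16 Gd mult S169_183_216_364 (Tr.lf 14524367906 99060809 69581118926936174755840) 96 128 80 96 496 512) = true := by decide +kernel
  have c6 : (go 16 Gd mult S183_198_216_290 (Tr.lf 13977797666 99052616 0) 64 128 80 96 480 496) = true := by decide +kernel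
  have c7 : (go 16 Gd mult S169_183_216_364 (Tr.lf 13977797154 95124424 0) 96 128 80 96 480 496) = true := by decide +kernel
  have c8 : (go 16 Gd mult S183_198_290_364 (Tr.lf 9682698818 107711814 276904075297102688681984) 0 64 64 96 496 512) = true := by decide +kernel
  have c9 : (band (go 16 Gd mult S183_198_216_290 (Tr.lf 9682690596 103382215 0) 0 128 64 80 480 496)
  (go 16 Gd mult S183_198_216_290 (Tr.lf 9136382481 99179463 0) 64 128 80 96 448 480)) = true := by decide +kernel
  have c10 : (go 16 Gd mult S183_198_290_364 (Tr.lf 9136382500 94857928 0) 0 128 64 96 448 480) = true := by decide +kernel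
  have c11 : (go 16 Gd mult S169_183_216_364 (Tr.lf 9145950737 95259719 0) 96 128 80 96 448 480) = true := by decide +kernel
  have c12 : (go 16 Gd mult S140_169_216_364 (Tr.lf 4841423377 107842502 0) 0 64 112 128 384 448) = true := by decide +kernel
  have c13 : (go 16 Gd mult S140_169_216_364 (Tr.lf 4841415185 99453894 0) 0 64 96 112 384 448) = true := by decide +kernel
  have c14 : (go 16 Gd mult S183_198_216_290 (Tr.lf 4841345554 107838406 0) 0 128 64 80 448 480) = true := by decide +kernel
  (And.intro (Ok.s2 480 (Ok.lf S169_183_216_364_ok c11)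
  (Ok.s2 496 (Ok.lf S169_183_216_364_ok c7)
  (Ok.lf S169_183_216_364_ok c5)))
  (And.intro (Ok.s4 290 (Ok.s1 80 (Ok.s2 480 (Ok.lf S183_198_216_290_ok c14)
  (Ok.s2 496 (Ok.lf S183_198_216_290_ok (bl c9))
  (Ok.lf S183_198_216_290_ok (bl c2))))
  (Ok.s0 64 (Ok.lf S183_198_216_290_ok c0)
  (Ok.s2 480 (Ok.lf S183_198_216_290_ok (br c9))
  (Ok.s2 496 (Ok.lf S183_198_216_290_ok c6)
  (Ok.lf S183_198_216_290_ok (br c2))))))
  (Ok.s2 480 (Ok.lf S183_198_290_364_ok c10)
  (Ok.s2 496 (Ok.lf S183_198_290_364_ok (br c4))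
  (Ok.s0 64 (Ok.lf S183_198_290_364_ok c8)
  (Ok.lf S183_198_290_364_ok (bl c4))))))
  (Ok.s1 112 (Ok.s2 448 (Ok.lf S140_169_216_364_ok c13)
  (Ok.lf S140_169_216_364_ok c1))
  (Ok.s2 448 (Ok.lf S140_169_216_364_ok c12)
  (Ok.s2 480 (Ok.lf S140_169_216_364_ok (br c3))
  (Ok.lf S140_169_216_364_ok (bl c3)))))))

end Vale.Agent.P098.Ck
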