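import Vale.Agent.P098.CkGd
import Vale.Agent.P098.CkOk
import Vale.Agent.P098.Sh.A15
import Vale.Agent.P098.Sh.A18
import Vale.Agent.P098.Sh.A21
import Vale.Agent.P098.Sh.A9

namespace Vale.Agent.P098.Ck

theorem r401 :
    Ok Gd mult 256 384 0 64 504 508 140 169 364 512 ∧
    Ok Gd mult 256 384 0 64 504 508 169 198 364 512 ∧
    Ok Gd mult 256 384 0 64 508 510 140 198 364 512 ∧
    Ok Gd mult 256 384 0 64 510 512 140 198 364 438 :=
  have c0 : (band (go 16 Gd mult S140_169_364_512 (Tr.lf 9146237576 95263942 0) 256 384 0 32 504 508)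
  (go 16 Gd mult S169_183_364_512 (Tr.lf 9146221188 99327174 0) 256 384 0 32 504 508)) = true := by decide +kernel
  have c1 : (band (go 16 Gd mult S169_198_364_512 (Tr.lf 8608317832 82414407 0) 256 384 32 64 508 510)
  (go 16 Gd mult S140_169_364_512 (Tr.lf 9682829636 99191879 0) 256 384 32 64 508 510)) = true := by decide +kernel
  have c2 : (band (go 16 Gd mult S183_198_364_512 (Tr.lf 9146221192 99585222 0) 256 384 0 32 504 508)
  (band (go 16 Gd mult S183_198_364_512 (Tr.lf 9145172612 99318599 0) 256 384 32 64 504 508)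
  (go 16 Gd mult S140_169_364_512 (Tr.lf 9682846084 99191879 0) 256 384 32 64 504 508))) = true := by decide +kernel
  have c3 : (band (go 16 Gd mult S140_169_364_512 (Tr.lf 9146237316 91069638 0) 256 384 0 32 508 510)
  (band (go 16 Gd mult S169_183_364_512 (Tr.lf 9146220932 95132870 0) 256 384 0 32 508 510)
  (go 16 Gd mult S183_198_364_512 (Tr.lf 9146220932 103648454 0) 256 384 0 32 508 510))) = true := by decide +kernel
  have c4 : (go 16 Gd mult S169_183_364_512 (Tr.lf 9144910468 99318599 0) 256 384 32 64 504 508) = true := by decide +kernel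
  have c5 : (band (go 16 Gd mult S169_198_364_438 (Tr.lf 8608055682 87002054 0) 256 320 0 32 510 512)
  (band (go 16 Gd mult S140_169_364_438 (Tr.lf 4850876802 99712198 0) 256 320 0 32 510 512)
  (band (go 16 Gd mult S169_198_364_438 (Tr.lf 8609104258 86994246 0) 320 384 0 32 510 512)
  (go 16 Gd mult S140_169_364_438 (Tr.lf 9145844098 99319110 0) 320 384 0 32 510 512)))) = true := by decide +kernel
  have c6 : (band (go 16 Gd mult S169_198_364_438 (Tr.lf 4312957250 91331653 0) 256 320 32 64 510 512)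
  (band (go 16 Gd mult S140_169_364_438 (Tr.lf 9145762082 90803271 0) 256 320 32 64 510 512)
  (band (go 16 Gd mult S140_169_364_438 (Tr.lf 4850794785 99462214 0) 320 384 32 64 510 512)
  (go 16 Gd mult S169_198_364_438 (Tr.lf 4304552257 91065413 0) 320 384 32 64 510 512)))) = true := by decide +kernel
  (And.intro (Ok.s1 32 (Ok.lf S140_169_364_512_ok (bl c0))
  (Ok.lf S140_169_364_512_ok (br (br c2))))
  (And.intro (Ok.s1 32 (Ok.s3 183 (Ok.lf S169_183_364_512_ok (br c0))
  (Ok.lf S183_198_364_512_ok (bl c2)))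
  (Ok.s3 183 (Ok.lf S169_183_364_512_ok c4)
  (Ok.lf S183_198_364_512_ok (bl (br c2)))))
  (And.intro (Ok.s3 169 (Ok.s1 32 (Ok.lf S140_169_364_512_ok (bl c3))
  (Ok.lf S140_169_364_512_ok (br c1)))
  (Ok.s1 32 (Ok.s3 183 (Ok.lf S169_183_364_512_ok (bl (br c3)))
  (Ok.lf S183_198_364_512_ok (br (br c3))))
  (Ok.lf S169_198_364_512_ok (bl c1))))
  (Ok.s0 320 (Ok.s1 32 (Ok.s3 169 (Ok.lf S140_169_364_438_ok (bl (br c5)))
  (Ok.lf S169_198_364_438_ok (bl c5)))
  (Ok.s3 169 (Ok.lf S140_169_364_438_ok (bl (br c6)))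
  (Ok.lf S169_198_364_438_ok (bl c6))))
  (Ok.s1 32 (Ok.s3 169 (Ok.lf S140_169_364_438_ok (br (br (br c5))))
  (Ok.lf S169_198_364_438_ok (bl (br (br c5)))))
  (Ok.s3 169 (Ok.lf S140_169_364_438_ok (bl (br (br c6))))
  (Ok.lf S169_198_364_438_ok (br (br (br c6))))))))))

end Vale.Agent.P098.Ck
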