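import Vale.Agent.P098.CkGd
import Vale.Agent.P098.CkOk
import Vale.Agent.P098.Sh.A10
import Vale.Agent.P098.Sh.A11
import Vale.Agent.P098.Sh.A18
import Vale.Agent.P098.Sh.A19
import Vale.Agent.P098.Sh.A9

namespace Vale.Agent.P098.Ck

theorem r402 :
    Ok Gd mult 256 320 0 64 510 512 140 198 438 512 ∧
    Ok Gd mult 320 384 0 64 510 512 140 198 438 512 ∧
    Ok Gd mult 256 384 0 64 384 448 140 198 512 660 ∧
    Ok Gd mult 256 384 0 64 448 512 140 169 512 586 :=
  have c0 : (go 16 Gd mult S140_169_512_549 (Tr.lf 9145845896 95128647 0) 256 384 0 32 480 512) = true := by decide +kernel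
  have c1 : (go 16 Gd mult S140_169_549_586 (Tr.lf 9145845896 95128647 0) 256 384 0 32 480 512) = true := by decide +kernel
  have c2 : (band (go 16 Gd mult S140_169_512_549 (Tr.lf 9145780360 99191879 0) 256 384 32 64 448 480)
  (go 16 Gd mult S140_169_549_586 (Tr.lf 9144731780 99191623 0) 256 384 32 64 448 480)) = true := by decide +kernel
  have c3 : (band (go 16 Gd mult S140_169_512_549 (Tr.lf 9145780360 94997575 0) 256 384 32 64 480 512)
  (go 16 Gd mult S140_169_549_586 (Tr.lf 9144731780 94997319 0) 256 384 32 64 480 512)) = true := by decide +kernel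
  have c4 : (band (go 16 Gd mult S140_169_512_660 (Tr.lf 9137440836 98917320 0) 256 384 32 64 384 448)
  (go 16 Gd mult S169_198_512_660 (Tr.lf 4304553026 95124422 0) 256 384 32 64 384 448)) = true := by decide +kernel
  have c5 : (band (go 16 Gd mult S169_198_438_512 (Tr.lf 8608055682 86744006 0) 256 320 0 32 510 512)
  (band (go 16 Gd mult S140_169_438_512 (Tr.lf 9145844098 91069638 0) 256 320 0 32 510 512)
  (band (go 16 Gd mult S169_198_438_512 (Tr.lf 9145975170 95390918 0) 320 384 0 32 510 512)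
  (go 16 Gd mult S140_169_438_512 (Tr.lf 9145844098 99319110 0) 320 384 0 32 510 512)))) = true := by decide +kernel
  have c6 : (go 16 Gd mult S140_198_512_660 (Tr.lf 1160021057 99712071 0) 256 384 0 32 384 448) = true := by decide +kernel
  have c7 : (band (go 16 Gd mult S169_198_438_512 (Tr.lf 4312957250 95525957 0) 256 320 32 64 510 512)
  (go 16 Gd mult S140_169_438_512 (Tr.lf 9145762081 90803271 0) 256 320 32 64 510 512)) = true := by decide +kernel
  have c8 : (band (go 16 Gd mult S140_169_512_549 (Tr.lf 9137366084 94854088 0) 256 384 0 32 448 480)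
  (go 16 Gd mult S140_169_549_586 (Tr.lf 9137366084 94854088 0) 256 384 0 32 448 480)) = true := by decide +kernel
  have c9 : (band (go 16 Gd mult S169_198_438_512 (Tr.lf 4304552257 91065413 0) 320 384 32 64 510 512)
  (go 16 Gd mult S140_169_438_512 (Tr.lf 4850786593 99462214 0) 320 384 32 64 510 512)) = true := by decide +kernel
  (And.intro (Ok.s1 32 (Ok.s3 169 (Ok.lf S140_169_438_512_ok (bl (br c5)))
  (Ok.lf S169_198_438_512_ok (bl c5)))
  (Ok.s3 169 (Ok.lf S140_169_438_512_ok (br c7))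
  (Ok.lf S169_198_438_512_ok (bl c7))))
  (And.intro (Ok.s1 32 (Ok.s3 169 (Ok.lf S140_169_438_512_ok (br (br (br c5))))
  (Ok.lf S169_198_438_512_ok (bl (br (br c5)))))
  (Ok.s3 169 (Ok.lf S140_169_438_512_ok (br c9))
  (Ok.lf S169_198_438_512_ok (bl c9))))
  (And.intro (Ok.s1 32 (Ok.lf S140_198_512_660_ok c6)
  (Ok.s3 169 (Ok.lf S140_169_512_660_ok (bl c4))
  (Ok.lf S169_198_512_660_ok (br c4))))
  (Ok.s4 549 (Ok.s1 32 (Ok.s2 480 (Ok.lf S140_169_512_549_ok (bl c8))
  (Ok.lf S140_169_512_549_ok c0))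
  (Ok.s2 480 (Ok.lf S140_169_512_549_ok (bl c2))
  (Ok.lf S140_169_512_549_ok (bl c3))))
  (Ok.s1 32 (Ok.s2 480 (Ok.lf S140_169_549_586_ok (br c8))
  (Ok.lf S140_169_549_586_ok c1))
  (Ok.s2 480 (Ok.lf S140_169_549_586_ok (br c2))
  (Ok.lf S140_169_549_586_ok (br c3))))))))

end Vale.Agent.P098.Ck
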