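import Vale.Agent.P098.CkGd
import Vale.Agent.P098.CkOk
import Vale.Agent.P098.Sh.A10
import Vale.Agent.P098.Sh.A13
import Vale.Agent.P098.Sh.A14
import Vale.Agent.P098.Sh.A20
import Vale.Agent.P098.Sh.A22
import Vale.Agent.P098.Sh.A8

namespace Vale.Agent.P098.Ck

theorem r403 :
    Ok Gd mult 256 384 0 64 448 512 140 169 586 660 ∧
    Ok Gd mult 256 384 0 64 448 512 169 183 512 660 ∧
    Ok Gd mult 256 384 0 32 448 512 183 198 512 660 :=
  have c0 : (band (go 16 Gd mult S169_176_512_660 (Tr.lf 9146214536 99322951 0) 256 384 0 32 480 512)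
  (go 16 Gd mult S140_154_586_660 (Tr.lf 4841416836 103779397 0) 256 384 0 32 480 512)) = true := by decide +kernel
  have c1 : (go 16 Gd mult S154_169_586_660 (Tr.lf 9145829512 99322951 0) 256 384 0 32 480 512) = true := by decide +kernel
  have c2 : (band (go 16 Gd mult S140_169_586_660 (Tr.lf 4841441412 103648325 0) 256 384 32 64 480 512)
  (go 16 Gd mult S169_176_512_660 (Tr.lf 9146214532 99191879 0) 256 384 32 64 480 512)) = true := by decide +kernel
  have c3 : (band (go 16 Gd mult S169_176_512_660 (Tr.lf 9145952392 95128647 0) 256 384 32 64 448 480)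
  (go 16 Gd mult S176_183_512_660 (Tr.lf 9144903816 95128391 0) 256 384 32 64 448 480)) = true := by decide +kernel
  have c4 : (band (go 16 Gd mult S176_183_512_660 (Tr.lf 9146214532 103386438 0) 256 384 0 32 496 512)
  (go 16 Gd mult S183_198_512_586 (Tr.lf 9145960580 103644486 0) 256 384 0 32 496 512)) = true := by decide +kernel
  have c5 : (band (go 16 Gd mult S176_183_512_660 (Tr.lf 9145165956 99449671 0) 256 384 32 64 480 512)
  (band (go 16 Gd mult S176_183_512_660 (Tr.lf 9145164932 99322695 0) 256 384 0 32 480 496)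
  (go 16 Gd mult S183_198_512_660 (Tr.lf 4313072772 95263941 0) 256 384 0 32 480 496))) = true := by decide +kernel
  have c6 : (go 16 Gd mult S140_169_586_660 (Tr.lf 4304554116 103648325 0) 256 384 32 64 448 480) = true := by decide +kernel
  have c7 : (go 16 Gd mult S183_198_586_660 (Tr.lf 8608040068 90934087 0) 256 384 0 32 496 512) = true := by decide +kernel
  have c8 : (band (go 16 Gd mult S140_169_586_660 (Tr.lf 9137366084 94854088 0) 256 384 0 32 448 480)
  (band (go 16 Gd mult S176_183_512_660 (Tr.lf 4304540226 91061190 0) 256 384 0 32 448 480)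
  (band (go 16 Gd mult S169_176_512_660 (Tr.lf 4841411138 107707334 0) 256 384 0 32 448 480)
  (go 16 Gd mult S183_198_512_660 (Tr.lf 4371649090 91323334 0) 256 384 0 32 448 480)))) = true := by decide +kernel
  (And.intro (Ok.s1 32 (Ok.s2 480 (Ok.lf S140_169_586_660_ok (bl c8))
  (Ok.s3 154 (Ok.lf S140_154_586_660_ok (br c0))
  (Ok.lf S154_169_586_660_ok c1)))
  (Ok.s2 480 (Ok.lf S140_169_586_660_ok c6)
  (Ok.lf S140_169_586_660_ok (bl c2))))
  (And.intro (Ok.s3 176 (Ok.s1 32 (Ok.s2 480 (Ok.lf S169_176_512_660_ok (bl (br (br c8))))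
  (Ok.lf S169_176_512_660_ok (bl c0)))
  (Ok.s2 480 (Ok.lf S169_176_512_660_ok (bl c3))
  (Ok.lf S169_176_512_660_ok (br c2))))
  (Ok.s1 32 (Ok.s2 480 (Ok.lf S176_183_512_660_ok (bl (br c8)))
  (Ok.s2 496 (Ok.lf S176_183_512_660_ok (bl (br c5)))
  (Ok.lf S176_183_512_660_ok (bl c4))))
  (Ok.s2 480 (Ok.lf S176_183_512_660_ok (br c3))
  (Ok.lf S176_183_512_660_ok (bl c5)))))
  (Ok.s2 480 (Ok.lf S183_198_512_660_ok (br (br (br c8))))
  (Ok.s2 496 (Ok.lf S183_198_512_660_ok (br (br c5)))
  (Ok.s4 586 (Ok.lf S183_198_512_586_ok (br c4))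
  (Ok.lf S183_198_586_660_ok c7))))))

end Vale.Agent.P098.Ck
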