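import Vale.Agent.P098.CkGd
import Vale.Agent.P098.CkOk
import Vale.Agent.P098.Sh.A10
import Vale.Agent.P098.Sh.A11
import Vale.Agent.P098.Sh.A16
import Vale.Agent.P098.Sh.A19
import Vale.Agent.P098.Sh.A22
import Vale.Agent.P098.Sh.A25

namespace Vale.Agent.P098.Ck

theorem r404 :
    Ok Gd mult 256 384 32 64 448 512 183 198 512 660 ∧
    Ok Gd mult 256 384 0 64 384 512 140 198 660 808 ∧
    Ok Gd mult 256 384 0 64 384 448 198 227 216 364 ∧
    Ok Gd mult 256 384 0 32 448 480 198 227 216 290 :=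
  have c0 : (band (go 16 Gd mult S183_198_512_660 (Tr.lf 8608303236 90934087 0) 256 384 32 64 448 480)
  (go 16 Gd mult S140_169_660_808 (Tr.lf 9145959556 95128647 0) 256 384 32 64 448 480)) = true := by decide +kernel
  have c1 : (go 16 Gd mult S140_169_660_808 (Tr.lf 9683108996 103517255 0) 256 384 0 32 496 512) = true := by decide +kernel
  have c2 : (go 16 Gd mult S169_183_660_808 (Tr.lf 9683093636 103390279 0) 256 384 0 32 480 512) = true := by decide +kernel
  have c3 : (go 16 Gd mult S169_198_660_808 (Tr.lf 9146239044 99322951 0) 256 384 32 64 480 512) = true := by decide +kernel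
  have c4 : (band (go 16 Gd mult S183_198_512_660 (Tr.lf 8608302212 95263686 0) 256 384 32 64 480 496)
  (go 16 Gd mult S183_198_512_660 (Tr.lf 9145173124 95255367 0) 256 384 32 64 496 512)) = true := by decide +kernel
  have c5 : (band (go 16 Gd mult S140_169_660_808 (Tr.lf 9682831492 103386183 0) 256 384 32 64 480 512)
  (band (go 16 Gd mult S140_169_660_808 (Tr.lf 9682830468 107711559 0) 256 384 0 32 480 496)
  (band (go 16 Gd mult S183_198_660_808 (Tr.lf 9145950788 99187911 0) 256 384 0 32 480 496)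
  (go 16 Gd mult S140_169_660_808 (Tr.lf 9137570884 94854088 0) 256 384 32 64 384 448)))) = true := by decide +kernel
  have c6 : (go 16 Gd mult S183_198_660_808 (Tr.lf 9146221700 95259719 34956588184738847522816) 256 384 0 32 496 512) = true := by decide +kernel
  have c7 : (go 16 Gd mult S169_198_660_808 (Tr.lf 9145975940 103259207 0) 256 384 32 64 448 480) = true := by decide +kernel
  have c8 : (band (go 16 Gd mult S140_169_660_808 (Tr.lf 4842472516 99450054 0) 256 384 0 32 448 480)
  (band (go 16 Gd mult S198_227_216_290 (Tr.lf 8536642 108104644 0) 256 384 0 32 448 480)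
  (go 16 Gd mult S169_198_660_808 (Tr.lf 4304675394 95255494 0) 256 384 0 32 448 480))) = true := by decide +kernel
  have c9 : (go 16 Gd mult S198_227_216_364 (Tr.lf 4304684098 99441479 0) 256 384 0 64 384 448) = true := by decide +kernel
  have c10 : (go 16 Gd mult S140_198_660_808 (Tr.lf 623019073 108104902 0) 256 384 0 32 384 448) = true := by decide +kernel
  have c11 : (go 16 Gd mult S169_198_660_808 (Tr.lf 4304544834 95124422 0) 256 384 32 64 384 448) = true := by decide +kernel
  (And.intro (Ok.s2 480 (Ok.lf S183_198_512_660_ok (bl c0))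
  (Ok.s2 496 (Ok.lf S183_198_512_660_ok (bl c4))
  (Ok.lf S183_198_512_660_ok (br c4))))
  (And.intro (Ok.s2 448 (Ok.s1 32 (Ok.lf S140_198_660_808_ok c10)
  (Ok.s3 169 (Ok.lf S140_169_660_808_ok (br (br (br c5))))
  (Ok.lf S169_198_660_808_ok c11)))
  (Ok.s3 169 (Ok.s1 32 (Ok.s2 480 (Ok.lf S140_169_660_808_ok (bl c8))
  (Ok.s2 496 (Ok.lf S140_169_660_808_ok (bl (br c5)))
  (Ok.lf S140_169_660_808_ok c1)))
  (Ok.s2 480 (Ok.lf S140_169_660_808_ok (br c0))
  (Ok.lf S140_169_660_808_ok (bl c5))))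
  (Ok.s1 32 (Ok.s2 480 (Ok.lf S169_198_660_808_ok (br (br c8)))
  (Ok.s3 183 (Ok.lf S169_183_660_808_ok c2)
  (Ok.s2 496 (Ok.lf S183_198_660_808_ok (bl (br (br c5))))
  (Ok.lf S183_198_660_808_ok c6))))
  (Ok.s2 480 (Ok.lf S169_198_660_808_ok c7)
  (Ok.lf S169_198_660_808_ok c3)))))
  (And.intro (Ok.lf S198_227_216_364_ok c9)
  (Ok.lf S198_227_216_290_ok (bl (br c8))))))

end Vale.Agent.P098.Ck
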