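import Vale.Agent.P098.CkGd
import Vale.Agent.P098.CkOk
import Vale.Agent.P098.Sh.A23
import Vale.Agent.P098.Sh.A26
import Vale.Agent.P098.Sh.A29
import Vale.Agent.P098.Sh.A30
import Vale.Agent.P098.Sh.A31
import Vale.Agent.P098.Sh.A33
import Vale.Agent.P098.Sh.A34
import Vale.Agent.P098.Sh.A36
import Vale.Agent.P098.Sh.A39

namespace Vale.Agent.P098.Ck

theorem r406 :
    Ok Gd mult 256 384 32 64 448 512 212 227 216 364 ∧
    Ok Gd mult 256 384 0 64 384 512 227 256 216 364 ∧
    Ok Gd mult 256 384 0 64 384 448 198 227 364 512 ∧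
    Ok Gd mult 256 320 0 32 448 512 198 227 364 512 :=
  have c0 : (go 16 Gd mult S227_241_216_364 (Tr.lf 8598866052 99187398 0) 256 384 0 32 496 512) = true := by decide +kernel
  have c1 : (go 16 Gd mult S198_212_364_512 (Tr.lf 8608303236 95132614 0) 256 320 0 32 496 512) = true := by decide +kernel
  have c2 : (band (go 16 Gd mult S212_219_216_364 (Tr.lf 8608295044 91056967 0) 256 384 32 64 496 512)
  (go 16 Gd mult S219_227_216_364 (Tr.lf 4312278084 107973445 0) 256 384 32 64 496 512)) = true := by decide +kernel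
  have c3 : (go 16 Gd mult S212_219_364_512 (Tr.lf 8608295044 99326918 0) 256 320 0 32 496 512) = true := by decide +kernel
  have c4 : (band (go 16 Gd mult S212_227_216_364 (Tr.lf 9154611268 99323079 0) 256 384 32 64 448 480)
  (band (go 16 Gd mult S227_256_216_364 (Tr.lf 4313072674 99327173 0) 256 384 32 64 448 480)
  (go 16 Gd mult S212_227_216_364 (Tr.lf 8608302212 95132614 0) 256 384 32 64 480 496))) = true := by decide +kernel
  have c5 : (go 16 Gd mult S227_256_216_364 (Tr.lf 8675166276 90934087 19959403911963392081920) 256 384 32 64 480 512) = true := by decide +kernel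
  have c6 : (go 16 Gd mult S219_227_364_512 (Tr.lf 8608295042 90934087 0) 256 320 0 32 480 512) = true := by decide +kernel
  have c7 : (go 16 Gd mult S241_256_216_364 (Tr.lf 8675141700 86735560 0) 256 384 0 32 448 512) = true := by decide +kernel
  have c8 : (band (go 16 Gd mult S198_212_364_512 (Tr.lf 4313072770 103648453 0) 256 320 0 32 480 496)
  (go 16 Gd mult S212_219_364_512 (Tr.lf 8675136066 95259463 0) 256 320 0 32 480 496)) = true := by decide +kernel
  have c9 : (band (go 16 Gd mult S198_227_364_512 (Tr.lf 4371792962 95509319 0) 256 384 0 64 384 448)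
  (go 16 Gd mult S227_256_216_364 (Tr.lf 8528962 103914436 0) 256 384 0 64 384 448)) = true := by decide +kernel
  have c10 : (go 16 Gd mult S227_241_216_364 (Tr.lf 8675140130 86870855 0) 256 384 0 32 480 496) = true := by decide +kernel
  have c11 : (go 16 Gd mult S227_241_216_364 (Tr.lf 4371649058 95513797 0) 256 384 0 32 448 480) = true := by decide +kernel
  have c12 : (band (go 16 Gd mult S198_212_364_512 (Tr.lf 4371649057 91192262 0) 256 320 0 32 448 480)
  (go 16 Gd mult S212_227_364_512 (Tr.lf 4371649057 95386566 0) 256 320 0 32 448 480)) = true := by decide +kernel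
  (And.intro (Ok.s2 480 (Ok.lf S212_227_216_364_ok (bl c4))
  (Ok.s2 496 (Ok.lf S212_227_216_364_ok (br (br c4)))
  (Ok.s3 219 (Ok.lf S212_219_216_364_ok (bl c2))
  (Ok.lf S219_227_216_364_ok (br c2)))))
  (And.intro (Ok.s2 448 (Ok.lf S227_256_216_364_ok (br c9))
  (Ok.s1 32 (Ok.s3 241 (Ok.s2 480 (Ok.lf S227_241_216_364_ok c11)
  (Ok.s2 496 (Ok.lf S227_241_216_364_ok c10)
  (Ok.lf S227_241_216_364_ok c0)))
  (Ok.lf S241_256_216_364_ok c7))
  (Ok.s2 480 (Ok.lf S227_256_216_364_ok (bl (br c4)))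
  (Ok.lf S227_256_216_364_ok c5))))
  (And.intro (Ok.lf S198_227_364_512_ok (bl c9))
  (Ok.s3 212 (Ok.s2 480 (Ok.lf S198_212_364_512_ok (bl c12))
  (Ok.s2 496 (Ok.lf S198_212_364_512_ok (bl c8))
  (Ok.lf S198_212_364_512_ok c1)))
  (Ok.s2 480 (Ok.lf S212_227_364_512_ok (br c12))
  (Ok.s3 219 (Ok.s2 496 (Ok.lf S212_219_364_512_ok (br c8))
  (Ok.lf S212_219_364_512_ok c3))
  (Ok.lf S219_227_364_512_ok c6)))))))

end Vale.Agent.P098.Ck
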