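import Vale.Agent.P098.CkGd
import Vale.Agent.P098.CkOk
import Vale.Agent.P098.Sh.A23
import Vale.Agent.P098.Sh.A24
import Vale.Agent.P098.Sh.A31
import Vale.Agent.P098.Sh.A35
import Vale.Agent.P098.Sh.A37
import Vale.Agent.P098.Sh.A39

namespace Vale.Agent.P098.Ck

theorem r407 :
    Ok Gd mult 256 320 32 64 448 512 198 227 364 512 ∧
    Ok Gd mult 320 384 0 64 448 512 198 227 364 512 ∧
    Ok Gd mult 256 384 0 64 384 512 227 256 364 512 :=
  have c0 : (go 16 Gd mult S198_212_364_512 (Tr.lf 8608303236 99326918 0) 256 320 32 64 480 512) = true := by decide +kernel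
  have c1 : (band (go 16 Gd mult S212_227_364_512 (Tr.lf 8608303236 95255622 0) 256 320 32 64 480 512)
  (go 16 Gd mult S212_227_364_512 (Tr.lf 4303897730 99318725 0) 320 384 0 64 480 496)) = true := by decide +kernel
  have c2 : (band (go 16 Gd mult S198_212_364_512 (Tr.lf 8608303234 91061318 0) 320 384 0 32 496 512)
  (band (go 16 Gd mult S212_227_364_512 (Tr.lf 8608302210 94997319 0) 320 384 0 32 496 512)
  (go 16 Gd mult S212_227_364_512 (Tr.lf 8608302146 99318599 0) 320 384 32 64 496 512))) = true := by decide +kernel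
  have c3 : (band (go 16 Gd mult S198_212_364_438 (Tr.lf 8608041092 90929991 0) 320 384 32 64 480 512)
  (go 16 Gd mult S198_212_438_512 (Tr.lf 8608041090 99318599 0) 320 384 32 64 480 512)) = true := by decide +kernel
  have c4 : (go 16 Gd mult S227_241_364_512 (Tr.lf 4303898692 95255493 0) 256 384 0 32 480 512) = true := by decide +kernel
  have c5 : (band (go 16 Gd mult S198_212_364_512 (Tr.lf 8608041090 86739783 0) 320 384 32 64 448 480)
  (band (go 16 Gd mult S198_212_364_512 (Tr.lf 4313073730 99585221 0) 256 320 32 64 448 480)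
  (band (go 16 Gd mult S212_227_364_512 (Tr.lf 8675140642 91188167 0) 256 320 32 64 448 480)
  (go 16 Gd mult S198_212_364_512 (Tr.lf 8608040066 86739783 0) 320 384 0 32 480 496)))) = true := by decide +kernel
  have c6 : (go 16 Gd mult S227_256_364_512 (Tr.lf 8675165252 86866887 87234660890044033663053) 256 384 32 64 480 512) = true := by decide +kernel
  have c7 : (go 16 Gd mult S212_227_364_512 (Tr.lf 8675148930 82672328 0) 320 384 0 64 448 480) = true := by decide +kernel
  have c8 : (go 16 Gd mult S241_256_364_512 (Tr.lf 4379125826 91196230 0) 256 384 0 32 448 512) = true := by decide +kernel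
  have c9 : (go 16 Gd mult S227_256_364_512 (Tr.lf 4380181026 99720134 0) 256 384 32 64 448 480) = true := by decide +kernel
  have c10 : (go 16 Gd mult S198_212_364_512 (Tr.lf 4380037697 95394758 0) 320 384 0 32 448 480) = true := by decide +kernel
  have c11 : (band (go 16 Gd mult S227_256_364_512 (Tr.lf 75637281 108239812 0) 256 384 32 64 384 448)
  (go 16 Gd mult S227_256_364_512 (Tr.lf 689054225 103914438 0) 256 384 0 32 384 448)) = true := by decide +kernel
  have c12 : (go 16 Gd mult S227_241_364_512 (Tr.lf 4370600481 95386310 0) 256 384 0 32 448 480) = true := by decide +kernel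
  (And.intro (Ok.s3 212 (Ok.s2 480 (Ok.lf S198_212_364_512_ok (bl (br c5)))
  (Ok.lf S198_212_364_512_ok c0))
  (Ok.s2 480 (Ok.lf S212_227_364_512_ok (bl (br (br c5))))
  (Ok.lf S212_227_364_512_ok (bl c1))))
  (And.intro (Ok.s3 212 (Ok.s2 480 (Ok.s1 32 (Ok.lf S198_212_364_512_ok c10)
  (Ok.lf S198_212_364_512_ok (bl c5)))
  (Ok.s1 32 (Ok.s2 496 (Ok.lf S198_212_364_512_ok (br (br (br c5))))
  (Ok.lf S198_212_364_512_ok (bl c2)))
  (Ok.s4 438 (Ok.lf S198_212_364_438_ok (bl c3))
  (Ok.lf S198_212_438_512_ok (br c3)))))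
  (Ok.s2 480 (Ok.lf S212_227_364_512_ok c7)
  (Ok.s2 496 (Ok.lf S212_227_364_512_ok (br c1))
  (Ok.s1 32 (Ok.lf S212_227_364_512_ok (bl (br c2)))
  (Ok.lf S212_227_364_512_ok (br (br c2)))))))
  (Ok.s1 32 (Ok.s2 448 (Ok.lf S227_256_364_512_ok (br c11))
  (Ok.s3 241 (Ok.s2 480 (Ok.lf S227_241_364_512_ok c12)
  (Ok.lf S227_241_364_512_ok c4))
  (Ok.lf S241_256_364_512_ok c8)))
  (Ok.s2 448 (Ok.lf S227_256_364_512_ok (bl c11))
  (Ok.s2 480 (Ok.lf S227_256_364_512_ok c9)
  (Ok.lf S227_256_364_512_ok c6))))))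

end Vale.Agent.P098.Ck
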