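import Vale.Agent.P098.CkGd
import Vale.Agent.P098.CkOk
import Vale.Agent.P098.Sh.A24
import Vale.Agent.P098.Sh.A27
import Vale.Agent.P098.Sh.A29
import Vale.Agent.P098.Sh.A32
import Vale.Agent.P098.Sh.A37

namespace Vale.Agent.P098.Ck

theorem r408 :
    Ok Gd mult 256 384 0 64 384 448 198 256 512 660 ∧
    Ok Gd mult 256 384 0 64 448 512 198 256 512 660 ∧
    Ok Gd mult 256 384 0 64 384 512 198 227 660 808 :=
  have c0 : (go 16 Gd mult S198_227_512_660 (Tr.lf 4304963714 99458117 0) 320 384 32 64 480 512) = true := by decide +kernel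
  have c1 : (go 16 Gd mult S198_227_660_808 (Tr.lf 9146239106 94997703 0) 256 320 0 64 480 512) = true := by decide +kernel
  have c2 : (go 16 Gd mult S198_256_512_660 (Tr.lf 4304701572 95120199 0) 256 384 0 64 384 448) = true := by decide +kernel
  have c3 : (go 16 Gd mult S212_227_512_660 (Tr.lf 4303898756 99314502 0) 256 384 0 32 448 512) = true := by decide +kernel
  have c4 : (go 16 Gd mult S227_256_512_660 (Tr.lf 4313090180 90938438 0) 256 384 0 64 448 512) = true := by decide +kernel
  have c5 : (go 16 Gd mult S198_227_660_808 (Tr.lf 9145189506 94997447 0) 320 384 0 64 496 512) = true := by decide +kernel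
  have c6 : (band (go 16 Gd mult S198_212_512_660 (Tr.lf 4313334916 95521989 534955578674447908864) 256 384 0 32 496 512)
  (band (go 16 Gd mult S198_212_512_660 (Tr.lf 13449578562 90672200 0) 256 320 32 64 480 512)
  (go 16 Gd mult S212_227_512_660 (Tr.lf 9144902722 99453767 31211890973794598125568) 256 320 32 64 480 512))) = true := by decide +kernel
  have c7 : (go 16 Gd mult S198_227_512_660 (Tr.lf 4304700482 99450053 0) 320 384 32 64 448 480) = true := by decide +kernel
  have c8 : (band (go 16 Gd mult S198_227_660_808 (Tr.lf 4841554562 107703366 0) 256 320 0 64 448 480)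
  (band (go 16 Gd mult S198_227_660_808 (Tr.lf 9144910466 94997192 0) 320 384 0 64 480 496)
  (go 16 Gd mult S198_227_660_808 (Tr.lf 4313072258 95259718 0) 320 384 0 64 448 480))) = true := by decide +kernel
  have c9 : (go 16 Gd mult S198_212_512_660 (Tr.lf 4304675908 99450053 0) 256 384 0 32 480 496) = true := by decide +kernel
  have c10 : (go 16 Gd mult S198_227_512_660 (Tr.lf 4303635522 99449797 0) 256 320 32 64 448 480) = true := by decide +kernel
  have c11 : (band (go 16 Gd mult S198_227_660_808 (Tr.lf 9577537 103779397 0) 320 384 0 64 384 448)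
  (go 16 Gd mult S198_227_660_808 (Tr.lf 9577025 99585093 0) 256 320 0 64 384 448)) = true := by decide +kernel
  have c12 : (go 16 Gd mult S198_212_512_660 (Tr.lf 4371649058 95517638 0) 256 384 0 32 448 480) = true := by decide +kernel
  (And.intro (Ok.lf S198_256_512_660_ok c2)
  (And.intro (Ok.s3 227 (Ok.s1 32 (Ok.s3 212 (Ok.s2 480 (Ok.lf S198_212_512_660_ok c12)
  (Ok.s2 496 (Ok.lf S198_212_512_660_ok c9)
  (Ok.lf S198_212_512_660_ok (bl c6))))
  (Ok.lf S212_227_512_660_ok c3))
  (Ok.s0 320 (Ok.s2 480 (Ok.lf S198_227_512_660_ok c10)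
  (Ok.s3 212 (Ok.lf S198_212_512_660_ok (bl (br c6)))
  (Ok.lf S212_227_512_660_ok (br (br c6)))))
  (Ok.s2 480 (Ok.lf S198_227_512_660_ok c7)
  (Ok.lf S198_227_512_660_ok c0))))
  (Ok.lf S227_256_512_660_ok c4))
  (Ok.s0 320 (Ok.s2 448 (Ok.lf S198_227_660_808_ok (br c11))
  (Ok.s2 480 (Ok.lf S198_227_660_808_ok (bl c8))
  (Ok.lf S198_227_660_808_ok c1)))
  (Ok.s2 448 (Ok.lf S198_227_660_808_ok (bl c11))
  (Ok.s2 480 (Ok.lf S198_227_660_808_ok (br (br c8)))
  (Ok.s2 496 (Ok.lf S198_227_660_808_ok (bl (br c8)))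
  (Ok.lf S198_227_660_808_ok c5)))))))

end Vale.Agent.P098.Ck
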