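import Vale.Agent.P098.CkGd
import Vale.Agent.P098.CkOk
import Vale.Agent.P098.Sh.A38
import Vale.Agent.P098.Sh.A41
import Vale.Agent.P098.Sh.A42
import Vale.Agent.P098.Sh.A43
import Vale.Agent.P098.Sh.A44
import Vale.Agent.P098.Sh.A45
import Vale.Agent.P098.Sh.A46
import Vale.Agent.P098.Sh.A47
import Vale.Agent.P098.Sh.A49
import Vale.Agent.P098.Sh.A51

namespace Vale.Agent.P098.Ck

theorem r409 :
    Ok Gd mult 256 384 0 64 384 512 227 256 660 808 ∧
    Ok Gd mult 256 384 0 64 384 512 256 314 216 808 ∧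
    Ok Gd mult 256 384 0 64 384 512 314 372 216 364 :=
  have c0 : (go 16 Gd mult S256_285_364_512 (Tr.lf 4371007620 95382342 0) 256 384 0 64 384 512) = true := by decide +kernel
  have c1 : (band (go 16 Gd mult S285_314_660_808 (Tr.lf 1160022148 95390919 342961865818407983644672) 256 384 0 64 448 512)
  (band (go 16 Gd mult S285_314_512_660 (Tr.lf 623133826 108371142 64416030306677949464576) 256 384 0 64 448 512)
  (go 16 Gd mult S256_285_512_660 (Tr.lf 4303635522 90921671 326525816850553839288320) 256 384 0 64 448 512))) = true := by decide +kernel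
  have c2 : (go 16 Gd mult S285_314_364_512 (Tr.lf 9717892 103779397 135970950569469178544128) 256 384 0 64 384 512) = true := by decide +kernel
  have c3 : (band (go 16 Gd mult S256_285_660_808 (Tr.lf 4840507524 103377607 519921481717503712296960) 256 384 0 64 448 512)
  (band (go 16 Gd mult S314_343_216_364 (Tr.lf 546587714 108100677 0) 256 384 0 64 448 512)
  (go 16 Gd mult S285_314_216_364 (Tr.lf 9708610 107977924 0) 256 384 0 64 448 512))) = true := by decide +kernel
  have c4 : (band (go 16 Gd mult S314_372_216_364 (Tr.lf 1161069698 95517768 0) 256 384 0 64 384 448)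
  (band (go 16 Gd mult S256_314_512_660 (Tr.lf 9733186 99716420 0) 256 384 0 64 384 448)
  (band (go 16 Gd mult S256_314_660_808 (Tr.lf 9733186 99589189 0) 256 384 0 64 384 448)
  (band (go 16 Gd mult S256_314_216_364 (Tr.lf 9732674 107977924 0) 256 384 0 64 384 448)
  (go 16 Gd mult S227_256_660_808 (Tr.lf 8528449 103652165 0) 256 384 0 64 384 448))))) = true := by decide +kernel
  have c5 : (band (go 16 Gd mult S227_256_660_808 (Tr.lf 4849943684 99458118 314941261570443174740045) 256 384 0 64 480 512)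
  (go 16 Gd mult S256_285_216_364 (Tr.lf 76825730 108240068 277992433190802942854088) 256 384 0 64 480 512)) = true := by decide +kernel
  have c6 : (band (go 16 Gd mult S343_372_216_364 (Tr.lf 1161054274 99458247 174690666379107490594816) 256 384 0 32 448 512)
  (go 16 Gd mult S343_372_216_364 (Tr.lf 1169442882 95394888 666536203616296416313344) 256 384 32 64 448 512)) = true := by decide +kernel
  have c7 : (band (go 16 Gd mult S227_256_660_808 (Tr.lf 8528450 99589188 0) 256 384 0 64 448 480)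
  (go 16 Gd mult S256_285_216_364 (Tr.lf 8528193 108104644 0) 256 384 0 64 448 480)) = true := by decide +kernel
  (And.intro (Ok.s2 448 (Ok.lf S227_256_660_808_ok (br (br (br (br c4)))))
  (Ok.s2 480 (Ok.lf S227_256_660_808_ok (bl c7))
  (Ok.lf S227_256_660_808_ok (bl c5))))
  (And.intro (Ok.s4 512 (Ok.s4 364 (Ok.s2 448 (Ok.lf S256_314_216_364_ok (bl (br (br (br c4)))))
  (Ok.s3 285 (Ok.s2 480 (Ok.lf S256_285_216_364_ok (br c7))
  (Ok.lf S256_285_216_364_ok (br c5)))
  (Ok.lf S285_314_216_364_ok (br (br c3)))))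
  (Ok.s3 285 (Ok.lf S256_285_364_512_ok c0)
  (Ok.lf S285_314_364_512_ok c2)))
  (Ok.s4 660 (Ok.s2 448 (Ok.lf S256_314_512_660_ok (bl (br c4)))
  (Ok.s3 285 (Ok.lf S256_285_512_660_ok (br (br c1)))
  (Ok.lf S285_314_512_660_ok (bl (br c1)))))
  (Ok.s2 448 (Ok.lf S256_314_660_808_ok (bl (br (br c4))))
  (Ok.s3 285 (Ok.lf S256_285_660_808_ok (bl c3))
  (Ok.lf S285_314_660_808_ok (bl c1))))))
  (Ok.s2 448 (Ok.lf S314_372_216_364_ok (bl c4))
  (Ok.s3 343 (Ok.lf S314_343_216_364_ok (bl (br c3)))
  (Ok.s1 32 (Ok.lf S343_372_216_364_ok (bl c6))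
  (Ok.lf S343_372_216_364_ok (br c6)))))))

end Vale.Agent.P098.Ck
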