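import Vale.Agent.P098.CkGd
import Vale.Agent.P098.CkOk
import Vale.Agent.P098.Sh.A12
import Vale.Agent.P098.Sh.A14
import Vale.Agent.P098.Sh.A15
import Vale.Agent.P098.Sh.A17
import Vale.Agent.P098.Sh.A20
import Vale.Agent.P098.Sh.A7
import Vale.Agent.P098.Sh.A8

namespace Vale.Agent.P098.Ck

theorem r41 :
    Ok Gd mult 64 128 96 128 384 512 140 169 216 364 ∧
    Ok Gd mult 0 128 96 128 384 512 169 198 216 364 :=
  have c0 : (go 16 Gd mult S169_183_290_364 (Tr.lf 13977798792 99183688 33517742144704579895296) 0 128 96 128 480 512) = true := by decide +kernel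
  have c1 : (go 16 Gd mult S183_198_216_364 (Tr.lf 13987514436 103390408 0) 96 128 96 112 480 512) = true := by decide +kernel
  have c2 : (go 16 Gd mult S183_198_216_364 (Tr.lf 13978077252 99060680 65504396649420688457728) 0 64 112 128 480 512) = true := by decide +kernel
  have c3 : (go 16 Gd mult S183_198_216_364 (Tr.lf 13986465860 95132616 0) 64 128 112 128 480 512) = true := by decide +kernel
  have c4 : (go 16 Gd mult S183_198_216_364 (Tr.lf 13987514434 99327176 54251874320779791302656) 64 96 96 112 480 512) = true := by decide +kernel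
  have c5 : (band (go 16 Gd mult S154_169_216_364 (Tr.lf 9683093572 99454023 31414805269643192696832) 64 128 96 128 448 512)
  (go 16 Gd mult S140_154_216_364 (Tr.lf 9137563714 95251527 0) 64 128 96 128 448 512)) = true := by decide +kernel
  have c6 : (band (go 16 Gd mult S169_183_216_290 (Tr.lf 13977797768 99183688 4630132762501097455616) 0 128 96 128 480 496)
  (band (go 16 Gd mult S169_183_216_290 (Tr.lf 13977797704 99048393 0) 0 128 96 128 448 480)
  (go 16 Gd mult S169_183_290_364 (Tr.lf 13977666632 99048393 0) 0 128 96 128 448 480))) = true := by decide +kernel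
  have c7 : (band (go 16 Gd mult S183_198_216_364 (Tr.lf 13986449476 103386184 0) 64 128 112 128 448 480)
  (band (go 16 Gd mult S183_198_216_364 (Tr.lf 13978060836 99183688 107415390741210719059968) 0 64 96 112 480 512)
  (go 16 Gd mult S183_198_216_364 (Tr.lf 13978059810 99056457 0) 0 64 112 128 448 480))) = true := by decide +kernel
  have c8 : (go 16 Gd mult S169_198_216_364 (Tr.lf 9136522308 99048264 0) 0 128 96 128 384 448) = true := by decide +kernel
  have c9 : (band (go 16 Gd mult S169_183_216_290 (Tr.lf 13977797700 99060680 6965937988010234515376046080) 0 64 96 128 496 512)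
  (go 16 Gd mult S169_183_216_290 (Tr.lf 13987234884 98929992 5714653002212866465841807360) 64 128 96 128 496 512)) = true := by decide +kernel
  have c10 : (go 16 Gd mult S140_169_216_364 (Tr.lf 9137570850 103504840 0) 64 128 96 128 384 448) = true := by decide +kernel
  have c11 : (band (go 16 Gd mult S183_198_216_364 (Tr.lf 9145951265 99454023 0) 96 128 96 112 448 480)
  (band (go 16 Gd mult S183_198_216_364 (Tr.lf 9145950753 103390279 0) 64 96 96 112 448 480)
  (go 16 Gd mult S183_198_216_364 (Tr.lf 9136513553 95116231 0) 0 64 96 112 448 480))) = true := by decide +kernel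
  (And.intro (Ok.s2 448 (Ok.lf S140_169_216_364_ok c10)
  (Ok.s3 154 (Ok.lf S140_154_216_364_ok (br c5))
  (Ok.lf S154_169_216_364_ok (bl c5))))
  (Ok.s2 448 (Ok.lf S169_198_216_364_ok c8)
  (Ok.s3 183 (Ok.s4 290 (Ok.s2 480 (Ok.lf S169_183_216_290_ok (bl (br c6)))
  (Ok.s2 496 (Ok.lf S169_183_216_290_ok (bl c6))
  (Ok.s0 64 (Ok.lf S169_183_216_290_ok (bl c9))
  (Ok.lf S169_183_216_290_ok (br c9)))))
  (Ok.s2 480 (Ok.lf S169_183_290_364_ok (br (br c6)))
  (Ok.lf S169_183_290_364_ok c0)))
  (Ok.s1 112 (Ok.s0 64 (Ok.s2 480 (Ok.lf S183_198_216_364_ok (br (br c11)))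
  (Ok.lf S183_198_216_364_ok (bl (br c7))))
  (Ok.s0 96 (Ok.s2 480 (Ok.lf S183_198_216_364_ok (bl (br c11)))
  (Ok.lf S183_198_216_364_ok c4))
  (Ok.s2 480 (Ok.lf S183_198_216_364_ok (bl c11))
  (Ok.lf S183_198_216_364_ok c1))))
  (Ok.s0 64 (Ok.s2 480 (Ok.lf S183_198_216_364_ok (br (br c7)))
  (Ok.lf S183_198_216_364_ok c2))
  (Ok.s2 480 (Ok.lf S183_198_216_364_ok (bl c7))
  (Ok.lf S183_198_216_364_ok c3)))))))

end Vale.Agent.P098.Ck
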