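import Vale.Agent.P098.CkGd
import Vale.Agent.P098.CkOk
import Vale.Agent.P098.Sh.A54
import Vale.Agent.P098.Sh.A55
import Vale.Agent.P098.Sh.A56
import Vale.Agent.P098.Sh.A57

namespace Vale.Agent.P098.Ck

theorem r411 :
    Ok Gd mult 256 384 0 64 384 512 372 430 216 364 ∧
    Ok Gd mult 256 384 0 64 384 512 372 430 364 512 ∧
    Ok Gd mult 256 384 0 64 384 512 372 430 512 660 :=
  have c0 : (band (go 16 Gd mult S372_430_364_512 (Tr.lf 1160939650 103779527 0) 256 384 0 64 384 448)
  (band (go 16 Gd mult S372_430_216_364 (Tr.lf 1160938625 99585223 0) 256 384 0 64 384 448)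
  (band (go 16 Gd mult S372_401_512_660 (Tr.lf 4850861186 99322823 0) 256 384 0 64 384 448)
  (band (go 16 Gd mult S401_430_512_660 (Tr.lf 1160856706 99851335 0) 256 384 0 64 384 448)
  (go 16 Gd mult S372_430_216_364 (Tr.lf 1161987202 95648713 0) 256 384 0 64 448 480))))) = true := by decide +kernel
  have c1 : (band (go 16 Gd mult S372_430_216_364 (Tr.lf 1766097538 91315401 0) 256 384 0 64 480 496)
  (band (go 16 Gd mult S372_401_512_660 (Tr.lf 556958338 108100679 0) 256 384 0 64 480 496)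
  (band (go 16 Gd mult S401_430_512_660 (Tr.lf 1774338434 91327561 0) 256 384 0 64 480 496)
  (band (go 16 Gd mult S401_430_364_512 (Tr.lf 1774338433 91327561 0) 256 384 0 64 480 496)
  (band (go 16 Gd mult S372_401_364_512 (Tr.lf 1169310018 99712072 0) 256 384 0 64 480 496)
  (band (go 16 Gd mult S372_401_512_660 (Tr.lf 555910274 103779398 0) 256 384 0 64 448 480)
  (go 16 Gd mult S401_430_364_512 (Tr.lf 1698775681 91188297 0) 256 384 0 64 448 480))))))) = true := by decide +kernel
  have c2 : (band (go 16 Gd mult S372_401_364_512 (Tr.lf 1237615234 104037449 1206472525388418319581483) 256 384 0 64 496 512)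
  (band (go 16 Gd mult S401_430_512_660 (Tr.lf 1774355074 91454537 1206472521998881667940603) 256 384 0 64 496 512)
  (band (go 16 Gd mult S372_401_216_364 (Tr.lf 1237467778 104037449 1206472503429135300297032) 256 384 0 64 496 512)
  (band (go 16 Gd mult S401_430_216_364 (Tr.lf 1774338690 91454537 1206472486845914381222187) 256 384 0 64 496 512)
  (go 16 Gd mult S401_430_364_512 (Tr.lf 1774338690 91454537 1206472494984963306488088) 256 384 0 64 496 512))))) = true := by decide +kernel
  have c3 : (go 16 Gd mult S372_401_512_660 (Tr.lf 1774354818 91458633 1206472543953466008273380) 256 384 0 64 504 512) = true := by decide +kernel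
  have c4 : (band (go 16 Gd mult S372_401_364_512 (Tr.lf 1169310338 99585096 0) 256 384 0 64 448 480)
  (go 16 Gd mult S401_430_512_660 (Tr.lf 1698775682 91188297 0) 256 384 0 64 448 480)) = true := by decide +kernel
  have c5 : (go 16 Gd mult S372_401_512_660 (Tr.lf 556941698 103906375 0) 256 384 0 64 496 504) = true := by decide +kernel
  (And.intro (Ok.s2 448 (Ok.lf S372_430_216_364_ok (bl (br c0)))
  (Ok.s2 480 (Ok.lf S372_430_216_364_ok (br (br (br (br c0)))))
  (Ok.s2 496 (Ok.lf S372_430_216_364_ok (bl c1))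
  (Ok.s3 401 (Ok.lf S372_401_216_364_ok (bl (br (br c2))))
  (Ok.lf S401_430_216_364_ok (bl (br (br (br c2)))))))))
  (And.intro (Ok.s2 448 (Ok.lf S372_430_364_512_ok (bl c0))
  (Ok.s2 480 (Ok.s3 401 (Ok.lf S372_401_364_512_ok (bl c4))
  (Ok.lf S401_430_364_512_ok (br (br (br (br (br (br c1))))))))
  (Ok.s2 496 (Ok.s3 401 (Ok.lf S372_401_364_512_ok (bl (br (br (br (br c1))))))
  (Ok.lf S401_430_364_512_ok (bl (br (br (br c1))))))
  (Ok.s3 401 (Ok.lf S372_401_364_512_ok (bl c2))
  (Ok.lf S401_430_364_512_ok (br (br (br (br c2)))))))))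
  (Ok.s2 448 (Ok.s3 401 (Ok.lf S372_401_512_660_ok (bl (br (br c0))))
  (Ok.lf S401_430_512_660_ok (bl (br (br (br c0))))))
  (Ok.s2 480 (Ok.s3 401 (Ok.lf S372_401_512_660_ok (bl (br (br (br (br (br c1)))))))
  (Ok.lf S401_430_512_660_ok (br c4)))
  (Ok.s2 496 (Ok.s3 401 (Ok.lf S372_401_512_660_ok (bl (br c1)))
  (Ok.lf S401_430_512_660_ok (bl (br (br c1)))))
  (Ok.s3 401 (Ok.s2 504 (Ok.lf S372_401_512_660_ok c5)
  (Ok.lf S372_401_512_660_ok c3))
  (Ok.lf S401_430_512_660_ok (bl (br c2)))))))))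

end Vale.Agent.P098.Ck
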