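import Vale.Agent.P098.CkGd
import Vale.Agent.P098.CkOk
import Vale.Agent.P098.Sh.A54
import Vale.Agent.P098.Sh.A57
import Vale.Agent.P098.Sh.A58
import Vale.Agent.P098.Sh.A59

namespace Vale.Agent.P098.Ck

theorem r412 :
    Ok Gd mult 256 384 0 64 384 448 372 430 660 808 ∧
    Ok Gd mult 256 384 0 64 448 512 372 430 660 808 ∧
    Ok Gd mult 256 384 0 64 384 512 430 488 216 512 ∧
    Ok Gd mult 256 384 0 64 384 512 430 488 512 660 :=
  have c0 : (band (go 16 Gd mult S401_430_660_808 (Tr.lf 1766099076 91188297 977529861954016559235072) 256 384 0 32 480 512)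
  (go 16 Gd mult S401_430_660_808 (Tr.lf 1774486594 87133257 1206472459792654104723551) 256 384 32 64 480 512)) = true := by decide +kernel
  have c1 : (band (go 16 Gd mult S372_401_660_808 (Tr.lf 1237616770 99843145 109739680494498122563584) 256 384 0 32 480 512)
  (band (go 16 Gd mult S372_401_660_808 (Tr.lf 4851008642 103644103 0) 256 384 0 64 448 480)
  (band (go 16 Gd mult S401_430_660_808 (Tr.lf 1698841730 90930249 0) 256 384 0 64 448 480)
  (go 16 Gd mult S430_488_216_364 (Tr.lf 1698792066 95259593 0) 256 384 0 64 448 480)))) = true := by decide +kernel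
  have c2 : (band (go 16 Gd mult S372_401_660_808 (Tr.lf 4850993282 99331142 0) 256 384 0 64 384 448)
  (band (go 16 Gd mult S401_430_660_808 (Tr.lf 1160922241 103914567 0) 256 384 0 64 384 448)
  (band (go 16 Gd mult S430_488_216_364 (Tr.lf 1153516673 107969353 0) 256 384 0 64 384 448)
  (band (go 16 Gd mult S430_488_364_512 (Tr.lf 1153516673 107969353 0) 256 384 0 64 384 448)
  (go 16 Gd mult S430_488_512_660 (Tr.lf 1153516673 103775049 0) 256 384 0 64 384 448))))) = true := by decide +kernel
  have c3 : (band (go 16 Gd mult S430_459_512_660 (Tr.lf 1765966978 91323592 1206472437898972414017661) 256 384 0 64 480 512)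
  (band (go 16 Gd mult S430_459_216_364 (Tr.lf 1765950594 95517896 1206472437870346465247357) 256 384 0 64 480 512)
  (band (go 16 Gd mult S430_459_364_512 (Tr.lf 1765950594 95517896 1206472437875715170041981) 256 384 0 64 480 512)
  (band (go 16 Gd mult S459_488_216_364 (Tr.lf 1765885058 95525960 1206472459792654221508703) 256 384 0 64 480 512)
  (band (go 16 Gd mult S459_488_364_512 (Tr.lf 1765885058 95525960 1206472459792654211285087) 256 384 0 64 480 512)
  (go 16 Gd mult S459_488_512_660 (Tr.lf 1765885058 95525960 1206472459792654190968927) 256 384 0 64 480 512)))))) = true := by decide +kernel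
  have c4 : (go 16 Gd mult S372_401_660_808 (Tr.lf 1161069634 91331655 1142960262807043818127360) 256 384 32 64 480 512) = true := by decide +kernel
  have c5 : (band (go 16 Gd mult S430_488_364_512 (Tr.lf 1698792066 95259593 0) 256 384 0 64 448 480)
  (go 16 Gd mult S430_488_512_660 (Tr.lf 1698792066 95259593 0) 256 384 0 64 448 480)) = true := by decide +kernel
  (And.intro (Ok.s3 401 (Ok.lf S372_401_660_808_ok (bl c2))
  (Ok.lf S401_430_660_808_ok (bl (br c2))))
  (And.intro (Ok.s2 480 (Ok.s3 401 (Ok.lf S372_401_660_808_ok (bl (br c1)))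
  (Ok.lf S401_430_660_808_ok (bl (br (br c1)))))
  (Ok.s1 32 (Ok.s3 401 (Ok.lf S372_401_660_808_ok (bl c1))
  (Ok.lf S401_430_660_808_ok (bl c0)))
  (Ok.s3 401 (Ok.lf S372_401_660_808_ok c4)
  (Ok.lf S401_430_660_808_ok (br c0)))))
  (And.intro (Ok.s4 364 (Ok.s2 448 (Ok.lf S430_488_216_364_ok (bl (br (br c2))))
  (Ok.s2 480 (Ok.lf S430_488_216_364_ok (br (br (br c1))))
  (Ok.s3 459 (Ok.lf S430_459_216_364_ok (bl (br c3)))
  (Ok.lf S459_488_216_364_ok (bl (br (br (br c3))))))))
  (Ok.s2 448 (Ok.lf S430_488_364_512_ok (bl (br (br (br c2)))))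
  (Ok.s2 480 (Ok.lf S430_488_364_512_ok (bl c5))
  (Ok.s3 459 (Ok.lf S430_459_364_512_ok (bl (br (br c3))))
  (Ok.lf S459_488_364_512_ok (bl (br (br (br (br c3))))))))))
  (Ok.s2 448 (Ok.lf S430_488_512_660_ok (br (br (br (br c2)))))
  (Ok.s2 480 (Ok.lf S430_488_512_660_ok (br c5))
  (Ok.s3 459 (Ok.lf S430_459_512_660_ok (bl c3))
  (Ok.lf S459_488_512_660_ok (br (br (br (br (br c3))))))))))))

end Vale.Agent.P098.Ck
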