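import Vale.Agent.P098.CkGd
import Vale.Agent.P098.CkOk
import Vale.Agent.P098.Sh.A0
import Vale.Agent.P098.Sh.A1
import Vale.Agent.P098.Sh.A3
import Vale.Agent.P098.Sh.A4
import Vale.Agent.P098.Sh.A58
import Vale.Agent.P098.Sh.A59

namespace Vale.Agent.P098.Ck

theorem r413 :
    Ok Gd mult 256 384 0 64 384 512 430 488 660 808 ∧
    Ok Gd mult 256 384 64 128 0 128 24 140 216 808 :=
  have c0 : (band (go 16 Gd mult S82_140_216_364 (Tr.lf 13424166984 95107912 0) 256 384 96 128 0 128)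
  (band (go 16 Gd mult S24_82_216_364 (Tr.lf 9127938116 112290757 0) 256 384 96 128 0 128)
  (go 16 Gd mult S24_82_364_512 (Tr.lf 9127938116 112290757 0) 256 384 96 128 0 128))) = true := by decide +kernel
  have c1 : (band (go 16 Gd mult S82_140_364_512 (Tr.lf 12886116424 86850120 0) 256 384 96 128 0 128)
  (band (go 16 Gd mult S82_140_512_660 (Tr.lf 12886116424 90786376 0) 256 384 96 128 0 128)
  (go 16 Gd mult S24_82_512_660 (Tr.lf 9127937060 108096453 0) 256 384 96 128 0 128))) = true := by decide +kernel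
  have c2 : (band (go 16 Gd mult S82_140_660_808 (Tr.lf 12886116424 90786631 0) 256 384 96 128 0 128)
  (band (go 16 Gd mult S24_82_660_808 (Tr.lf 9127937060 108096453 0) 256 384 96 128 0 128)
  (band (go 16 Gd mult S82_140_660_808 (Tr.lf 4842488900 112168133 0) 256 384 64 96 0 128)
  (band (go 16 Gd mult S24_82_660_808 (Tr.lf 9130034242 95382471 0) 256 384 64 96 0 128)
  (go 16 Gd mult S24_82_216_364 (Tr.lf 9130034242 95382471 0) 256 384 64 96 0 128))))) = true := by decide +kernel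
  have c3 : (band (go 16 Gd mult S82_140_216_364 (Tr.lf 4842620996 103779525 0) 256 384 64 96 0 128)
  (band (go 16 Gd mult S82_140_364_512 (Tr.lf 4842488900 107973829 0) 256 384 64 96 0 128)
  (band (go 16 Gd mult S82_140_512_660 (Tr.lf 4842488900 107973829 0) 256 384 64 96 0 128)
  (go 16 Gd mult S24_82_364_512 (Tr.lf 9130034242 95382471 0) 256 384 64 96 0 128)))) = true := by decide +kernel
  have c4 : (band (go 16 Gd mult S430_459_660_808 (Tr.lf 1765966978 87260360 1206472429393356630196349) 256 384 0 64 480 512)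
  (go 16 Gd mult S459_488_660_808 (Tr.lf 1765885058 95525960 1206472459792654181531743) 256 384 0 64 480 512)) = true := by decide +kernel
  have c5 : (band (go 16 Gd mult S430_488_660_808 (Tr.lf 1153533058 99711817 0) 256 384 0 64 384 448)
  (go 16 Gd mult S430_488_660_808 (Tr.lf 1698792066 95259593 0) 256 384 0 64 448 480)) = true := by decide +kernel
  have c6 : (go 16 Gd mult S24_82_512_660 (Tr.lf 9130034242 95382471 0) 256 384 64 96 0 128) = true := by decide +kernel
  (And.intro (Ok.s2 448 (Ok.lf S430_488_660_808_ok (bl c5))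
  (Ok.s2 480 (Ok.lf S430_488_660_808_ok (br c5))
  (Ok.s3 459 (Ok.lf S430_459_660_808_ok (bl c4))
  (Ok.lf S459_488_660_808_ok (br c4)))))
  (Ok.s3 82 (Ok.s4 512 (Ok.s4 364 (Ok.s1 96 (Ok.lf S24_82_216_364_ok (br (br (br (br c2)))))
  (Ok.lf S24_82_216_364_ok (bl (br c0))))
  (Ok.s1 96 (Ok.lf S24_82_364_512_ok (br (br (br c3))))
  (Ok.lf S24_82_364_512_ok (br (br c0)))))
  (Ok.s4 660 (Ok.s1 96 (Ok.lf S24_82_512_660_ok c6)
  (Ok.lf S24_82_512_660_ok (br (br c1))))
  (Ok.s1 96 (Ok.lf S24_82_660_808_ok (bl (br (br (br c2)))))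
  (Ok.lf S24_82_660_808_ok (bl (br c2))))))
  (Ok.s4 512 (Ok.s4 364 (Ok.s1 96 (Ok.lf S82_140_216_364_ok (bl c3))
  (Ok.lf S82_140_216_364_ok (bl c0)))
  (Ok.s1 96 (Ok.lf S82_140_364_512_ok (bl (br c3)))
  (Ok.lf S82_140_364_512_ok (bl c1))))
  (Ok.s4 660 (Ok.s1 96 (Ok.lf S82_140_512_660_ok (bl (br (br c3))))
  (Ok.lf S82_140_512_660_ok (bl (br c1))))
  (Ok.s1 96 (Ok.lf S82_140_660_808_ok (bl (br (br c2))))
  (Ok.lf S82_140_660_808_ok (bl c2)))))))

end Vale.Agent.P098.Ck
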