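import Vale.Agent.P098.CkGd
import Vale.Agent.P098.CkOk
import Vale.Agent.P098.Sh.A10
import Vale.Agent.P098.Sh.A11
import Vale.Agent.P098.Sh.A17
import Vale.Agent.P098.Sh.A18
import Vale.Agent.P098.Sh.A19
import Vale.Agent.P098.Sh.A25
import Vale.Agent.P098.Sh.A26
import Vale.Agent.P098.Sh.A27
import Vale.Agent.P098.Sh.A36
import Vale.Agent.P098.Sh.A37
import Vale.Agent.P098.Sh.A8
import Vale.Agent.P098.Sh.A9

namespace Vale.Agent.P098.Ck

theorem r414 :
    Ok Gd mult 256 384 64 128 0 128 140 198 216 364 ∧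
    Ok Gd mult 256 384 64 128 0 128 140 198 364 512 ∧
    Ok Gd mult 256 384 64 128 0 128 140 198 512 808 ∧
    Ok Gd mult 256 384 64 128 0 128 198 256 216 512 ∧
    Ok Gd mult 256 384 64 128 0 128 198 256 512 660 :=
  have c0 : (go 16 Gd mult S169_198_216_364 (Tr.lf 8591263880 99834695 0) 256 384 64 128 0 128) = true := by decide +kernel
  have c1 : (go 16 Gd mult S169_198_364_512 (Tr.lf 12886231176 95238729 0) 256 384 64 128 0 128) = true := by decide +kernel
  have c2 : (go 16 Gd mult S140_169_512_660 (Tr.lf 12886231176 95107529 0) 256 384 64 128 0 128) = true := by decide +kernel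
  have c3 : (go 16 Gd mult S169_198_512_660 (Tr.lf 12885182600 94976329 0) 256 384 64 128 0 128) = true := by decide +kernel
  have c4 : (go 16 Gd mult S198_227_364_512 (Tr.lf 8590477384 108088007 0) 256 384 64 128 0 128) = true := by decide +kernel
  have c5 : (band (go 16 Gd mult S140_169_216_364 (Tr.lf 12886231172 90782408 0) 256 320 64 128 0 128)
  (band (go 16 Gd mult S140_169_364_512 (Tr.lf 12886100100 94976712 0) 256 320 64 128 0 128)
  (go 16 Gd mult S227_256_364_512 (Tr.lf 12885182532 95242824 0) 256 320 64 128 0 128))) = true := by decide +kernel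
  have c6 : (band (go 16 Gd mult S198_227_216_364 (Tr.lf 13497813060 107960777 0) 256 384 64 128 0 128)
  (go 16 Gd mult S227_256_216_364 (Tr.lf 13497813060 99703241 0) 256 384 64 128 0 128)) = true := by decide +kernel
  have c7 : (band (go 16 Gd mult S140_198_660_808 (Tr.lf 12885198884 95107783 0) 256 320 96 128 0 128)
  (go 16 Gd mult S140_198_660_808 (Tr.lf 8591279138 99445702 0) 320 384 96 128 0 128)) = true := by decide +kernel
  have c8 : (band (go 16 Gd mult S198_227_512_660 (Tr.lf 12893571112 95115848 0) 256 384 96 128 0 128)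
  (go 16 Gd mult S227_256_512_660 (Tr.lf 12893571112 95115848 0) 256 384 96 128 0 128)) = true := by decide +kernel
  have c9 : (band (go 16 Gd mult S140_198_660_808 (Tr.lf 8599536676 99449798 0) 256 384 64 96 0 128)
  (band (go 16 Gd mult S227_256_512_660 (Tr.lf 8598594596 99318343 0) 256 384 64 96 0 128)
  (go 16 Gd mult S198_227_512_660 (Tr.lf 8598463524 95124039 0) 256 384 64 96 0 128))) = true := by decide +kernel
  have c10 : (band (go 16 Gd mult S140_169_216_364 (Tr.lf 9137570882 103775175 0) 320 384 64 128 0 128)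
  (band (go 16 Gd mult S140_169_364_512 (Tr.lf 4842472514 99589190 0) 320 384 64 128 0 128)
  (go 16 Gd mult S227_256_364_512 (Tr.lf 8590206018 99707463 0) 320 384 64 128 0 128))) = true := by decide +kernel
  (And.intro (Ok.s3 169 (Ok.s0 320 (Ok.lf S140_169_216_364_ok (bl c5))
  (Ok.lf S140_169_216_364_ok (bl c10)))
  (Ok.lf S169_198_216_364_ok c0))
  (And.intro (Ok.s3 169 (Ok.s0 320 (Ok.lf S140_169_364_512_ok (bl (br c5)))
  (Ok.lf S140_169_364_512_ok (bl (br c10))))
  (Ok.lf S169_198_364_512_ok c1))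
  (And.intro (Ok.s4 660 (Ok.s3 169 (Ok.lf S140_169_512_660_ok c2)
  (Ok.lf S169_198_512_660_ok c3))
  (Ok.s1 96 (Ok.lf S140_198_660_808_ok (bl c9))
  (Ok.s0 320 (Ok.lf S140_198_660_808_ok (bl c7))
  (Ok.lf S140_198_660_808_ok (br c7)))))
  (And.intro (Ok.s4 364 (Ok.s3 227 (Ok.lf S198_227_216_364_ok (bl c6))
  (Ok.lf S227_256_216_364_ok (br c6)))
  (Ok.s3 227 (Ok.lf S198_227_364_512_ok c4)
  (Ok.s0 320 (Ok.lf S227_256_364_512_ok (br (br c5)))
  (Ok.lf S227_256_364_512_ok (br (br c10))))))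
  (Ok.s3 227 (Ok.s1 96 (Ok.lf S198_227_512_660_ok (br (br c9)))
  (Ok.lf S198_227_512_660_ok (bl c8)))
  (Ok.s1 96 (Ok.lf S227_256_512_660_ok (bl (br c9)))
  (Ok.lf S227_256_512_660_ok (br c8))))))))

end Vale.Agent.P098.Ck
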