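import Vale.Agent.P098.CkGd
import Vale.Agent.P098.CkOk
import Vale.Agent.P098.Sh.A27
import Vale.Agent.P098.Sh.A38
import Vale.Agent.P098.Sh.A41
import Vale.Agent.P098.Sh.A42
import Vale.Agent.P098.Sh.A45
import Vale.Agent.P098.Sh.A46
import Vale.Agent.P098.Sh.A48
import Vale.Agent.P098.Sh.A49
import Vale.Agent.P098.Sh.A51

namespace Vale.Agent.P098.Ck

theorem r415 :
    Ok Gd mult 256 384 64 128 0 128 198 256 660 808 ∧
    Ok Gd mult 256 384 64 128 0 128 256 314 216 808 ∧
    Ok Gd mult 256 384 64 128 0 128 314 372 216 512 :=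
  have c0 : (go 16 Gd mult S256_285_660_808 (Tr.lf 12893833348 86727112 0) 256 384 64 128 0 128) = true := by decide +kernel
  have c1 : (go 16 Gd mult S285_314_660_808 (Tr.lf 12893571208 90790599 0) 256 384 64 128 0 128) = true := by decide +kernel
  have c2 : (go 16 Gd mult S314_343_364_512 (Tr.lf 12885182600 94976584 0) 256 384 64 128 0 128) = true := by decide +kernel
  have c3 : (band (go 16 Gd mult S343_372_364_512 (Tr.lf 12885051528 91052488 0) 256 384 64 128 0 128)
  (go 16 Gd mult S256_285_216_364 (Tr.lf 8590477380 104024775 0) 256 384 64 128 0 128)) = true := by decide +kernel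
  have c4 : (go 16 Gd mult S285_314_216_364 (Tr.lf 12885182536 95238728 0) 256 384 64 128 0 128) = true := by decide +kernel
  have c5 : (band (go 16 Gd mult S256_285_364_512 (Tr.lf 12885443656 99306056 0) 256 384 64 128 0 64)
  (band (go 16 Gd mult S198_227_660_808 (Tr.lf 12885181512 94980552 0) 256 384 64 128 0 64)
  (go 16 Gd mult S285_314_512_660 (Tr.lf 12885181512 91044296 0) 256 384 64 128 0 64))) = true := by decide +kernel
  have c6 : (band (go 16 Gd mult S227_256_660_808 (Tr.lf 12893571112 90794440 0) 256 384 96 128 0 128)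
  (band (go 16 Gd mult S256_285_512_660 (Tr.lf 12893571112 95111752 0) 256 384 96 128 0 128)
  (go 16 Gd mult S314_372_216_364 (Tr.lf 12885198884 95115720 0) 256 384 96 128 0 128))) = true := by decide +kernel
  have c7 : (go 16 Gd mult S285_314_364_512 (Tr.lf 12885182532 95234632 0) 256 320 64 128 0 128) = true := by decide +kernel
  have c8 : (band (go 16 Gd mult S256_285_364_512 (Tr.lf 8598602308 103778887 0) 256 384 64 128 64 128)
  (band (go 16 Gd mult S285_314_512_660 (Tr.lf 8598602308 99453638 0) 256 384 64 128 64 128)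
  (go 16 Gd mult S198_227_660_808 (Tr.lf 8598594116 99445574 0) 256 384 64 128 64 128))) = true := by decide +kernel
  have c9 : (band (go 16 Gd mult S227_256_660_808 (Tr.lf 8598594594 99449542 0) 256 384 64 96 0 128)
  (band (go 16 Gd mult S314_372_216_364 (Tr.lf 8590083106 99445446 0) 256 384 64 96 0 128)
  (go 16 Gd mult S256_285_512_660 (Tr.lf 8598463524 99314502 0) 256 384 64 96 0 128))) = true := by decide +kernel
  have c10 : (go 16 Gd mult S285_314_364_512 (Tr.lf 8598463554 99707718 0) 320 384 64 128 0 128) = true := by decide +kernel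
  (And.intro (Ok.s3 227 (Ok.s2 64 (Ok.lf S198_227_660_808_ok (bl (br c5)))
  (Ok.lf S198_227_660_808_ok (br (br c8))))
  (Ok.s1 96 (Ok.lf S227_256_660_808_ok (bl c9))
  (Ok.lf S227_256_660_808_ok (bl c6))))
  (And.intro (Ok.s4 512 (Ok.s4 364 (Ok.s3 285 (Ok.lf S256_285_216_364_ok (br c3))
  (Ok.lf S285_314_216_364_ok c4))
  (Ok.s3 285 (Ok.s2 64 (Ok.lf S256_285_364_512_ok (bl c5))
  (Ok.lf S256_285_364_512_ok (bl c8)))
  (Ok.s0 320 (Ok.lf S285_314_364_512_ok c7)
  (Ok.lf S285_314_364_512_ok c10))))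
  (Ok.s4 660 (Ok.s3 285 (Ok.s1 96 (Ok.lf S256_285_512_660_ok (br (br c9)))
  (Ok.lf S256_285_512_660_ok (bl (br c6))))
  (Ok.s2 64 (Ok.lf S285_314_512_660_ok (br (br c5)))
  (Ok.lf S285_314_512_660_ok (bl (br c8)))))
  (Ok.s3 285 (Ok.lf S256_285_660_808_ok c0)
  (Ok.lf S285_314_660_808_ok c1))))
  (Ok.s4 364 (Ok.s1 96 (Ok.lf S314_372_216_364_ok (bl (br c9)))
  (Ok.lf S314_372_216_364_ok (br (br c6))))
  (Ok.s3 343 (Ok.lf S314_343_364_512_ok c2)
  (Ok.lf S343_372_364_512_ok (bl c3))))))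

end Vale.Agent.P098.Ck
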