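import Vale.Agent.P098.CkGd
import Vale.Agent.P098.CkOk
import Vale.Agent.P098.Sh.A0
import Vale.Agent.P098.Sh.A1
import Vale.Agent.P098.Sh.A48
import Vale.Agent.P098.Sh.A49
import Vale.Agent.P098.Sh.A52
import Vale.Agent.P098.Sh.A54
import Vale.Agent.P098.Sh.A55
import Vale.Agent.P098.Sh.A57
import Vale.Agent.P098.Sh.A58
import Vale.Agent.P098.Sh.A59

namespace Vale.Agent.P098.Ck

theorem r416 :
    Ok Gd mult 256 384 64 128 0 128 314 372 512 660 ∧
    Ok Gd mult 256 384 64 128 0 128 314 372 660 808 ∧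
    Ok Gd mult 256 384 64 128 0 128 372 488 216 808 ∧
    Ok Gd mult 256 384 64 128 128 256 24 82 216 512 :=
  have c0 : (band (go 16 Gd mult S372_430_364_512 (Tr.lf 8590100616 103770950 0) 256 384 64 128 0 128)
  (go 16 Gd mult S372_401_512_660 (Tr.lf 12885051464 90917448 0) 256 384 64 128 0 128)) = true := by decide +kernel
  have c1 : (band (go 16 Gd mult S24_82_364_512 (Tr.lf 13961955464 103496776 0) 256 384 96 128 128 256)
  (go 16 Gd mult S53_82_216_364 (Tr.lf 9674311748 99318727 0) 256 384 96 128 128 256)) = true := by decide +kernel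
  have c2 : (band (go 16 Gd mult S314_343_512_660 (Tr.lf 12893571208 90925512 0) 256 384 64 128 0 128)
  (band (go 16 Gd mult S430_488_216_364 (Tr.lf 8591083588 108231622 0) 256 384 64 128 0 128)
  (go 16 Gd mult S401_430_512_660 (Tr.lf 8590017604 103770950 0) 256 384 64 128 0 128))) = true := by decide +kernel
  have c3 : (band (go 16 Gd mult S343_372_512_660 (Tr.lf 12893571208 86866376 0) 256 384 64 128 0 128)
  (go 16 Gd mult S430_488_364_512 (Tr.lf 8591083588 108231622 0) 256 384 64 128 0 128)) = true := by decide +kernel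
  have c4 : (band (go 16 Gd mult S343_372_660_808 (Tr.lf 12893571208 90929608 0) 256 384 64 128 0 128)
  (go 16 Gd mult S430_488_512_660 (Tr.lf 8591083588 108231622 0) 256 384 64 128 0 128)) = true := by decide +kernel
  have c5 : (band (go 16 Gd mult S372_430_216_364 (Tr.lf 8590100552 104037062 0) 256 384 64 128 0 128)
  (go 16 Gd mult S430_488_660_808 (Tr.lf 8591083588 108231622 0) 256 384 64 128 0 128)) = true := by decide +kernel
  have c6 : (band (go 16 Gd mult S372_430_660_808 (Tr.lf 12885067816 95377864 0) 256 384 96 128 0 128)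
  (band (go 16 Gd mult S314_343_660_808 (Tr.lf 12893571112 86858439 0) 256 384 96 128 0 128)
  (band (go 16 Gd mult S372_430_660_808 (Tr.lf 8598488100 95394502 0) 256 384 64 96 0 128)
  (go 16 Gd mult S314_343_660_808 (Tr.lf 8599512100 95390534 0) 256 384 64 96 0 128)))) = true := by decide +kernel
  have c7 : (go 16 Gd mult S24_53_216_364 (Tr.lf 13961873476 99302472 0) 256 384 96 128 128 256) = true := by decide +kernel
  have c8 : (band (go 16 Gd mult S24_82_216_364 (Tr.lf 1076970562 95374407 0) 256 384 64 96 128 256)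
  (go 16 Gd mult S24_82_364_512 (Tr.lf 1076970562 95374407 0) 256 384 64 96 128 256)) = true := by decide +kernel
  (And.intro (Ok.s3 343 (Ok.lf S314_343_512_660_ok (bl c2))
  (Ok.lf S343_372_512_660_ok (bl c3)))
  (And.intro (Ok.s3 343 (Ok.s1 96 (Ok.lf S314_343_660_808_ok (br (br (br c6))))
  (Ok.lf S314_343_660_808_ok (bl (br c6))))
  (Ok.lf S343_372_660_808_ok (bl c4)))
  (And.intro (Ok.s3 430 (Ok.s4 512 (Ok.s4 364 (Ok.lf S372_430_216_364_ok (bl c5))
  (Ok.lf S372_430_364_512_ok (bl c0)))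
  (Ok.s4 660 (Ok.s3 401 (Ok.lf S372_401_512_660_ok (br c0))
  (Ok.lf S401_430_512_660_ok (br (br c2))))
  (Ok.s1 96 (Ok.lf S372_430_660_808_ok (bl (br (br c6))))
  (Ok.lf S372_430_660_808_ok (bl c6)))))
  (Ok.s4 512 (Ok.s4 364 (Ok.lf S430_488_216_364_ok (bl (br c2)))
  (Ok.lf S430_488_364_512_ok (br c3)))
  (Ok.s4 660 (Ok.lf S430_488_512_660_ok (br c4))
  (Ok.lf S430_488_660_808_ok (br c5)))))
  (Ok.s4 364 (Ok.s1 96 (Ok.lf S24_82_216_364_ok (bl c8))
  (Ok.s3 53 (Ok.lf S24_53_216_364_ok c7)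
  (Ok.lf S53_82_216_364_ok (br c1))))
  (Ok.s1 96 (Ok.lf S24_82_364_512_ok (br c8))
  (Ok.lf S24_82_364_512_ok (bl c1)))))))

end Vale.Agent.P098.Ck
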