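import Vale.Agent.P098.CkGd
import Vale.Agent.P098.CkOk
import Vale.Agent.P098.Sh.A1
import Vale.Agent.P098.Sh.A10
import Vale.Agent.P098.Sh.A17
import Vale.Agent.P098.Sh.A18
import Vale.Agent.P098.Sh.A19
import Vale.Agent.P098.Sh.A2
import Vale.Agent.P098.Sh.A3
import Vale.Agent.P098.Sh.A5
import Vale.Agent.P098.Sh.A6
import Vale.Agent.P098.Sh.A8
import Vale.Agent.P098.Sh.A9

namespace Vale.Agent.P098.Ck

theorem r417 :
    Ok Gd mult 256 384 64 128 128 256 24 82 512 808 ∧
    Ok Gd mult 256 384 64 128 128 256 82 140 216 808 ∧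
    Ok Gd mult 256 384 64 128 128 256 140 198 216 808 :=
  have c0 : (go 16 Gd mult S24_82_512_660 (Tr.lf 13961955464 103496776 0) 256 384 96 128 128 256) = true := by decide +kernel
  have c1 : (go 16 Gd mult S24_82_660_808 (Tr.lf 13961955464 103496776 0) 256 384 96 128 128 256) = true := by decide +kernel
  have c2 : (band (go 16 Gd mult S82_111_216_364 (Tr.lf 9137457284 103381959 0) 256 384 64 128 128 256)
  (band (go 16 Gd mult S140_169_216_364 (Tr.lf 9137571972 103508808 0) 256 384 64 128 128 256)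
  (go 16 Gd mult S169_198_216_364 (Tr.lf 4304684100 104041414 0) 256 384 64 128 128 256))) = true := by decide +kernel
  have c3 : (band (go 16 Gd mult S82_111_364_512 (Tr.lf 9137440900 103381959 0) 256 384 64 128 128 256)
  (band (go 16 Gd mult S82_111_512_660 (Tr.lf 9137440900 103381959 0) 256 384 64 128 128 256)
  (band (go 16 Gd mult S82_111_660_808 (Tr.lf 9137440900 103381959 0) 256 384 64 128 128 256)
  (go 16 Gd mult S140_169_512_660 (Tr.lf 4304553028 103779397 0) 256 384 64 128 128 256)))) = true := by decide +kernel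
  have c4 : (band (go 16 Gd mult S111_140_216_364 (Tr.lf 9137570948 103373895 0) 256 384 64 128 128 256)
  (band (go 16 Gd mult S111_140_364_512 (Tr.lf 9137439876 99310663 0) 256 384 64 128 128 256)
  (band (go 16 Gd mult S111_140_512_660 (Tr.lf 9137439876 103504967 0) 256 384 64 128 128 256)
  (band (go 16 Gd mult S111_140_660_808 (Tr.lf 9137439876 103504967 0) 256 384 64 128 128 256)
  (go 16 Gd mult S169_198_512_660 (Tr.lf 4304553028 108100805 0) 256 384 64 128 128 256))))) = true := by decide +kernel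
  have c5 : (band (go 16 Gd mult S140_169_364_512 (Tr.lf 9137439876 107703112 0) 256 384 64 128 128 256)
  (band (go 16 Gd mult S140_169_660_808 (Tr.lf 4304553028 103779397 0) 256 384 64 128 128 256)
  (band (go 16 Gd mult S169_198_364_512 (Tr.lf 4304553026 104168390 0) 256 384 64 128 128 256)
  (go 16 Gd mult S169_198_660_808 (Tr.lf 4304675906 108104773 0) 256 384 64 128 128 256)))) = true := by decide +kernel
  have c6 : (band (go 16 Gd mult S24_82_512_660 (Tr.lf 1076970562 95374407 0) 256 384 64 96 128 256)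
  (go 16 Gd mult S24_82_660_808 (Tr.lf 1076970562 95374407 0) 256 384 64 96 128 256)) = true := by decide +kernel
  (And.intro (Ok.s4 660 (Ok.s1 96 (Ok.lf S24_82_512_660_ok (bl c6))
  (Ok.lf S24_82_512_660_ok c0))
  (Ok.s1 96 (Ok.lf S24_82_660_808_ok (br c6))
  (Ok.lf S24_82_660_808_ok c1)))
  (And.intro (Ok.s4 512 (Ok.s4 364 (Ok.s3 111 (Ok.lf S82_111_216_364_ok (bl c2))
  (Ok.lf S111_140_216_364_ok (bl c4)))
  (Ok.s3 111 (Ok.lf S82_111_364_512_ok (bl c3))
  (Ok.lf S111_140_364_512_ok (bl (br c4)))))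
  (Ok.s4 660 (Ok.s3 111 (Ok.lf S82_111_512_660_ok (bl (br c3)))
  (Ok.lf S111_140_512_660_ok (bl (br (br c4)))))
  (Ok.s3 111 (Ok.lf S82_111_660_808_ok (bl (br (br c3))))
  (Ok.lf S111_140_660_808_ok (bl (br (br (br c4))))))))
  (Ok.s4 512 (Ok.s4 364 (Ok.s3 169 (Ok.lf S140_169_216_364_ok (bl (br c2)))
  (Ok.lf S169_198_216_364_ok (br (br c2))))
  (Ok.s3 169 (Ok.lf S140_169_364_512_ok (bl c5))
  (Ok.lf S169_198_364_512_ok (bl (br (br c5))))))
  (Ok.s4 660 (Ok.s3 169 (Ok.lf S140_169_512_660_ok (br (br (br c3))))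
  (Ok.lf S169_198_512_660_ok (br (br (br (br c4))))))
  (Ok.s3 169 (Ok.lf S140_169_660_808_ok (bl (br c5)))
  (Ok.lf S169_198_660_808_ok (br (br (br c5)))))))))

end Vale.Agent.P098.Ck
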