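import Vale.Agent.P098.CkGd
import Vale.Agent.P098.CkOk
import Vale.Agent.P098.Sh.A25
import Vale.Agent.P098.Sh.A26
import Vale.Agent.P098.Sh.A29
import Vale.Agent.P098.Sh.A36
import Vale.Agent.P098.Sh.A37
import Vale.Agent.P098.Sh.A41
import Vale.Agent.P098.Sh.A42
import Vale.Agent.P098.Sh.A45
import Vale.Agent.P098.Sh.A46
import Vale.Agent.P098.Sh.A47
import Vale.Agent.P098.Sh.A48
import Vale.Agent.P098.Sh.A51

namespace Vale.Agent.P098.Ck

theorem r418 :
    Ok Gd mult 256 384 64 128 128 256 198 256 216 512 ∧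
    Ok Gd mult 256 384 64 128 128 256 198 256 512 808 ∧
    Ok Gd mult 256 384 64 128 128 256 256 314 216 808 ∧
    Ok Gd mult 256 384 64 128 128 256 314 372 216 512 :=
  have c0 : (band (go 16 Gd mult S198_256_512_660 (Tr.lf 4303652996 104172357 0) 256 384 64 128 128 256)
  (band (go 16 Gd mult S343_372_216_364 (Tr.lf 8599521348 103775047 0) 256 384 64 128 128 256)
  (go 16 Gd mult S285_314_216_364 (Tr.lf 4303627332 104168389 0) 256 384 64 128 128 256))) = true := by decide +kernel
  have c1 : (band (go 16 Gd mult S198_256_660_808 (Tr.lf 4303652996 104037189 0) 256 384 64 128 128 256)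
  (band (go 16 Gd mult S343_372_364_512 (Tr.lf 8599520388 103775047 0) 256 384 64 128 128 256)
  (go 16 Gd mult S285_314_364_512 (Tr.lf 8598594628 99449415 0) 256 384 64 128 128 256))) = true := by decide +kernel
  have c2 : (band (go 16 Gd mult S256_285_512_660 (Tr.lf 4303627332 107977541 0) 256 384 64 128 128 256)
  (band (go 16 Gd mult S285_314_512_660 (Tr.lf 8598594628 99314247 0) 256 384 64 128 128 256)
  (band (go 16 Gd mult S285_314_660_808 (Tr.lf 8598602818 90925639 0) 256 384 64 128 128 256)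
  (band (go 16 Gd mult S314_343_216_364 (Tr.lf 8599643204 99449671 0) 256 384 64 128 128 256)
  (band (go 16 Gd mult S314_343_364_512 (Tr.lf 8598471748 99576391 0) 256 384 64 128 128 256)
  (band (go 16 Gd mult S198_227_216_364 (Tr.lf 4303635490 108231494 0) 256 384 64 128 128 256)
  (go 16 Gd mult S227_256_216_364 (Tr.lf 4295238722 108231366 0) 256 384 64 128 128 256))))))) = true := by decide +kernel
  have c3 : (band (go 16 Gd mult S198_227_364_512 (Tr.lf 4295115842 104164038 0) 256 384 64 128 128 256)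
  (band (go 16 Gd mult S227_256_364_512 (Tr.lf 4303627330 104172230 0) 256 384 64 128 128 256)
  (band (go 16 Gd mult S256_285_216_364 (Tr.lf 4295238722 99843013 0) 256 384 64 128 128 256)
  (band (go 16 Gd mult S256_285_364_512 (Tr.lf 4303627330 104041413 0) 256 384 64 128 128 256)
  (go 16 Gd mult S256_285_660_808 (Tr.lf 8598594626 99183175 0) 256 384 64 128 128 256))))) = true := by decide +kernel
  (And.intro (Ok.s4 364 (Ok.s3 227 (Ok.lf S198_227_216_364_ok (bl (br (br (br (br (br c2)))))))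
  (Ok.lf S227_256_216_364_ok (br (br (br (br (br (br c2))))))))
  (Ok.s3 227 (Ok.lf S198_227_364_512_ok (bl c3))
  (Ok.lf S227_256_364_512_ok (bl (br c3)))))
  (And.intro (Ok.s4 660 (Ok.lf S198_256_512_660_ok (bl c0))
  (Ok.lf S198_256_660_808_ok (bl c1)))
  (And.intro (Ok.s4 512 (Ok.s4 364 (Ok.s3 285 (Ok.lf S256_285_216_364_ok (bl (br (br c3))))
  (Ok.lf S285_314_216_364_ok (br (br c0))))
  (Ok.s3 285 (Ok.lf S256_285_364_512_ok (bl (br (br (br c3)))))
  (Ok.lf S285_314_364_512_ok (br (br c1)))))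
  (Ok.s4 660 (Ok.s3 285 (Ok.lf S256_285_512_660_ok (bl c2))
  (Ok.lf S285_314_512_660_ok (bl (br c2))))
  (Ok.s3 285 (Ok.lf S256_285_660_808_ok (br (br (br (br c3)))))
  (Ok.lf S285_314_660_808_ok (bl (br (br c2)))))))
  (Ok.s4 364 (Ok.s3 343 (Ok.lf S314_343_216_364_ok (bl (br (br (br c2)))))
  (Ok.lf S343_372_216_364_ok (bl (br c0))))
  (Ok.s3 343 (Ok.lf S314_343_364_512_ok (bl (br (br (br (br c2))))))
  (Ok.lf S343_372_364_512_ok (bl (br c1))))))))

end Vale.Agent.P098.Ck
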