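import Vale.Agent.P098.CkGd
import Vale.Agent.P098.CkOk
import Vale.Agent.P098.Sh.A0
import Vale.Agent.P098.Sh.A1
import Vale.Agent.P098.Sh.A48
import Vale.Agent.P098.Sh.A49
import Vale.Agent.P098.Sh.A52
import Vale.Agent.P098.Sh.A54
import Vale.Agent.P098.Sh.A55
import Vale.Agent.P098.Sh.A58
import Vale.Agent.P098.Sh.A59

namespace Vale.Agent.P098.Ck

theorem r419 :
    Ok Gd mult 256 384 64 128 128 256 314 372 512 808 ∧
    Ok Gd mult 256 384 64 128 128 256 372 488 216 808 ∧
    Ok Gd mult 256 384 64 96 256 384 24 82 216 364 ∧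
    Ok Gd mult 256 384 96 128 256 320 24 82 216 364 :=
  have c0 : (band (go 16 Gd mult S372_430_216_364 (Tr.lf 8591149188 103897927 0) 256 384 64 128 128 256)
  (go 16 Gd mult S372_430_364_512 (Tr.lf 8591149188 103897927 0) 256 384 64 128 128 256)) = true := by decide +kernel
  have c1 : (band (go 16 Gd mult S53_82_216_364 (Tr.lf 13970327688 99183688 0) 256 384 96 128 256 320)
  (go 16 Gd mult S24_53_216_364 (Tr.lf 13961872520 99302472 0) 256 384 96 128 256 320)) = true := by decide +kernel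
  have c2 : (band (go 16 Gd mult S430_488_216_364 (Tr.lf 9127954564 107965255 0) 256 384 64 128 128 256)
  (band (go 16 Gd mult S430_488_364_512 (Tr.lf 9127954564 107965255 0) 256 384 64 128 128 256)
  (go 16 Gd mult S430_488_512_660 (Tr.lf 9127954564 107965255 0) 256 384 64 128 128 256))) = true := by decide +kernel
  have c3 : (band (go 16 Gd mult S430_488_660_808 (Tr.lf 9127954564 107965255 0) 256 384 64 128 128 256)
  (band (go 16 Gd mult S343_372_660_808 (Tr.lf 8599651460 99707719 0) 256 384 64 128 128 256)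
  (band (go 16 Gd mult S343_372_512_660 (Tr.lf 8599520388 95386439 0) 256 384 64 128 128 256)
  (go 16 Gd mult S314_343_512_660 (Tr.lf 8598602820 103639623 0) 256 384 64 128 128 256)))) = true := by decide +kernel
  have c4 : (band (go 16 Gd mult S24_82_216_364 (Tr.lf 9665874052 107695047 0) 256 384 64 96 320 384)
  (go 16 Gd mult S24_82_216_364 (Tr.lf 1076986434 91053127 0) 256 384 64 96 256 320)) = true := by decide +kernel
  have c5 : (band (go 16 Gd mult S372_430_660_808 (Tr.lf 8599537732 95648583 0) 256 384 96 128 128 256)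
  (band (go 16 Gd mult S372_430_512_660 (Tr.lf 8599537700 95648583 0) 256 384 96 128 128 256)
  (band (go 16 Gd mult S314_343_660_808 (Tr.lf 8598471716 95386310 0) 256 384 96 128 128 256)
  (band (go 16 Gd mult S372_430_512_660 (Tr.lf 546472994 91335749 0) 256 384 64 96 128 256)
  (band (go 16 Gd mult S372_430_660_808 (Tr.lf 546472994 99593285 0) 256 384 64 96 128 256)
  (go 16 Gd mult S314_343_660_808 (Tr.lf 547636258 95390790 0) 256 384 64 96 128 256)))))) = true := by decide +kernel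
  (And.intro (Ok.s4 660 (Ok.s3 343 (Ok.lf S314_343_512_660_ok (br (br (br c3))))
  (Ok.lf S343_372_512_660_ok (bl (br (br c3)))))
  (Ok.s3 343 (Ok.s1 96 (Ok.lf S314_343_660_808_ok (br (br (br (br (br c5))))))
  (Ok.lf S314_343_660_808_ok (bl (br (br c5)))))
  (Ok.lf S343_372_660_808_ok (bl (br c3)))))
  (And.intro (Ok.s3 430 (Ok.s4 512 (Ok.s4 364 (Ok.lf S372_430_216_364_ok (bl c0))
  (Ok.lf S372_430_364_512_ok (br c0)))
  (Ok.s4 660 (Ok.s1 96 (Ok.lf S372_430_512_660_ok (bl (br (br (br c5)))))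
  (Ok.lf S372_430_512_660_ok (bl (br c5))))
  (Ok.s1 96 (Ok.lf S372_430_660_808_ok (bl (br (br (br (br c5))))))
  (Ok.lf S372_430_660_808_ok (bl c5)))))
  (Ok.s4 512 (Ok.s4 364 (Ok.lf S430_488_216_364_ok (bl c2))
  (Ok.lf S430_488_364_512_ok (bl (br c2))))
  (Ok.s4 660 (Ok.lf S430_488_512_660_ok (br (br c2)))
  (Ok.lf S430_488_660_808_ok (bl c3)))))
  (And.intro (Ok.s2 320 (Ok.lf S24_82_216_364_ok (br c4))
  (Ok.lf S24_82_216_364_ok (bl c4)))
  (Ok.s3 53 (Ok.lf S24_53_216_364_ok (br c1))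
  (Ok.lf S53_82_216_364_ok (bl c1))))))

end Vale.Agent.P098.Ck
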