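import Vale.Agent.P098.CkGd
import Vale.Agent.P098.CkOk
import Vale.Agent.P098.Sh.A0
import Vale.Agent.P098.Sh.A1

namespace Vale.Agent.P098.Ck

theorem r420 :
    Ok Gd mult 256 384 96 128 320 384 24 82 216 364 ∧
    Ok Gd mult 256 384 64 128 256 384 24 82 364 512 ∧
    Ok Gd mult 256 384 64 128 256 384 24 82 512 808 :=
  have c0 : (band (go 16 Gd mult S53_82_216_364 (Tr.lf 13970344072 107572296 0) 256 384 96 128 320 384)
  (go 16 Gd mult S24_53_216_364 (Tr.lf 13961873544 103369800 0) 256 384 96 128 320 384)) = true := by decide +kernel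
  have c1 : (band (go 16 Gd mult S53_82_364_512 (Tr.lf 13970278536 99183688 0) 256 384 96 128 256 320)
  (go 16 Gd mult S53_82_660_808 (Tr.lf 13970327688 99183688 0) 256 384 96 128 256 320)) = true := by decide +kernel
  have c2 : (band (go 16 Gd mult S53_82_512_660 (Tr.lf 13970327688 107572296 0) 256 384 96 128 320 384)
  (band (go 16 Gd mult S24_53_364_512 (Tr.lf 13961873544 103369800 0) 256 384 96 128 320 384)
  (go 16 Gd mult S53_82_660_808 (Tr.lf 13970327684 107572296 0) 256 384 96 128 320 384))) = true := by decide +kernel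
  have c3 : (band (go 16 Gd mult S24_82_364_512 (Tr.lf 9665874052 107695047 0) 256 384 64 96 320 384)
  (band (go 16 Gd mult S24_82_512_660 (Tr.lf 9665874052 107695047 0) 256 384 64 96 320 384)
  (go 16 Gd mult S24_82_660_808 (Tr.lf 9665874052 107695047 0) 256 384 64 96 320 384))) = true := by decide +kernel
  have c4 : (band (go 16 Gd mult S53_82_364_512 (Tr.lf 13970262152 103377992 0) 256 384 96 128 320 384)
  (band (go 16 Gd mult S24_53_512_660 (Tr.lf 13961873544 103369800 0) 256 384 96 128 320 384)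
  (go 16 Gd mult S24_53_660_808 (Tr.lf 13961873544 103369800 0) 256 384 96 128 320 384))) = true := by decide +kernel
  have c5 : (band (go 16 Gd mult S24_53_364_512 (Tr.lf 13961872520 99302472 0) 256 384 96 128 256 320)
  (band (go 16 Gd mult S24_53_512_660 (Tr.lf 13961872520 99302472 0) 256 384 96 128 256 320)
  (band (go 16 Gd mult S53_82_512_660 (Tr.lf 13970261128 94989384 0) 256 384 96 128 256 320)
  (go 16 Gd mult S24_53_660_808 (Tr.lf 13961872520 99302472 0) 256 384 96 128 256 320)))) = true := by decide +kernel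
  have c6 : (band (go 16 Gd mult S24_82_364_512 (Tr.lf 1076986434 86989895 0) 256 384 64 96 256 320)
  (band (go 16 Gd mult S24_82_512_660 (Tr.lf 1076986434 86989895 0) 256 384 64 96 256 320)
  (go 16 Gd mult S24_82_660_808 (Tr.lf 1076986434 91053127 0) 256 384 64 96 256 320))) = true := by decide +kernel
  (And.intro (Ok.s3 53 (Ok.lf S24_53_216_364_ok (br c0))
  (Ok.lf S53_82_216_364_ok (bl c0)))
  (And.intro (Ok.s1 96 (Ok.s2 320 (Ok.lf S24_82_364_512_ok (bl c6))
  (Ok.lf S24_82_364_512_ok (bl c3)))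
  (Ok.s2 320 (Ok.s3 53 (Ok.lf S24_53_364_512_ok (bl c5))
  (Ok.lf S53_82_364_512_ok (bl c1)))
  (Ok.s3 53 (Ok.lf S24_53_364_512_ok (bl (br c2)))
  (Ok.lf S53_82_364_512_ok (bl c4)))))
  (Ok.s4 660 (Ok.s1 96 (Ok.s2 320 (Ok.lf S24_82_512_660_ok (bl (br c6)))
  (Ok.lf S24_82_512_660_ok (bl (br c3))))
  (Ok.s2 320 (Ok.s3 53 (Ok.lf S24_53_512_660_ok (bl (br c5)))
  (Ok.lf S53_82_512_660_ok (bl (br (br c5)))))
  (Ok.s3 53 (Ok.lf S24_53_512_660_ok (bl (br c4)))
  (Ok.lf S53_82_512_660_ok (bl c2)))))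
  (Ok.s1 96 (Ok.s2 320 (Ok.lf S24_82_660_808_ok (br (br c6)))
  (Ok.lf S24_82_660_808_ok (br (br c3))))
  (Ok.s2 320 (Ok.s3 53 (Ok.lf S24_53_660_808_ok (br (br (br c5))))
  (Ok.lf S53_82_660_808_ok (br c1)))
  (Ok.s3 53 (Ok.lf S24_53_660_808_ok (br (br c4)))
  (Ok.lf S53_82_660_808_ok (br (br c2)))))))))

end Vale.Agent.P098.Ck
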