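import Vale.Agent.P098.CkGd
import Vale.Agent.P098.CkOk
import Vale.Agent.P098.Sh.A3
import Vale.Agent.P098.Sh.A4
import Vale.Agent.P098.Sh.A5
import Vale.Agent.P098.Sh.A6

namespace Vale.Agent.P098.Ck

theorem r422 :
    Ok Gd mult 256 384 64 128 320 384 111 140 364 512 ∧
    Ok Gd mult 256 384 64 128 256 384 82 140 512 808 :=
  have c0 : (go 16 Gd mult S82_111_512_660 (Tr.lf 13978732680 99314888 0) 256 384 96 128 320 384) = true := by decide +kernel
  have c1 : (go 16 Gd mult S111_140_364_512 (Tr.lf 13978862728 103250889 0) 256 384 96 128 320 352) = true := by decide +kernel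
  have c2 : (go 16 Gd mult S111_140_364_512 (Tr.lf 13978862728 103251144 0) 256 384 96 128 352 384) = true := by decide +kernel
  have c3 : (go 16 Gd mult S111_140_512_660 (Tr.lf 13978862728 107445448 0) 256 384 96 128 320 352) = true := by decide +kernel
  have c4 : (go 16 Gd mult S111_140_512_660 (Tr.lf 13978862728 103251144 0) 256 384 96 128 352 384) = true := by decide +kernel
  have c5 : (go 16 Gd mult S82_111_660_808 (Tr.lf 13978847368 107572424 0) 256 384 96 128 320 384) = true := by decide +kernel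
  have c6 : (band (go 16 Gd mult S111_140_660_808 (Tr.lf 13978846344 107445448 0) 256 384 96 128 320 352)
  (go 16 Gd mult S111_140_660_808 (Tr.lf 13978846344 103251144 0) 256 384 96 128 352 384)) = true := by decide +kernel
  have c7 : (band (go 16 Gd mult S82_111_512_660 (Tr.lf 13970326664 103369928 0) 256 384 96 128 256 320)
  (band (go 16 Gd mult S82_111_660_808 (Tr.lf 13970326664 103369928 0) 256 384 96 128 256 320)
  (band (go 16 Gd mult S111_140_512_660 (Tr.lf 13432538244 99048137 0) 256 384 96 128 256 320)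
  (go 16 Gd mult S82_111_512_660 (Tr.lf 9137439876 90922055 0) 256 384 64 96 320 384)))) = true := by decide +kernel
  have c8 : (go 16 Gd mult S111_140_660_808 (Tr.lf 13432538244 99048392 0) 256 384 96 128 256 320) = true := by decide +kernel
  have c9 : (band (go 16 Gd mult S82_111_660_808 (Tr.lf 9137439876 90922055 0) 256 384 64 96 320 384)
  (band (go 16 Gd mult S111_140_364_512 (Tr.lf 9137439812 99052615 0) 256 384 64 96 320 384)
  (band (go 16 Gd mult S111_140_512_660 (Tr.lf 9137439812 99052615 0) 256 384 64 96 320 384)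
  (go 16 Gd mult S111_140_660_808 (Tr.lf 9137431620 99310663 0) 256 384 64 96 320 384)))) = true := by decide +kernel
  have c10 : (band (go 16 Gd mult S82_140_512_660 (Tr.lf 547521602 103910597 0) 256 384 64 96 256 320)
  (go 16 Gd mult S82_140_660_808 (Tr.lf 547521058 103910597 0) 256 384 64 96 256 320)) = true := by decide +kernel
  (And.intro (Ok.s1 96 (Ok.lf S111_140_364_512_ok (bl (br c9)))
  (Ok.s2 352 (Ok.lf S111_140_364_512_ok c1)
  (Ok.lf S111_140_364_512_ok c2)))
  (Ok.s4 660 (Ok.s2 320 (Ok.s1 96 (Ok.lf S82_140_512_660_ok (bl c10))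
  (Ok.s3 111 (Ok.lf S82_111_512_660_ok (bl c7))
  (Ok.lf S111_140_512_660_ok (bl (br (br c7))))))
  (Ok.s1 96 (Ok.s3 111 (Ok.lf S82_111_512_660_ok (br (br (br c7))))
  (Ok.lf S111_140_512_660_ok (bl (br (br c9)))))
  (Ok.s3 111 (Ok.lf S82_111_512_660_ok c0)
  (Ok.s2 352 (Ok.lf S111_140_512_660_ok c3)
  (Ok.lf S111_140_512_660_ok c4)))))
  (Ok.s2 320 (Ok.s1 96 (Ok.lf S82_140_660_808_ok (br c10))
  (Ok.s3 111 (Ok.lf S82_111_660_808_ok (bl (br c7)))
  (Ok.lf S111_140_660_808_ok c8)))
  (Ok.s1 96 (Ok.s3 111 (Ok.lf S82_111_660_808_ok (bl c9))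
  (Ok.lf S111_140_660_808_ok (br (br (br c9)))))
  (Ok.s3 111 (Ok.lf S82_111_660_808_ok c5)
  (Ok.s2 352 (Ok.lf S111_140_660_808_ok (bl c6))
  (Ok.lf S111_140_660_808_ok (br c6))))))))

end Vale.Agent.P098.Ck
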