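import Vale.Agent.P098.CkGd
import Vale.Agent.P098.CkOk
import Vale.Agent.P098.Sh.A12
import Vale.Agent.P098.Sh.A14
import Vale.Agent.P098.Sh.A15
import Vale.Agent.P098.Sh.A17
import Vale.Agent.P098.Sh.A18
import Vale.Agent.P098.Sh.A20
import Vale.Agent.P098.Sh.A7
import Vale.Agent.P098.Sh.A8
import Vale.Agent.P098.Sh.A9

namespace Vale.Agent.P098.Ck

theorem r423 :
    Ok Gd mult 256 384 64 128 256 320 140 169 216 364 ∧
    Ok Gd mult 256 384 64 128 320 384 140 169 216 364 ∧
    Ok Gd mult 256 384 64 128 256 384 169 198 216 364 ∧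
    Ok Gd mult 256 384 64 128 256 384 140 198 364 512 :=
  have c0 : (go 16 Gd mult S154_169_216_290 (Tr.lf 13987235976 99191881 0) 256 384 96 128 320 384) = true := by decide +kernel
  have c1 : (go 16 Gd mult S140_154_364_512 (Tr.lf 13987235976 103382089 0) 256 384 96 128 320 384) = true := by decide +kernel
  have c2 : (go 16 Gd mult S154_169_364_512 (Tr.lf 13987235976 99191881 0) 256 384 96 128 320 384) = true := by decide +kernel
  have c3 : (go 16 Gd mult S169_198_364_512 (Tr.lf 13449594948 99187657 0) 256 384 112 128 320 384) = true := by decide +kernel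
  have c4 : (band (go 16 Gd mult S140_169_216_364 (Tr.lf 9145975940 107703240 0) 256 384 64 128 256 320)
  (band (go 16 Gd mult S140_169_364_512 (Tr.lf 9137570948 107695048 0) 256 384 64 128 256 320)
  (go 16 Gd mult S169_198_216_364 (Tr.lf 4850992260 103783495 0) 256 384 64 128 256 320))) = true := by decide +kernel
  have c5 : (go 16 Gd mult S140_154_216_364 (Tr.lf 13987497092 103382089 0) 256 384 96 128 352 384) = true := by decide +kernel
  have c6 : (band (go 16 Gd mult S154_169_290_364 (Tr.lf 13987235972 99191881 0) 256 384 96 128 320 384)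
  (go 16 Gd mult S169_183_216_290 (Tr.lf 13987235972 103251145 0) 256 384 96 128 320 384)) = true := by decide +kernel
  have c7 : (band (go 16 Gd mult S169_183_290_364 (Tr.lf 13987235972 103251145 0) 256 384 96 128 320 384)
  (go 16 Gd mult S183_198_216_364 (Tr.lf 9154611268 103517256 0) 256 384 96 128 320 384)) = true := by decide +kernel
  have c8 : (band (go 16 Gd mult S169_198_364_512 (Tr.lf 4841555074 108104646 0) 256 384 64 128 256 320)
  (go 16 Gd mult S169_198_364_512 (Tr.lf 4850992162 108100934 0) 256 384 96 112 320 384)) = true := by decide +kernel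
  have c9 : (go 16 Gd mult S140_154_216_364 (Tr.lf 9145958980 103644231 0) 256 384 96 128 320 352) = true := by decide +kernel
  have c10 : (band (go 16 Gd mult S140_169_216_364 (Tr.lf 4841423906 107842374 0) 256 384 64 96 320 384)
  (band (go 16 Gd mult S140_169_364_512 (Tr.lf 4841423906 107842374 0) 256 384 64 96 320 384)
  (band (go 16 Gd mult S169_198_216_364 (Tr.lf 4841554466 107969478 0) 256 384 64 96 320 384)
  (go 16 Gd mult S169_198_364_512 (Tr.lf 4841423394 103775174 0) 256 384 64 96 320 384)))) = true := by decide +kernel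
  (And.intro (Ok.lf S140_169_216_364_ok (bl c4))
  (And.intro (Ok.s1 96 (Ok.lf S140_169_216_364_ok (bl c10))
  (Ok.s3 154 (Ok.s2 352 (Ok.lf S140_154_216_364_ok c9)
  (Ok.lf S140_154_216_364_ok c5))
  (Ok.s4 290 (Ok.lf S154_169_216_290_ok c0)
  (Ok.lf S154_169_290_364_ok (bl c6)))))
  (And.intro (Ok.s2 320 (Ok.lf S169_198_216_364_ok (br (br c4)))
  (Ok.s1 96 (Ok.lf S169_198_216_364_ok (bl (br (br c10))))
  (Ok.s3 183 (Ok.s4 290 (Ok.lf S169_183_216_290_ok (br c6))
  (Ok.lf S169_183_290_364_ok (bl c7)))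
  (Ok.lf S183_198_216_364_ok (br c7)))))
  (Ok.s3 169 (Ok.s2 320 (Ok.lf S140_169_364_512_ok (bl (br c4)))
  (Ok.s1 96 (Ok.lf S140_169_364_512_ok (bl (br c10)))
  (Ok.s3 154 (Ok.lf S140_154_364_512_ok c1)
  (Ok.lf S154_169_364_512_ok c2))))
  (Ok.s2 320 (Ok.lf S169_198_364_512_ok (bl c8))
  (Ok.s1 96 (Ok.lf S169_198_364_512_ok (br (br (br c10))))
  (Ok.s1 112 (Ok.lf S169_198_364_512_ok (br c8))
  (Ok.lf S169_198_364_512_ok c3))))))))

end Vale.Agent.P098.Ck
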