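import Vale.Agent.P098.CkGd
import Vale.Agent.P098.CkOk
import Vale.Agent.P098.Sh.A10
import Vale.Agent.P098.Sh.A19
import Vale.Agent.P098.Sh.A25
import Vale.Agent.P098.Sh.A36

namespace Vale.Agent.P098.Ck

theorem r424 :
    Ok Gd mult 256 384 64 96 256 384 140 198 512 660 ∧
    Ok Gd mult 256 384 96 128 256 384 140 198 512 660 ∧
    Ok Gd mult 256 384 64 128 256 384 140 198 660 808 ∧
    Ok Gd mult 256 384 64 128 256 384 198 256 216 364 :=
  have c0 : (go 16 Gd mult S169_198_512_660 (Tr.lf 9146239044 107707591 0) 256 384 96 128 320 384) = true := by decide +kernel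
  have c1 : (go 16 Gd mult S140_169_660_808 (Tr.lf 13978862728 103247176 0) 256 384 96 128 352 384) = true := by decide +kernel
  have c2 : (go 16 Gd mult S169_198_660_808 (Tr.lf 9146239044 99327047 0) 256 384 96 128 320 384) = true := by decide +kernel
  have c3 : (band (go 16 Gd mult S140_169_512_660 (Tr.lf 13987251272 103255368 0) 256 384 112 128 352 384)
  (band (go 16 Gd mult S140_169_512_660 (Tr.lf 13440943172 99052361 0) 256 384 96 128 320 352)
  (go 16 Gd mult S140_169_660_808 (Tr.lf 13440926852 94858057 0) 256 384 96 128 320 352))) = true := by decide +kernel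
  have c4 : (go 16 Gd mult S198_227_216_364 (Tr.lf 9145189444 103512904 0) 256 384 96 128 320 384) = true := by decide +kernel
  have c5 : (band (go 16 Gd mult S140_169_660_808 (Tr.lf 9137570948 103509063 0) 256 384 64 128 256 320)
  (band (go 16 Gd mult S169_198_660_808 (Tr.lf 4304683586 108096709 0) 256 384 64 128 256 320)
  (go 16 Gd mult S198_227_216_364 (Tr.lf 4304683586 103906374 0) 256 384 64 128 256 320))) = true := by decide +kernel
  have c6 : (go 16 Gd mult S227_256_216_364 (Tr.lf 4303636546 108100422 0) 256 384 64 128 256 384) = true := by decide +kernel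
  have c7 : (band (go 16 Gd mult S140_169_512_660 (Tr.lf 4841424962 107842374 0) 256 384 64 96 256 384)
  (band (go 16 Gd mult S169_198_512_660 (Tr.lf 4304552994 103644102 0) 256 384 64 96 256 384)
  (band (go 16 Gd mult S140_169_512_660 (Tr.lf 9137439812 107703367 0) 256 384 96 128 256 320)
  (go 16 Gd mult S169_198_512_660 (Tr.lf 4304552482 99720261 0) 256 384 96 128 256 320)))) = true := by decide +kernel
  have c8 : (go 16 Gd mult S140_169_512_660 (Tr.lf 9145959460 99322951 0) 256 384 96 112 352 384) = true := by decide +kernel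
  have c9 : (band (go 16 Gd mult S140_169_660_808 (Tr.lf 4841415746 107842629 0) 256 384 64 96 320 384)
  (band (go 16 Gd mult S198_227_216_364 (Tr.lf 9576994 104041541 0) 256 384 64 96 320 384)
  (go 16 Gd mult S169_198_660_808 (Tr.lf 4304544290 99577029 0) 256 384 64 96 320 384))) = true := by decide +kernel
  (And.intro (Ok.s3 169 (Ok.lf S140_169_512_660_ok (bl c7))
  (Ok.lf S169_198_512_660_ok (bl (br c7))))
  (And.intro (Ok.s2 320 (Ok.s3 169 (Ok.lf S140_169_512_660_ok (bl (br (br c7))))
  (Ok.lf S169_198_512_660_ok (br (br (br c7)))))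
  (Ok.s3 169 (Ok.s2 352 (Ok.lf S140_169_512_660_ok (bl (br c3)))
  (Ok.s1 112 (Ok.lf S140_169_512_660_ok c8)
  (Ok.lf S140_169_512_660_ok (bl c3))))
  (Ok.lf S169_198_512_660_ok c0)))
  (And.intro (Ok.s3 169 (Ok.s2 320 (Ok.lf S140_169_660_808_ok (bl c5))
  (Ok.s1 96 (Ok.lf S140_169_660_808_ok (bl c9))
  (Ok.s2 352 (Ok.lf S140_169_660_808_ok (br (br c3)))
  (Ok.lf S140_169_660_808_ok c1))))
  (Ok.s2 320 (Ok.lf S169_198_660_808_ok (bl (br c5)))
  (Ok.s1 96 (Ok.lf S169_198_660_808_ok (br (br c9)))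
  (Ok.lf S169_198_660_808_ok c2))))
  (Ok.s3 227 (Ok.s2 320 (Ok.lf S198_227_216_364_ok (br (br c5)))
  (Ok.s1 96 (Ok.lf S198_227_216_364_ok (bl (br c9)))
  (Ok.lf S198_227_216_364_ok c4)))
  (Ok.lf S227_256_216_364_ok c6)))))

end Vale.Agent.P098.Ck
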