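import Vale.Agent.P098.CkGd
import Vale.Agent.P098.CkOk
import Vale.Agent.P098.Sh.A26
import Vale.Agent.P098.Sh.A27
import Vale.Agent.P098.Sh.A37
import Vale.Agent.P098.Sh.A38
import Vale.Agent.P098.Sh.A42
import Vale.Agent.P098.Sh.A43
import Vale.Agent.P098.Sh.A44
import Vale.Agent.P098.Sh.A46
import Vale.Agent.P098.Sh.A47
import Vale.Agent.P098.Sh.A48
import Vale.Agent.P098.Sh.A49
import Vale.Agent.P098.Sh.A51
import Vale.Agent.P098.Sh.A52

namespace Vale.Agent.P098.Ck

theorem r425 :
    Ok Gd mult 256 384 64 128 256 384 198 256 364 512 ∧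
    Ok Gd mult 256 384 64 128 256 384 198 256 512 808 ∧
    Ok Gd mult 256 384 64 128 256 384 256 372 216 808 :=
  have c0 : (band (go 16 Gd mult S256_314_364_512 (Tr.lf 9734276 99851333 0) 256 384 64 128 256 384)
  (go 16 Gd mult S198_227_660_808 (Tr.lf 4304685186 103775429 0) 256 384 64 128 256 384)) = true := by decide +kernel
  have c1 : (band (go 16 Gd mult S256_314_512_660 (Tr.lf 4304701572 107838406 0) 256 384 64 128 256 384)
  (go 16 Gd mult S343_372_512_660 (Tr.lf 4842604674 99584967 0) 256 384 64 128 256 384)) = true := by decide +kernel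
  have c2 : (go 16 Gd mult S198_227_364_512 (Tr.lf 9144927364 103639880 0) 256 384 64 128 320 384) = true := by decide +kernel
  have c3 : (band (go 16 Gd mult S198_227_512_660 (Tr.lf 4313073796 104037446 0) 256 384 64 128 256 384)
  (band (go 16 Gd mult S256_314_216_364 (Tr.lf 9734212 104168645 0) 256 384 64 128 256 384)
  (go 16 Gd mult S314_343_660_808 (Tr.lf 4841556034 103775174 0) 256 384 64 128 256 384))) = true := by decide +kernel
  have c4 : (band (go 16 Gd mult S343_372_660_808 (Tr.lf 4850993284 103648327 0) 256 384 64 128 256 384)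
  (band (go 16 Gd mult S343_372_364_512 (Tr.lf 4842472578 99584967 0) 256 384 64 128 256 384)
  (band (go 16 Gd mult S227_256_364_512 (Tr.lf 4303635522 104041158 0) 256 384 64 128 256 384)
  (band (go 16 Gd mult S285_314_660_808 (Tr.lf 4304684098 99322822 0) 256 384 64 128 256 384)
  (go 16 Gd mult S314_343_512_660 (Tr.lf 546587714 95394885 0) 256 384 64 128 256 384))))) = true := by decide +kernel
  have c5 : (band (go 16 Gd mult S343_372_216_364 (Tr.lf 4842472514 99584967 0) 256 384 64 128 256 384)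
  (band (go 16 Gd mult S227_256_512_660 (Tr.lf 4303496258 107969222 0) 256 384 64 128 256 384)
  (band (go 16 Gd mult S227_256_660_808 (Tr.lf 4303496258 103513029 0) 256 384 64 128 256 384)
  (band (go 16 Gd mult S256_285_660_808 (Tr.lf 4303496258 95255238 0) 256 384 64 128 256 384)
  (band (go 16 Gd mult S314_343_216_364 (Tr.lf 9577538 99847492 0) 256 384 64 128 256 384)
  (go 16 Gd mult S314_343_364_512 (Tr.lf 9577538 99974468 0) 256 384 64 128 256 384)))))) = true := by decide +kernel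
  have c6 : (go 16 Gd mult S198_227_364_512 (Tr.lf 4304552514 104041414 0) 256 384 64 128 256 320) = true := by decide +kernel
  (And.intro (Ok.s3 227 (Ok.s2 320 (Ok.lf S198_227_364_512_ok c6)
  (Ok.lf S198_227_364_512_ok c2))
  (Ok.lf S227_256_364_512_ok (bl (br (br c4)))))
  (And.intro (Ok.s4 660 (Ok.s3 227 (Ok.lf S198_227_512_660_ok (bl c3))
  (Ok.lf S227_256_512_660_ok (bl (br c5))))
  (Ok.s3 227 (Ok.lf S198_227_660_808_ok (br c0))
  (Ok.lf S227_256_660_808_ok (bl (br (br c5))))))
  (Ok.s3 314 (Ok.s4 512 (Ok.s4 364 (Ok.lf S256_314_216_364_ok (bl (br c3)))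
  (Ok.lf S256_314_364_512_ok (bl c0)))
  (Ok.s4 660 (Ok.lf S256_314_512_660_ok (bl c1))
  (Ok.s3 285 (Ok.lf S256_285_660_808_ok (bl (br (br (br c5)))))
  (Ok.lf S285_314_660_808_ok (bl (br (br (br c4))))))))
  (Ok.s4 512 (Ok.s4 364 (Ok.s3 343 (Ok.lf S314_343_216_364_ok (bl (br (br (br (br c5))))))
  (Ok.lf S343_372_216_364_ok (bl c5)))
  (Ok.s3 343 (Ok.lf S314_343_364_512_ok (br (br (br (br (br c5))))))
  (Ok.lf S343_372_364_512_ok (bl (br c4)))))
  (Ok.s4 660 (Ok.s3 343 (Ok.lf S314_343_512_660_ok (br (br (br (br c4)))))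
  (Ok.lf S343_372_512_660_ok (br c1)))
  (Ok.s3 343 (Ok.lf S314_343_660_808_ok (br (br c3)))
  (Ok.lf S343_372_660_808_ok (bl c4))))))))

end Vale.Agent.P098.Ck
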