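import Vale.Agent.P098.CkGd
import Vale.Agent.P098.CkOk
import Vale.Agent.P098.Sh.A0
import Vale.Agent.P098.Sh.A1
import Vale.Agent.P098.Sh.A54
import Vale.Agent.P098.Sh.A56
import Vale.Agent.P098.Sh.A57
import Vale.Agent.P098.Sh.A58
import Vale.Agent.P098.Sh.A59

namespace Vale.Agent.P098.Ck

theorem r426 :
    Ok Gd mult 256 384 64 128 256 384 372 430 216 512 ∧
    Ok Gd mult 256 384 64 128 256 384 372 430 512 808 ∧
    Ok Gd mult 256 384 64 128 256 384 430 488 216 808 ∧
    Ok Gd mult 256 384 64 96 384 512 24 82 216 364 :=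
  have c0 : (band (go 16 Gd mult S24_82_216_364 (Tr.lf 13969295496 99044296 0) 256 384 64 80 384 448)
  (go 16 Gd mult S24_82_216_364 (Tr.lf 13969295428 90786505 0) 256 384 64 80 448 480)) = true := by decide +kernel
  have c1 : (band (go 16 Gd mult S430_488_660_808 (Tr.lf 4842489988 95394759 0) 256 384 64 128 256 384)
  (band (go 16 Gd mult S372_401_660_808 (Tr.lf 4850993284 99716167 0) 256 384 64 128 256 384)
  (go 16 Gd mult S372_401_216_364 (Tr.lf 4842472578 99716039 0) 256 384 64 128 256 384))) = true := by decide +kernel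
  have c2 : (go 16 Gd mult S24_82_216_364 (Tr.lf 1077053512 95378503 108300834456748822560768) 256 384 64 80 480 512) = true := by decide +kernel
  have c3 : (band (go 16 Gd mult S430_488_216_364 (Tr.lf 4834035844 95644615 0) 256 384 64 128 256 384)
  (band (go 16 Gd mult S430_488_364_512 (Tr.lf 4834035844 95386567 0) 256 384 64 128 256 384)
  (go 16 Gd mult S430_488_512_660 (Tr.lf 4834035844 95386567 0) 256 384 64 128 256 384))) = true := by decide +kernel
  have c4 : (band (go 16 Gd mult S372_401_512_660 (Tr.lf 4842473604 103910343 0) 256 384 64 128 256 384)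
  (band (go 16 Gd mult S401_430_660_808 (Tr.lf 4842473604 99589063 0) 256 384 64 128 256 384)
  (band (go 16 Gd mult S401_430_216_364 (Tr.lf 4842473602 95394759 0) 256 384 64 128 256 384)
  (go 16 Gd mult S372_401_364_512 (Tr.lf 4842473602 103910343 0) 256 384 64 128 256 384)))) = true := by decide +kernel
  have c5 : (band (go 16 Gd mult S401_430_364_512 (Tr.lf 4842473602 95394759 0) 256 384 64 128 256 384)
  (go 16 Gd mult S401_430_512_660 (Tr.lf 4842473602 95394759 0) 256 384 64 128 256 384)) = true := by decide +kernel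
  have c6 : (band (go 16 Gd mult S53_82_216_364 (Tr.lf 13432408132 94858056 0) 256 384 80 96 384 448)
  (go 16 Gd mult S24_53_216_364 (Tr.lf 9665849380 103766855 0) 256 384 80 96 384 448)) = true := by decide +kernel
  have c7 : (go 16 Gd mult S24_82_216_364 (Tr.lf 539067426 107973701 100460968225422324662272) 256 384 80 96 480 512) = true := by decide +kernel
  have c8 : (go 16 Gd mult S24_82_216_364 (Tr.lf 4834018340 103644357 0) 256 384 80 96 448 480) = true := by decide +kernel
  (And.intro (Ok.s4 364 (Ok.s3 401 (Ok.lf S372_401_216_364_ok (br (br c1)))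
  (Ok.lf S401_430_216_364_ok (bl (br (br c4)))))
  (Ok.s3 401 (Ok.lf S372_401_364_512_ok (br (br (br c4))))
  (Ok.lf S401_430_364_512_ok (bl c5))))
  (And.intro (Ok.s4 660 (Ok.s3 401 (Ok.lf S372_401_512_660_ok (bl c4))
  (Ok.lf S401_430_512_660_ok (br c5)))
  (Ok.s3 401 (Ok.lf S372_401_660_808_ok (bl (br c1)))
  (Ok.lf S401_430_660_808_ok (bl (br c4)))))
  (And.intro (Ok.s4 512 (Ok.s4 364 (Ok.lf S430_488_216_364_ok (bl c3))
  (Ok.lf S430_488_364_512_ok (bl (br c3))))
  (Ok.s4 660 (Ok.lf S430_488_512_660_ok (br (br c3)))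
  (Ok.lf S430_488_660_808_ok (bl c1))))
  (Ok.s1 80 (Ok.s2 448 (Ok.lf S24_82_216_364_ok (bl c0))
  (Ok.s2 480 (Ok.lf S24_82_216_364_ok (br c0))
  (Ok.lf S24_82_216_364_ok c2)))
  (Ok.s2 448 (Ok.s3 53 (Ok.lf S24_53_216_364_ok (br c6))
  (Ok.lf S53_82_216_364_ok (bl c6)))
  (Ok.s2 480 (Ok.lf S24_82_216_364_ok c8)
  (Ok.lf S24_82_216_364_ok c7)))))))

end Vale.Agent.P098.Ck
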