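import Vale.Agent.P098.CkGd
import Vale.Agent.P098.CkOk
import Vale.Agent.P098.Sh.A10
import Vale.Agent.P098.Sh.A12
import Vale.Agent.P098.Sh.A19
import Vale.Agent.P098.Sh.A25
import Vale.Agent.P098.Sh.A8

namespace Vale.Agent.P098.Ck

theorem r43 :
    Ok Gd mult 0 128 64 128 384 512 140 169 512 660 ∧
    Ok Gd mult 0 128 64 128 384 512 169 198 512 660 ∧
    Ok Gd mult 0 128 64 128 384 512 140 198 660 808 ∧
    Ok Gd mult 0 128 64 80 384 448 198 227 216 364 :=
  have c0 : (band (go 16 Gd mult S169_198_512_660 (Tr.lf 9682847816 107707591 61206296868767662080000) 0 128 64 96 480 512)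
  (go 16 Gd mult S169_198_660_808 (Tr.lf 9144910916 103513031 118114502303962258997248) 0 128 64 96 480 512)) = true := by decide +kernel
  have c1 : (go 16 Gd mult S169_198_512_660 (Tr.lf 9681799236 111909703 534955579546326269952) 64 128 96 128 448 512) = true := by decide +kernel
  have c2 : (go 16 Gd mult S140_169_512_660 (Tr.lf 9674442820 107699399 35842031897991983398941) 0 128 96 128 448 512) = true := by decide +kernel
  have c3 : (band (go 16 Gd mult S169_198_660_808 (Tr.lf 9136522372 103377608 0) 0 128 64 128 448 480)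
  (band (go 16 Gd mult S140_169_660_808 (Tr.lf 9137439364 99052488 0) 0 128 64 128 448 480)
  (band (go 16 Gd mult S140_169_660_808 (Tr.lf 4841424004 107834438 0) 0 128 64 128 384 448)
  (band (go 16 Gd mult S140_169_512_660 (Tr.lf 9137439876 99175241 0) 0 128 64 128 384 448)
  (go 16 Gd mult S169_198_660_808 (Tr.lf 4841546820 107965510 0) 0 128 64 128 384 448))))) = true := by decide +kernel
  have c4 : (band (go 16 Gd mult S140_154_512_660 (Tr.lf 9682823236 103513032 118114523977535465717760) 0 128 64 96 448 512)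
  (go 16 Gd mult S154_169_512_660 (Tr.lf 9682823236 103254984 99022130363284854931456) 0 128 64 96 448 512)) = true := by decide +kernel
  have c5 : (band (go 16 Gd mult S169_198_512_660 (Tr.lf 9136523330 99183559 87788055046783756140573) 0 64 96 128 448 512)
  (go 16 Gd mult S169_198_512_660 (Tr.lf 4841554468 107842502 0) 0 128 64 96 448 480)) = true := by decide +kernel
  have c6 : (go 16 Gd mult S140_169_660_808 (Tr.lf 5379474500 99445831 124718436711517401382912) 0 128 64 96 480 512) = true := by decide +kernel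
  have c7 : (band (go 16 Gd mult S169_198_660_808 (Tr.lf 9144910916 103521095 31211890972716561334272) 0 128 96 128 480 512)
  (go 16 Gd mult S140_169_660_808 (Tr.lf 4842472516 103783494 46209093904642426798080) 0 128 96 128 480 512)) = true := by decide +kernel
  have c8 : (go 16 Gd mult S169_198_512_660 (Tr.lf 4841423908 107707462 0) 0 128 96 128 384 448) = true := by decide +kernel
  have c9 : (go 16 Gd mult S169_198_512_660 (Tr.lf 4304544274 95251526 0) 0 128 64 96 384 448) = true := by decide +kernel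
  have c10 : (go 16 Gd mult S198_227_216_364 (Tr.lf 9576977 99589189 0) 0 128 64 80 384 448) = true := by decide +kernel
  (And.intro (Ok.s2 448 (Ok.lf S140_169_512_660_ok (bl (br (br (br c3)))))
  (Ok.s1 96 (Ok.s3 154 (Ok.lf S140_154_512_660_ok (bl c4))
  (Ok.lf S154_169_512_660_ok (br c4)))
  (Ok.lf S140_169_512_660_ok c2)))
  (And.intro (Ok.s1 96 (Ok.s2 448 (Ok.lf S169_198_512_660_ok c9)
  (Ok.s2 480 (Ok.lf S169_198_512_660_ok (br c5))
  (Ok.lf S169_198_512_660_ok (bl c0))))
  (Ok.s2 448 (Ok.lf S169_198_512_660_ok c8)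
  (Ok.s0 64 (Ok.lf S169_198_512_660_ok (bl c5))
  (Ok.lf S169_198_512_660_ok c1))))
  (And.intro (Ok.s2 448 (Ok.s3 169 (Ok.lf S140_169_660_808_ok (bl (br (br c3))))
  (Ok.lf S169_198_660_808_ok (br (br (br (br c3))))))
  (Ok.s2 480 (Ok.s3 169 (Ok.lf S140_169_660_808_ok (bl (br c3)))
  (Ok.lf S169_198_660_808_ok (bl c3)))
  (Ok.s3 169 (Ok.s1 96 (Ok.lf S140_169_660_808_ok c6)
  (Ok.lf S140_169_660_808_ok (br c7)))
  (Ok.s1 96 (Ok.lf S169_198_660_808_ok (br c0))
  (Ok.lf S169_198_660_808_ok (bl c7))))))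
  (Ok.lf S198_227_216_364_ok c10))))

end Vale.Agent.P098.Ck
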