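import Vale.Agent.P098.CkGd
import Vale.Agent.P098.CkOk
import Vale.Agent.P098.Sh.A2
import Vale.Agent.P098.Sh.A3
import Vale.Agent.P098.Sh.A4
import Vale.Agent.P098.Sh.A5
import Vale.Agent.P098.Sh.A6

namespace Vale.Agent.P098.Ck

theorem r430 :
    Ok Gd mult 256 384 64 96 416 448 111 140 364 512 ∧
    Ok Gd mult 256 384 96 128 384 448 82 140 364 512 ∧
    Ok Gd mult 256 384 64 128 448 512 82 140 364 512 ∧
    Ok Gd mult 256 384 64 96 384 448 82 140 512 660 :=
  have c0 : (go 16 Gd mult S82_111_364_512 (Tr.lf 13977684104 99056329 0) 256 384 64 96 448 480) = true := by decide +kernel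
  have c1 : (go 16 Gd mult S111_140_364_512 (Tr.lf 13987252296 99065032 0) 256 384 64 80 416 448) = true := by decide +kernel
  have c2 : (go 16 Gd mult S111_140_364_512 (Tr.lf 13978863688 99056840 0) 256 384 80 96 416 448) = true := by decide +kernel
  have c3 : (go 16 Gd mult S111_140_364_512 (Tr.lf 13978862728 107445448 0) 256 384 96 128 384 416) = true := by decide +kernel
  have c4 : (band (go 16 Gd mult S111_140_364_512 (Tr.lf 9682847876 107445192 0) 256 384 64 128 480 512)
  (band (go 16 Gd mult S82_111_364_512 (Tr.lf 9137374340 94854088 0) 256 384 64 128 480 512)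
  (go 16 Gd mult S82_111_364_512 (Tr.lf 9137374244 95120455 0) 256 384 96 128 448 480))) = true := by decide +kernel
  have c5 : (band (go 16 Gd mult S111_140_512_660 (Tr.lf 13440943240 86338377 0) 256 384 64 96 384 416)
  (go 16 Gd mult S82_111_512_660 (Tr.lf 13440795784 86473417 0) 256 384 64 96 384 416)) = true := by decide +kernel
  have c6 : (go 16 Gd mult S111_140_512_660 (Tr.lf 13441976456 90668232 0) 256 384 64 96 416 448) = true := by decide +kernel
  have c7 : (go 16 Gd mult S82_111_364_512 (Tr.lf 13978731656 107711560 0) 256 384 96 128 384 416) = true := by decide +kernel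
  have c8 : (band (go 16 Gd mult S82_111_364_512 (Tr.lf 13978716296 103382216 0) 256 384 96 128 416 448)
  (go 16 Gd mult S111_125_364_512 (Tr.lf 13978716296 103382216 0) 256 384 96 128 416 448)) = true := by decide +kernel
  have c9 : (band (go 16 Gd mult S111_125_364_512 (Tr.lf 13440796808 86604489 0) 256 384 64 96 448 480)
  (go 16 Gd mult S125_140_364_512 (Tr.lf 13987235972 95001800 0) 256 384 64 96 448 480)) = true := by decide +kernel
  have c10 : (go 16 Gd mult S82_111_512_660 (Tr.lf 13440796808 94989256 0) 256 384 64 96 416 448) = true := by decide +kernel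
  have c11 : (go 16 Gd mult S125_140_364_512 (Tr.lf 13987234952 99327176 0) 256 384 96 128 416 448) = true := by decide +kernel
  have c12 : (go 16 Gd mult S111_140_364_512 (Tr.lf 9145845828 99322951 0) 256 384 96 128 448 480) = true := by decide +kernel
  (And.intro (Ok.s1 80 (Ok.lf S111_140_364_512_ok c1)
  (Ok.lf S111_140_364_512_ok c2))
  (And.intro (Ok.s3 111 (Ok.s2 416 (Ok.lf S82_111_364_512_ok c7)
  (Ok.lf S82_111_364_512_ok (bl c8)))
  (Ok.s2 416 (Ok.lf S111_140_364_512_ok c3)
  (Ok.s3 125 (Ok.lf S111_125_364_512_ok (br c8))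
  (Ok.lf S125_140_364_512_ok c11))))
  (And.intro (Ok.s2 480 (Ok.s1 96 (Ok.s3 111 (Ok.lf S82_111_364_512_ok c0)
  (Ok.s3 125 (Ok.lf S111_125_364_512_ok (bl c9))
  (Ok.lf S125_140_364_512_ok (br c9))))
  (Ok.s3 111 (Ok.lf S82_111_364_512_ok (br (br c4)))
  (Ok.lf S111_140_364_512_ok c12)))
  (Ok.s3 111 (Ok.lf S82_111_364_512_ok (bl (br c4)))
  (Ok.lf S111_140_364_512_ok (bl c4))))
  (Ok.s3 111 (Ok.s2 416 (Ok.lf S82_111_512_660_ok (br c5))
  (Ok.lf S82_111_512_660_ok c10))
  (Ok.s2 416 (Ok.lf S111_140_512_660_ok (bl c5))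
  (Ok.lf S111_140_512_660_ok c6))))))

end Vale.Agent.P098.Ck
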