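import Vale.Agent.P098.CkGd
import Vale.Agent.P098.CkOk
import Vale.Agent.P098.Sh.A3
import Vale.Agent.P098.Sh.A5
import Vale.Agent.P098.Sh.A6

namespace Vale.Agent.P098.Ck

theorem r431 :
    Ok Gd mult 256 384 96 128 384 448 82 111 512 660 ∧
    Ok Gd mult 256 384 96 128 384 448 111 140 512 660 ∧
    Ok Gd mult 256 384 64 128 448 512 82 140 512 660 ∧
    Ok Gd mult 256 384 64 128 384 448 82 140 660 808 :=
  have c0 : (go 16 Gd mult S82_111_512_660 (Tr.lf 13432424584 86461257 0) 256 384 64 128 448 480) = true := by decide +kernel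
  have c1 : (band (go 16 Gd mult S111_140_512_660 (Tr.lf 13978862728 107445448 0) 256 384 96 128 384 416)
  (go 16 Gd mult S82_111_660_808 (Tr.lf 13978715272 107711560 0) 256 384 96 128 384 416)) = true := by decide +kernel
  have c2 : (band (go 16 Gd mult S111_140_512_660 (Tr.lf 8599652488 86866631 0) 256 384 64 96 448 480)
  (go 16 Gd mult S111_140_512_660 (Tr.lf 13978846340 107576520 0) 320 384 96 128 416 448)) = true := by decide +kernel
  have c3 : (go 16 Gd mult S82_111_660_808 (Tr.lf 13440927880 86473417 0) 256 384 64 96 384 448) = true := by decide +kernel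
  have c4 : (go 16 Gd mult S82_111_512_660 (Tr.lf 13978731656 107711560 0) 256 384 96 128 384 416) = true := by decide +kernel
  have c5 : (band (go 16 Gd mult S111_140_660_808 (Tr.lf 13440927816 90667976 0) 256 384 80 96 384 448)
  (band (go 16 Gd mult S111_140_660_808 (Tr.lf 9145960516 99318855 0) 256 384 64 80 384 448)
  (go 16 Gd mult S111_140_660_808 (Tr.lf 13978846280 103251144 0) 256 384 96 112 384 416))) = true := by decide +kernel
  have c6 : (band (go 16 Gd mult S82_111_512_660 (Tr.lf 13440795784 94993352 0) 256 384 96 128 416 448)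
  (band (go 16 Gd mult S111_140_660_808 (Tr.lf 13440926792 99187656 0) 256 384 96 128 416 448)
  (band (go 16 Gd mult S82_111_660_808 (Tr.lf 13440795720 94993352 0) 256 384 96 128 416 448)
  (go 16 Gd mult S111_140_660_808 (Tr.lf 13978846280 107711560 0) 256 384 112 128 384 416)))) = true := by decide +kernel
  have c7 : (band (go 16 Gd mult S111_140_512_660 (Tr.lf 9145829508 99056584 0) 256 384 64 128 480 512)
  (band (go 16 Gd mult S82_111_512_660 (Tr.lf 4842407044 103513286 0) 256 384 64 128 480 512)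
  (go 16 Gd mult S111_140_512_660 (Tr.lf 9145829444 99322951 0) 256 384 96 128 448 480))) = true := by decide +kernel
  have c8 : (go 16 Gd mult S111_140_512_660 (Tr.lf 13977797700 99187656 0) 256 320 96 128 416 448) = true := by decide +kernel
  (And.intro (Ok.s2 416 (Ok.lf S82_111_512_660_ok c4)
  (Ok.lf S82_111_512_660_ok (bl c6)))
  (And.intro (Ok.s2 416 (Ok.lf S111_140_512_660_ok (bl c1))
  (Ok.s0 320 (Ok.lf S111_140_512_660_ok c8)
  (Ok.lf S111_140_512_660_ok (br c2))))
  (And.intro (Ok.s2 480 (Ok.s3 111 (Ok.lf S82_111_512_660_ok c0)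
  (Ok.s1 96 (Ok.lf S111_140_512_660_ok (bl c2))
  (Ok.lf S111_140_512_660_ok (br (br c7)))))
  (Ok.s3 111 (Ok.lf S82_111_512_660_ok (bl (br c7)))
  (Ok.lf S111_140_512_660_ok (bl c7))))
  (Ok.s1 96 (Ok.s3 111 (Ok.lf S82_111_660_808_ok c3)
  (Ok.s1 80 (Ok.lf S111_140_660_808_ok (bl (br c5)))
  (Ok.lf S111_140_660_808_ok (bl c5))))
  (Ok.s3 111 (Ok.s2 416 (Ok.lf S82_111_660_808_ok (br c1))
  (Ok.lf S82_111_660_808_ok (bl (br (br c6)))))
  (Ok.s2 416 (Ok.s1 112 (Ok.lf S111_140_660_808_ok (br (br c5)))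
  (Ok.lf S111_140_660_808_ok (br (br (br c6)))))
  (Ok.lf S111_140_660_808_ok (bl (br c6)))))))))

end Vale.Agent.P098.Ck
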