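import Vale.Agent.P098.CkGd
import Vale.Agent.P098.CkOk
import Vale.Agent.P098.Sh.A12
import Vale.Agent.P098.Sh.A14
import Vale.Agent.P098.Sh.A20
import Vale.Agent.P098.Sh.A3
import Vale.Agent.P098.Sh.A4
import Vale.Agent.P098.Sh.A6
import Vale.Agent.P098.Sh.A7
import Vale.Agent.P098.Sh.A8

namespace Vale.Agent.P098.Ck

theorem r432 :
    Ok Gd mult 256 384 64 128 448 512 82 140 660 808 ∧
    Ok Gd mult 256 384 64 128 384 448 140 169 216 364 ∧
    Ok Gd mult 256 384 64 96 384 448 169 198 216 364 :=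
  have c0 : (go 16 Gd mult S82_140_660_808 (Tr.lf 9145976904 99322951 0) 256 384 96 128 448 480) = true := by decide +kernel
  have c1 : (go 16 Gd mult S140_154_216_364 (Tr.lf 13987235976 94993481 0) 256 384 64 96 416 448) = true := by decide +kernel
  have c2 : (go 16 Gd mult S154_169_216_364 (Tr.lf 9146221704 99191879 0) 256 384 64 96 416 448) = true := by decide +kernel
  have c3 : (go 16 Gd mult S154_169_216_364 (Tr.lf 13987497096 103255113 0) 256 384 96 128 384 416) = true := by decide +kernel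
  have c4 : (go 16 Gd mult S154_169_216_364 (Tr.lf 9146221704 99589318 0) 256 384 96 128 416 448) = true := by decide +kernel
  have c5 : (band (go 16 Gd mult S140_169_216_364 (Tr.lf 9145975940 103386183 0) 256 384 64 96 384 416)
  (band (go 16 Gd mult S169_183_216_364 (Tr.lf 4850983490 107973830 0) 256 384 64 96 384 416)
  (band (go 16 Gd mult S183_198_216_364 (Tr.lf 4849934882 107846598 0) 256 384 64 96 384 416)
  (band (go 16 Gd mult S169_183_216_364 (Tr.lf 9145951268 103386183 0) 256 384 64 80 416 448)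
  (go 16 Gd mult S183_198_216_364 (Tr.lf 9145950756 99314887 0) 256 384 64 80 416 448))))) = true := by decide +kernel
  have c6 : (go 16 Gd mult S140_154_216_364 (Tr.lf 13987497092 99196104 0) 256 384 96 128 384 416) = true := by decide +kernel
  have c7 : (go 16 Gd mult S140_154_216_364 (Tr.lf 13987234952 107584712 0) 256 384 96 128 416 448) = true := by decide +kernel
  have c8 : (band (go 16 Gd mult S169_183_216_364 (Tr.lf 9146221640 99322951 0) 256 384 80 96 416 448)
  (go 16 Gd mult S183_198_216_364 (Tr.lf 13987497032 103255113 0) 256 384 80 96 416 448)) = true := by decide +kernel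
  have c9 : (band (go 16 Gd mult S111_140_660_808 (Tr.lf 9145829508 99056584 0) 256 384 64 128 480 512)
  (band (go 16 Gd mult S82_111_660_808 (Tr.lf 4842472580 103513286 0) 256 384 64 128 480 512)
  (band (go 16 Gd mult S82_111_660_808 (Tr.lf 9137440836 99318727 0) 256 384 64 96 448 480)
  (go 16 Gd mult S111_140_660_808 (Tr.lf 9145960516 95263687 0) 256 384 64 96 448 480)))) = true := by decide +kernel
  (And.intro (Ok.s2 480 (Ok.s1 96 (Ok.s3 111 (Ok.lf S82_111_660_808_ok (bl (br (br c9))))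
  (Ok.lf S111_140_660_808_ok (br (br (br c9)))))
  (Ok.lf S82_140_660_808_ok c0))
  (Ok.s3 111 (Ok.lf S82_111_660_808_ok (bl (br c9)))
  (Ok.lf S111_140_660_808_ok (bl c9))))
  (And.intro (Ok.s1 96 (Ok.s2 416 (Ok.lf S140_169_216_364_ok (bl c5))
  (Ok.s3 154 (Ok.lf S140_154_216_364_ok c1)
  (Ok.lf S154_169_216_364_ok c2)))
  (Ok.s2 416 (Ok.s3 154 (Ok.lf S140_154_216_364_ok c6)
  (Ok.lf S154_169_216_364_ok c3))
  (Ok.s3 154 (Ok.lf S140_154_216_364_ok c7)
  (Ok.lf S154_169_216_364_ok c4))))
  (Ok.s3 183 (Ok.s2 416 (Ok.lf S169_183_216_364_ok (bl (br c5)))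
  (Ok.s1 80 (Ok.lf S169_183_216_364_ok (bl (br (br (br c5)))))
  (Ok.lf S169_183_216_364_ok (bl c8))))
  (Ok.s2 416 (Ok.lf S183_198_216_364_ok (bl (br (br c5))))
  (Ok.s1 80 (Ok.lf S183_198_216_364_ok (br (br (br (br c5)))))
  (Ok.lf S183_198_216_364_ok (br c8)))))))

end Vale.Agent.P098.Ck
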