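import Vale.Agent.P098.CkGd
import Vale.Agent.P098.CkOk
import Vale.Agent.P098.Sh.A12
import Vale.Agent.P098.Sh.A14
import Vale.Agent.P098.Sh.A15
import Vale.Agent.P098.Sh.A20
import Vale.Agent.P098.Sh.A21
import Vale.Agent.P098.Sh.A7

namespace Vale.Agent.P098.Ck

theorem r433 :
    Ok Gd mult 256 384 96 128 384 448 169 183 216 364 ∧
    Ok Gd mult 256 384 96 128 384 448 183 198 216 364 ∧
    Ok Gd mult 256 384 64 128 448 480 140 169 216 364 ∧
    Ok Gd mult 256 384 64 96 448 480 169 198 216 364 ∧
    Ok Gd mult 256 384 96 128 448 480 169 183 216 364 :=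
  have c0 : (go 16 Gd mult S169_183_216_364 (Tr.lf 13987497096 103386185 0) 256 384 96 128 384 416) = true := by decide +kernel
  have c1 : (go 16 Gd mult S169_183_216_364 (Tr.lf 13987497096 99319112 0) 256 384 96 128 416 448) = true := by decide +kernel
  have c2 : (go 16 Gd mult S183_198_216_290 (Tr.lf 13987497096 103251145 0) 256 384 96 128 384 416) = true := by decide +kernel
  have c3 : (go 16 Gd mult S183_198_216_290 (Tr.lf 13987235976 107449417 0) 256 384 96 128 416 448) = true := by decide +kernel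
  have c4 : (go 16 Gd mult S183_198_290_364 (Tr.lf 13987235976 107449417 0) 256 384 96 128 416 448) = true := by decide +kernel
  have c5 : (go 16 Gd mult S154_169_216_364 (Tr.lf 9146222724 95263942 0) 256 384 64 96 448 480) = true := by decide +kernel
  have c6 : (band (go 16 Gd mult S154_169_216_364 (Tr.lf 9146222664 99322951 0) 256 384 96 128 448 480)
  (go 16 Gd mult S140_154_216_364 (Tr.lf 13986187332 99060553 0) 256 384 96 128 448 480)) = true := by decide +kernel
  have c7 : (go 16 Gd mult S183_198_216_290 (Tr.lf 13449316488 90799176 0) 256 384 64 96 448 480) = true := by decide +kernel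
  have c8 : (go 16 Gd mult S183_198_290_364 (Tr.lf 9145960584 103644486 0) 256 384 64 96 448 480) = true := by decide +kernel
  have c9 : (go 16 Gd mult S183_198_290_364 (Tr.lf 13986186376 103250889 0) 256 384 96 128 384 416) = true := by decide +kernel
  have c10 : (band (go 16 Gd mult S140_154_216_364 (Tr.lf 13987234952 99065032 0) 256 384 64 96 448 464)
  (go 16 Gd mult S140_154_216_364 (Tr.lf 13987234952 95001800 0) 256 384 64 96 464 480)) = true := by decide +kernel
  have c11 : (band (go 16 Gd mult S169_183_216_290 (Tr.lf 13987235972 103251272 0) 256 384 64 96 448 480)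
  (go 16 Gd mult S169_183_290_364 (Tr.lf 9145960580 95255878 0) 256 384 64 96 448 480)) = true := by decide +kernel
  have c12 : (band (go 16 Gd mult S169_183_216_290 (Tr.lf 13987235912 99060809 0) 256 384 96 128 448 480)
  (go 16 Gd mult S169_183_290_364 (Tr.lf 9145960520 99322951 0) 256 384 96 128 448 480)) = true := by decide +kernel
  (And.intro (Ok.s2 416 (Ok.lf S169_183_216_364_ok c0)
  (Ok.lf S169_183_216_364_ok c1))
  (And.intro (Ok.s4 290 (Ok.s2 416 (Ok.lf S183_198_216_290_ok c2)
  (Ok.lf S183_198_216_290_ok c3))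
  (Ok.s2 416 (Ok.lf S183_198_290_364_ok c9)
  (Ok.lf S183_198_290_364_ok c4)))
  (And.intro (Ok.s1 96 (Ok.s3 154 (Ok.s2 464 (Ok.lf S140_154_216_364_ok (bl c10))
  (Ok.lf S140_154_216_364_ok (br c10)))
  (Ok.lf S154_169_216_364_ok c5))
  (Ok.s3 154 (Ok.lf S140_154_216_364_ok (br c6))
  (Ok.lf S154_169_216_364_ok (bl c6))))
  (And.intro (Ok.s3 183 (Ok.s4 290 (Ok.lf S169_183_216_290_ok (bl c11))
  (Ok.lf S169_183_290_364_ok (br c11)))
  (Ok.s4 290 (Ok.lf S183_198_216_290_ok c7)
  (Ok.lf S183_198_290_364_ok c8)))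
  (Ok.s4 290 (Ok.lf S169_183_216_290_ok (bl c12))
  (Ok.lf S169_183_290_364_ok (br c12)))))))

end Vale.Agent.P098.Ck
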