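import Vale.Agent.P098.CkGd
import Vale.Agent.P098.CkOk
import Vale.Agent.P098.Sh.A12
import Vale.Agent.P098.Sh.A14
import Vale.Agent.P098.Sh.A15
import Vale.Agent.P098.Sh.A17
import Vale.Agent.P098.Sh.A20
import Vale.Agent.P098.Sh.A21
import Vale.Agent.P098.Sh.A7
import Vale.Agent.P098.Sh.A8

namespace Vale.Agent.P098.Ck

theorem r434 :
    Ok Gd mult 256 384 96 128 448 480 183 198 216 364 ∧
    Ok Gd mult 256 384 64 128 480 496 140 198 216 364 ∧
    Ok Gd mult 256 384 64 128 496 504 140 198 216 364 :=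
  have c0 : (band (go 16 Gd mult S183_198_290_364 (Tr.lf 9145960584 103517255 0) 256 384 96 128 448 480)
  (go 16 Gd mult S183_198_290_364 (Tr.lf 13986186312 99060553 0) 256 384 96 128 480 496)) = true := by decide +kernel
  have c1 : (band (go 16 Gd mult S169_198_216_364 (Tr.lf 8608318024 86608711 0) 256 384 64 96 500 504)
  (band (go 16 Gd mult S140_169_216_364 (Tr.lf 9145958692 94989511 0) 256 384 64 96 500 504)
  (band (go 16 Gd mult S140_169_216_364 (Tr.lf 9145958980 99056839 0) 256 384 96 128 480 496)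
  (go 16 Gd mult S183_198_216_290 (Tr.lf 13986186312 99060553 0) 256 384 96 128 480 496)))) = true := by decide +kernel
  have c2 : (band (go 16 Gd mult S154_169_216_364 (Tr.lf 9146221640 99191879 0) 256 384 64 96 480 496)
  (band (go 16 Gd mult S169_183_216_290 (Tr.lf 13987234952 94735433 0) 256 384 64 96 480 496)
  (go 16 Gd mult S140_154_216_364 (Tr.lf 9682830404 103386183 0) 256 384 64 96 480 496))) = true := by decide +kernel
  have c3 : (band (go 16 Gd mult S169_183_290_364 (Tr.lf 9145959560 94997575 0) 256 384 64 96 480 496)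
  (go 16 Gd mult S183_198_290_364 (Tr.lf 13986186376 94993225 0) 256 384 64 96 480 496)) = true := by decide +kernel
  have c4 : (band (go 16 Gd mult S183_198_216_364 (Tr.lf 9145172552 94997319 0) 256 384 64 96 496 500)
  (band (go 16 Gd mult S169_183_216_364 (Tr.lf 9682829636 103386183 0) 256 384 64 96 496 500)
  (go 16 Gd mult S169_183_216_364 (Tr.lf 9145959492 99064903 0) 256 384 96 128 480 496))) = true := by decide +kernel
  have c5 : (band (go 16 Gd mult S183_198_216_290 (Tr.lf 13449315400 90930248 0) 256 384 96 128 448 464)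
  (band (go 16 Gd mult S183_198_216_290 (Tr.lf 13987234888 99060809 0) 256 384 96 128 464 480)
  (go 16 Gd mult S183_198_216_290 (Tr.lf 13449315400 86604617 0) 256 384 64 96 480 496))) = true := by decide +kernel
  have c6 : (go 16 Gd mult S140_169_216_364 (Tr.lf 9682846084 107445192 0) 256 384 64 128 496 500) = true := by decide +kernel
  have c7 : (band (go 16 Gd mult S169_198_216_364 (Tr.lf 9144910114 94862279 0) 256 384 96 128 496 500)
  (band (go 16 Gd mult S169_198_216_364 (Tr.lf 4849942818 103521477 0) 256 384 96 128 500 504)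
  (go 16 Gd mult S140_169_216_364 (Tr.lf 4841414946 99318726 0) 256 384 96 128 500 504))) = true := by decide +kernel
  (And.intro (Ok.s4 290 (Ok.s2 464 (Ok.lf S183_198_216_290_ok (bl c5))
  (Ok.lf S183_198_216_290_ok (bl (br c5))))
  (Ok.lf S183_198_290_364_ok (bl c0)))
  (And.intro (Ok.s3 169 (Ok.s1 96 (Ok.s3 154 (Ok.lf S140_154_216_364_ok (br (br c2)))
  (Ok.lf S154_169_216_364_ok (bl c2)))
  (Ok.lf S140_169_216_364_ok (bl (br (br c1)))))
  (Ok.s1 96 (Ok.s3 183 (Ok.s4 290 (Ok.lf S169_183_216_290_ok (bl (br c2)))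
  (Ok.lf S169_183_290_364_ok (bl c3)))
  (Ok.s4 290 (Ok.lf S183_198_216_290_ok (br (br c5)))
  (Ok.lf S183_198_290_364_ok (br c3))))
  (Ok.s3 183 (Ok.lf S169_183_216_364_ok (br (br c4)))
  (Ok.s4 290 (Ok.lf S183_198_216_290_ok (br (br (br c1))))
  (Ok.lf S183_198_290_364_ok (br c0))))))
  (Ok.s2 500 (Ok.s3 169 (Ok.lf S140_169_216_364_ok c6)
  (Ok.s1 96 (Ok.s3 183 (Ok.lf S169_183_216_364_ok (bl (br c4)))
  (Ok.lf S183_198_216_364_ok (bl c4)))
  (Ok.lf S169_198_216_364_ok (bl c7))))
  (Ok.s1 96 (Ok.s3 169 (Ok.lf S140_169_216_364_ok (bl (br c1)))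
  (Ok.lf S169_198_216_364_ok (bl c1)))
  (Ok.s3 169 (Ok.lf S140_169_216_364_ok (br (br c7)))
  (Ok.lf S169_198_216_364_ok (bl (br c7))))))))

end Vale.Agent.P098.Ck
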