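import Vale.Agent.P098.CkGd
import Vale.Agent.P098.CkOk
import Vale.Agent.P098.Sh.A12
import Vale.Agent.P098.Sh.A17
import Vale.Agent.P098.Sh.A7
import Vale.Agent.P098.Sh.A8
import Vale.Agent.P098.Sh.A9

namespace Vale.Agent.P098.Ck

theorem r435 :
    Ok Gd mult 256 384 64 96 504 506 140 198 216 364 ∧
    Ok Gd mult 256 384 64 96 506 508 140 198 216 364 ∧
    Ok Gd mult 256 384 96 128 504 508 140 198 216 364 ∧
    Ok Gd mult 256 384 64 128 508 512 140 198 216 364 ∧
    Ok Gd mult 256 384 64 80 384 512 140 169 364 512 ∧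
    Ok Gd mult 256 384 80 96 384 448 140 169 364 512 :=
  have c0 : (go 16 Gd mult S140_169_364_512 (Tr.lf 13987252296 98929737 0) 256 384 64 80 416 448) = true := by decide +kernel
  have c1 : (go 16 Gd mult S140_169_364_512 (Tr.lf 9145976904 99450182 0) 256 384 80 96 416 448) = true := by decide +kernel
  have c2 : (band (go 16 Gd mult S154_169_364_512 (Tr.lf 9145960520 103521478 0) 256 384 64 80 448 480)
  (go 16 Gd mult S140_154_364_512 (Tr.lf 9145960516 103521478 0) 256 384 64 80 448 480)) = true := by decide +kernel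
  have c3 : (band (go 16 Gd mult S154_169_364_512 (Tr.lf 9145960520 94989511 0) 256 384 64 80 480 512)
  (go 16 Gd mult S140_154_364_512 (Tr.lf 9682823204 103377864 0) 256 384 64 80 480 512)) = true := by decide +kernel
  have c4 : (go 16 Gd mult S140_169_364_512 (Tr.lf 9145959492 103386183 0) 256 384 80 96 384 416) = true := by decide +kernel
  have c5 : (band (go 16 Gd mult S169_198_216_364 (Tr.lf 4304699716 95259717 0) 256 384 64 96 504 506)
  (go 16 Gd mult S140_169_216_364 (Tr.lf 4850991394 103648454 0) 256 384 64 96 504 506)) = true := by decide +kernel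
  have c6 : (band (go 16 Gd mult S169_198_216_364 (Tr.lf 4304683298 95251653 0) 256 384 64 96 508 512)
  (band (go 16 Gd mult S140_169_216_364 (Tr.lf 4850860322 103648454 0) 256 384 64 96 508 512)
  (band (go 16 Gd mult S169_198_216_364 (Tr.lf 4304683282 91065413 0) 256 384 64 80 506 508)
  (band (go 16 Gd mult S140_169_216_364 (Tr.lf 4850860306 99462214 0) 256 384 64 80 506 508)
  (band (go 16 Gd mult S169_198_216_364 (Tr.lf 8667410 103918659 0) 256 384 80 96 506 508)
  (band (go 16 Gd mult S140_169_216_364 (Tr.lf 4842463506 99445958 0) 256 384 80 96 506 508)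
  (band (go 16 Gd mult S169_198_216_364 (Tr.lf 4849942802 99327173 8169920688955663962664337408) 256 384 96 128 504 508)
  (go 16 Gd mult S140_169_216_364 (Tr.lf 547496210 107977670 7468743713579179041334755328) 256 384 96 128 504 508)))))))) = true := by decide +kernel
  have c7 : (band (go 16 Gd mult S169_198_216_364 (Tr.lf 547635474 99720134 10494677956679685160615412262) 256 384 96 128 508 512)
  (go 16 Gd mult S140_169_216_364 (Tr.lf 547496210 107977670 9384880309478290929748869323) 256 384 96 128 508 512)) = true := by decide +kernel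
  have c8 : (go 16 Gd mult S140_169_364_512 (Tr.lf 4841414946 103648325 0) 256 384 64 80 384 416) = true := by decide +kernel
  (And.intro (Ok.s3 169 (Ok.lf S140_169_216_364_ok (br c5))
  (Ok.lf S169_198_216_364_ok (bl c5)))
  (And.intro (Ok.s1 80 (Ok.s3 169 (Ok.lf S140_169_216_364_ok (bl (br (br (br c6)))))
  (Ok.lf S169_198_216_364_ok (bl (br (br c6)))))
  (Ok.s3 169 (Ok.lf S140_169_216_364_ok (bl (br (br (br (br (br c6)))))))
  (Ok.lf S169_198_216_364_ok (bl (br (br (br (br c6))))))))
  (And.intro (Ok.s3 169 (Ok.lf S140_169_216_364_ok (br (br (br (br (br (br (br c6))))))))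
  (Ok.lf S169_198_216_364_ok (bl (br (br (br (br (br (br c6)))))))))
  (And.intro (Ok.s1 96 (Ok.s3 169 (Ok.lf S140_169_216_364_ok (bl (br c6)))
  (Ok.lf S169_198_216_364_ok (bl c6)))
  (Ok.s3 169 (Ok.lf S140_169_216_364_ok (br c7))
  (Ok.lf S169_198_216_364_ok (bl c7))))
  (And.intro (Ok.s2 448 (Ok.s2 416 (Ok.lf S140_169_364_512_ok c8)
  (Ok.lf S140_169_364_512_ok c0))
  (Ok.s3 154 (Ok.s2 480 (Ok.lf S140_154_364_512_ok (br c2))
  (Ok.lf S140_154_364_512_ok (br c3)))
  (Ok.s2 480 (Ok.lf S154_169_364_512_ok (bl c2))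
  (Ok.lf S154_169_364_512_ok (bl c3)))))
  (Ok.s2 416 (Ok.lf S140_169_364_512_ok c4)
  (Ok.lf S140_169_364_512_ok c1)))))))

end Vale.Agent.P098.Ck
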