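import Vale.Agent.P098.CkGd
import Vale.Agent.P098.CkOk
import Vale.Agent.P098.Sh.A12
import Vale.Agent.P098.Sh.A16
import Vale.Agent.P098.Sh.A18
import Vale.Agent.P098.Sh.A19
import Vale.Agent.P098.Sh.A22

namespace Vale.Agent.P098.Ck

theorem r439 :
    Ok Gd mult 256 384 96 128 384 512 154 169 512 660 ∧
    Ok Gd mult 256 384 64 96 384 512 169 198 512 660 ∧
    Ok Gd mult 256 384 96 128 384 512 169 198 512 586 :=
  have c0 : (go 16 Gd mult S154_169_512_660 (Tr.lf 9146221704 99323206 0) 256 384 96 128 384 416) = true := by decide +kernel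
  have c1 : (band (go 16 Gd mult S154_169_512_660 (Tr.lf 9145960584 99589318 0) 256 384 96 128 416 448)
  (go 16 Gd mult S183_198_512_586 (Tr.lf 9144910920 107711558 0) 256 384 96 128 416 448)) = true := by decide +kernel
  have c2 : (band (go 16 Gd mult S169_183_512_660 (Tr.lf 8608303236 95263686 0) 256 384 64 96 448 480)
  (go 16 Gd mult S183_198_512_586 (Tr.lf 9144780932 103386182 0) 256 384 64 96 448 480)) = true := by decide +kernel
  have c3 : (band (go 16 Gd mult S169_183_512_660 (Tr.lf 9145174148 95120327 0) 256 384 64 96 480 512)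
  (go 16 Gd mult S183_198_512_586 (Tr.lf 8608041028 86739783 0) 256 384 64 96 480 512)) = true := by decide +kernel
  have c4 : (go 16 Gd mult S169_198_512_586 (Tr.lf 9145975944 107842631 0) 256 384 96 128 384 416) = true := by decide +kernel
  have c5 : (go 16 Gd mult S169_198_512_586 (Tr.lf 9144928328 103516999 0) 256 384 96 128 448 480) = true := by decide +kernel
  have c6 : (go 16 Gd mult S154_169_512_660 (Tr.lf 9145960520 103517255 0) 256 384 96 128 448 480) = true := by decide +kernel
  have c7 : (go 16 Gd mult S169_183_512_586 (Tr.lf 9145959560 107846854 0) 256 384 96 128 416 448) = true := by decide +kernel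
  have c8 : (band (go 16 Gd mult S169_198_512_586 (Tr.lf 9145845828 94993352 0) 256 384 96 128 480 512)
  (go 16 Gd mult S154_169_512_660 (Tr.lf 9145951268 99056584 0) 256 384 96 128 480 512)) = true := by decide +kernel
  have c9 : (go 16 Gd mult S169_183_512_660 (Tr.lf 8608302148 99191878 0) 256 384 80 96 416 448) = true := by decide +kernel
  have c10 : (go 16 Gd mult S183_198_512_660 (Tr.lf 4313334852 103779270 0) 256 384 64 96 416 448) = true := by decide +kernel
  have c11 : (go 16 Gd mult S183_198_586_660 (Tr.lf 9145960516 99322951 0) 256 384 64 96 448 512) = true := by decide +kernel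
  have c12 : (go 16 Gd mult S169_198_512_660 (Tr.lf 9145958978 94993607 0) 256 384 64 96 384 416) = true := by decide +kernel
  have c13 : (go 16 Gd mult S169_183_512_660 (Tr.lf 4304675364 95390789 0) 256 384 64 80 416 448) = true := by decide +kernel
  (And.intro (Ok.s2 448 (Ok.s2 416 (Ok.lf S154_169_512_660_ok c0)
  (Ok.lf S154_169_512_660_ok (bl c1)))
  (Ok.s2 480 (Ok.lf S154_169_512_660_ok c6)
  (Ok.lf S154_169_512_660_ok (br c8))))
  (And.intro (Ok.s2 448 (Ok.s2 416 (Ok.lf S169_198_512_660_ok c12)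
  (Ok.s3 183 (Ok.s1 80 (Ok.lf S169_183_512_660_ok c13)
  (Ok.lf S169_183_512_660_ok c9))
  (Ok.lf S183_198_512_660_ok c10)))
  (Ok.s3 183 (Ok.s2 480 (Ok.lf S169_183_512_660_ok (bl c2))
  (Ok.lf S169_183_512_660_ok (bl c3)))
  (Ok.s4 586 (Ok.s2 480 (Ok.lf S183_198_512_586_ok (br c2))
  (Ok.lf S183_198_512_586_ok (br c3)))
  (Ok.lf S183_198_586_660_ok c11))))
  (Ok.s2 448 (Ok.s2 416 (Ok.lf S169_198_512_586_ok c4)
  (Ok.s3 183 (Ok.lf S169_183_512_586_ok c7)
  (Ok.lf S183_198_512_586_ok (br c1))))
  (Ok.s2 480 (Ok.lf S169_198_512_586_ok c5)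
  (Ok.lf S169_198_512_586_ok (bl c8))))))

end Vale.Agent.P098.Ck
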