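import Vale.Agent.P098.CkGd
import Vale.Agent.P098.CkOk
import Vale.Agent.P098.Sh.A23
import Vale.Agent.P098.Sh.A25
import Vale.Agent.P098.Sh.A30
import Vale.Agent.P098.Sh.A36

namespace Vale.Agent.P098.Ck

theorem r44 :
    Ok Gd mult 0 128 64 80 448 512 198 227 216 364 ∧
    Ok Gd mult 0 128 80 96 384 512 198 227 216 364 ∧
    Ok Gd mult 0 128 64 96 384 512 227 256 216 364 ∧
    Ok Gd mult 0 64 96 112 384 512 198 227 216 364 :=
  have c0 : (go 16 Gd mult S198_212_216_364 (Tr.lf 13987514436 95001800 54251874320779791302656) 64 128 80 96 496 512) = true := by decide +kernel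
  have c1 : (band (go 16 Gd mult S212_227_216_364 (Tr.lf 8599914568 86604615 103670701694247680081920) 0 128 80 96 480 512)
  (band (go 16 Gd mult S212_227_216_364 (Tr.lf 8599913506 95124422 133111705235888124461056) 64 128 64 80 496 512)
  (go 16 Gd mult S198_212_216_364 (Tr.lf 13986448420 95001544 77974387199570274680832) 64 128 64 80 496 512))) = true := by decide +kernel
  have c2 : (go 16 Gd mult S227_256_216_364 (Tr.lf 9145190468 95124423 205552069213345533657088) 0 128 64 96 480 512) = true := by decide +kernel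
  have c3 : (go 16 Gd mult S198_227_216_364 (Tr.lf 9146239044 94993607 246577628141693435904029) 0 64 96 112 448 512) = true := by decide +kernel
  have c4 : (go 16 Gd mult S198_227_216_364 (Tr.lf 9136801828 103373767 666001256199983976153088) 0 64 64 80 448 512) = true := by decide +kernel
  have c5 : (go 16 Gd mult S198_212_216_364 (Tr.lf 13978059810 99052616 0) 64 128 80 96 480 496) = true := by decide +kernel
  have c6 : (band (go 16 Gd mult S198_212_216_364 (Tr.lf 9144902690 99322695 301382912839040978911232) 0 64 80 96 480 512)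
  (band (go 16 Gd mult S198_212_216_364 (Tr.lf 4841546258 107711430 0) 0 128 80 96 448 480)
  (go 16 Gd mult S212_227_216_364 (Tr.lf 4304544274 95128518 0) 0 128 80 96 448 480))) = true := by decide +kernel
  have c7 : (go 16 Gd mult S198_227_216_364 (Tr.lf 9144910354 103385927 0) 64 128 64 80 480 496) = true := by decide +kernel
  have c8 : (band (go 16 Gd mult S227_256_216_364 (Tr.lf 4303495714 95128262 0) 0 128 64 96 448 480)
  (go 16 Gd mult S227_256_216_364 (Tr.lf 8528401 103783237 0) 0 128 64 96 384 448)) = true := by decide +kernel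
  have c9 : (band (go 16 Gd mult S198_227_216_364 (Tr.lf 4841414929 103644357 0) 64 128 64 80 448 480)
  (go 16 Gd mult S198_227_216_364 (Tr.lf 8528145 103783492 0) 0 64 96 112 384 448)) = true := by decide +kernel
  have c10 : (band (go 16 Gd mult S198_212_216_364 (Tr.lf 9572881 103783748 0) 0 128 80 96 384 448)
  (go 16 Gd mult S212_227_216_364 (Tr.lf 8524305 103783492 0) 0 128 80 96 384 448)) = true := by decide +kernel
  (And.intro (Ok.s0 64 (Ok.lf S198_227_216_364_ok c4)
  (Ok.s2 480 (Ok.lf S198_227_216_364_ok (bl c9))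
  (Ok.s2 496 (Ok.lf S198_227_216_364_ok c7)
  (Ok.s3 212 (Ok.lf S198_212_216_364_ok (br (br c1)))
  (Ok.lf S212_227_216_364_ok (bl (br c1)))))))
  (And.intro (Ok.s3 212 (Ok.s2 448 (Ok.lf S198_212_216_364_ok (bl c10))
  (Ok.s2 480 (Ok.lf S198_212_216_364_ok (bl (br c6)))
  (Ok.s0 64 (Ok.lf S198_212_216_364_ok (bl c6))
  (Ok.s2 496 (Ok.lf S198_212_216_364_ok c5)
  (Ok.lf S198_212_216_364_ok c0)))))
  (Ok.s2 448 (Ok.lf S212_227_216_364_ok (br c10))
  (Ok.s2 480 (Ok.lf S212_227_216_364_ok (br (br c6)))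
  (Ok.lf S212_227_216_364_ok (bl c1)))))
  (And.intro (Ok.s2 448 (Ok.lf S227_256_216_364_ok (br c8))
  (Ok.s2 480 (Ok.lf S227_256_216_364_ok (bl c8))
  (Ok.lf S227_256_216_364_ok c2)))
  (Ok.s2 448 (Ok.lf S198_227_216_364_ok (br c9))
  (Ok.lf S198_227_216_364_ok c3)))))

end Vale.Agent.P098.Ck
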