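import Vale.Agent.P098.CkGd
import Vale.Agent.P098.CkOk
import Vale.Agent.P098.Sh.A23
import Vale.Agent.P098.Sh.A25
import Vale.Agent.P098.Sh.A30
import Vale.Agent.P098.Sh.A36

namespace Vale.Agent.P098.Ck

theorem r442 :
    Ok Gd mult 256 384 96 128 448 480 198 227 216 364 ∧
    Ok Gd mult 256 384 64 128 448 480 227 256 216 364 ∧
    Ok Gd mult 256 384 64 128 480 496 198 256 216 364 ∧
    Ok Gd mult 256 384 64 128 496 504 198 256 216 364 :=
  have c0 : (band (go 16 Gd mult S198_212_216_364 (Tr.lf 9145189000 99322695 0) 256 384 64 128 496 500)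
  (go 16 Gd mult S212_227_216_364 (Tr.lf 8608301448 90934087 0) 256 384 64 128 496 500)) = true := by decide +kernel
  have c1 : (band (go 16 Gd mult S198_212_290_364 (Tr.lf 13986187400 103255112 0) 256 384 96 128 448 480)
  (go 16 Gd mult S198_212_290_364 (Tr.lf 13986186312 103254857 0) 256 384 96 128 480 496)) = true := by decide +kernel
  have c2 : (band (go 16 Gd mult S212_227_216_364 (Tr.lf 13449578568 99318856 0) 256 384 96 128 448 480)
  (go 16 Gd mult S212_227_216_364 (Tr.lf 13449577540 95120456 0) 256 384 64 96 480 496)) = true := by decide +kernel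
  have c3 : (band (go 16 Gd mult S227_256_216_364 (Tr.lf 9144927364 107576263 0) 256 384 64 128 448 480)
  (go 16 Gd mult S227_256_216_364 (Tr.lf 8608055940 99322695 0) 256 384 64 128 480 496)) = true := by decide +kernel
  have c4 : (band (go 16 Gd mult S198_212_290_364 (Tr.lf 13986186376 103251016 0) 256 384 64 96 480 496)
  (band (go 16 Gd mult S198_212_216_290 (Tr.lf 13449315400 94862153 0) 256 384 64 96 480 496)
  (go 16 Gd mult S198_212_216_290 (Tr.lf 13449315400 95124552 0) 256 384 96 128 448 464))) = true := by decide +kernel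
  have c5 : (band (go 16 Gd mult S198_212_216_290 (Tr.lf 13986186312 103255112 0) 256 384 96 128 464 480)
  (band (go 16 Gd mult S198_212_216_290 (Tr.lf 13986186312 99060553 0) 256 384 96 128 480 496)
  (band (go 16 Gd mult S212_227_216_364 (Tr.lf 13449577540 94866249 0) 256 384 96 128 480 496)
  (go 16 Gd mult S212_227_216_364 (Tr.lf 8608301380 95124295 0) 256 384 64 96 500 504)))) = true := by decide +kernel
  have c6 : (band (go 16 Gd mult S198_212_216_364 (Tr.lf 8608301380 86866759 0) 256 384 64 96 500 504)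
  (band (go 16 Gd mult S227_256_216_364 (Tr.lf 8675148068 91323207 0) 256 384 64 96 500 504)
  (band (go 16 Gd mult S227_256_216_364 (Tr.lf 8675148100 91196231 0) 256 384 64 128 496 500)
  (band (go 16 Gd mult S227_256_216_364 (Tr.lf 9144910114 107838534 0) 256 384 96 128 500 504)
  (go 16 Gd mult S198_227_216_364 (Tr.lf 9144910114 95128391 0) 256 384 96 128 500 504))))) = true := by decide +kernel
  (And.intro (Ok.s3 212 (Ok.s4 290 (Ok.s2 464 (Ok.lf S198_212_216_290_ok (br (br c4)))
  (Ok.lf S198_212_216_290_ok (bl c5)))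
  (Ok.lf S198_212_290_364_ok (bl c1)))
  (Ok.lf S212_227_216_364_ok (bl c2)))
  (And.intro (Ok.lf S227_256_216_364_ok (bl c3))
  (And.intro (Ok.s3 227 (Ok.s3 212 (Ok.s1 96 (Ok.s4 290 (Ok.lf S198_212_216_290_ok (bl (br c4)))
  (Ok.lf S198_212_290_364_ok (bl c4)))
  (Ok.s4 290 (Ok.lf S198_212_216_290_ok (bl (br c5)))
  (Ok.lf S198_212_290_364_ok (br c1))))
  (Ok.s1 96 (Ok.lf S212_227_216_364_ok (br c2))
  (Ok.lf S212_227_216_364_ok (bl (br (br c5))))))
  (Ok.lf S227_256_216_364_ok (br c3)))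
  (Ok.s2 500 (Ok.s3 227 (Ok.s3 212 (Ok.lf S198_212_216_364_ok (bl c0))
  (Ok.lf S212_227_216_364_ok (br c0)))
  (Ok.lf S227_256_216_364_ok (bl (br (br c6)))))
  (Ok.s1 96 (Ok.s3 227 (Ok.s3 212 (Ok.lf S198_212_216_364_ok (bl c6))
  (Ok.lf S212_227_216_364_ok (br (br (br c5)))))
  (Ok.lf S227_256_216_364_ok (bl (br c6))))
  (Ok.s3 227 (Ok.lf S198_227_216_364_ok (br (br (br (br c6)))))
  (Ok.lf S227_256_216_364_ok (bl (br (br (br c6)))))))))))

end Vale.Agent.P098.Ck
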