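import Vale.Agent.P098.CkGd
import Vale.Agent.P098.CkOk
import Vale.Agent.P098.Sh.A25
import Vale.Agent.P098.Sh.A36

namespace Vale.Agent.P098.Ck

theorem r443 :
    Ok Gd mult 256 384 64 96 504 506 198 256 216 364 ∧
    Ok Gd mult 256 384 64 96 506 508 198 256 216 364 ∧
    Ok Gd mult 256 384 96 128 504 508 198 256 216 364 ∧
    Ok Gd mult 256 384 64 128 508 512 198 256 216 364 :=
  have c0 : (band (go 16 Gd mult S198_227_216_364 (Tr.lf 4304961860 95517765 0) 256 384 64 96 504 506)
  (band (go 16 Gd mult S227_256_216_364 (Tr.lf 8675148068 91323462 0) 256 384 64 96 504 506)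
  (band (go 16 Gd mult S227_256_216_364 (Tr.lf 4380180770 99847365 8543478767216584377648545792) 256 384 96 128 504 508)
  (band (go 16 Gd mult S198_227_216_364 (Tr.lf 8667426 104041667 8543478767216584377648545792) 256 384 96 128 504 508)
  (band (go 16 Gd mult S227_256_216_364 (Tr.lf 8675148050 95386694 0) 256 384 64 80 506 508)
  (band (go 16 Gd mult S198_227_216_364 (Tr.lf 4303651108 95386437 0) 256 384 64 80 506 508)
  (band (go 16 Gd mult S198_227_216_364 (Tr.lf 4303634706 99580741 0) 256 384 80 96 506 508)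
  (go 16 Gd mult S227_256_216_364 (Tr.lf 8675148050 95386694 0) 256 384 80 96 506 508)))))))) = true := by decide +kernel
  have c1 : (band (go 16 Gd mult S198_227_216_364 (Tr.lf 8667410 108239939 0) 256 384 80 96 508 510)
  (band (go 16 Gd mult S227_256_216_364 (Tr.lf 8675148050 95386439 0) 256 384 80 96 508 510)
  (band (go 16 Gd mult S198_227_216_364 (Tr.lf 4380180754 91458757 11066506952752315465260335104) 256 384 96 128 508 512)
  (go 16 Gd mult S227_256_216_364 (Tr.lf 4380180754 104168645 11067715878571930094435041280) 256 384 96 128 508 512)))) = true := by decide +kernel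
  have c2 : (band (go 16 Gd mult S198_227_216_290 (Tr.lf 4303503650 95128389 9920445275757647007638880256) 256 384 64 96 510 512)
  (band (go 16 Gd mult S227_256_216_290 (Tr.lf 8675016994 91192135 9920445275757647007638880256) 256 384 64 96 510 512)
  (band (go 16 Gd mult S198_227_290_364 (Tr.lf 4303503650 91065157 9884177501169208132397694976) 256 384 64 96 510 512)
  (band (go 16 Gd mult S227_256_290_364 (Tr.lf 8674951458 95386439 9884177501169208132397694976) 256 384 64 96 510 512)
  (band (go 16 Gd mult S198_227_216_290 (Tr.lf 4303503634 91192133 0) 256 384 64 80 508 510)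
  (band (go 16 Gd mult S227_256_216_290 (Tr.lf 8675016978 99707974 0) 256 384 64 80 508 510)
  (band (go 16 Gd mult S198_227_290_364 (Tr.lf 4303503634 95386437 0) 256 384 64 80 508 510)
  (go 16 Gd mult S227_256_290_364 (Tr.lf 8674951442 91192390 0) 256 384 64 80 508 510)))))))) = true := by decide +kernel
  (And.intro (Ok.s3 227 (Ok.lf S198_227_216_364_ok (bl c0))
  (Ok.lf S227_256_216_364_ok (bl (br c0))))
  (And.intro (Ok.s1 80 (Ok.s3 227 (Ok.lf S198_227_216_364_ok (bl (br (br (br (br (br c0)))))))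
  (Ok.lf S227_256_216_364_ok (bl (br (br (br (br c0)))))))
  (Ok.s3 227 (Ok.lf S198_227_216_364_ok (bl (br (br (br (br (br (br c0))))))))
  (Ok.lf S227_256_216_364_ok (br (br (br (br (br (br (br c0))))))))))
  (And.intro (Ok.s3 227 (Ok.lf S198_227_216_364_ok (bl (br (br (br c0)))))
  (Ok.lf S227_256_216_364_ok (bl (br (br c0)))))
  (Ok.s1 96 (Ok.s2 510 (Ok.s1 80 (Ok.s4 290 (Ok.s3 227 (Ok.lf S198_227_216_290_ok (bl (br (br (br (br c2))))))
  (Ok.lf S227_256_216_290_ok (bl (br (br (br (br (br c2))))))))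
  (Ok.s3 227 (Ok.lf S198_227_290_364_ok (bl (br (br (br (br (br (br c2))))))))
  (Ok.lf S227_256_290_364_ok (br (br (br (br (br (br (br c2))))))))))
  (Ok.s3 227 (Ok.lf S198_227_216_364_ok (bl c1))
  (Ok.lf S227_256_216_364_ok (bl (br c1)))))
  (Ok.s4 290 (Ok.s3 227 (Ok.lf S198_227_216_290_ok (bl c2))
  (Ok.lf S227_256_216_290_ok (bl (br c2))))
  (Ok.s3 227 (Ok.lf S198_227_290_364_ok (bl (br (br c2))))
  (Ok.lf S227_256_290_364_ok (bl (br (br (br c2))))))))
  (Ok.s3 227 (Ok.lf S198_227_216_364_ok (bl (br (br c1))))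
  (Ok.lf S227_256_216_364_ok (br (br (br c1)))))))))

end Vale.Agent.P098.Ck
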