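import Vale.Agent.P098.CkGd
import Vale.Agent.P098.CkOk
import Vale.Agent.P098.Sh.A23
import Vale.Agent.P098.Sh.A24

namespace Vale.Agent.P098.Ck

theorem r444 :
    Ok Gd mult 256 320 64 80 384 512 198 212 364 512 ∧
    Ok Gd mult 320 384 64 80 384 512 198 212 364 512 ∧
    Ok Gd mult 256 384 80 96 384 512 198 212 364 512 ∧
    Ok Gd mult 256 384 96 128 384 512 198 212 364 512 :=
  have c0 : (band (go 16 Gd mult S198_212_364_512 (Tr.lf 13986448520 103254857 0) 256 384 96 128 480 496)
  (go 16 Gd mult S198_212_364_512 (Tr.lf 8608303140 90934342 0) 256 320 64 80 448 480)) = true := by decide +kernel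
  have c1 : (band (go 16 Gd mult S198_212_364_512 (Tr.lf 8608303172 86866759 0) 320 384 64 80 480 512)
  (band (go 16 Gd mult S198_212_364_512 (Tr.lf 13986449476 99187529 0) 256 320 80 96 480 512)
  (go 16 Gd mult S198_212_364_512 (Tr.lf 13986448420 103517128 0) 256 320 64 80 480 496))) = true := by decide +kernel
  have c2 : (band (go 16 Gd mult S198_212_364_438 (Tr.lf 13986186376 107580233 0) 256 384 96 128 416 448)
  (band (go 16 Gd mult S198_212_438_512 (Tr.lf 13986186312 103385929 0) 256 384 96 128 416 448)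
  (go 16 Gd mult S198_212_438_512 (Tr.lf 13986187332 103255112 0) 256 384 96 128 448 480))) = true := by decide +kernel
  have c3 : (go 16 Gd mult S198_212_364_438 (Tr.lf 13986187336 103255112 0) 256 384 96 128 448 480) = true := by decide +kernel
  have c4 : (band (go 16 Gd mult S198_212_364_512 (Tr.lf 8608303170 95255622 0) 320 384 64 80 448 480)
  (band (go 16 Gd mult S198_212_364_512 (Tr.lf 13986449444 99318856 0) 256 320 80 96 448 480)
  (go 16 Gd mult S198_212_364_512 (Tr.lf 8608303170 95255622 0) 320 384 80 96 448 480))) = true := by decide +kernel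
  have c5 : (band (go 16 Gd mult S198_212_364_512 (Tr.lf 8608303140 90803015 0) 320 384 80 96 480 512)
  (band (go 16 Gd mult S198_212_364_512 (Tr.lf 13449577540 99056585 0) 256 384 96 128 384 416)
  (go 16 Gd mult S198_212_364_512 (Tr.lf 9145173028 103513158 0) 256 320 64 80 496 512))) = true := by decide +kernel
  have c6 : (go 16 Gd mult S198_212_364_512 (Tr.lf 4313073698 103652294 0) 320 384 80 96 384 448) = true := by decide +kernel
  have c7 : (band (go 16 Gd mult S198_212_364_512 (Tr.lf 9144902180 99322695 0) 256 384 96 128 496 512)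
  (band (go 16 Gd mult S198_212_364_512 (Tr.lf 9144902689 99318727 0) 256 320 80 96 384 448)
  (go 16 Gd mult S198_212_364_512 (Tr.lf 4380173329 95526085 0) 320 384 64 80 384 448))) = true := by decide +kernel
  have c8 : (go 16 Gd mult S198_212_364_512 (Tr.lf 4304540689 99449798 0) 256 320 64 80 384 448) = true := by decide +kernel
  (And.intro (Ok.s2 448 (Ok.lf S198_212_364_512_ok c8)
  (Ok.s2 480 (Ok.lf S198_212_364_512_ok (br c0))
  (Ok.s2 496 (Ok.lf S198_212_364_512_ok (br (br c1)))
  (Ok.lf S198_212_364_512_ok (br (br c5))))))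
  (And.intro (Ok.s2 448 (Ok.lf S198_212_364_512_ok (br (br c7)))
  (Ok.s2 480 (Ok.lf S198_212_364_512_ok (bl c4))
  (Ok.lf S198_212_364_512_ok (bl c1))))
  (And.intro (Ok.s0 320 (Ok.s2 448 (Ok.lf S198_212_364_512_ok (bl (br c7)))
  (Ok.s2 480 (Ok.lf S198_212_364_512_ok (bl (br c4)))
  (Ok.lf S198_212_364_512_ok (bl (br c1)))))
  (Ok.s2 448 (Ok.lf S198_212_364_512_ok c6)
  (Ok.s2 480 (Ok.lf S198_212_364_512_ok (br (br c4)))
  (Ok.lf S198_212_364_512_ok (bl c5)))))
  (Ok.s2 448 (Ok.s2 416 (Ok.lf S198_212_364_512_ok (bl (br c5)))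
  (Ok.s4 438 (Ok.lf S198_212_364_438_ok (bl c2))
  (Ok.lf S198_212_438_512_ok (bl (br c2)))))
  (Ok.s2 480 (Ok.s4 438 (Ok.lf S198_212_364_438_ok c3)
  (Ok.lf S198_212_438_512_ok (br (br c2))))
  (Ok.s2 496 (Ok.lf S198_212_364_512_ok (bl c0))
  (Ok.lf S198_212_364_512_ok (bl c7))))))))

end Vale.Agent.P098.Ck
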