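import Vale.Agent.P098.CkGd
import Vale.Agent.P098.CkOk
import Vale.Agent.P098.Sh.A24
import Vale.Agent.P098.Sh.A27
import Vale.Agent.P098.Sh.A31
import Vale.Agent.P098.Sh.A32
import Vale.Agent.P098.Sh.A37

namespace Vale.Agent.P098.Ck

theorem r445 :
    Ok Gd mult 256 384 64 128 384 448 212 227 364 512 ∧
    Ok Gd mult 256 384 64 128 448 512 212 227 364 512 ∧
    Ok Gd mult 256 384 64 128 384 512 227 256 364 512 ∧
    Ok Gd mult 256 384 64 128 384 512 198 256 512 660 :=
  have c0 : (go 16 Gd mult S227_256_364_512 (Tr.lf 9144928388 99318727 0) 256 384 64 128 448 512) = true := by decide +kernel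
  have c1 : (band (go 16 Gd mult S198_212_512_660 (Tr.lf 9146222724 103513287 0) 256 320 64 128 384 448)
  (band (go 16 Gd mult S212_227_512_660 (Tr.lf 9144902786 103513031 0) 256 320 64 128 384 448)
  (go 16 Gd mult S212_227_512_660 (Tr.lf 9144903810 103390023 0) 256 320 64 128 448 512))) = true := by decide +kernel
  have c2 : (band (go 16 Gd mult S198_212_512_660 (Tr.lf 9146222724 99195975 0) 320 384 64 128 448 512)
  (go 16 Gd mult S212_227_512_660 (Tr.lf 9144903810 103648071 0) 320 384 64 128 448 512)) = true := by decide +kernel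
  have c3 : (band (go 16 Gd mult S198_212_512_660 (Tr.lf 13441190018 94858057 0) 256 320 64 128 480 512)
  (go 16 Gd mult S198_212_512_660 (Tr.lf 9146221698 107711814 0) 256 320 64 128 448 480)) = true := by decide +kernel
  have c4 : (go 16 Gd mult S198_227_512_660 (Tr.lf 9146238082 107576519 0) 320 384 64 128 416 448) = true := by decide +kernel
  have c5 : (band (go 16 Gd mult S212_227_364_512 (Tr.lf 9154611268 103644232 0) 256 384 96 128 384 448)
  (go 16 Gd mult S212_227_364_512 (Tr.lf 8608303172 95255367 0) 256 384 64 96 480 512)) = true := by decide +kernel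
  have c6 : (band (go 16 Gd mult S212_227_364_512 (Tr.lf 13449578564 103255112 0) 256 384 96 128 448 480)
  (go 16 Gd mult S212_227_364_512 (Tr.lf 13449578564 99060553 0) 256 384 96 128 480 512)) = true := by decide +kernel
  have c7 : (go 16 Gd mult S227_256_512_660 (Tr.lf 4313073796 99589062 19073933383769138397261) 256 384 64 128 448 512) = true := by decide +kernel
  have c8 : (go 16 Gd mult S212_227_364_512 (Tr.lf 13449577540 94866249 0) 256 384 64 96 448 480) = true := by decide +kernel
  have c9 : (band (go 16 Gd mult S227_256_364_512 (Tr.lf 8608040068 95255240 0) 256 384 64 128 384 448)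
  (go 16 Gd mult S227_256_512_660 (Tr.lf 4303627330 99580614 0) 256 384 64 128 384 448)) = true := by decide +kernel
  have c10 : (go 16 Gd mult S198_227_512_660 (Tr.lf 9144910978 103513031 0) 320 384 64 128 384 416) = true := by decide +kernel
  have c11 : (go 16 Gd mult S212_227_364_512 (Tr.lf 8608031810 90929864 0) 256 384 64 96 384 448) = true := by decide +kernel
  (And.intro (Ok.s1 96 (Ok.lf S212_227_364_512_ok c11)
  (Ok.lf S212_227_364_512_ok (bl c5)))
  (And.intro (Ok.s1 96 (Ok.s2 480 (Ok.lf S212_227_364_512_ok c8)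
  (Ok.lf S212_227_364_512_ok (br c5)))
  (Ok.s2 480 (Ok.lf S212_227_364_512_ok (bl c6))
  (Ok.lf S212_227_364_512_ok (br c6))))
  (And.intro (Ok.s2 448 (Ok.lf S227_256_364_512_ok (bl c9))
  (Ok.lf S227_256_364_512_ok c0))
  (Ok.s3 227 (Ok.s0 320 (Ok.s3 212 (Ok.s2 448 (Ok.lf S198_212_512_660_ok (bl c1))
  (Ok.s2 480 (Ok.lf S198_212_512_660_ok (br c3))
  (Ok.lf S198_212_512_660_ok (bl c3))))
  (Ok.s2 448 (Ok.lf S212_227_512_660_ok (bl (br c1)))
  (Ok.lf S212_227_512_660_ok (br (br c1)))))
  (Ok.s2 448 (Ok.s2 416 (Ok.lf S198_227_512_660_ok c10)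
  (Ok.lf S198_227_512_660_ok c4))
  (Ok.s3 212 (Ok.lf S198_212_512_660_ok (bl c2))
  (Ok.lf S212_227_512_660_ok (br c2)))))
  (Ok.s2 448 (Ok.lf S227_256_512_660_ok (br c9))
  (Ok.lf S227_256_512_660_ok c7))))))

end Vale.Agent.P098.Ck
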