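import Vale.Agent.P098.CkGd
import Vale.Agent.P098.CkOk
import Vale.Agent.P098.Sh.A25
import Vale.Agent.P098.Sh.A27
import Vale.Agent.P098.Sh.A33
import Vale.Agent.P098.Sh.A38
import Vale.Agent.P098.Sh.A41
import Vale.Agent.P098.Sh.A42
import Vale.Agent.P098.Sh.A44
import Vale.Agent.P098.Sh.A45
import Vale.Agent.P098.Sh.A46
import Vale.Agent.P098.Sh.A47
import Vale.Agent.P098.Sh.A49
import Vale.Agent.P098.Sh.A51

namespace Vale.Agent.P098.Ck

theorem r446 :
    Ok Gd mult 256 384 64 128 384 448 198 256 660 808 ∧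
    Ok Gd mult 256 384 64 128 448 512 198 256 660 808 ∧
    Ok Gd mult 256 384 64 128 384 512 256 314 216 808 ∧
    Ok Gd mult 256 384 64 128 384 512 314 372 216 364 :=
  have c0 : (band (go 16 Gd mult S256_285_216_364 (Tr.lf 77088900 108109124 69581118646032428698415) 256 384 64 128 384 512)
  (band (go 16 Gd mult S285_314_512_660 (Tr.lf 4840507458 103766599 179302352414199351607296) 256 384 64 128 384 512)
  (go 16 Gd mult S285_314_216_364 (Tr.lf 9709634 99974468 158808019730565529862144) 256 384 64 128 384 512))) = true := by decide +kernel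
  have c1 : (band (go 16 Gd mult S256_285_364_512 (Tr.lf 76040324 99589188 124183502778657786566915) 256 384 64 128 384 512)
  (go 16 Gd mult S285_314_364_512 (Tr.lf 9586754 104045764 144364219128912604561408) 256 384 64 128 384 512)) = true := by decide +kernel
  have c2 : (band (go 16 Gd mult S314_372_216_364 (Tr.lf 547653764 103783494 0) 256 384 64 128 384 448)
  (band (go 16 Gd mult S256_314_660_808 (Tr.lf 9733186 107973956 0) 256 384 64 128 384 448)
  (go 16 Gd mult S227_256_660_808 (Tr.lf 4303495746 99449797 0) 256 384 64 128 384 448))) = true := by decide +kernel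
  have c3 : (go 16 Gd mult S198_227_660_808 (Tr.lf 9144912004 99318727 0) 256 384 64 128 384 448) = true := by decide +kernel
  have c4 : (band (go 16 Gd mult S227_256_660_808 (Tr.lf 9145173124 103513031 261574830965201441914880) 256 384 64 128 480 512)
  (go 16 Gd mult S256_285_660_808 (Tr.lf 4849173572 103648070 658714784128094378656981) 256 384 64 128 480 512)) = true := by decide +kernel
  have c5 : (go 16 Gd mult S256_285_512_660 (Tr.lf 4303636612 95378246 226618250945521841606458) 256 384 64 128 384 512) = true := by decide +kernel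
  have c6 : (band (go 16 Gd mult S198_212_660_808 (Tr.lf 9144903812 99453767 0) 256 384 64 128 448 512)
  (band (go 16 Gd mult S212_227_660_808 (Tr.lf 4849936516 103783366 56908205467393966735360) 256 384 64 128 448 512)
  (band (go 16 Gd mult S343_372_216_364 (Tr.lf 1169441922 95390920 145249662844115655589888) 256 384 64 128 448 512)
  (go 16 Gd mult S314_343_216_364 (Tr.lf 623002690 99978438 231580425101349710987264) 256 384 64 128 448 512)))) = true := by decide +kernel
  have c7 : (band (go 16 Gd mult S256_314_660_808 (Tr.lf 9733188 103910724 0) 256 384 64 128 448 480)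
  (go 16 Gd mult S227_256_660_808 (Tr.lf 4303626818 99322821 0) 256 384 64 128 448 480)) = true := by decide +kernel
  have c8 : (go 16 Gd mult S285_314_660_808 (Tr.lf 4849157188 99453511 963621016922439557316655) 256 384 64 128 480 512) = true := by decide +kernel
  (And.intro (Ok.s3 227 (Ok.lf S198_227_660_808_ok c3)
  (Ok.lf S227_256_660_808_ok (br (br c2))))
  (And.intro (Ok.s3 227 (Ok.s3 212 (Ok.lf S198_212_660_808_ok (bl c6))
  (Ok.lf S212_227_660_808_ok (bl (br c6))))
  (Ok.s2 480 (Ok.lf S227_256_660_808_ok (br c7))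
  (Ok.lf S227_256_660_808_ok (bl c4))))
  (And.intro (Ok.s4 512 (Ok.s4 364 (Ok.s3 285 (Ok.lf S256_285_216_364_ok (bl c0))
  (Ok.lf S285_314_216_364_ok (br (br c0))))
  (Ok.s3 285 (Ok.lf S256_285_364_512_ok (bl c1))
  (Ok.lf S285_314_364_512_ok (br c1))))
  (Ok.s4 660 (Ok.s3 285 (Ok.lf S256_285_512_660_ok c5)
  (Ok.lf S285_314_512_660_ok (bl (br c0))))
  (Ok.s2 448 (Ok.lf S256_314_660_808_ok (bl (br c2)))
  (Ok.s2 480 (Ok.lf S256_314_660_808_ok (bl c7))
  (Ok.s3 285 (Ok.lf S256_285_660_808_ok (br c4))
  (Ok.lf S285_314_660_808_ok c8))))))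
  (Ok.s2 448 (Ok.lf S314_372_216_364_ok (bl c2))
  (Ok.s3 343 (Ok.lf S314_343_216_364_ok (br (br (br c6))))
  (Ok.lf S343_372_216_364_ok (bl (br (br c6)))))))))

end Vale.Agent.P098.Ck
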