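import Vale.Agent.P098.CkGd
import Vale.Agent.P098.CkOk
import Vale.Agent.P098.Sh.A48
import Vale.Agent.P098.Sh.A49
import Vale.Agent.P098.Sh.A51
import Vale.Agent.P098.Sh.A52
import Vale.Agent.P098.Sh.A54
import Vale.Agent.P098.Sh.A56

namespace Vale.Agent.P098.Ck

theorem r447 :
    Ok Gd mult 256 384 64 128 384 512 314 372 364 512 ∧
    Ok Gd mult 256 384 64 128 384 512 314 372 512 808 ∧
    Ok Gd mult 256 384 64 128 384 512 372 430 216 364 ∧
    Ok Gd mult 256 384 64 128 384 448 372 430 364 512 :=
  have c0 : (band (go 16 Gd mult S314_343_660_808 (Tr.lf 1169721474 91069640 333480239436925832790016) 256 384 64 128 448 512)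
  (go 16 Gd mult S314_343_512_660 (Tr.lf 1161070658 91069512 297970257089314049490944) 256 384 64 128 448 512)) = true := by decide +kernel
  have c1 : (band (go 16 Gd mult S343_372_512_660 (Tr.lf 1169459332 95390920 178416908706800256155648) 256 384 64 128 448 512)
  (go 16 Gd mult S314_343_364_512 (Tr.lf 1160004674 91069511 258697138891523817996288) 256 384 64 128 448 512)) = true := by decide +kernel
  have c2 : (go 16 Gd mult S343_372_660_808 (Tr.lf 1170769988 95517642 269949652774665578348544) 256 384 64 96 448 512) = true := by decide +kernel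
  have c3 : (go 16 Gd mult S372_401_216_364 (Tr.lf 1237616772 87264202 106861988423109716213760) 256 384 64 128 448 512) = true := by decide +kernel
  have c4 : (go 16 Gd mult S343_372_364_512 (Tr.lf 1169442948 87133384 156483729978686875631616) 256 384 64 128 448 512) = true := by decide +kernel
  have c5 : (band (go 16 Gd mult S343_372_660_808 (Tr.lf 4850992260 107846854 0) 256 384 64 128 384 448)
  (band (go 16 Gd mult S401_430_364_512 (Tr.lf 5380392068 90930248 0) 256 384 64 128 384 448)
  (band (go 16 Gd mult S343_372_512_660 (Tr.lf 4850861186 103783622 0) 256 384 64 128 384 448)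
  (band (go 16 Gd mult S372_401_216_364 (Tr.lf 4842472578 99580871 0) 256 384 64 128 384 448)
  (go 16 Gd mult S401_430_216_364 (Tr.lf 5380392066 90930248 0) 256 384 64 128 384 448))))) = true := by decide +kernel
  have c6 : (go 16 Gd mult S401_430_216_364 (Tr.lf 1085555844 90799303 249990275789359698411520) 256 384 64 128 480 512) = true := by decide +kernel
  have c7 : (go 16 Gd mult S343_372_660_808 (Tr.lf 556042274 103779526 65836429599069389717504) 256 384 96 128 448 512) = true := by decide +kernel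
  have c8 : (go 16 Gd mult S401_430_216_364 (Tr.lf 5380391556 99449800 0) 256 384 64 128 448 480) = true := by decide +kernel
  have c9 : (band (go 16 Gd mult S372_401_364_512 (Tr.lf 4850861186 99589063 0) 256 384 64 128 384 448)
  (band (go 16 Gd mult S314_343_660_808 (Tr.lf 4841555010 103767110 0) 256 384 64 128 384 448)
  (band (go 16 Gd mult S343_372_364_512 (Tr.lf 4842472514 103775430 0) 256 384 64 128 384 448)
  (band (go 16 Gd mult S314_343_512_660 (Tr.lf 546456642 103652421 0) 256 384 64 128 384 448)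
  (go 16 Gd mult S314_343_364_512 (Tr.lf 9585218 108240068 0) 256 384 64 128 384 448))))) = true := by decide +kernel
  (And.intro (Ok.s2 448 (Ok.s3 343 (Ok.lf S314_343_364_512_ok (br (br (br (br c9)))))
  (Ok.lf S343_372_364_512_ok (bl (br (br c9)))))
  (Ok.s3 343 (Ok.lf S314_343_364_512_ok (br c1))
  (Ok.lf S343_372_364_512_ok c4)))
  (And.intro (Ok.s4 660 (Ok.s3 343 (Ok.s2 448 (Ok.lf S314_343_512_660_ok (bl (br (br (br c9)))))
  (Ok.lf S314_343_512_660_ok (br c0)))
  (Ok.s2 448 (Ok.lf S343_372_512_660_ok (bl (br (br c5))))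
  (Ok.lf S343_372_512_660_ok (bl c1))))
  (Ok.s2 448 (Ok.s3 343 (Ok.lf S314_343_660_808_ok (bl (br c9)))
  (Ok.lf S343_372_660_808_ok (bl c5)))
  (Ok.s3 343 (Ok.lf S314_343_660_808_ok (bl c0))
  (Ok.s1 96 (Ok.lf S343_372_660_808_ok c2)
  (Ok.lf S343_372_660_808_ok c7)))))
  (And.intro (Ok.s2 448 (Ok.s3 401 (Ok.lf S372_401_216_364_ok (bl (br (br (br c5)))))
  (Ok.lf S401_430_216_364_ok (br (br (br (br c5))))))
  (Ok.s3 401 (Ok.lf S372_401_216_364_ok c3)
  (Ok.s2 480 (Ok.lf S401_430_216_364_ok c8)
  (Ok.lf S401_430_216_364_ok c6))))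
  (Ok.s3 401 (Ok.lf S372_401_364_512_ok (bl c9))
  (Ok.lf S401_430_364_512_ok (bl (br c5)))))))

end Vale.Agent.P098.Ck
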