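import Vale.Agent.P098.CkGd
import Vale.Agent.P098.CkOk
import Vale.Agent.P098.Sh.A54
import Vale.Agent.P098.Sh.A56
import Vale.Agent.P098.Sh.A57
import Vale.Agent.P098.Sh.A58
import Vale.Agent.P098.Sh.A59

namespace Vale.Agent.P098.Ck

theorem r448 :
    Ok Gd mult 256 384 64 128 448 512 372 430 364 512 ∧
    Ok Gd mult 256 384 64 128 384 512 372 430 512 808 ∧
    Ok Gd mult 256 384 64 128 384 512 430 488 216 364 :=
  have c0 : (band (go 16 Gd mult S430_488_216_364 (Tr.lf 5372020872 90922056 0) 256 384 64 128 384 448)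
  (go 16 Gd mult S401_430_660_808 (Tr.lf 5388797060 90938440 0) 256 384 64 128 384 448)) = true := by decide +kernel
  have c1 : (go 16 Gd mult S459_488_216_364 (Tr.lf 5371955336 82664392 61538338229895152336896) 256 384 64 128 448 512) = true := by decide +kernel
  have c2 : (band (go 16 Gd mult S372_401_512_660 (Tr.lf 1774487620 91327689 262109786546701978304512) 256 384 64 96 448 512)
  (band (go 16 Gd mult S430_459_216_364 (Tr.lf 1085425732 94866503 343293907278285273825280) 256 384 64 96 448 512)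
  (go 16 Gd mult S372_401_512_660 (Tr.lf 1093961796 86740040 97601722905628009037824) 256 384 96 128 448 512))) = true := by decide +kernel
  have c3 : (band (go 16 Gd mult S401_430_512_660 (Tr.lf 1093960836 90807495 236763960310603261673472) 256 384 64 128 480 512)
  (go 16 Gd mult S372_401_660_808 (Tr.lf 1161069700 91200711 478674561968689154883584) 256 384 64 128 480 512)) = true := by decide +kernel
  have c4 : (band (go 16 Gd mult S401_430_660_808 (Tr.lf 1161069700 87006407 234439670432774691487744) 256 384 64 128 480 512)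
  (band (go 16 Gd mult S401_430_364_512 (Tr.lf 1093829764 90807495 242814492354895820095488) 256 384 64 128 480 512)
  (go 16 Gd mult S372_401_364_512 (Tr.lf 1237599364 87391178 454121945611898911195136) 256 384 64 128 480 512))) = true := by decide +kernel
  have c5 : (go 16 Gd mult S430_459_216_364 (Tr.lf 1085442116 86735816 71352006132440609325056) 256 384 96 128 448 512) = true := by decide +kernel
  have c6 : (band (go 16 Gd mult S372_401_660_808 (Tr.lf 4852040836 99589064 0) 256 384 64 128 384 448)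
  (band (go 16 Gd mult S372_401_512_660 (Tr.lf 4850861188 99589063 0) 256 384 64 128 384 448)
  (band (go 16 Gd mult S401_430_512_660 (Tr.lf 5380392068 90930248 0) 256 384 64 128 384 448)
  (go 16 Gd mult S372_401_660_808 (Tr.lf 4852040836 91069384 0) 256 384 64 128 448 480)))) = true := by decide +kernel
  have c7 : (band (go 16 Gd mult S401_430_660_808 (Tr.lf 5380392068 95255496 0) 256 384 64 128 448 480)
  (band (go 16 Gd mult S401_430_364_512 (Tr.lf 5380391556 99449800 0) 256 384 64 128 448 480)
  (band (go 16 Gd mult S401_430_512_660 (Tr.lf 5380391556 95255496 0) 256 384 64 128 448 480)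
  (go 16 Gd mult S372_401_364_512 (Tr.lf 4850860674 95263687 0) 256 384 64 128 448 480)))) = true := by decide +kernel
  (And.intro (Ok.s3 401 (Ok.s2 480 (Ok.lf S372_401_364_512_ok (br (br (br c7))))
  (Ok.lf S372_401_364_512_ok (br (br c4))))
  (Ok.s2 480 (Ok.lf S401_430_364_512_ok (bl (br c7)))
  (Ok.lf S401_430_364_512_ok (bl (br c4)))))
  (And.intro (Ok.s4 660 (Ok.s3 401 (Ok.s2 448 (Ok.lf S372_401_512_660_ok (bl (br c6)))
  (Ok.s1 96 (Ok.lf S372_401_512_660_ok (bl c2))
  (Ok.lf S372_401_512_660_ok (br (br c2)))))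
  (Ok.s2 448 (Ok.lf S401_430_512_660_ok (bl (br (br c6))))
  (Ok.s2 480 (Ok.lf S401_430_512_660_ok (bl (br (br c7))))
  (Ok.lf S401_430_512_660_ok (bl c3)))))
  (Ok.s2 448 (Ok.s3 401 (Ok.lf S372_401_660_808_ok (bl c6))
  (Ok.lf S401_430_660_808_ok (br c0)))
  (Ok.s3 401 (Ok.s2 480 (Ok.lf S372_401_660_808_ok (br (br (br c6))))
  (Ok.lf S372_401_660_808_ok (br c3)))
  (Ok.s2 480 (Ok.lf S401_430_660_808_ok (bl c7))
  (Ok.lf S401_430_660_808_ok (bl c4))))))
  (Ok.s2 448 (Ok.lf S430_488_216_364_ok (bl c0))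
  (Ok.s3 459 (Ok.s1 96 (Ok.lf S430_459_216_364_ok (bl (br c2)))
  (Ok.lf S430_459_216_364_ok c5))
  (Ok.lf S459_488_216_364_ok c1)))))

end Vale.Agent.P098.Ck
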