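import Vale.Agent.P098.CkGd
import Vale.Agent.P098.CkOk
import Vale.Agent.P098.Sh.A0
import Vale.Agent.P098.Sh.A58
import Vale.Agent.P098.Sh.A59

namespace Vale.Agent.P098.Ck

theorem r449 :
    Ok Gd mult 256 384 64 128 384 512 430 488 364 512 ∧
    Ok Gd mult 256 384 64 128 384 512 430 488 512 808 ∧
    Ok Gd mult 256 384 128 192 0 128 24 82 216 512 :=
  have c0 : (band (go 16 Gd mult S430_488_364_512 (Tr.lf 5372020872 90922056 0) 256 384 64 128 384 448)
  (go 16 Gd mult S430_459_660_808 (Tr.lf 5380392068 90930248 0) 256 384 64 128 384 448)) = true := by decide +kernel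
  have c1 : (band (go 16 Gd mult S430_488_512_660 (Tr.lf 5372020872 90922056 0) 256 384 64 128 384 448)
  (go 16 Gd mult S459_488_660_808 (Tr.lf 5371937924 91188168 0) 256 384 64 128 384 448)) = true := by decide +kernel
  have c2 : (go 16 Gd mult S459_488_660_808 (Tr.lf 5372020872 82664392 61538338229895120617472) 256 384 64 128 448 512) = true := by decide +kernel
  have c3 : (go 16 Gd mult S24_82_216_364 (Tr.lf 12886116488 91057094 0) 256 384 128 160 0 128) = true := by decide +kernel
  have c4 : (band (go 16 Gd mult S459_488_364_512 (Tr.lf 5371955336 82664392 61538338229895144079360) 256 384 64 128 448 512)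
  (go 16 Gd mult S459_488_512_660 (Tr.lf 5371955336 82664392 61538338229895128809472) 256 384 64 128 448 512)) = true := by decide +kernel
  have c5 : (band (go 16 Gd mult S430_459_364_512 (Tr.lf 1085442116 82672584 69581118666802893619200) 256 384 96 128 448 512)
  (band (go 16 Gd mult S430_459_660_808 (Tr.lf 1152550980 78740424 67607317030145508573184) 256 384 96 128 448 512)
  (go 16 Gd mult S430_459_512_660 (Tr.lf 1085442116 82672584 68695674945410791636992) 256 384 96 128 448 512))) = true := by decide +kernel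
  have c6 : (band (go 16 Gd mult S430_459_660_808 (Tr.lf 1152550980 91196487 321342281764020389150720) 256 384 64 96 448 512)
  (band (go 16 Gd mult S430_459_364_512 (Tr.lf 1152534596 91065415 340084173780885394423808) 256 384 64 96 448 512)
  (go 16 Gd mult S430_459_512_660 (Tr.lf 1152534596 87002183 334919085419755431002112) 256 384 64 96 448 512))) = true := by decide +kernel
  have c7 : (band (go 16 Gd mult S24_82_216_364 (Tr.lf 17181017160 86727623 0) 256 384 160 192 0 64)
  (band (go 16 Gd mult S24_82_364_512 (Tr.lf 17181017160 86727623 0) 256 384 160 192 0 64)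
  (band (go 16 Gd mult S24_82_216_364 (Tr.lf 17718936648 95108168 0) 256 384 160 192 64 128)
  (go 16 Gd mult S24_82_364_512 (Tr.lf 17718936648 95108168 0) 256 384 160 192 64 128)))) = true := by decide +kernel
  have c8 : (go 16 Gd mult S24_82_364_512 (Tr.lf 13422920776 99445702 0) 256 384 128 160 64 128) = true := by decide +kernel
  have c9 : (go 16 Gd mult S24_82_364_512 (Tr.lf 12886033480 99314630 0) 256 384 128 160 0 64) = true := by decide +kernel
  (And.intro (Ok.s2 448 (Ok.lf S430_488_364_512_ok (bl c0))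
  (Ok.s3 459 (Ok.s1 96 (Ok.lf S430_459_364_512_ok (bl (br c6)))
  (Ok.lf S430_459_364_512_ok (bl c5)))
  (Ok.lf S459_488_364_512_ok (bl c4))))
  (And.intro (Ok.s4 660 (Ok.s2 448 (Ok.lf S430_488_512_660_ok (bl c1))
  (Ok.s3 459 (Ok.s1 96 (Ok.lf S430_459_512_660_ok (br (br c6)))
  (Ok.lf S430_459_512_660_ok (br (br c5))))
  (Ok.lf S459_488_512_660_ok (br c4))))
  (Ok.s2 448 (Ok.s3 459 (Ok.lf S430_459_660_808_ok (br c0))
  (Ok.lf S459_488_660_808_ok (br c1)))
  (Ok.s3 459 (Ok.s1 96 (Ok.lf S430_459_660_808_ok (bl c6))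
  (Ok.lf S430_459_660_808_ok (bl (br c5))))
  (Ok.lf S459_488_660_808_ok c2))))
  (Ok.s4 364 (Ok.s1 160 (Ok.lf S24_82_216_364_ok c3)
  (Ok.s2 64 (Ok.lf S24_82_216_364_ok (bl c7))
  (Ok.lf S24_82_216_364_ok (bl (br (br c7))))))
  (Ok.s1 160 (Ok.s2 64 (Ok.lf S24_82_364_512_ok c9)
  (Ok.lf S24_82_364_512_ok c8))
  (Ok.s2 64 (Ok.lf S24_82_364_512_ok (bl (br c7)))
  (Ok.lf S24_82_364_512_ok (br (br (br c7)))))))))

end Vale.Agent.P098.Ck
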