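import Vale.Agent.P098.CkGd
import Vale.Agent.P098.CkOk
import Vale.Agent.P098.Sh.A23
import Vale.Agent.P098.Sh.A25
import Vale.Agent.P098.Sh.A30

namespace Vale.Agent.P098.Ck

theorem r45 :
    Ok Gd mult 64 96 96 112 384 512 198 227 216 364 ∧
    Ok Gd mult 96 128 96 112 384 512 198 227 216 364 ∧
    Ok Gd mult 0 64 112 128 384 512 198 227 216 364 ∧
    Ok Gd mult 64 96 112 128 384 512 198 227 216 364 :=
  have c0 : (band (go 16 Gd mult S198_212_216_364 (Tr.lf 13986465858 103390407 0) 96 112 96 112 480 512)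
  (band (go 16 Gd mult S212_227_216_364 (Tr.lf 8598864929 95255238 34071136304141541834752) 96 112 96 112 480 512)
  (band (go 16 Gd mult S212_227_216_364 (Tr.lf 9145174050 99327046 21601137310313884942336) 64 96 112 128 448 512)
  (go 16 Gd mult S212_227_216_364 (Tr.lf 9145174049 103390023 185371331196707284189184) 64 96 96 112 448 512)))) = true := by decide +kernel
  have c1 : (band (go 16 Gd mult S198_212_216_364 (Tr.lf 9146222660 99318983 39254671388853925838848) 0 64 112 128 448 512)
  (band (go 16 Gd mult S212_227_216_364 (Tr.lf 9144903714 99318727 89761856662670678163456) 0 64 112 128 448 512)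
  (band (go 16 Gd mult S198_212_216_364 (Tr.lf 9137834050 99581126 33185692588603483357184) 64 96 96 112 480 512)
  (go 16 Gd mult S198_212_216_364 (Tr.lf 13978060834 103382215 0) 64 96 112 128 480 512)))) = true := by decide +kernel
  have c2 : (band (go 16 Gd mult S198_212_216_364 (Tr.lf 13986449473 103390407 0) 112 128 96 112 480 512)
  (band (go 16 Gd mult S212_227_216_364 (Tr.lf 9136785441 103644102 1752440687002407403520) 112 128 96 112 480 512)
  (go 16 Gd mult S198_212_216_364 (Tr.lf 13978059810 103119944 0) 64 96 112 128 448 480))) = true := by decide +kernel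
  have c3 : (band (go 16 Gd mult S198_227_216_364 (Tr.lf 9145959457 103390279 0) 112 128 96 112 448 480)
  (go 16 Gd mult S198_227_216_364 (Tr.lf 9144910369 103390023 0) 96 112 96 112 448 480)) = true := by decide +kernel
  have c4 : (go 16 Gd mult S198_212_216_364 (Tr.lf 9136513553 103381831 0) 64 96 96 112 448 480) = true := by decide +kernel
  have c5 : (band (go 16 Gd mult S198_227_216_364 (Tr.lf 4304544273 95390662 0) 112 128 96 112 384 448)
  (band (go 16 Gd mult S198_227_216_364 (Tr.lf 4304544273 91061318 0) 0 64 112 128 384 448)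
  (go 16 Gd mult S198_227_216_364 (Tr.lf 4304544273 99585221 0) 64 96 112 128 384 448))) = true := by decide +kernel
  have c6 : (band (go 16 Gd mult S198_227_216_364 (Tr.lf 4304478737 99445830 0) 64 96 96 112 384 448)
  (go 16 Gd mult S198_227_216_364 (Tr.lf 4304478737 99453894 0) 96 112 96 112 384 448)) = true := by decide +kernel
  (And.intro (Ok.s2 448 (Ok.lf S198_227_216_364_ok (bl c6))
  (Ok.s3 212 (Ok.s2 480 (Ok.lf S198_212_216_364_ok c4)
  (Ok.lf S198_212_216_364_ok (bl (br (br c1)))))
  (Ok.lf S212_227_216_364_ok (br (br (br c0))))))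
  (And.intro (Ok.s0 112 (Ok.s2 448 (Ok.lf S198_227_216_364_ok (br c6))
  (Ok.s2 480 (Ok.lf S198_227_216_364_ok (br c3))
  (Ok.s3 212 (Ok.lf S198_212_216_364_ok (bl c0))
  (Ok.lf S212_227_216_364_ok (bl (br c0))))))
  (Ok.s2 448 (Ok.lf S198_227_216_364_ok (bl c5))
  (Ok.s2 480 (Ok.lf S198_227_216_364_ok (bl c3))
  (Ok.s3 212 (Ok.lf S198_212_216_364_ok (bl c2))
  (Ok.lf S212_227_216_364_ok (bl (br c2)))))))
  (And.intro (Ok.s2 448 (Ok.lf S198_227_216_364_ok (bl (br c5)))
  (Ok.s3 212 (Ok.lf S198_212_216_364_ok (bl c1))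
  (Ok.lf S212_227_216_364_ok (bl (br c1)))))
  (Ok.s2 448 (Ok.lf S198_227_216_364_ok (br (br c5)))
  (Ok.s3 212 (Ok.s2 480 (Ok.lf S198_212_216_364_ok (br (br c2)))
  (Ok.lf S198_212_216_364_ok (br (br (br c1)))))
  (Ok.lf S212_227_216_364_ok (bl (br (br c0)))))))))

end Vale.Agent.P098.Ck
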