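import Vale.Agent.P098.CkGd
import Vale.Agent.P098.CkOk
import Vale.Agent.P098.Sh.A1
import Vale.Agent.P098.Sh.A2
import Vale.Agent.P098.Sh.A4
import Vale.Agent.P098.Sh.A5
import Vale.Agent.P098.Sh.A6

namespace Vale.Agent.P098.Ck

theorem r450 :
    Ok Gd mult 256 384 128 192 0 128 24 82 512 660 ∧
    Ok Gd mult 256 384 128 192 0 128 24 82 660 808 ∧
    Ok Gd mult 256 384 128 192 0 128 82 140 216 512 :=
  have c0 : (band (go 16 Gd mult S111_140_364_512 (Tr.lf 13432554632 103910343 0) 256 320 128 192 64 128)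
  (go 16 Gd mult S111_125_216_364 (Tr.lf 13432530052 99593286 0) 256 320 128 192 64 128)) = true := by decide +kernel
  have c1 : (band (go 16 Gd mult S82_140_364_512 (Tr.lf 13424167044 99445831 0) 320 384 128 192 0 128)
  (go 16 Gd mult S111_140_216_364 (Tr.lf 9137571970 108104902 0) 320 384 128 192 0 128)) = true := by decide +kernel
  have c2 : (band (go 16 Gd mult S24_82_512_660 (Tr.lf 12886050952 91057094 0) 256 384 128 160 0 128)
  (band (go 16 Gd mult S24_82_512_660 (Tr.lf 17181017160 86727623 0) 256 384 160 192 0 64)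
  (go 16 Gd mult S24_82_512_660 (Tr.lf 17718936648 95108168 0) 256 384 160 192 64 128))) = true := by decide +kernel
  have c3 : (band (go 16 Gd mult S82_111_216_364 (Tr.lf 17181067400 90794568 0) 256 320 128 192 0 128)
  (band (go 16 Gd mult S82_111_364_512 (Tr.lf 17181067396 82537032 0) 256 320 128 192 0 128)
  (go 16 Gd mult S82_111_216_364 (Tr.lf 13424018498 103775175 0) 320 384 128 192 0 128))) = true := by decide +kernel
  have c4 : (band (go 16 Gd mult S111_140_216_364 (Tr.lf 17181198408 90917448 0) 256 320 128 160 0 64)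
  (go 16 Gd mult S111_140_216_364 (Tr.lf 17181198408 95247175 0) 256 320 160 192 0 64)) = true := by decide +kernel
  have c5 : (band (go 16 Gd mult S125_140_216_364 (Tr.lf 17727505544 94984905 0) 256 320 128 160 64 128)
  (go 16 Gd mult S125_140_216_364 (Tr.lf 17727505544 95120328 0) 256 320 160 192 64 128)) = true := by decide +kernel
  have c6 : (band (go 16 Gd mult S24_82_660_808 (Tr.lf 17181017224 91060935 0) 256 320 128 192 0 64)
  (band (go 16 Gd mult S111_140_364_512 (Tr.lf 17181066376 91183688 0) 256 320 128 192 0 64)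
  (go 16 Gd mult S24_82_660_808 (Tr.lf 13422920776 99445702 0) 256 384 128 160 64 128))) = true := by decide +kernel
  have c7 : (go 16 Gd mult S24_82_660_808 (Tr.lf 17718936648 95108168 0) 256 384 160 192 64 128) = true := by decide +kernel
  have c8 : (go 16 Gd mult S24_82_660_808 (Tr.lf 13422903874 107838406 0) 320 384 128 192 0 64) = true := by decide +kernel
  (And.intro (Ok.s1 160 (Ok.lf S24_82_512_660_ok (bl c2))
  (Ok.s2 64 (Ok.lf S24_82_512_660_ok (bl (br c2)))
  (Ok.lf S24_82_512_660_ok (br (br c2)))))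
  (And.intro (Ok.s2 64 (Ok.s0 320 (Ok.lf S24_82_660_808_ok (bl c6))
  (Ok.lf S24_82_660_808_ok c8))
  (Ok.s1 160 (Ok.lf S24_82_660_808_ok (br (br c6)))
  (Ok.lf S24_82_660_808_ok c7)))
  (Ok.s4 364 (Ok.s3 111 (Ok.s0 320 (Ok.lf S82_111_216_364_ok (bl c3))
  (Ok.lf S82_111_216_364_ok (br (br c3))))
  (Ok.s0 320 (Ok.s2 64 (Ok.s1 160 (Ok.lf S111_140_216_364_ok (bl c4))
  (Ok.lf S111_140_216_364_ok (br c4)))
  (Ok.s3 125 (Ok.lf S111_125_216_364_ok (br c0))
  (Ok.s1 160 (Ok.lf S125_140_216_364_ok (bl c5))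
  (Ok.lf S125_140_216_364_ok (br c5)))))
  (Ok.lf S111_140_216_364_ok (br c1))))
  (Ok.s0 320 (Ok.s3 111 (Ok.lf S82_111_364_512_ok (bl (br c3)))
  (Ok.s2 64 (Ok.lf S111_140_364_512_ok (bl (br c6)))
  (Ok.lf S111_140_364_512_ok (bl c0))))
  (Ok.lf S82_140_364_512_ok (bl c1))))))

end Vale.Agent.P098.Ck
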