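import Vale.Agent.P098.CkGd
import Vale.Agent.P098.CkOk
import Vale.Agent.P098.Sh.A12
import Vale.Agent.P098.Sh.A3
import Vale.Agent.P098.Sh.A4
import Vale.Agent.P098.Sh.A5
import Vale.Agent.P098.Sh.A6
import Vale.Agent.P098.Sh.A7
import Vale.Agent.P098.Sh.A8

namespace Vale.Agent.P098.Ck

theorem r451 :
    Ok Gd mult 256 384 128 192 0 128 82 140 512 660 ∧
    Ok Gd mult 256 384 128 192 0 128 82 140 660 808 ∧
    Ok Gd mult 256 384 128 192 0 128 140 169 216 364 :=
  have c0 : (go 16 Gd mult S82_111_512_660 (Tr.lf 17181083784 86731336 0) 256 320 128 192 0 128) = true := by decide +kernel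
  have c1 : (go 16 Gd mult S140_169_216_364 (Tr.lf 17181214792 95111880 0) 256 320 128 160 0 64) = true := by decide +kernel
  have c2 : (go 16 Gd mult S140_169_216_364 (Tr.lf 17181475908 99703623 0) 256 288 160 192 0 64) = true := by decide +kernel
  have c3 : (band (go 16 Gd mult S154_169_216_364 (Tr.lf 17736157252 99449928 0) 256 320 160 192 64 128)
  (go 16 Gd mult S140_154_216_364 (Tr.lf 17736156228 99453896 0) 256 320 160 192 64 128)) = true := by decide +kernel
  have c4 : (band (go 16 Gd mult S82_140_660_808 (Tr.lf 17181082756 95120199 0) 256 320 128 192 0 64)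
  (band (go 16 Gd mult S111_140_512_660 (Tr.lf 17181066372 95120199 0) 256 320 128 192 0 64)
  (band (go 16 Gd mult S111_140_512_660 (Tr.lf 13432407172 103910598 0) 256 320 128 192 64 128)
  (band (go 16 Gd mult S111_140_512_660 (Tr.lf 9136391234 103783621 0) 320 384 128 192 0 128)
  (go 16 Gd mult S82_111_512_660 (Tr.lf 13423952962 103767366 0) 320 384 128 192 0 128))))) = true := by decide +kernel
  have c5 : (band (go 16 Gd mult S111_140_660_808 (Tr.lf 13431358600 103648071 0) 256 384 128 192 64 128)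
  (go 16 Gd mult S82_111_660_808 (Tr.lf 13422969480 107961414 0) 256 384 128 192 64 128)) = true := by decide +kernel
  have c6 : (band (go 16 Gd mult S140_154_216_364 (Tr.lf 17727506500 99310281 0) 256 320 128 160 64 128)
  (go 16 Gd mult S154_169_216_364 (Tr.lf 13432529988 103902279 0) 256 320 128 160 64 128)) = true := by decide +kernel
  have c7 : (band (go 16 Gd mult S140_169_216_364 (Tr.lf 13431489604 103910215 0) 320 384 160 192 64 128)
  (band (go 16 Gd mult S140_169_216_364 (Tr.lf 13432538178 108108998 0) 288 320 160 192 0 64)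
  (go 16 Gd mult S140_169_216_364 (Tr.lf 9137570882 108112966 0) 320 384 128 160 64 128))) = true := by decide +kernel
  have c8 : (go 16 Gd mult S82_140_660_808 (Tr.lf 12886098498 91315015 0) 320 384 128 192 0 64) = true := by decide +kernel
  have c9 : (band (go 16 Gd mult S140_169_216_364 (Tr.lf 8591131170 104037445 0) 320 384 128 160 0 64)
  (go 16 Gd mult S140_169_216_364 (Tr.lf 12886098466 95513670 0) 320 384 160 192 0 64)) = true := by decide +kernel
  (And.intro (Ok.s3 111 (Ok.s0 320 (Ok.lf S82_111_512_660_ok c0)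
  (Ok.lf S82_111_512_660_ok (br (br (br (br c4))))))
  (Ok.s0 320 (Ok.s2 64 (Ok.lf S111_140_512_660_ok (bl (br c4)))
  (Ok.lf S111_140_512_660_ok (bl (br (br c4)))))
  (Ok.lf S111_140_512_660_ok (bl (br (br (br c4)))))))
  (And.intro (Ok.s2 64 (Ok.s0 320 (Ok.lf S82_140_660_808_ok (bl c4))
  (Ok.lf S82_140_660_808_ok c8))
  (Ok.s3 111 (Ok.lf S82_111_660_808_ok (br c5))
  (Ok.lf S111_140_660_808_ok (bl c5))))
  (Ok.s2 64 (Ok.s0 320 (Ok.s1 160 (Ok.lf S140_169_216_364_ok c1)
  (Ok.s0 288 (Ok.lf S140_169_216_364_ok c2)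
  (Ok.lf S140_169_216_364_ok (bl (br c7)))))
  (Ok.s1 160 (Ok.lf S140_169_216_364_ok (bl c9))
  (Ok.lf S140_169_216_364_ok (br c9))))
  (Ok.s1 160 (Ok.s0 320 (Ok.s3 154 (Ok.lf S140_154_216_364_ok (bl c6))
  (Ok.lf S154_169_216_364_ok (br c6)))
  (Ok.lf S140_169_216_364_ok (br (br c7))))
  (Ok.s0 320 (Ok.s3 154 (Ok.lf S140_154_216_364_ok (br c3))
  (Ok.lf S154_169_216_364_ok (bl c3)))
  (Ok.lf S140_169_216_364_ok (bl c7)))))))

end Vale.Agent.P098.Ck
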