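import Vale.Agent.P098.CkGd
import Vale.Agent.P098.CkOk
import Vale.Agent.P098.Sh.A12
import Vale.Agent.P098.Sh.A14
import Vale.Agent.P098.Sh.A17
import Vale.Agent.P098.Sh.A18
import Vale.Agent.P098.Sh.A20
import Vale.Agent.P098.Sh.A7
import Vale.Agent.P098.Sh.A9

namespace Vale.Agent.P098.Ck

theorem r452 :
    Ok Gd mult 256 384 128 192 0 64 169 198 216 364 ∧
    Ok Gd mult 256 384 128 192 64 128 169 198 216 364 ∧
    Ok Gd mult 256 384 128 192 0 128 140 198 364 512 :=
  have c0 : (go 16 Gd mult S169_198_216_364 (Tr.lf 17736173636 103775177 0) 256 320 160 192 64 128) = true := by decide +kernel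
  have c1 : (go 16 Gd mult S154_169_364_512 (Tr.lf 12894619784 99449544 0) 256 384 128 192 64 128) = true := by decide +kernel
  have c2 : (band (go 16 Gd mult S169_198_364_512 (Tr.lf 17180149892 103762504 0) 256 320 128 192 0 64)
  (band (go 16 Gd mult S169_183_216_364 (Tr.lf 12894610564 112426054 0) 256 320 128 192 0 64)
  (band (go 16 Gd mult S183_198_216_364 (Tr.lf 12885173380 108100422 0) 256 320 128 192 0 64)
  (go 16 Gd mult S169_198_364_512 (Tr.lf 12894618692 103770952 0) 320 384 128 192 64 128)))) = true := by decide +kernel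
  have c3 : (band (go 16 Gd mult S169_198_364_512 (Tr.lf 13431506052 99584967 0) 256 320 128 192 64 128)
  (go 16 Gd mult S140_154_364_512 (Tr.lf 13432530052 104041415 0) 256 320 128 192 64 128)) = true := by decide +kernel
  have c4 : (go 16 Gd mult S140_169_364_512 (Tr.lf 17181067336 95111880 0) 256 320 128 160 0 64) = true := by decide +kernel
  have c5 : (go 16 Gd mult S169_198_216_364 (Tr.lf 12894635076 99716039 0) 320 384 160 192 64 128) = true := by decide +kernel
  have c6 : (go 16 Gd mult S140_169_364_512 (Tr.lf 17181197384 91052999 0) 256 320 160 192 0 64) = true := by decide +kernel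
  have c7 : (go 16 Gd mult S169_198_216_364 (Tr.lf 12894618692 99703624 0) 256 384 128 160 64 128) = true := by decide +kernel
  have c8 : (band (go 16 Gd mult S169_183_216_364 (Tr.lf 17726448708 99441353 0) 320 384 128 192 0 64)
  (go 16 Gd mult S183_198_216_364 (Tr.lf 17726448708 99445449 0) 320 384 128 192 0 64)) = true := by decide +kernel
  have c9 : (band (go 16 Gd mult S169_198_364_512 (Tr.lf 17726448164 103508936 0) 320 384 160 192 0 64)
  (band (go 16 Gd mult S140_169_364_512 (Tr.lf 12885041698 103770950 0) 320 384 160 192 0 64)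
  (band (go 16 Gd mult S140_169_364_512 (Tr.lf 8591122978 103779397 0) 320 384 128 160 0 64)
  (go 16 Gd mult S169_198_364_512 (Tr.lf 8590074402 108231621 0) 320 384 128 160 0 64)))) = true := by decide +kernel
  have c10 : (go 16 Gd mult S140_154_364_512 (Tr.lf 12894478914 99453767 0) 320 384 128 192 64 128) = true := by decide +kernel
  (And.intro (Ok.s0 320 (Ok.s3 183 (Ok.lf S169_183_216_364_ok (bl (br c2)))
  (Ok.lf S183_198_216_364_ok (bl (br (br c2)))))
  (Ok.s3 183 (Ok.lf S169_183_216_364_ok (bl c8))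
  (Ok.lf S183_198_216_364_ok (br c8))))
  (And.intro (Ok.s1 160 (Ok.lf S169_198_216_364_ok c7)
  (Ok.s0 320 (Ok.lf S169_198_216_364_ok c0)
  (Ok.lf S169_198_216_364_ok c5)))
  (Ok.s2 64 (Ok.s3 169 (Ok.s0 320 (Ok.s1 160 (Ok.lf S140_169_364_512_ok c4)
  (Ok.lf S140_169_364_512_ok c6))
  (Ok.s1 160 (Ok.lf S140_169_364_512_ok (bl (br (br c9))))
  (Ok.lf S140_169_364_512_ok (bl (br c9)))))
  (Ok.s0 320 (Ok.lf S169_198_364_512_ok (bl c2))
  (Ok.s1 160 (Ok.lf S169_198_364_512_ok (br (br (br c9))))
  (Ok.lf S169_198_364_512_ok (bl c9)))))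
  (Ok.s3 169 (Ok.s3 154 (Ok.s0 320 (Ok.lf S140_154_364_512_ok (br c3))
  (Ok.lf S140_154_364_512_ok c10))
  (Ok.lf S154_169_364_512_ok c1))
  (Ok.s0 320 (Ok.lf S169_198_364_512_ok (bl c3))
  (Ok.lf S169_198_364_512_ok (br (br (br c2)))))))))

end Vale.Agent.P098.Ck
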