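import Vale.Agent.P098.CkGd
import Vale.Agent.P098.CkOk
import Vale.Agent.P098.Sh.A10
import Vale.Agent.P098.Sh.A19
import Vale.Agent.P098.Sh.A25
import Vale.Agent.P098.Sh.A36

namespace Vale.Agent.P098.Ck

theorem r453 :
    Ok Gd mult 256 384 128 192 0 128 140 169 512 660 ∧
    Ok Gd mult 256 384 128 192 0 128 169 198 512 660 ∧
    Ok Gd mult 256 384 128 192 0 128 140 198 660 808 ∧
    Ok Gd mult 256 384 128 192 0 64 198 256 216 364 :=
  have c0 : (go 16 Gd mult S198_227_216_290 (Tr.lf 22012004484 99297738 0) 320 384 160 192 0 64) = true := by decide +kernel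
  have c1 : (go 16 Gd mult S227_256_216_290 (Tr.lf 22012004484 95234506 0) 320 384 160 192 0 64) = true := by decide +kernel
  have c2 : (band (go 16 Gd mult S198_227_290_364 (Tr.lf 17725424776 107956809 0) 256 384 128 192 0 64)
  (go 16 Gd mult S227_256_290_364 (Tr.lf 17725277320 107956809 0) 256 384 128 192 0 64)) = true := by decide +kernel
  have c3 : (band (go 16 Gd mult S140_169_512_660 (Tr.lf 17181197448 91052744 0) 256 320 128 192 0 64)
  (go 16 Gd mult S169_198_512_660 (Tr.lf 17180148872 99437128 0) 256 320 128 192 0 64)) = true := by decide +kernel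
  have c4 : (go 16 Gd mult S169_198_512_660 (Tr.lf 12886230152 95382216 0) 256 384 128 192 64 128) = true := by decide +kernel
  have c5 : (band (go 16 Gd mult S169_198_660_808 (Tr.lf 17180148872 95119816 0) 256 320 128 192 0 64)
  (band (go 16 Gd mult S140_169_660_808 (Tr.lf 17180140680 95115720 0) 256 320 128 192 0 64)
  (band (go 16 Gd mult S169_198_660_808 (Tr.lf 12894618180 103779143 0) 256 320 128 192 64 128)
  (go 16 Gd mult S140_169_660_808 (Tr.lf 13431489604 108100423 0) 256 320 128 192 64 128)))) = true := by decide +kernel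
  have c6 : (band (go 16 Gd mult S198_227_216_290 (Tr.lf 17725424712 99576265 0) 256 384 128 160 0 64)
  (go 16 Gd mult S227_256_216_290 (Tr.lf 17725408328 99576265 0) 256 384 128 160 0 64)) = true := by decide +kernel
  have c7 : (go 16 Gd mult S140_169_512_660 (Tr.lf 13431489668 108100423 0) 256 320 128 192 64 128) = true := by decide +kernel
  have c8 : (band (go 16 Gd mult S198_227_216_290 (Tr.lf 17725277252 103901896 0) 256 320 160 192 0 64)
  (go 16 Gd mult S227_256_216_290 (Tr.lf 17725277252 103901896 0) 256 320 160 192 0 64)) = true := by decide +kernel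
  have c9 : (band (go 16 Gd mult S140_169_512_660 (Tr.lf 8599520322 104172741 0) 320 384 128 192 0 128)
  (band (go 16 Gd mult S140_169_660_808 (Tr.lf 9136391234 104045765 0) 320 384 128 192 0 128)
  (go 16 Gd mult S169_198_660_808 (Tr.lf 8590074946 108100549 0) 320 384 128 192 0 128))) = true := by decide +kernel
  have c10 : (go 16 Gd mult S169_198_512_660 (Tr.lf 8590074434 108362693 0) 320 384 128 192 0 64) = true := by decide +kernel
  (And.intro (Ok.s0 320 (Ok.s2 64 (Ok.lf S140_169_512_660_ok (bl c3))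
  (Ok.lf S140_169_512_660_ok c7))
  (Ok.lf S140_169_512_660_ok (bl c9)))
  (And.intro (Ok.s2 64 (Ok.s0 320 (Ok.lf S169_198_512_660_ok (br c3))
  (Ok.lf S169_198_512_660_ok c10))
  (Ok.lf S169_198_512_660_ok c4))
  (And.intro (Ok.s3 169 (Ok.s0 320 (Ok.s2 64 (Ok.lf S140_169_660_808_ok (bl (br c5)))
  (Ok.lf S140_169_660_808_ok (br (br (br c5)))))
  (Ok.lf S140_169_660_808_ok (bl (br c9))))
  (Ok.s0 320 (Ok.s2 64 (Ok.lf S169_198_660_808_ok (bl c5))
  (Ok.lf S169_198_660_808_ok (bl (br (br c5)))))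
  (Ok.lf S169_198_660_808_ok (br (br c9)))))
  (Ok.s4 290 (Ok.s3 227 (Ok.s1 160 (Ok.lf S198_227_216_290_ok (bl c6))
  (Ok.s0 320 (Ok.lf S198_227_216_290_ok (bl c8))
  (Ok.lf S198_227_216_290_ok c0)))
  (Ok.s1 160 (Ok.lf S227_256_216_290_ok (br c6))
  (Ok.s0 320 (Ok.lf S227_256_216_290_ok (br c8))
  (Ok.lf S227_256_216_290_ok c1))))
  (Ok.s3 227 (Ok.lf S198_227_290_364_ok (bl c2))
  (Ok.lf S227_256_290_364_ok (br c2)))))))

end Vale.Agent.P098.Ck
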