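import Vale.Agent.P098.CkGd
import Vale.Agent.P098.CkOk
import Vale.Agent.P098.Sh.A25
import Vale.Agent.P098.Sh.A26
import Vale.Agent.P098.Sh.A27
import Vale.Agent.P098.Sh.A29
import Vale.Agent.P098.Sh.A36
import Vale.Agent.P098.Sh.A37

namespace Vale.Agent.P098.Ck

theorem r454 :
    Ok Gd mult 256 384 128 192 64 128 198 256 216 364 ∧
    Ok Gd mult 256 384 128 192 0 128 198 256 364 512 ∧
    Ok Gd mult 256 384 128 192 0 128 198 256 512 660 :=
  have c0 : (go 16 Gd mult S198_227_216_364 (Tr.lf 17735124040 99449673 0) 256 384 160 192 64 128) = true := by decide +kernel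
  have c1 : (go 16 Gd mult S227_256_216_364 (Tr.lf 17735124040 103643977 0) 256 384 160 192 64 128) = true := by decide +kernel
  have c2 : (go 16 Gd mult S198_227_364_512 (Tr.lf 12885443720 103766600 0) 256 384 128 192 64 128) = true := by decide +kernel
  have c3 : (band (go 16 Gd mult S198_227_512_660 (Tr.lf 17180149896 99568200 0) 256 320 128 192 0 64)
  (go 16 Gd mult S227_256_364_438 (Tr.lf 17792517252 104159944 0) 256 320 128 192 0 64)) = true := by decide +kernel
  have c4 : (band (go 16 Gd mult S227_256_512_660 (Tr.lf 17180411016 99568200 0) 256 320 128 192 0 64)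
  (go 16 Gd mult S227_256_438_512 (Tr.lf 17180148868 99433160 0) 256 320 128 192 0 64)) = true := by decide +kernel
  have c5 : (band (go 16 Gd mult S198_227_512_660 (Tr.lf 12885181576 99568200 0) 256 384 128 192 64 128)
  (go 16 Gd mult S227_256_512_660 (Tr.lf 12885181576 99568455 0) 256 384 128 192 64 128)) = true := by decide +kernel
  have c6 : (band (go 16 Gd mult S198_227_438_512 (Tr.lf 12885050500 108092358 0) 256 320 128 192 0 64)
  (go 16 Gd mult S198_227_364_438 (Tr.lf 12885050436 112417734 0) 256 320 128 192 0 64)) = true := by decide +kernel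
  have c7 : (band (go 16 Gd mult S198_227_364_512 (Tr.lf 17725408324 103770569 0) 320 384 128 192 0 64)
  (band (go 16 Gd mult S227_256_364_512 (Tr.lf 17725408324 103762505 0) 320 384 128 192 0 64)
  (band (go 16 Gd mult S227_256_364_512 (Tr.lf 12885181508 99699527 0) 256 320 128 192 64 128)
  (go 16 Gd mult S227_256_364_512 (Tr.lf 17725408324 103762250 0) 320 384 128 192 64 128)))) = true := by decide +kernel
  have c8 : (band (go 16 Gd mult S198_256_512_660 (Tr.lf 8590230052 108100549 0) 320 384 128 160 0 64)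
  (go 16 Gd mult S198_256_512_660 (Tr.lf 8590230050 112299204 0) 320 384 160 192 0 64)) = true := by decide +kernel
  have c9 : (band (go 16 Gd mult S198_227_216_364 (Tr.lf 13430440516 103774792 0) 256 384 128 160 64 128)
  (go 16 Gd mult S227_256_216_364 (Tr.lf 13430440516 103775047 0) 256 384 128 160 64 128)) = true := by decide +kernel
  (And.intro (Ok.s3 227 (Ok.s1 160 (Ok.lf S198_227_216_364_ok (bl c9))
  (Ok.lf S198_227_216_364_ok c0))
  (Ok.s1 160 (Ok.lf S227_256_216_364_ok (br c9))
  (Ok.lf S227_256_216_364_ok c1)))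
  (And.intro (Ok.s2 64 (Ok.s3 227 (Ok.s0 320 (Ok.s4 438 (Ok.lf S198_227_364_438_ok (br c6))
  (Ok.lf S198_227_438_512_ok (bl c6)))
  (Ok.lf S198_227_364_512_ok (bl c7)))
  (Ok.s0 320 (Ok.s4 438 (Ok.lf S227_256_364_438_ok (br c3))
  (Ok.lf S227_256_438_512_ok (br c4)))
  (Ok.lf S227_256_364_512_ok (bl (br c7)))))
  (Ok.s3 227 (Ok.lf S198_227_364_512_ok c2)
  (Ok.s0 320 (Ok.lf S227_256_364_512_ok (bl (br (br c7))))
  (Ok.lf S227_256_364_512_ok (br (br (br c7)))))))
  (Ok.s2 64 (Ok.s0 320 (Ok.s3 227 (Ok.lf S198_227_512_660_ok (bl c3))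
  (Ok.lf S227_256_512_660_ok (bl c4)))
  (Ok.s1 160 (Ok.lf S198_256_512_660_ok (bl c8))
  (Ok.lf S198_256_512_660_ok (br c8))))
  (Ok.s3 227 (Ok.lf S198_227_512_660_ok (bl c5))
  (Ok.lf S227_256_512_660_ok (br c5))))))

end Vale.Agent.P098.Ck
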