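import Vale.Agent.P098.CkGd
import Vale.Agent.P098.CkOk
import Vale.Agent.P098.Sh.A27
import Vale.Agent.P098.Sh.A38
import Vale.Agent.P098.Sh.A41
import Vale.Agent.P098.Sh.A45

namespace Vale.Agent.P098.Ck

theorem r455 :
    Ok Gd mult 256 320 128 192 0 128 198 256 660 808 ∧
    Ok Gd mult 320 384 128 192 0 128 198 256 660 808 ∧
    Ok Gd mult 256 384 128 192 0 128 256 314 216 512 :=
  have c0 : (band (go 16 Gd mult S256_285_216_364 (Tr.lf 12885443720 104033222 0) 256 320 128 192 0 64)
  (go 16 Gd mult S256_285_216_364 (Tr.lf 17725670468 107964873 0) 320 384 128 192 0 64)) = true := by decide +kernel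
  have c1 : (band (go 16 Gd mult S198_227_660_808 (Tr.lf 17180148872 95119816 0) 256 320 128 192 0 64)
  (band (go 16 Gd mult S227_256_660_808 (Tr.lf 17180148872 91183815 0) 256 320 128 192 0 64)
  (go 16 Gd mult S198_227_660_808 (Tr.lf 12885181508 103770695 0) 256 320 128 192 64 128))) = true := by decide +kernel
  have c2 : (go 16 Gd mult S256_285_216_364 (Tr.lf 12885443656 103766855 0) 256 384 128 192 64 128) = true := by decide +kernel
  have c3 : (go 16 Gd mult S285_314_216_364 (Tr.lf 17180411972 90913225 0) 256 320 128 160 0 128) = true := by decide +kernel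
  have c4 : (band (go 16 Gd mult S256_285_364_512 (Tr.lf 17180410952 91052616 0) 256 320 128 160 0 64)
  (band (go 16 Gd mult S285_314_364_512 (Tr.lf 17180148808 95111752 0) 256 320 128 160 0 64)
  (go 16 Gd mult S256_285_364_512 (Tr.lf 17180410948 95378247 0) 256 320 160 192 0 64))) = true := by decide +kernel
  have c5 : (band (go 16 Gd mult S285_314_216_364 (Tr.lf 17180149828 95238856 0) 256 320 160 192 0 128)
  (band (go 16 Gd mult S285_314_216_364 (Tr.lf 17792517188 103770569 0) 320 384 128 192 0 128)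
  (band (go 16 Gd mult S256_285_364_512 (Tr.lf 17792518212 103893577 0) 320 384 128 192 0 128)
  (band (go 16 Gd mult S227_256_660_808 (Tr.lf 12885181506 95247047 0) 320 384 128 192 0 128)
  (go 16 Gd mult S198_227_660_808 (Tr.lf 8590206018 108100549 0) 320 384 128 192 0 128))))) = true := by decide +kernel
  have c6 : (band (go 16 Gd mult S285_314_364_512 (Tr.lf 12893570180 103774919 0) 256 320 128 192 64 128)
  (band (go 16 Gd mult S256_285_364_512 (Tr.lf 17792517188 99834313 0) 256 320 128 192 64 128)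
  (band (go 16 Gd mult S227_256_660_808 (Tr.lf 12893561412 103906118 0) 256 320 128 192 64 128)
  (go 16 Gd mult S285_314_364_512 (Tr.lf 17180148804 95382215 0) 256 320 160 192 0 64)))) = true := by decide +kernel
  have c7 : (go 16 Gd mult S285_314_364_512 (Tr.lf 12885173314 99445447 0) 320 384 128 192 0 128) = true := by decide +kernel
  (And.intro (Ok.s3 227 (Ok.s2 64 (Ok.lf S198_227_660_808_ok (bl c1))
  (Ok.lf S198_227_660_808_ok (br (br c1))))
  (Ok.s2 64 (Ok.lf S227_256_660_808_ok (bl (br c1)))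
  (Ok.lf S227_256_660_808_ok (bl (br (br c6))))))
  (And.intro (Ok.s3 227 (Ok.lf S198_227_660_808_ok (br (br (br (br c5)))))
  (Ok.lf S227_256_660_808_ok (bl (br (br (br c5))))))
  (Ok.s4 364 (Ok.s3 285 (Ok.s2 64 (Ok.s0 320 (Ok.lf S256_285_216_364_ok (bl c0))
  (Ok.lf S256_285_216_364_ok (br c0)))
  (Ok.lf S256_285_216_364_ok c2))
  (Ok.s0 320 (Ok.s1 160 (Ok.lf S285_314_216_364_ok c3)
  (Ok.lf S285_314_216_364_ok (bl c5)))
  (Ok.lf S285_314_216_364_ok (bl (br c5)))))
  (Ok.s3 285 (Ok.s0 320 (Ok.s2 64 (Ok.s1 160 (Ok.lf S256_285_364_512_ok (bl c4))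
  (Ok.lf S256_285_364_512_ok (br (br c4))))
  (Ok.lf S256_285_364_512_ok (bl (br c6))))
  (Ok.lf S256_285_364_512_ok (bl (br (br c5)))))
  (Ok.s0 320 (Ok.s2 64 (Ok.s1 160 (Ok.lf S285_314_364_512_ok (bl (br c4)))
  (Ok.lf S285_314_364_512_ok (br (br (br c6)))))
  (Ok.lf S285_314_364_512_ok (bl c6)))
  (Ok.lf S285_314_364_512_ok c7))))))

end Vale.Agent.P098.Ck
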