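import Vale.Agent.P098.CkGd
import Vale.Agent.P098.CkOk
import Vale.Agent.P098.Sh.A42
import Vale.Agent.P098.Sh.A46
import Vale.Agent.P098.Sh.A47
import Vale.Agent.P098.Sh.A51

namespace Vale.Agent.P098.Ck

theorem r456 :
    Ok Gd mult 256 320 128 192 0 128 256 314 512 660 ∧
    Ok Gd mult 320 384 128 192 0 128 256 314 512 660 ∧
    Ok Gd mult 256 384 128 192 0 128 256 314 660 808 ∧
    Ok Gd mult 256 384 128 192 0 128 314 372 216 364 :=
  have c0 : (band (go 16 Gd mult S256_285_512_660 (Tr.lf 17180411016 95242824 0) 256 320 128 192 0 64)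
  (go 16 Gd mult S314_343_216_364 (Tr.lf 17180140676 99437128 0) 256 320 128 192 0 64)) = true := by decide +kernel
  have c1 : (band (go 16 Gd mult S285_314_512_660 (Tr.lf 17180148872 99441351 0) 256 320 128 192 0 64)
  (band (go 16 Gd mult S285_314_512_660 (Tr.lf 12893569604 95390534 0) 256 320 128 192 64 128)
  (band (go 16 Gd mult S314_343_216_364 (Tr.lf 12885181572 104032839 0) 256 320 128 192 64 128)
  (go 16 Gd mult S256_285_660_808 (Tr.lf 12893570116 103775046 0) 256 320 128 192 64 128)))) = true := by decide +kernel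
  have c2 : (band (go 16 Gd mult S343_372_216_364 (Tr.lf 17180149828 95246920 0) 256 320 160 192 0 128)
  (band (go 16 Gd mult S343_372_216_364 (Tr.lf 12886230084 99707847 0) 320 384 128 192 0 128)
  (band (go 16 Gd mult S314_343_216_364 (Tr.lf 12885174340 95382215 0) 320 384 128 192 0 128)
  (band (go 16 Gd mult S256_285_660_808 (Tr.lf 12885181508 91187783 0) 320 384 128 192 0 128)
  (go 16 Gd mult S256_285_512_660 (Tr.lf 12885173314 99572423 0) 320 384 128 192 0 128))))) = true := by decide +kernel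
  have c3 : (go 16 Gd mult S343_372_216_364 (Tr.lf 17180018756 95242824 0) 256 320 128 160 0 128) = true := by decide +kernel
  have c4 : (band (go 16 Gd mult S256_285_660_808 (Tr.lf 17180148804 90921926 0) 256 320 160 192 0 64)
  (band (go 16 Gd mult S285_314_660_808 (Tr.lf 17180148804 91179974 0) 256 320 160 192 0 64)
  (band (go 16 Gd mult S285_314_660_808 (Tr.lf 12893570116 99580742 0) 256 320 128 192 64 128)
  (band (go 16 Gd mult S256_285_512_660 (Tr.lf 12885172804 95505095 0) 256 320 128 192 64 128)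
  (band (go 16 Gd mult S285_314_660_808 (Tr.lf 12885181508 99445319 0) 320 384 128 192 0 128)
  (go 16 Gd mult S285_314_512_660 (Tr.lf 12885173314 95247047 0) 320 384 128 192 0 128)))))) = true := by decide +kernel
  have c5 : (band (go 16 Gd mult S256_285_660_808 (Tr.lf 17180148772 95238855 0) 256 320 128 160 0 64)
  (go 16 Gd mult S285_314_660_808 (Tr.lf 17180148772 91052615 0) 256 320 128 160 0 64)) = true := by decide +kernel
  (And.intro (Ok.s3 285 (Ok.s2 64 (Ok.lf S256_285_512_660_ok (bl c0))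
  (Ok.lf S256_285_512_660_ok (bl (br (br (br c4))))))
  (Ok.s2 64 (Ok.lf S285_314_512_660_ok (bl c1))
  (Ok.lf S285_314_512_660_ok (bl (br c1)))))
  (And.intro (Ok.s3 285 (Ok.lf S256_285_512_660_ok (br (br (br (br c2)))))
  (Ok.lf S285_314_512_660_ok (br (br (br (br (br c4)))))))
  (And.intro (Ok.s0 320 (Ok.s3 285 (Ok.s2 64 (Ok.s1 160 (Ok.lf S256_285_660_808_ok (bl c5))
  (Ok.lf S256_285_660_808_ok (bl c4)))
  (Ok.lf S256_285_660_808_ok (br (br (br c1)))))
  (Ok.s2 64 (Ok.s1 160 (Ok.lf S285_314_660_808_ok (br c5))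
  (Ok.lf S285_314_660_808_ok (bl (br c4))))
  (Ok.lf S285_314_660_808_ok (bl (br (br c4))))))
  (Ok.s3 285 (Ok.lf S256_285_660_808_ok (bl (br (br (br c2)))))
  (Ok.lf S285_314_660_808_ok (bl (br (br (br (br c4))))))))
  (Ok.s3 343 (Ok.s0 320 (Ok.s2 64 (Ok.lf S314_343_216_364_ok (br c0))
  (Ok.lf S314_343_216_364_ok (bl (br (br c1)))))
  (Ok.lf S314_343_216_364_ok (bl (br (br c2)))))
  (Ok.s0 320 (Ok.s1 160 (Ok.lf S343_372_216_364_ok c3)
  (Ok.lf S343_372_216_364_ok (bl c2)))
  (Ok.lf S343_372_216_364_ok (bl (br c2))))))))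

end Vale.Agent.P098.Ck
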