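import Vale.Agent.P098.CkGd
import Vale.Agent.P098.CkOk
import Vale.Agent.P098.Sh.A48
import Vale.Agent.P098.Sh.A49
import Vale.Agent.P098.Sh.A51
import Vale.Agent.P098.Sh.A52

namespace Vale.Agent.P098.Ck

theorem r457 :
    Ok Gd mult 256 384 128 192 0 128 314 343 364 512 ∧
    Ok Gd mult 256 384 128 192 0 128 343 372 364 512 ∧
    Ok Gd mult 256 384 128 192 0 128 314 372 512 808 :=
  have c0 : (band (go 16 Gd mult S343_372_660_808 (Tr.lf 12894635144 103783494 0) 256 320 128 192 64 128)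
  (go 16 Gd mult S314_343_364_512 (Tr.lf 12894618756 99847238 0) 256 320 128 192 64 128)) = true := by decide +kernel
  have c1 : (band (go 16 Gd mult S314_343_364_512 (Tr.lf 17180148872 99437128 0) 256 320 128 192 0 64)
  (band (go 16 Gd mult S314_343_512_660 (Tr.lf 17180148872 95251143 0) 256 320 128 192 0 64)
  (go 16 Gd mult S314_343_512_660 (Tr.lf 12894618692 99716166 0) 256 320 128 192 64 128))) = true := by decide +kernel
  have c2 : (band (go 16 Gd mult S343_372_364_512 (Tr.lf 12886230152 99712070 0) 256 320 128 192 64 128)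
  (band (go 16 Gd mult S343_372_512_660 (Tr.lf 12894618760 99720262 0) 256 320 128 192 64 128)
  (go 16 Gd mult S314_343_660_808 (Tr.lf 12893570116 99584838 0) 256 320 128 192 64 128))) = true := by decide +kernel
  have c3 : (band (go 16 Gd mult S343_372_660_808 (Tr.lf 17180148872 95374151 0) 256 320 128 192 0 64)
  (band (go 16 Gd mult S343_372_364_512 (Tr.lf 17180017800 103762504 0) 256 320 128 192 0 64)
  (go 16 Gd mult S343_372_512_660 (Tr.lf 17180017800 99568200 0) 256 320 128 192 0 64))) = true := by decide +kernel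
  have c4 : (band (go 16 Gd mult S314_343_660_808 (Tr.lf 17180148868 91183815 0) 256 320 128 192 0 64)
  (band (go 16 Gd mult S314_343_660_808 (Tr.lf 12885181506 95378119 0) 320 384 128 192 0 128)
  (band (go 16 Gd mult S343_372_364_512 (Tr.lf 12886099012 99707847 0) 320 384 128 192 0 128)
  (band (go 16 Gd mult S343_372_512_660 (Tr.lf 8591131716 104172486 0) 320 384 128 192 0 128)
  (band (go 16 Gd mult S314_343_364_512 (Tr.lf 8590206018 104041413 0) 320 384 128 192 0 128)
  (go 16 Gd mult S343_372_660_808 (Tr.lf 8590083138 108235717 0) 320 384 128 192 0 128)))))) = true := by decide +kernel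
  have c5 : (go 16 Gd mult S314_343_512_660 (Tr.lf 8590074946 108231621 0) 320 384 128 192 0 128) = true := by decide +kernel
  (And.intro (Ok.s0 320 (Ok.s2 64 (Ok.lf S314_343_364_512_ok (bl c1))
  (Ok.lf S314_343_364_512_ok (br c0)))
  (Ok.lf S314_343_364_512_ok (bl (br (br (br (br c4)))))))
  (And.intro (Ok.s0 320 (Ok.s2 64 (Ok.lf S343_372_364_512_ok (bl (br c3)))
  (Ok.lf S343_372_364_512_ok (bl c2)))
  (Ok.lf S343_372_364_512_ok (bl (br (br c4)))))
  (Ok.s4 660 (Ok.s3 343 (Ok.s0 320 (Ok.s2 64 (Ok.lf S314_343_512_660_ok (bl (br c1)))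
  (Ok.lf S314_343_512_660_ok (br (br c1))))
  (Ok.lf S314_343_512_660_ok c5))
  (Ok.s0 320 (Ok.s2 64 (Ok.lf S343_372_512_660_ok (br (br c3)))
  (Ok.lf S343_372_512_660_ok (bl (br c2))))
  (Ok.lf S343_372_512_660_ok (bl (br (br (br c4)))))))
  (Ok.s3 343 (Ok.s0 320 (Ok.s2 64 (Ok.lf S314_343_660_808_ok (bl c4))
  (Ok.lf S314_343_660_808_ok (br (br c2))))
  (Ok.lf S314_343_660_808_ok (bl (br c4))))
  (Ok.s0 320 (Ok.s2 64 (Ok.lf S343_372_660_808_ok (bl c3))
  (Ok.lf S343_372_660_808_ok (bl c0)))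
  (Ok.lf S343_372_660_808_ok (br (br (br (br (br c4)))))))))))

end Vale.Agent.P098.Ck
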