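import Vale.Agent.P098.CkGd
import Vale.Agent.P098.CkOk
import Vale.Agent.P098.Sh.A54
import Vale.Agent.P098.Sh.A56
import Vale.Agent.P098.Sh.A57

namespace Vale.Agent.P098.Ck

theorem r458 :
    Ok Gd mult 256 320 128 192 0 128 372 430 216 364 ∧
    Ok Gd mult 320 384 128 192 0 128 372 430 216 364 ∧
    Ok Gd mult 256 384 128 192 0 128 372 430 364 512 ∧
    Ok Gd mult 256 384 128 192 0 128 372 430 512 660 :=
  have c0 : (band (go 16 Gd mult S401_430_512_660 (Tr.lf 18265311368 111901642 0) 320 384 128 192 0 128)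
  (go 16 Gd mult S372_401_512_660 (Tr.lf 13422971012 107969479 0) 320 384 128 192 0 128)) = true := by decide +kernel
  have c1 : (go 16 Gd mult S372_401_364_512 (Tr.lf 17727522948 99580745 0) 256 320 128 192 64 128) = true := by decide +kernel
  have c2 : (go 16 Gd mult S372_401_512_660 (Tr.lf 17727522948 99581000 0) 256 320 128 192 64 128) = true := by decide +kernel
  have c3 : (band (go 16 Gd mult S372_401_364_512 (Tr.lf 12885051528 99580615 0) 256 384 128 192 0 64)
  (band (go 16 Gd mult S401_430_364_512 (Tr.lf 17727374472 103513033 0) 256 384 128 192 0 64)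
  (go 16 Gd mult S372_401_364_512 (Tr.lf 13422969988 107969479 0) 320 384 128 192 64 128))) = true := by decide +kernel
  have c4 : (go 16 Gd mult S401_430_364_512 (Tr.lf 18265311304 107707338 0) 256 384 160 192 64 128) = true := by decide +kernel
  have c5 : (band (go 16 Gd mult S401_430_512_660 (Tr.lf 17727391876 99580745 0) 256 320 128 192 64 128)
  (go 16 Gd mult S401_430_216_364 (Tr.lf 17727506564 99580745 0) 256 320 128 192 64 128)) = true := by decide +kernel
  have c6 : (go 16 Gd mult S372_401_216_364 (Tr.lf 17727522884 99581000 0) 256 320 160 192 0 128) = true := by decide +kernel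
  have c7 : (go 16 Gd mult S372_401_216_364 (Tr.lf 13423102084 107969479 0) 320 384 128 192 0 128) = true := by decide +kernel
  have c8 : (band (go 16 Gd mult S372_401_512_660 (Tr.lf 17180017800 99699272 0) 256 320 128 192 0 64)
  (band (go 16 Gd mult S401_430_512_660 (Tr.lf 12886033540 108100678 0) 256 320 128 192 0 64)
  (band (go 16 Gd mult S401_430_216_364 (Tr.lf 12886090884 99843142 0) 256 320 128 192 0 64)
  (go 16 Gd mult S401_430_216_364 (Tr.lf 17727366212 99576777 0) 320 384 128 192 0 64)))) = true := by decide +kernel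
  have c9 : (go 16 Gd mult S372_401_216_364 (Tr.lf 13432408132 103914567 0) 256 320 128 160 0 128) = true := by decide +kernel
  have c10 : (go 16 Gd mult S401_430_216_364 (Tr.lf 18265293956 107965386 0) 320 384 128 192 64 128) = true := by decide +kernel
  have c11 : (go 16 Gd mult S401_430_364_512 (Tr.lf 13422969928 107965383 0) 256 384 128 160 64 128) = true := by decide +kernel
  (And.intro (Ok.s3 401 (Ok.s1 160 (Ok.lf S372_401_216_364_ok c9)
  (Ok.lf S372_401_216_364_ok c6))
  (Ok.s2 64 (Ok.lf S401_430_216_364_ok (bl (br (br c8))))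
  (Ok.lf S401_430_216_364_ok (br c5))))
  (And.intro (Ok.s3 401 (Ok.lf S372_401_216_364_ok c7)
  (Ok.s2 64 (Ok.lf S401_430_216_364_ok (br (br (br c8))))
  (Ok.lf S401_430_216_364_ok c10)))
  (And.intro (Ok.s3 401 (Ok.s2 64 (Ok.lf S372_401_364_512_ok (bl c3))
  (Ok.s0 320 (Ok.lf S372_401_364_512_ok c1)
  (Ok.lf S372_401_364_512_ok (br (br c3)))))
  (Ok.s2 64 (Ok.lf S401_430_364_512_ok (bl (br c3)))
  (Ok.s1 160 (Ok.lf S401_430_364_512_ok c11)
  (Ok.lf S401_430_364_512_ok c4))))
  (Ok.s0 320 (Ok.s3 401 (Ok.s2 64 (Ok.lf S372_401_512_660_ok (bl c8))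
  (Ok.lf S372_401_512_660_ok c2))
  (Ok.s2 64 (Ok.lf S401_430_512_660_ok (bl (br c8)))
  (Ok.lf S401_430_512_660_ok (bl c5))))
  (Ok.s3 401 (Ok.lf S372_401_512_660_ok (br c0))
  (Ok.lf S401_430_512_660_ok (bl c0)))))))

end Vale.Agent.P098.Ck
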