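import Vale.Agent.P098.CkGd
import Vale.Agent.P098.CkOk
import Vale.Agent.P098.Sh.A54
import Vale.Agent.P098.Sh.A57
import Vale.Agent.P098.Sh.A58
import Vale.Agent.P098.Sh.A59

namespace Vale.Agent.P098.Ck

theorem r459 :
    Ok Gd mult 256 384 128 192 0 128 372 401 660 808 ∧
    Ok Gd mult 256 384 128 192 0 128 401 430 660 808 ∧
    Ok Gd mult 256 384 128 192 0 128 430 488 216 512 :=
  have c0 : (go 16 Gd mult S372_401_660_808 (Tr.lf 17727522948 99581000 0) 256 320 128 192 64 128) = true := by decide +kernel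
  have c1 : (band (go 16 Gd mult S372_401_660_808 (Tr.lf 17180018824 99699272 0) 256 320 128 192 0 64)
  (band (go 16 Gd mult S372_401_660_808 (Tr.lf 13422969924 103775175 0) 320 384 128 192 64 128)
  (go 16 Gd mult S372_401_660_808 (Tr.lf 12885049922 99838663 0) 320 384 128 192 0 64))) = true := by decide +kernel
  have c2 : (band (go 16 Gd mult S401_430_660_808 (Tr.lf 18265311304 107707338 0) 256 384 160 192 64 128)
  (band (go 16 Gd mult S459_488_216_364 (Tr.lf 23088678984 94985035 0) 256 384 160 192 64 128)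
  (go 16 Gd mult S459_488_364_512 (Tr.lf 23088678984 94985035 0) 256 384 160 192 64 128))) = true := by decide +kernel
  have c3 : (band (go 16 Gd mult S401_430_660_808 (Tr.lf 17727374472 103513033 0) 256 384 128 192 0 64)
  (band (go 16 Gd mult S430_459_216_364 (Tr.lf 17718985864 103763144 0) 256 384 128 192 0 64)
  (band (go 16 Gd mult S430_459_216_364 (Tr.lf 18265293896 99449802 0) 256 384 160 192 64 128)
  (go 16 Gd mult S430_459_364_512 (Tr.lf 18265228360 107707338 0) 256 384 160 192 64 128)))) = true := by decide +kernel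
  have c4 : (band (go 16 Gd mult S459_488_216_364 (Tr.lf 13423953992 107973703 0) 256 384 128 160 0 128)
  (band (go 16 Gd mult S459_488_216_364 (Tr.lf 22011790472 95246793 0) 256 384 160 192 0 64)
  (band (go 16 Gd mult S459_488_364_512 (Tr.lf 22011790472 95246793 0) 256 384 160 192 0 64)
  (go 16 Gd mult S430_459_364_512 (Tr.lf 18264171592 99458120 0) 256 384 160 192 0 64)))) = true := by decide +kernel
  have c5 : (band (go 16 Gd mult S430_488_364_512 (Tr.lf 13423969352 107965384 0) 256 384 128 160 64 128)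
  (band (go 16 Gd mult S401_430_660_808 (Tr.lf 13431358536 107973575 0) 256 384 128 160 64 128)
  (band (go 16 Gd mult S430_459_216_364 (Tr.lf 13423952964 107965639 0) 256 384 128 160 64 128)
  (go 16 Gd mult S430_488_364_512 (Tr.lf 17718936644 103501000 0) 256 384 128 160 0 64)))) = true := by decide +kernel
  (And.intro (Ok.s2 64 (Ok.s0 320 (Ok.lf S372_401_660_808_ok (bl c1))
  (Ok.lf S372_401_660_808_ok (br (br c1))))
  (Ok.s0 320 (Ok.lf S372_401_660_808_ok c0)
  (Ok.lf S372_401_660_808_ok (bl (br c1)))))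
  (And.intro (Ok.s2 64 (Ok.lf S401_430_660_808_ok (bl c3))
  (Ok.s1 160 (Ok.lf S401_430_660_808_ok (bl (br c5)))
  (Ok.lf S401_430_660_808_ok (bl c2))))
  (Ok.s4 364 (Ok.s3 459 (Ok.s2 64 (Ok.lf S430_459_216_364_ok (bl (br c3)))
  (Ok.s1 160 (Ok.lf S430_459_216_364_ok (bl (br (br c5))))
  (Ok.lf S430_459_216_364_ok (bl (br (br c3))))))
  (Ok.s1 160 (Ok.lf S459_488_216_364_ok (bl c4))
  (Ok.s2 64 (Ok.lf S459_488_216_364_ok (bl (br c4)))
  (Ok.lf S459_488_216_364_ok (bl (br c2))))))
  (Ok.s2 64 (Ok.s1 160 (Ok.lf S430_488_364_512_ok (br (br (br c5))))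
  (Ok.s3 459 (Ok.lf S430_459_364_512_ok (br (br (br c4))))
  (Ok.lf S459_488_364_512_ok (bl (br (br c4))))))
  (Ok.s1 160 (Ok.lf S430_488_364_512_ok (bl c5))
  (Ok.s3 459 (Ok.lf S430_459_364_512_ok (br (br (br c3))))
  (Ok.lf S459_488_364_512_ok (br (br c2)))))))))

end Vale.Agent.P098.Ck
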