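import Vale.Agent.P098.CkGd
import Vale.Agent.P098.CkOk
import Vale.Agent.P098.Sh.A23
import Vale.Agent.P098.Sh.A25
import Vale.Agent.P098.Sh.A30

namespace Vale.Agent.P098.Ck

theorem r46 :
    Ok Gd mult 96 104 112 128 384 512 198 227 216 364 ∧
    Ok Gd mult 104 112 112 128 384 512 198 227 216 364 ∧
    Ok Gd mult 112 114 112 128 384 512 198 227 216 364 ∧
    Ok Gd mult 114 116 112 120 384 512 198 227 216 364 :=
  have c0 : (band (go 16 Gd mult S198_227_216_364 (Tr.lf 13986465825 103386184 0) 112 114 120 128 448 480)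
  (go 16 Gd mult S198_227_216_364 (Tr.lf 13978076225 103377992 0) 96 104 112 128 448 480)) = true := by decide +kernel
  have c1 : (band (go 16 Gd mult S198_212_216_364 (Tr.lf 13986449441 103648455 0) 96 104 112 128 480 512)
  (band (go 16 Gd mult S212_227_216_364 (Tr.lf 8598864929 95255493 0) 96 104 112 128 480 512)
  (band (go 16 Gd mult S198_212_216_364 (Tr.lf 13986449441 107711687 0) 104 112 112 128 480 512)
  (band (go 16 Gd mult S212_227_216_364 (Tr.lf 9145174049 103648326 0) 104 112 112 128 448 512)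
  (band (go 16 Gd mult S198_212_216_364 (Tr.lf 13986449425 107711687 0) 112 114 112 120 480 512)
  (go 16 Gd mult S212_227_216_364 (Tr.lf 9136784401 103902405 0) 112 114 112 120 480 512)))))) = true := by decide +kernel
  have c2 : (band (go 16 Gd mult S198_212_216_364 (Tr.lf 13986449425 107711687 0) 112 114 120 128 480 512)
  (band (go 16 Gd mult S212_227_216_364 (Tr.lf 9136784401 103910469 0) 112 114 120 128 480 512)
  (band (go 16 Gd mult S198_212_216_364 (Tr.lf 13986449425 107711687 0) 114 116 112 120 480 512)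
  (band (go 16 Gd mult S212_227_216_364 (Tr.lf 9136784401 103902405 0) 114 116 112 120 480 512)
  (go 16 Gd mult S198_212_216_364 (Tr.lf 13986448417 103386184 0) 104 112 112 128 448 480))))) = true := by decide +kernel
  have c3 : (band (go 16 Gd mult S198_227_216_364 (Tr.lf 9145975825 103648582 0) 112 114 112 120 448 480)
  (go 16 Gd mult S198_227_216_364 (Tr.lf 13440943121 94989384 0) 114 116 112 120 448 480)) = true := by decide +kernel
  have c4 : (go 16 Gd mult S198_227_216_364 (Tr.lf 4841423377 107973829 0) 104 112 112 128 384 448) = true := by decide +kernel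
  have c5 : (band (go 16 Gd mult S198_227_216_364 (Tr.lf 4841415185 107973829 0) 96 104 112 128 384 448)
  (band (go 16 Gd mult S198_227_216_364 (Tr.lf 4304544273 99585221 0) 112 114 112 120 384 448)
  (band (go 16 Gd mult S198_227_216_364 (Tr.lf 4841415185 107973829 0) 112 114 120 128 384 448)
  (go 16 Gd mult S198_227_216_364 (Tr.lf 4304544273 99585221 0) 114 116 112 120 384 448)))) = true := by decide +kernel
  (And.intro (Ok.s2 448 (Ok.lf S198_227_216_364_ok (bl c5))
  (Ok.s2 480 (Ok.lf S198_227_216_364_ok (br c0))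
  (Ok.s3 212 (Ok.lf S198_212_216_364_ok (bl c1))
  (Ok.lf S212_227_216_364_ok (bl (br c1))))))
  (And.intro (Ok.s2 448 (Ok.lf S198_227_216_364_ok c4)
  (Ok.s3 212 (Ok.s2 480 (Ok.lf S198_212_216_364_ok (br (br (br (br c2)))))
  (Ok.lf S198_212_216_364_ok (bl (br (br c1)))))
  (Ok.lf S212_227_216_364_ok (bl (br (br (br c1)))))))
  (And.intro (Ok.s1 120 (Ok.s2 448 (Ok.lf S198_227_216_364_ok (bl (br c5)))
  (Ok.s2 480 (Ok.lf S198_227_216_364_ok (bl c3))
  (Ok.s3 212 (Ok.lf S198_212_216_364_ok (bl (br (br (br (br c1))))))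
  (Ok.lf S212_227_216_364_ok (br (br (br (br (br c1)))))))))
  (Ok.s2 448 (Ok.lf S198_227_216_364_ok (bl (br (br c5))))
  (Ok.s2 480 (Ok.lf S198_227_216_364_ok (bl c0))
  (Ok.s3 212 (Ok.lf S198_212_216_364_ok (bl c2))
  (Ok.lf S212_227_216_364_ok (bl (br c2)))))))
  (Ok.s2 448 (Ok.lf S198_227_216_364_ok (br (br (br c5))))
  (Ok.s2 480 (Ok.lf S198_227_216_364_ok (br c3))
  (Ok.s3 212 (Ok.lf S198_212_216_364_ok (bl (br (br c2))))
  (Ok.lf S212_227_216_364_ok (bl (br (br (br c2)))))))))))

end Vale.Agent.P098.Ck
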