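import Vale.Agent.P098.CkGd
import Vale.Agent.P098.CkOk
import Vale.Agent.P098.Sh.A0
import Vale.Agent.P098.Sh.A1
import Vale.Agent.P098.Sh.A58
import Vale.Agent.P098.Sh.A59

namespace Vale.Agent.P098.Ck

theorem r460 :
    Ok Gd mult 256 384 128 192 0 64 430 488 512 660 ∧
    Ok Gd mult 256 384 128 192 64 128 430 488 512 660 ∧
    Ok Gd mult 256 384 128 192 0 128 430 488 660 808 ∧
    Ok Gd mult 256 384 128 192 128 256 24 82 216 364 :=
  have c0 : (go 16 Gd mult S53_82_216_364 (Tr.lf 13424035976 95243463 0) 256 384 160 192 128 256) = true := by decide +kernel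
  have c1 : (band (go 16 Gd mult S53_82_216_364 (Tr.lf 13970343048 99318856 0) 256 384 128 160 192 256)
  (band (go 16 Gd mult S24_53_216_364 (Tr.lf 13961872456 107826248 0) 256 384 128 160 192 256)
  (band (go 16 Gd mult S24_53_216_364 (Tr.lf 13961872520 103632072 0) 256 384 160 192 192 256)
  (go 16 Gd mult S24_53_216_364 (Tr.lf 13423952964 99445958 0) 256 384 128 160 128 192)))) = true := by decide +kernel
  have c2 : (band (go 16 Gd mult S459_488_512_660 (Tr.lf 22011790472 95246793 0) 256 384 160 192 0 64)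
  (band (go 16 Gd mult S459_488_660_808 (Tr.lf 22011790472 95246793 0) 256 384 160 192 0 64)
  (band (go 16 Gd mult S430_459_512_660 (Tr.lf 18264179780 103652424 0) 256 384 160 192 0 64)
  (band (go 16 Gd mult S459_488_512_660 (Tr.lf 23088678984 94985035 0) 256 384 160 192 64 128)
  (go 16 Gd mult S459_488_660_808 (Tr.lf 23088678984 94985035 0) 256 384 160 192 64 128))))) = true := by decide +kernel
  have c3 : (band (go 16 Gd mult S430_488_512_660 (Tr.lf 13423969352 107965384 0) 256 384 128 160 64 128)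
  (band (go 16 Gd mult S430_459_660_808 (Tr.lf 13423952968 107965384 0) 256 384 128 160 64 128)
  (band (go 16 Gd mult S430_459_660_808 (Tr.lf 17718920328 99568840 0) 256 384 128 192 0 64)
  (go 16 Gd mult S430_488_512_660 (Tr.lf 17718936644 103501000 0) 256 384 128 160 0 64)))) = true := by decide +kernel
  have c4 : (go 16 Gd mult S459_488_660_808 (Tr.lf 13423953992 107973703 0) 256 384 128 160 0 128) = true := by decide +kernel
  have c5 : (band (go 16 Gd mult S430_459_660_808 (Tr.lf 18265293896 107707338 0) 256 384 160 192 64 128)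
  (go 16 Gd mult S430_459_512_660 (Tr.lf 18265228360 107707338 0) 256 384 160 192 64 128)) = true := by decide +kernel
  have c6 : (go 16 Gd mult S53_82_216_364 (Tr.lf 13423952968 99445703 0) 256 384 128 160 128 192) = true := by decide +kernel
  have c7 : (go 16 Gd mult S24_53_216_364 (Tr.lf 13423952964 103509063 0) 256 384 160 192 128 192) = true := by decide +kernel
  (And.intro (Ok.s1 160 (Ok.lf S430_488_512_660_ok (br (br (br c3))))
  (Ok.s3 459 (Ok.lf S430_459_512_660_ok (bl (br (br c2))))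
  (Ok.lf S459_488_512_660_ok (bl c2))))
  (And.intro (Ok.s1 160 (Ok.lf S430_488_512_660_ok (bl c3))
  (Ok.s3 459 (Ok.lf S430_459_512_660_ok (br c5))
  (Ok.lf S459_488_512_660_ok (bl (br (br (br c2)))))))
  (And.intro (Ok.s3 459 (Ok.s2 64 (Ok.lf S430_459_660_808_ok (bl (br (br c3))))
  (Ok.s1 160 (Ok.lf S430_459_660_808_ok (bl (br c3)))
  (Ok.lf S430_459_660_808_ok (bl c5))))
  (Ok.s1 160 (Ok.lf S459_488_660_808_ok c4)
  (Ok.s2 64 (Ok.lf S459_488_660_808_ok (bl (br c2)))
  (Ok.lf S459_488_660_808_ok (br (br (br (br c2))))))))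
  (Ok.s1 160 (Ok.s3 53 (Ok.s2 192 (Ok.lf S24_53_216_364_ok (br (br (br c1))))
  (Ok.lf S24_53_216_364_ok (bl (br c1))))
  (Ok.s2 192 (Ok.lf S53_82_216_364_ok c6)
  (Ok.lf S53_82_216_364_ok (bl c1))))
  (Ok.s3 53 (Ok.s2 192 (Ok.lf S24_53_216_364_ok c7)
  (Ok.lf S24_53_216_364_ok (bl (br (br c1)))))
  (Ok.lf S53_82_216_364_ok c0))))))

end Vale.Agent.P098.Ck
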