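import Vale.Agent.P098.CkGd
import Vale.Agent.P098.CkOk
import Vale.Agent.P098.Sh.A0
import Vale.Agent.P098.Sh.A1
import Vale.Agent.P098.Sh.A2
import Vale.Agent.P098.Sh.A5

namespace Vale.Agent.P098.Ck

theorem r461 :
    Ok Gd mult 256 384 128 192 128 256 24 82 364 512 ∧
    Ok Gd mult 256 384 128 192 128 256 24 82 512 808 ∧
    Ok Gd mult 256 384 128 192 128 192 82 140 216 364 :=
  have c0 : (go 16 Gd mult S53_82_364_512 (Tr.lf 13961955464 103632072 0) 256 384 128 192 192 256) = true := by decide +kernel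
  have c1 : (go 16 Gd mult S53_82_512_660 (Tr.lf 13961955464 103632072 0) 256 384 128 192 192 256) = true := by decide +kernel
  have c2 : (go 16 Gd mult S53_82_660_808 (Tr.lf 13961955464 103632072 0) 256 384 128 192 192 256) = true := by decide +kernel
  have c3 : (go 16 Gd mult S111_140_216_364 (Tr.lf 13441205380 99716167 0) 256 320 160 192 128 192) = true := by decide +kernel
  have c4 : (band (go 16 Gd mult S82_111_216_364 (Tr.lf 13432538248 103517255 0) 256 384 128 192 128 192)
  (band (go 16 Gd mult S53_82_364_512 (Tr.lf 13424018568 103509063 0) 256 384 128 192 128 192)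
  (go 16 Gd mult S53_82_660_808 (Tr.lf 13424018568 103509063 0) 256 384 128 192 128 192))) = true := by decide +kernel
  have c5 : (band (go 16 Gd mult S111_140_216_364 (Tr.lf 13432554626 99453768 0) 320 384 128 192 128 192)
  (go 16 Gd mult S111_140_216_364 (Tr.lf 13440943172 95386695 0) 256 320 128 160 128 192)) = true := by decide +kernel
  have c6 : (band (go 16 Gd mult S24_53_364_512 (Tr.lf 13423953032 103509063 0) 256 384 128 192 128 192)
  (band (go 16 Gd mult S24_53_512_660 (Tr.lf 13423953032 103509063 0) 256 384 128 192 128 192)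
  (band (go 16 Gd mult S53_82_512_660 (Tr.lf 13423953032 103509063 0) 256 384 128 192 128 192)
  (go 16 Gd mult S24_53_660_808 (Tr.lf 13423953032 103509063 0) 256 384 128 192 128 192)))) = true := by decide +kernel
  have c7 : (band (go 16 Gd mult S24_53_364_512 (Tr.lf 13961872520 103632072 0) 256 384 160 192 192 256)
  (band (go 16 Gd mult S24_53_512_660 (Tr.lf 13961872520 103632072 0) 256 384 160 192 192 256)
  (band (go 16 Gd mult S24_53_660_808 (Tr.lf 13961872520 103632072 0) 256 384 160 192 192 256)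
  (band (go 16 Gd mult S24_53_364_512 (Tr.lf 13961872456 107826248 0) 256 384 128 160 192 256)
  (go 16 Gd mult S24_53_512_660 (Tr.lf 13961872456 107826248 0) 256 384 128 160 192 256))))) = true := by decide +kernel
  have c8 : (go 16 Gd mult S24_53_660_808 (Tr.lf 13961872456 107826248 0) 256 384 128 160 192 256) = true := by decide +kernel
  (And.intro (Ok.s2 192 (Ok.s3 53 (Ok.lf S24_53_364_512_ok (bl c6))
  (Ok.lf S53_82_364_512_ok (bl (br c4))))
  (Ok.s3 53 (Ok.s1 160 (Ok.lf S24_53_364_512_ok (bl (br (br (br c7)))))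
  (Ok.lf S24_53_364_512_ok (bl c7)))
  (Ok.lf S53_82_364_512_ok c0)))
  (And.intro (Ok.s4 660 (Ok.s2 192 (Ok.s3 53 (Ok.lf S24_53_512_660_ok (bl (br c6)))
  (Ok.lf S53_82_512_660_ok (bl (br (br c6)))))
  (Ok.s3 53 (Ok.s1 160 (Ok.lf S24_53_512_660_ok (br (br (br (br c7)))))
  (Ok.lf S24_53_512_660_ok (bl (br c7))))
  (Ok.lf S53_82_512_660_ok c1)))
  (Ok.s2 192 (Ok.s3 53 (Ok.lf S24_53_660_808_ok (br (br (br c6))))
  (Ok.lf S53_82_660_808_ok (br (br c4))))
  (Ok.s3 53 (Ok.s1 160 (Ok.lf S24_53_660_808_ok c8)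
  (Ok.lf S24_53_660_808_ok (bl (br (br c7)))))
  (Ok.lf S53_82_660_808_ok c2))))
  (Ok.s3 111 (Ok.lf S82_111_216_364_ok (bl c4))
  (Ok.s0 320 (Ok.s1 160 (Ok.lf S111_140_216_364_ok (br c5))
  (Ok.lf S111_140_216_364_ok c3))
  (Ok.lf S111_140_216_364_ok (bl c5))))))

end Vale.Agent.P098.Ck
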