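import Vale.Agent.P098.CkGd
import Vale.Agent.P098.CkOk
import Vale.Agent.P098.Sh.A12
import Vale.Agent.P098.Sh.A14
import Vale.Agent.P098.Sh.A15
import Vale.Agent.P098.Sh.A17
import Vale.Agent.P098.Sh.A20
import Vale.Agent.P098.Sh.A21
import Vale.Agent.P098.Sh.A7

namespace Vale.Agent.P098.Ck

theorem r463 :
    Ok Gd mult 256 384 128 160 128 256 140 169 216 364 ∧
    Ok Gd mult 256 384 160 192 128 256 140 169 216 364 ∧
    Ok Gd mult 256 384 128 192 128 192 169 198 216 364 ∧
    Ok Gd mult 256 384 128 160 192 256 169 198 216 364 :=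
  have c0 : (band (go 16 Gd mult S140_154_216_364 (Tr.lf 13441189000 107842759 0) 256 384 160 192 128 192)
  (go 16 Gd mult S169_183_290_364 (Tr.lf 13440926792 103906376 0) 256 384 160 192 128 192)) = true := by decide +kernel
  have c1 : (go 16 Gd mult S140_154_216_364 (Tr.lf 13979109508 107715784 0) 320 384 160 192 192 256) = true := by decide +kernel
  have c2 : (go 16 Gd mult S154_169_216_290 (Tr.lf 13987252356 99323081 0) 320 384 160 192 192 256) = true := by decide +kernel
  have c3 : (band (go 16 Gd mult S169_183_216_290 (Tr.lf 13440927880 103906376 0) 256 384 160 192 128 192)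
  (go 16 Gd mult S183_198_290_364 (Tr.lf 13440926792 103902408 0) 256 384 160 192 128 192)) = true := by decide +kernel
  have c4 : (go 16 Gd mult S183_198_216_290 (Tr.lf 13440927880 103902408 0) 256 384 160 192 128 192) = true := by decide +kernel
  have c5 : (go 16 Gd mult S169_198_216_364 (Tr.lf 9146238024 104033607 0) 256 384 128 160 192 256) = true := by decide +kernel
  have c6 : (band (go 16 Gd mult S140_154_216_364 (Tr.lf 13979108424 103644360 0) 256 384 128 160 192 256)
  (go 16 Gd mult S154_169_216_364 (Tr.lf 13441188936 103517128 0) 256 384 128 160 192 256)) = true := by decide +kernel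
  have c7 : (band (go 16 Gd mult S140_154_216_364 (Tr.lf 13979108484 99454152 0) 256 320 160 192 192 256)
  (go 16 Gd mult S154_169_216_290 (Tr.lf 13987235972 91061449 0) 256 320 160 192 192 256)) = true := by decide +kernel
  have c8 : (band (go 16 Gd mult S154_169_290_364 (Tr.lf 13986186376 103517129 0) 256 384 160 192 192 256)
  (band (go 16 Gd mult S154_169_290_364 (Tr.lf 13440926788 108100807 0) 256 320 160 192 128 192)
  (go 16 Gd mult S154_169_216_290 (Tr.lf 18273813636 103636169 0) 256 320 160 192 128 192))) = true := by decide +kernel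
  have c9 : (band (go 16 Gd mult S140_154_216_364 (Tr.lf 13432538184 95255368 0) 256 384 128 160 128 192)
  (band (go 16 Gd mult S154_169_216_364 (Tr.lf 13440926792 107711432 0) 256 384 128 160 128 192)
  (go 16 Gd mult S169_198_216_364 (Tr.lf 9137587268 99720263 0) 256 384 128 160 128 192))) = true := by decide +kernel
  have c10 : (go 16 Gd mult S154_169_216_364 (Tr.lf 13441188932 103910344 0) 320 384 160 192 128 192) = true := by decide +kernel
  (And.intro (Ok.s2 192 (Ok.s3 154 (Ok.lf S140_154_216_364_ok (bl c9))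
  (Ok.lf S154_169_216_364_ok (bl (br c9))))
  (Ok.s3 154 (Ok.lf S140_154_216_364_ok (bl c6))
  (Ok.lf S154_169_216_364_ok (br c6))))
  (And.intro (Ok.s2 192 (Ok.s3 154 (Ok.lf S140_154_216_364_ok (bl c0))
  (Ok.s0 320 (Ok.s4 290 (Ok.lf S154_169_216_290_ok (br (br c8)))
  (Ok.lf S154_169_290_364_ok (bl (br c8))))
  (Ok.lf S154_169_216_364_ok c10)))
  (Ok.s3 154 (Ok.s0 320 (Ok.lf S140_154_216_364_ok (bl c7))
  (Ok.lf S140_154_216_364_ok c1))
  (Ok.s4 290 (Ok.s0 320 (Ok.lf S154_169_216_290_ok (br c7))
  (Ok.lf S154_169_216_290_ok c2))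
  (Ok.lf S154_169_290_364_ok (bl c8)))))
  (And.intro (Ok.s1 160 (Ok.lf S169_198_216_364_ok (br (br c9)))
  (Ok.s3 183 (Ok.s4 290 (Ok.lf S169_183_216_290_ok (bl c3))
  (Ok.lf S169_183_290_364_ok (br c0)))
  (Ok.s4 290 (Ok.lf S183_198_216_290_ok c4)
  (Ok.lf S183_198_290_364_ok (br c3)))))
  (Ok.lf S169_198_216_364_ok c5))))

end Vale.Agent.P098.Ck
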