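import Vale.Agent.P098.CkGd
import Vale.Agent.P098.CkOk
import Vale.Agent.P098.Sh.A23
import Vale.Agent.P098.Sh.A25
import Vale.Agent.P098.Sh.A26
import Vale.Agent.P098.Sh.A27
import Vale.Agent.P098.Sh.A31
import Vale.Agent.P098.Sh.A36
import Vale.Agent.P098.Sh.A37
import Vale.Agent.P098.Sh.A38
import Vale.Agent.P098.Sh.A41
import Vale.Agent.P098.Sh.A45

namespace Vale.Agent.P098.Ck

theorem r466 :
    Ok Gd mult 256 384 160 192 128 256 198 256 290 364 ∧
    Ok Gd mult 256 384 128 192 128 256 198 256 364 512 ∧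
    Ok Gd mult 256 384 128 192 128 256 198 256 512 808 ∧
    Ok Gd mult 256 384 128 192 128 256 256 314 216 512 :=
  have c0 : (band (go 16 Gd mult S198_212_290_364 (Tr.lf 13449316488 107830473 0) 256 384 160 192 192 256)
  (go 16 Gd mult S212_227_290_364 (Tr.lf 13439878216 103775176 0) 256 384 160 192 192 256)) = true := by decide +kernel
  have c1 : (go 16 Gd mult S227_256_290_364 (Tr.lf 13438847048 108100296 0) 256 384 160 192 128 256) = true := by decide +kernel
  have c2 : (band (go 16 Gd mult S198_227_364_512 (Tr.lf 13439894664 107969480 0) 256 384 128 192 128 192)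
  (go 16 Gd mult S227_256_364_512 (Tr.lf 12893570180 99830472 0) 256 384 128 192 128 192)) = true := by decide +kernel
  have c3 : (band (go 16 Gd mult S256_285_216_364 (Tr.lf 13439092868 107968969 0) 256 384 128 192 128 256)
  (go 16 Gd mult S227_256_660_808 (Tr.lf 8598602884 103906118 0) 256 384 128 192 128 256)) = true := by decide +kernel
  have c4 : (go 16 Gd mult S285_314_216_364 (Tr.lf 8598866052 104164039 0) 256 384 128 192 128 256) = true := by decide +kernel
  have c5 : (band (go 16 Gd mult S198_212_364_512 (Tr.lf 13440140360 103902152 0) 256 384 160 192 192 256)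
  (go 16 Gd mult S212_227_364_512 (Tr.lf 13440140356 112032712 0) 256 384 160 192 192 256)) = true := by decide +kernel
  have c6 : (go 16 Gd mult S227_256_364_512 (Tr.lf 9144124548 99715911 0) 256 384 128 192 192 256) = true := by decide +kernel
  have c7 : (go 16 Gd mult S198_227_512_660 (Tr.lf 13440141380 103779144 0) 256 384 160 192 128 256) = true := by decide +kernel
  have c8 : (band (go 16 Gd mult S227_256_512_660 (Tr.lf 12893571204 95382088 0) 256 384 128 192 128 256)
  (go 16 Gd mult S198_227_660_808 (Tr.lf 12893571204 91183688 0) 256 384 128 192 128 256)) = true := by decide +kernel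
  have c9 : (band (go 16 Gd mult S256_285_364_512 (Tr.lf 8598603908 108358343 0) 256 384 128 192 128 256)
  (go 16 Gd mult S285_314_364_512 (Tr.lf 8598603908 104041031 0) 256 384 128 192 128 256)) = true := by decide +kernel
  have c10 : (go 16 Gd mult S198_227_290_364 (Tr.lf 13439894596 103906248 0) 256 384 160 192 128 192) = true := by decide +kernel
  have c11 : (go 16 Gd mult S198_227_512_660 (Tr.lf 8598602788 99842886 0) 256 384 128 160 128 256) = true := by decide +kernel
  have c12 : (go 16 Gd mult S198_227_364_512 (Tr.lf 8599650850 99838919 0) 256 384 128 160 192 256) = true := by decide +kernel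
  (And.intro (Ok.s3 227 (Ok.s2 192 (Ok.lf S198_227_290_364_ok c10)
  (Ok.s3 212 (Ok.lf S198_212_290_364_ok (bl c0))
  (Ok.lf S212_227_290_364_ok (br c0))))
  (Ok.lf S227_256_290_364_ok c1))
  (And.intro (Ok.s3 227 (Ok.s2 192 (Ok.lf S198_227_364_512_ok (bl c2))
  (Ok.s1 160 (Ok.lf S198_227_364_512_ok c12)
  (Ok.s3 212 (Ok.lf S198_212_364_512_ok (bl c5))
  (Ok.lf S212_227_364_512_ok (br c5)))))
  (Ok.s2 192 (Ok.lf S227_256_364_512_ok (br c2))
  (Ok.lf S227_256_364_512_ok c6)))
  (And.intro (Ok.s4 660 (Ok.s3 227 (Ok.s1 160 (Ok.lf S198_227_512_660_ok c11)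
  (Ok.lf S198_227_512_660_ok c7))
  (Ok.lf S227_256_512_660_ok (bl c8)))
  (Ok.s3 227 (Ok.lf S198_227_660_808_ok (br c8))
  (Ok.lf S227_256_660_808_ok (br c3))))
  (Ok.s4 364 (Ok.s3 285 (Ok.lf S256_285_216_364_ok (bl c3))
  (Ok.lf S285_314_216_364_ok c4))
  (Ok.s3 285 (Ok.lf S256_285_364_512_ok (bl c9))
  (Ok.lf S285_314_364_512_ok (br c9)))))))

end Vale.Agent.P098.Ck
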