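import Vale.Agent.P098.CkGd
import Vale.Agent.P098.CkOk
import Vale.Agent.P098.Sh.A42
import Vale.Agent.P098.Sh.A46
import Vale.Agent.P098.Sh.A47
import Vale.Agent.P098.Sh.A48
import Vale.Agent.P098.Sh.A49
import Vale.Agent.P098.Sh.A51
import Vale.Agent.P098.Sh.A52

namespace Vale.Agent.P098.Ck

theorem r467 :
    Ok Gd mult 256 384 128 192 128 256 256 314 512 808 ∧
    Ok Gd mult 256 384 128 192 128 256 314 372 216 808 :=
  have c0 : (band (go 16 Gd mult S314_343_364_512 (Tr.lf 12894619784 99445576 0) 256 384 128 192 128 256)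
  (go 16 Gd mult S256_285_512_660 (Tr.lf 8598603844 107973446 0) 256 384 128 192 128 256)) = true := by decide +kernel
  have c1 : (band (go 16 Gd mult S343_372_364_512 (Tr.lf 13431506056 103902024 0) 256 384 128 192 128 192)
  (go 16 Gd mult S314_343_216_364 (Tr.lf 12894618756 95382344 0) 256 384 128 192 128 192)) = true := by decide +kernel
  have c2 : (go 16 Gd mult S343_372_512_660 (Tr.lf 13431506056 99707720 0) 256 384 128 192 128 192) = true := by decide +kernel
  have c3 : (band (go 16 Gd mult S314_343_660_808 (Tr.lf 8598603912 99842886 0) 256 384 128 192 128 256)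
  (go 16 Gd mult S285_314_512_660 (Tr.lf 8598603844 103906118 0) 256 384 128 192 128 256)) = true := by decide +kernel
  have c4 : (band (go 16 Gd mult S256_285_660_808 (Tr.lf 12893571204 90921544 0) 256 384 128 192 128 256)
  (go 16 Gd mult S285_314_660_808 (Tr.lf 12893571204 86735304 0) 256 384 128 192 128 256)) = true := by decide +kernel
  have c5 : (go 16 Gd mult S314_343_512_660 (Tr.lf 8598603908 99715910 0) 256 384 128 192 128 256) = true := by decide +kernel
  have c6 : (band (go 16 Gd mult S343_372_512_660 (Tr.lf 9136522376 103914566 0) 256 384 128 192 192 256)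
  (band (go 16 Gd mult S343_372_216_364 (Tr.lf 9136522372 108108870 0) 256 384 128 192 192 256)
  (go 16 Gd mult S343_372_364_512 (Tr.lf 9136522372 103914566 0) 256 384 128 192 192 256))) = true := by decide +kernel
  have c7 : (band (go 16 Gd mult S343_372_660_808 (Tr.lf 13431490632 99572552 0) 256 384 128 160 128 256)
  (go 16 Gd mult S343_372_660_808 (Tr.lf 13431490632 103770952 0) 256 384 160 192 128 256)) = true := by decide +kernel
  have c8 : (band (go 16 Gd mult S343_372_216_364 (Tr.lf 13431489608 103910343 0) 256 384 160 192 128 192)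
  (go 16 Gd mult S343_372_216_364 (Tr.lf 13431489572 99445576 0) 256 384 128 160 128 192)) = true := by decide +kernel
  have c9 : (go 16 Gd mult S314_343_216_364 (Tr.lf 9136521796 103783494 0) 256 384 128 192 192 256) = true := by decide +kernel
  (And.intro (Ok.s4 660 (Ok.s3 285 (Ok.lf S256_285_512_660_ok (br c0))
  (Ok.lf S285_314_512_660_ok (br c3)))
  (Ok.s3 285 (Ok.lf S256_285_660_808_ok (bl c4))
  (Ok.lf S285_314_660_808_ok (br c4))))
  (Ok.s4 512 (Ok.s4 364 (Ok.s3 343 (Ok.s2 192 (Ok.lf S314_343_216_364_ok (br c1))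
  (Ok.lf S314_343_216_364_ok c9))
  (Ok.s2 192 (Ok.s1 160 (Ok.lf S343_372_216_364_ok (br c8))
  (Ok.lf S343_372_216_364_ok (bl c8)))
  (Ok.lf S343_372_216_364_ok (bl (br c6)))))
  (Ok.s3 343 (Ok.lf S314_343_364_512_ok (bl c0))
  (Ok.s2 192 (Ok.lf S343_372_364_512_ok (bl c1))
  (Ok.lf S343_372_364_512_ok (br (br c6))))))
  (Ok.s4 660 (Ok.s3 343 (Ok.lf S314_343_512_660_ok c5)
  (Ok.s2 192 (Ok.lf S343_372_512_660_ok c2)
  (Ok.lf S343_372_512_660_ok (bl c6))))
  (Ok.s3 343 (Ok.lf S314_343_660_808_ok (bl c3))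
  (Ok.s1 160 (Ok.lf S343_372_660_808_ok (bl c7))
  (Ok.lf S343_372_660_808_ok (br c7)))))))

end Vale.Agent.P098.Ck
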