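import Vale.Agent.P098.CkGd
import Vale.Agent.P098.CkOk
import Vale.Agent.P098.Sh.A53
import Vale.Agent.P098.Sh.A54
import Vale.Agent.P098.Sh.A56
import Vale.Agent.P098.Sh.A57

namespace Vale.Agent.P098.Ck

theorem r469 :
    Ok Gd mult 256 384 128 160 128 256 372 430 512 660 ∧
    Ok Gd mult 256 384 160 192 128 256 372 430 512 660 ∧
    Ok Gd mult 256 384 128 192 128 256 372 430 660 808 :=
  have c0 : (band (go 16 Gd mult S401_430_512_660 (Tr.lf 13431376008 103770697 0) 256 384 128 160 128 256)
  (go 16 Gd mult S401_430_512_660 (Tr.lf 13969295428 99454024 0) 320 384 160 192 192 256)) = true := by decide +kernel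
  have c1 : (band (go 16 Gd mult S401_430_512_660 (Tr.lf 13969295496 95390792 0) 256 384 160 192 128 192)
  (go 16 Gd mult S386_401_660_808 (Tr.lf 13431489608 103775303 0) 256 384 160 192 128 192)) = true := by decide +kernel
  have c2 : (go 16 Gd mult S372_401_660_808 (Tr.lf 13432555592 103644232 0) 256 384 160 192 192 256) = true := by decide +kernel
  have c3 : (band (go 16 Gd mult S401_430_660_808 (Tr.lf 18265442436 86854475 0) 256 320 160 192 192 256)
  (go 16 Gd mult S372_401_512_660 (Tr.lf 13969425476 95255624 0) 256 320 160 192 192 256)) = true := by decide +kernel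
  have c4 : (go 16 Gd mult S401_430_512_660 (Tr.lf 18265311364 86854475 0) 256 320 160 192 192 256) = true := by decide +kernel
  have c5 : (band (go 16 Gd mult S372_401_660_808 (Tr.lf 13432555588 103508809 0) 256 320 128 160 128 256)
  (band (go 16 Gd mult S372_401_512_660 (Tr.lf 13432424516 103508809 0) 256 320 128 160 128 256)
  (go 16 Gd mult S401_430_660_808 (Tr.lf 13432424516 95251273 0) 256 320 128 160 128 256))) = true := by decide +kernel
  have c6 : (band (go 16 Gd mult S401_430_660_808 (Tr.lf 18265442372 95251402 0) 256 320 160 192 128 192)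
  (go 16 Gd mult S372_401_512_660 (Tr.lf 17727521860 90926025 0) 256 320 160 192 128 192)) = true := by decide +kernel
  have c7 : (band (go 16 Gd mult S401_430_660_808 (Tr.lf 13969295428 95259720 0) 320 384 160 192 192 256)
  (go 16 Gd mult S401_430_660_808 (Tr.lf 13969294404 95390792 0) 320 384 160 192 128 192)) = true := by decide +kernel
  have c8 : (band (go 16 Gd mult S372_401_512_660 (Tr.lf 13432408132 103775304 0) 320 384 160 192 128 256)
  (band (go 16 Gd mult S372_401_512_660 (Tr.lf 9137440834 107977544 0) 320 384 128 160 128 256)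
  (band (go 16 Gd mult S401_430_660_808 (Tr.lf 13432408132 103770953 0) 320 384 128 160 128 256)
  (go 16 Gd mult S372_401_660_808 (Tr.lf 9137440834 107977544 0) 320 384 128 160 128 256)))) = true := by decide +kernel
  have c9 : (go 16 Gd mult S372_386_660_808 (Tr.lf 13431481416 103902279 0) 256 384 160 192 128 192) = true := by decide +kernel
  (And.intro (Ok.s3 401 (Ok.s0 320 (Ok.lf S372_401_512_660_ok (bl (br c5)))
  (Ok.lf S372_401_512_660_ok (bl (br c8))))
  (Ok.lf S401_430_512_660_ok (bl c0)))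
  (And.intro (Ok.s3 401 (Ok.s0 320 (Ok.s2 192 (Ok.lf S372_401_512_660_ok (br c6))
  (Ok.lf S372_401_512_660_ok (br c3)))
  (Ok.lf S372_401_512_660_ok (bl c8)))
  (Ok.s2 192 (Ok.lf S401_430_512_660_ok (bl c1))
  (Ok.s0 320 (Ok.lf S401_430_512_660_ok c4)
  (Ok.lf S401_430_512_660_ok (br c0)))))
  (Ok.s1 160 (Ok.s3 401 (Ok.s0 320 (Ok.lf S372_401_660_808_ok (bl c5))
  (Ok.lf S372_401_660_808_ok (br (br (br c8)))))
  (Ok.s0 320 (Ok.lf S401_430_660_808_ok (br (br c5)))
  (Ok.lf S401_430_660_808_ok (bl (br (br c8))))))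
  (Ok.s3 401 (Ok.s2 192 (Ok.s3 386 (Ok.lf S372_386_660_808_ok c9)
  (Ok.lf S386_401_660_808_ok (br c1)))
  (Ok.lf S372_401_660_808_ok c2))
  (Ok.s2 192 (Ok.s0 320 (Ok.lf S401_430_660_808_ok (bl c6))
  (Ok.lf S401_430_660_808_ok (br c7)))
  (Ok.s0 320 (Ok.lf S401_430_660_808_ok (bl c3))
  (Ok.lf S401_430_660_808_ok (bl c7))))))))

end Vale.Agent.P098.Ck
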