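import Vale.Agent.P098.CkGd
import Vale.Agent.P098.CkOk
import Vale.Agent.P098.Sh.A58
import Vale.Agent.P098.Sh.A59

namespace Vale.Agent.P098.Ck

theorem r470 :
    Ok Gd mult 256 384 128 160 128 256 430 488 216 364 ∧
    Ok Gd mult 256 384 160 192 128 256 430 488 216 364 ∧
    Ok Gd mult 256 384 128 192 128 256 430 488 364 512 ∧
    Ok Gd mult 256 384 128 192 128 256 430 488 512 660 :=
  have c0 : (band (go 16 Gd mult S430_459_364_512 (Tr.lf 13961955464 95251274 0) 256 384 160 192 192 256)
  (go 16 Gd mult S459_488_216_364 (Tr.lf 18256840840 90921675 0) 256 384 160 192 192 256)) = true := by decide +kernel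
  have c1 : (band (go 16 Gd mult S430_459_512_660 (Tr.lf 13961955464 99445578 0) 256 384 160 192 192 256)
  (go 16 Gd mult S459_488_364_512 (Tr.lf 18256840840 90921675 0) 256 384 160 192 192 256)) = true := by decide +kernel
  have c2 : (band (go 16 Gd mult S459_488_216_364 (Tr.lf 18256857224 99310538 0) 256 384 160 192 128 192)
  (go 16 Gd mult S459_488_512_660 (Tr.lf 18256857224 99310538 0) 256 384 160 192 128 192)) = true := by decide +kernel
  have c3 : (band (go 16 Gd mult S430_488_216_364 (Tr.lf 13960906824 103504713 0) 256 384 128 160 192 256)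
  (go 16 Gd mult S430_488_364_512 (Tr.lf 13960906824 103504713 0) 256 384 128 160 192 256)) = true := by decide +kernel
  have c4 : (band (go 16 Gd mult S430_459_216_364 (Tr.lf 13961955400 95382346 0) 256 384 160 192 128 192)
  (go 16 Gd mult S430_459_364_512 (Tr.lf 13961955400 95382346 0) 256 384 160 192 128 192)) = true := by decide +kernel
  have c5 : (go 16 Gd mult S430_488_512_660 (Tr.lf 13960906824 103504713 0) 256 384 128 160 192 256) = true := by decide +kernel
  have c6 : (band (go 16 Gd mult S430_459_512_660 (Tr.lf 13961955400 95382346 0) 256 384 160 192 128 192)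
  (go 16 Gd mult S459_488_364_512 (Tr.lf 18256840776 99310538 0) 256 384 160 192 128 192)) = true := by decide +kernel
  have c7 : (band (go 16 Gd mult S430_488_364_512 (Tr.lf 13423970376 103771080 0) 256 384 128 160 128 192)
  (band (go 16 Gd mult S430_488_512_660 (Tr.lf 13423970376 103771080 0) 256 384 128 160 128 192)
  (go 16 Gd mult S430_488_216_364 (Tr.lf 13424034888 103771080 0) 256 384 128 160 128 192))) = true := by decide +kernel
  have c8 : (go 16 Gd mult S459_488_512_660 (Tr.lf 18256840840 90921675 0) 256 384 160 192 192 256) = true := by decide +kernel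
  have c9 : (band (go 16 Gd mult S430_459_216_364 (Tr.lf 18265294980 82660171 0) 256 320 160 192 192 256)
  (go 16 Gd mult S430_459_216_364 (Tr.lf 13961939076 95251274 0) 320 384 160 192 192 256)) = true := by decide +kernel
  (And.intro (Ok.s2 192 (Ok.lf S430_488_216_364_ok (br (br c7)))
  (Ok.lf S430_488_216_364_ok (bl c3)))
  (And.intro (Ok.s3 459 (Ok.s2 192 (Ok.lf S430_459_216_364_ok (bl c4))
  (Ok.s0 320 (Ok.lf S430_459_216_364_ok (bl c9))
  (Ok.lf S430_459_216_364_ok (br c9))))
  (Ok.s2 192 (Ok.lf S459_488_216_364_ok (bl c2))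
  (Ok.lf S459_488_216_364_ok (br c0))))
  (And.intro (Ok.s1 160 (Ok.s2 192 (Ok.lf S430_488_364_512_ok (bl c7))
  (Ok.lf S430_488_364_512_ok (br c3)))
  (Ok.s3 459 (Ok.s2 192 (Ok.lf S430_459_364_512_ok (br c4))
  (Ok.lf S430_459_364_512_ok (bl c0)))
  (Ok.s2 192 (Ok.lf S459_488_364_512_ok (br c6))
  (Ok.lf S459_488_364_512_ok (br c1)))))
  (Ok.s1 160 (Ok.s2 192 (Ok.lf S430_488_512_660_ok (bl (br c7)))
  (Ok.lf S430_488_512_660_ok c5))
  (Ok.s3 459 (Ok.s2 192 (Ok.lf S430_459_512_660_ok (bl c6))
  (Ok.lf S430_459_512_660_ok (bl c1)))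
  (Ok.s2 192 (Ok.lf S459_488_512_660_ok (br c2))
  (Ok.lf S459_488_512_660_ok c8)))))))

end Vale.Agent.P098.Ck
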