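import Vale.Agent.P098.CkGd
import Vale.Agent.P098.CkOk
import Vale.Agent.P098.Sh.A0
import Vale.Agent.P098.Sh.A1
import Vale.Agent.P098.Sh.A58
import Vale.Agent.P098.Sh.A59

namespace Vale.Agent.P098.Ck

theorem r471 :
    Ok Gd mult 256 384 128 160 128 256 430 488 660 808 ∧
    Ok Gd mult 256 384 160 192 128 256 430 488 660 808 ∧
    Ok Gd mult 256 384 128 192 256 384 24 82 216 364 ∧
    Ok Gd mult 256 384 128 160 256 384 24 82 364 512 :=
  have c0 : (band (go 16 Gd mult S459_488_660_808 (Tr.lf 18256857224 99310538 0) 256 384 160 192 128 192)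
  (go 16 Gd mult S430_459_660_808 (Tr.lf 13961955400 95382346 0) 256 384 160 192 128 192)) = true := by decide +kernel
  have c1 : (band (go 16 Gd mult S430_488_660_808 (Tr.lf 13424035912 103763016 0) 256 384 128 160 128 192)
  (go 16 Gd mult S430_488_660_808 (Tr.lf 13960906824 103504713 0) 256 384 128 160 192 256)) = true := by decide +kernel
  have c2 : (band (go 16 Gd mult S430_459_660_808 (Tr.lf 18265311364 86854475 0) 256 320 160 192 192 256)
  (go 16 Gd mult S430_459_660_808 (Tr.lf 13961955396 95251274 0) 320 384 160 192 192 256)) = true := by decide +kernel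
  have c3 : (band (go 16 Gd mult S53_82_216_364 (Tr.lf 13970327688 99183816 0) 256 384 128 160 320 384)
  (band (go 16 Gd mult S53_82_364_512 (Tr.lf 13970262152 107441352 0) 256 384 128 160 320 384)
  (go 16 Gd mult S24_53_216_364 (Tr.lf 13970262088 107441352 0) 256 384 128 160 320 384))) = true := by decide +kernel
  have c4 : (go 16 Gd mult S24_82_216_364 (Tr.lf 13969295432 103373896 0) 256 384 160 192 320 384) = true := by decide +kernel
  have c5 : (go 16 Gd mult S459_488_660_808 (Tr.lf 18256840840 90921675 0) 256 384 160 192 192 256) = true := by decide +kernel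
  have c6 : (band (go 16 Gd mult S53_82_364_512 (Tr.lf 13970262152 103513160 0) 256 384 128 160 256 320)
  (band (go 16 Gd mult S53_82_216_364 (Tr.lf 13970326664 103513160 0) 256 384 128 160 256 320)
  (band (go 16 Gd mult S24_53_216_364 (Tr.lf 13961872520 103504968 0) 256 384 128 160 256 320)
  (go 16 Gd mult S24_53_216_364 (Tr.lf 13961872456 103374024 0) 256 384 160 192 256 320)))) = true := by decide +kernel
  have c7 : (go 16 Gd mult S53_82_216_364 (Tr.lf 13960890440 103373768 0) 256 384 160 192 256 320) = true := by decide +kernel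
  have c8 : (band (go 16 Gd mult S24_53_364_512 (Tr.lf 13961872520 103504968 0) 256 384 128 160 256 320)
  (go 16 Gd mult S24_53_364_512 (Tr.lf 13970262088 107441352 0) 256 384 128 160 320 384)) = true := by decide +kernel
  (And.intro (Ok.s2 192 (Ok.lf S430_488_660_808_ok (bl c1))
  (Ok.lf S430_488_660_808_ok (br c1)))
  (And.intro (Ok.s3 459 (Ok.s2 192 (Ok.lf S430_459_660_808_ok (br c0))
  (Ok.s0 320 (Ok.lf S430_459_660_808_ok (bl c2))
  (Ok.lf S430_459_660_808_ok (br c2))))
  (Ok.s2 192 (Ok.lf S459_488_660_808_ok (bl c0))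
  (Ok.lf S459_488_660_808_ok c5)))
  (And.intro (Ok.s1 160 (Ok.s2 320 (Ok.s3 53 (Ok.lf S24_53_216_364_ok (bl (br (br c6))))
  (Ok.lf S53_82_216_364_ok (bl (br c6))))
  (Ok.s3 53 (Ok.lf S24_53_216_364_ok (br (br c3)))
  (Ok.lf S53_82_216_364_ok (bl c3))))
  (Ok.s2 320 (Ok.s3 53 (Ok.lf S24_53_216_364_ok (br (br (br c6))))
  (Ok.lf S53_82_216_364_ok c7))
  (Ok.lf S24_82_216_364_ok c4)))
  (Ok.s2 320 (Ok.s3 53 (Ok.lf S24_53_364_512_ok (bl c8))
  (Ok.lf S53_82_364_512_ok (bl c6)))
  (Ok.s3 53 (Ok.lf S24_53_364_512_ok (br c8))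
  (Ok.lf S53_82_364_512_ok (bl (br c3))))))))

end Vale.Agent.P098.Ck
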