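import Vale.Agent.P098.CkGd
import Vale.Agent.P098.CkOk
import Vale.Agent.P098.Sh.A0
import Vale.Agent.P098.Sh.A1
import Vale.Agent.P098.Sh.A2

namespace Vale.Agent.P098.Ck

theorem r472 :
    Ok Gd mult 256 384 160 192 256 384 24 82 364 512 ∧
    Ok Gd mult 256 384 128 192 256 384 24 82 512 808 ∧
    Ok Gd mult 256 384 128 192 256 320 82 111 216 364 :=
  have c0 : (band (go 16 Gd mult S82_111_216_364 (Tr.lf 13978862728 103521352 0) 256 384 128 160 256 320)
  (go 16 Gd mult S53_82_512_660 (Tr.lf 13970262152 103513160 0) 256 384 128 160 256 320)) = true := by decide +kernel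
  have c1 : (band (go 16 Gd mult S82_111_216_364 (Tr.lf 13977815112 107584456 0) 256 384 160 192 256 320)
  (go 16 Gd mult S53_82_364_512 (Tr.lf 13960824904 103373768 0) 256 384 160 192 256 320)) = true := by decide +kernel
  have c2 : (band (go 16 Gd mult S24_82_364_512 (Tr.lf 13969229896 103373896 0) 256 384 160 192 320 384)
  (band (go 16 Gd mult S24_82_660_808 (Tr.lf 13969229896 103373896 0) 256 384 160 192 320 384)
  (go 16 Gd mult S24_82_512_660 (Tr.lf 13969229896 103373896 0) 256 384 160 192 320 384))) = true := by decide +kernel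
  have c3 : (band (go 16 Gd mult S53_82_512_660 (Tr.lf 13970262152 107441352 0) 256 384 128 160 320 384)
  (band (go 16 Gd mult S53_82_660_808 (Tr.lf 13970327624 99183816 0) 256 384 128 160 320 384)
  (band (go 16 Gd mult S24_53_512_660 (Tr.lf 13970262088 107441352 0) 256 384 128 160 320 384)
  (go 16 Gd mult S53_82_660_808 (Tr.lf 13960889416 103373768 0) 256 384 160 192 256 320)))) = true := by decide +kernel
  have c4 : (band (go 16 Gd mult S53_82_660_808 (Tr.lf 13970326664 103513160 0) 256 384 128 160 256 320)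
  (band (go 16 Gd mult S24_53_512_660 (Tr.lf 13961872520 103504968 0) 256 384 128 160 256 320)
  (band (go 16 Gd mult S24_53_660_808 (Tr.lf 13961872520 103504968 0) 256 384 128 160 256 320)
  (go 16 Gd mult S24_53_660_808 (Tr.lf 13970262088 107441352 0) 256 384 128 160 320 384)))) = true := by decide +kernel
  have c5 : (band (go 16 Gd mult S53_82_512_660 (Tr.lf 13960824904 103373768 0) 256 384 160 192 256 320)
  (band (go 16 Gd mult S24_53_364_512 (Tr.lf 13961872456 103374024 0) 256 384 160 192 256 320)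
  (band (go 16 Gd mult S24_53_512_660 (Tr.lf 13961872456 103374024 0) 256 384 160 192 256 320)
  (go 16 Gd mult S24_53_660_808 (Tr.lf 13961872456 103374024 0) 256 384 160 192 256 320)))) = true := by decide +kernel
  (And.intro (Ok.s2 320 (Ok.s3 53 (Ok.lf S24_53_364_512_ok (bl (br c5)))
  (Ok.lf S53_82_364_512_ok (br c1)))
  (Ok.lf S24_82_364_512_ok (bl c2)))
  (And.intro (Ok.s4 660 (Ok.s2 320 (Ok.s1 160 (Ok.s3 53 (Ok.lf S24_53_512_660_ok (bl (br c4)))
  (Ok.lf S53_82_512_660_ok (br c0)))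
  (Ok.s3 53 (Ok.lf S24_53_512_660_ok (bl (br (br c5))))
  (Ok.lf S53_82_512_660_ok (bl c5))))
  (Ok.s1 160 (Ok.s3 53 (Ok.lf S24_53_512_660_ok (bl (br (br c3))))
  (Ok.lf S53_82_512_660_ok (bl c3)))
  (Ok.lf S24_82_512_660_ok (br (br c2)))))
  (Ok.s2 320 (Ok.s1 160 (Ok.s3 53 (Ok.lf S24_53_660_808_ok (bl (br (br c4))))
  (Ok.lf S53_82_660_808_ok (bl c4)))
  (Ok.s3 53 (Ok.lf S24_53_660_808_ok (br (br (br c5))))
  (Ok.lf S53_82_660_808_ok (br (br (br c3))))))
  (Ok.s1 160 (Ok.s3 53 (Ok.lf S24_53_660_808_ok (br (br (br c4))))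
  (Ok.lf S53_82_660_808_ok (bl (br c3))))
  (Ok.lf S24_82_660_808_ok (bl (br c2))))))
  (Ok.s1 160 (Ok.lf S82_111_216_364_ok (bl c0))
  (Ok.lf S82_111_216_364_ok (bl c1)))))

end Vale.Agent.P098.Ck
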