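import Vale.Agent.P098.CkGd
import Vale.Agent.P098.CkOk
import Vale.Agent.P098.Sh.A12
import Vale.Agent.P098.Sh.A3
import Vale.Agent.P098.Sh.A6
import Vale.Agent.P098.Sh.A7

namespace Vale.Agent.P098.Ck

theorem r475 :
    Ok Gd mult 256 384 128 192 256 384 82 111 660 808 ∧
    Ok Gd mult 256 384 128 192 256 384 111 140 660 808 ∧
    Ok Gd mult 256 384 128 192 256 320 140 169 216 364 :=
  have c0 : (go 16 Gd mult S82_111_660_808 (Tr.lf 13978847368 103386312 0) 256 384 128 160 320 384) = true := by decide +kernel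
  have c1 : (go 16 Gd mult S111_140_660_808 (Tr.lf 13978862728 103652424 0) 256 384 128 160 256 320) = true := by decide +kernel
  have c2 : (go 16 Gd mult S140_154_216_290 (Tr.lf 13987235976 103644233 0) 256 384 128 160 256 320) = true := by decide +kernel
  have c3 : (go 16 Gd mult S154_169_216_290 (Tr.lf 13987235976 95259721 0) 256 384 128 160 256 320) = true := by decide +kernel
  have c4 : (go 16 Gd mult S154_169_290_364 (Tr.lf 13987235976 99454025 0) 256 384 128 160 256 320) = true := by decide +kernel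
  have c5 : (band (go 16 Gd mult S140_154_216_290 (Tr.lf 13987235976 107707593 0) 256 384 160 192 256 320)
  (go 16 Gd mult S111_140_660_808 (Tr.lf 13440926792 103390407 0) 256 384 160 192 256 320)) = true := by decide +kernel
  have c6 : (go 16 Gd mult S154_169_216_290 (Tr.lf 13987252356 99581129 0) 320 384 160 192 256 320) = true := by decide +kernel
  have c7 : (go 16 Gd mult S154_169_290_364 (Tr.lf 13987235976 99581129 0) 256 384 160 192 256 320) = true := by decide +kernel
  have c8 : (band (go 16 Gd mult S82_111_660_808 (Tr.lf 13978846344 103521352 0) 256 384 128 160 256 320)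
  (go 16 Gd mult S140_154_290_364 (Tr.lf 13987234952 103644233 0) 256 384 128 160 256 320)) = true := by decide +kernel
  have c9 : (band (go 16 Gd mult S82_111_660_808 (Tr.lf 13432554568 99187656 0) 256 384 160 192 256 320)
  (go 16 Gd mult S140_154_290_364 (Tr.lf 13987234952 107707593 0) 256 384 160 192 256 320)) = true := by decide +kernel
  have c10 : (band (go 16 Gd mult S111_140_660_808 (Tr.lf 13978846344 103652424 0) 256 384 128 160 320 352)
  (band (go 16 Gd mult S111_140_660_808 (Tr.lf 13440927816 95124552 0) 256 384 160 192 320 384)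
  (go 16 Gd mult S82_111_660_808 (Tr.lf 13969279044 107568200 0) 256 384 160 192 320 384))) = true := by decide +kernel
  have c11 : (go 16 Gd mult S111_140_660_808 (Tr.lf 13978846344 103386312 0) 256 384 128 160 352 384) = true := by decide +kernel
  have c12 : (go 16 Gd mult S154_169_216_290 (Tr.lf 13987235972 95255753 0) 256 320 160 192 256 320) = true := by decide +kernel
  (And.intro (Ok.s2 320 (Ok.s1 160 (Ok.lf S82_111_660_808_ok (bl c8))
  (Ok.lf S82_111_660_808_ok (bl c9)))
  (Ok.s1 160 (Ok.lf S82_111_660_808_ok c0)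
  (Ok.lf S82_111_660_808_ok (br (br c10)))))
  (And.intro (Ok.s2 320 (Ok.s1 160 (Ok.lf S111_140_660_808_ok c1)
  (Ok.lf S111_140_660_808_ok (br c5)))
  (Ok.s1 160 (Ok.s2 352 (Ok.lf S111_140_660_808_ok (bl c10))
  (Ok.lf S111_140_660_808_ok c11))
  (Ok.lf S111_140_660_808_ok (bl (br c10)))))
  (Ok.s1 160 (Ok.s3 154 (Ok.s4 290 (Ok.lf S140_154_216_290_ok c2)
  (Ok.lf S140_154_290_364_ok (br c8)))
  (Ok.s4 290 (Ok.lf S154_169_216_290_ok c3)
  (Ok.lf S154_169_290_364_ok c4)))
  (Ok.s3 154 (Ok.s4 290 (Ok.lf S140_154_216_290_ok (bl c5))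
  (Ok.lf S140_154_290_364_ok (br c9)))
  (Ok.s4 290 (Ok.s0 320 (Ok.lf S154_169_216_290_ok c12)
  (Ok.lf S154_169_216_290_ok c6))
  (Ok.lf S154_169_290_364_ok c7))))))

end Vale.Agent.P098.Ck
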