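import Vale.Agent.P098.CkGd
import Vale.Agent.P098.CkOk
import Vale.Agent.P098.Sh.A12
import Vale.Agent.P098.Sh.A14
import Vale.Agent.P098.Sh.A15
import Vale.Agent.P098.Sh.A20
import Vale.Agent.P098.Sh.A7

namespace Vale.Agent.P098.Ck

theorem r476 :
    Ok Gd mult 256 384 128 160 320 384 140 154 216 364 ∧
    Ok Gd mult 256 384 128 160 320 384 154 169 216 364 ∧
    Ok Gd mult 256 384 160 192 320 384 140 169 216 364 ∧
    Ok Gd mult 256 384 128 160 256 320 169 198 216 364 ∧
    Ok Gd mult 256 384 160 192 256 320 169 183 216 364 :=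
  have c0 : (go 16 Gd mult S140_154_216_364 (Tr.lf 13987497096 103644488 0) 256 384 128 160 320 352) = true := by decide +kernel
  have c1 : (go 16 Gd mult S154_169_216_290 (Tr.lf 13987251336 103517512 0) 256 384 128 160 352 384) = true := by decide +kernel
  have c2 : (go 16 Gd mult S154_169_290_364 (Tr.lf 13987235976 103517257 0) 256 384 128 160 320 384) = true := by decide +kernel
  have c3 : (go 16 Gd mult S154_169_216_290 (Tr.lf 13987235976 107580617 0) 256 384 160 192 320 384) = true := by decide +kernel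
  have c4 : (go 16 Gd mult S154_169_290_364 (Tr.lf 13987235976 107580617 0) 256 384 160 192 320 384) = true := by decide +kernel
  have c5 : (go 16 Gd mult S169_183_216_290 (Tr.lf 13987498116 86871241 0) 256 320 160 192 256 320) = true := by decide +kernel
  have c6 : (go 16 Gd mult S169_183_216_290 (Tr.lf 13987498116 99446089 0) 320 384 160 192 256 320) = true := by decide +kernel
  have c7 : (go 16 Gd mult S169_183_290_364 (Tr.lf 13986187400 99445833 0) 256 384 160 192 256 320) = true := by decide +kernel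
  have c8 : (band (go 16 Gd mult S169_176_216_364 (Tr.lf 13987489864 99318985 0) 256 384 144 160 256 320)
  (go 16 Gd mult S176_183_216_364 (Tr.lf 13986441288 99449801 0) 256 384 144 160 256 320)) = true := by decide +kernel
  have c9 : (band (go 16 Gd mult S140_154_216_364 (Tr.lf 13987497032 107580744 0) 256 384 128 160 352 384)
  (go 16 Gd mult S140_154_216_364 (Tr.lf 13987497032 107707593 0) 256 384 160 192 320 352)) = true := by decide +kernel
  have c10 : (go 16 Gd mult S154_169_216_290 (Tr.lf 13987234952 99322953 0) 256 384 128 160 320 352) = true := by decide +kernel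
  have c11 : (band (go 16 Gd mult S183_198_216_364 (Tr.lf 13986448456 103517129 0) 256 384 144 160 288 320)
  (go 16 Gd mult S183_198_216_364 (Tr.lf 9146221092 99716295 0) 256 384 144 160 256 288)) = true := by decide +kernel
  have c12 : (band (go 16 Gd mult S169_183_216_364 (Tr.lf 9146221604 112041031 0) 256 384 128 144 256 320)
  (go 16 Gd mult S183_198_216_364 (Tr.lf 9145959460 103779527 0) 256 384 128 144 256 320)) = true := by decide +kernel
  have c13 : (go 16 Gd mult S140_154_216_364 (Tr.lf 13440926788 99318856 0) 256 384 160 192 352 384) = true := by decide +kernel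
  (And.intro (Ok.s2 352 (Ok.lf S140_154_216_364_ok c0)
  (Ok.lf S140_154_216_364_ok (bl c9)))
  (And.intro (Ok.s4 290 (Ok.s2 352 (Ok.lf S154_169_216_290_ok c10)
  (Ok.lf S154_169_216_290_ok c1))
  (Ok.lf S154_169_290_364_ok c2))
  (And.intro (Ok.s3 154 (Ok.s2 352 (Ok.lf S140_154_216_364_ok (br c9))
  (Ok.lf S140_154_216_364_ok c13))
  (Ok.s4 290 (Ok.lf S154_169_216_290_ok c3)
  (Ok.lf S154_169_290_364_ok c4)))
  (And.intro (Ok.s3 183 (Ok.s1 144 (Ok.lf S169_183_216_364_ok (bl c12))
  (Ok.s3 176 (Ok.lf S169_176_216_364_ok (bl c8))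
  (Ok.lf S176_183_216_364_ok (br c8))))
  (Ok.s1 144 (Ok.lf S183_198_216_364_ok (br c12))
  (Ok.s2 288 (Ok.lf S183_198_216_364_ok (br c11))
  (Ok.lf S183_198_216_364_ok (bl c11)))))
  (Ok.s4 290 (Ok.s0 320 (Ok.lf S169_183_216_290_ok c5)
  (Ok.lf S169_183_216_290_ok c6))
  (Ok.lf S169_183_290_364_ok c7))))))

end Vale.Agent.P098.Ck
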