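import Vale.Agent.P098.CkGd
import Vale.Agent.P098.CkOk
import Vale.Agent.P098.Sh.A23
import Vale.Agent.P098.Sh.A25
import Vale.Agent.P098.Sh.A30

namespace Vale.Agent.P098.Ck

theorem r48 :
    Ok Gd mult 120 122 112 120 384 512 198 227 216 364 ∧
    Ok Gd mult 120 122 120 128 384 512 198 227 216 364 ∧
    Ok Gd mult 122 124 112 128 384 512 198 227 216 364 ∧
    Ok Gd mult 124 126 112 120 384 512 198 227 216 364 :=
  have c0 : (band (go 16 Gd mult S198_227_216_364 (Tr.lf 13986465825 103386184 0) 120 122 120 128 448 480)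
  (band (go 16 Gd mult S198_227_216_364 (Tr.lf 13986465825 103386184 0) 122 124 120 128 448 480)
  (go 16 Gd mult S198_227_216_364 (Tr.lf 13978076177 103377992 0) 124 126 112 120 448 480))) = true := by decide +kernel
  have c1 : (band (go 16 Gd mult S198_212_216_364 (Tr.lf 13986449425 107711687 0) 120 122 112 120 480 512)
  (band (go 16 Gd mult S212_227_216_364 (Tr.lf 9136784401 103902405 0) 120 122 112 120 480 512)
  (band (go 16 Gd mult S198_212_216_364 (Tr.lf 13986449425 103517383 0) 120 122 120 128 480 512)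
  (band (go 16 Gd mult S212_227_216_364 (Tr.lf 9136784401 112168005 0) 120 122 120 128 480 512)
  (band (go 16 Gd mult S198_212_216_364 (Tr.lf 13986449425 107711687 0) 122 124 112 120 480 512)
  (band (go 16 Gd mult S212_227_216_364 (Tr.lf 9136785425 103902405 0) 122 124 112 120 480 512)
  (go 16 Gd mult S198_212_216_364 (Tr.lf 13986449425 103517383 0) 122 124 120 128 480 512))))))) = true := by decide +kernel
  have c2 : (band (go 16 Gd mult S198_212_216_364 (Tr.lf 13986449425 107711687 0) 124 126 112 120 480 512)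
  (band (go 16 Gd mult S212_227_216_364 (Tr.lf 9136785425 103902405 0) 124 126 112 120 480 512)
  (go 16 Gd mult S212_227_216_364 (Tr.lf 9136784401 112168005 0) 122 124 120 128 480 512))) = true := by decide +kernel
  have c3 : (band (go 16 Gd mult S198_227_216_364 (Tr.lf 13440943121 94989384 0) 120 122 112 120 448 480)
  (go 16 Gd mult S198_227_216_364 (Tr.lf 13977814033 103377992 0) 122 124 112 120 448 480)) = true := by decide +kernel
  have c4 : (band (go 16 Gd mult S198_227_216_364 (Tr.lf 4304544273 99585221 0) 120 122 112 120 384 448)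
  (band (go 16 Gd mult S198_227_216_364 (Tr.lf 4841415185 107973829 0) 120 122 120 128 384 448)
  (band (go 16 Gd mult S198_227_216_364 (Tr.lf 4304544273 99585221 0) 122 124 112 120 384 448)
  (band (go 16 Gd mult S198_227_216_364 (Tr.lf 4841415185 107973829 0) 122 124 120 128 384 448)
  (go 16 Gd mult S198_227_216_364 (Tr.lf 4304544273 99585221 0) 124 126 112 120 384 448))))) = true := by decide +kernel
  (And.intro (Ok.s2 448 (Ok.lf S198_227_216_364_ok (bl c4))
  (Ok.s2 480 (Ok.lf S198_227_216_364_ok (bl c3))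
  (Ok.s3 212 (Ok.lf S198_212_216_364_ok (bl c1))
  (Ok.lf S212_227_216_364_ok (bl (br c1))))))
  (And.intro (Ok.s2 448 (Ok.lf S198_227_216_364_ok (bl (br c4)))
  (Ok.s2 480 (Ok.lf S198_227_216_364_ok (bl c0))
  (Ok.s3 212 (Ok.lf S198_212_216_364_ok (bl (br (br c1))))
  (Ok.lf S212_227_216_364_ok (bl (br (br (br c1))))))))
  (And.intro (Ok.s1 120 (Ok.s2 448 (Ok.lf S198_227_216_364_ok (bl (br (br c4))))
  (Ok.s2 480 (Ok.lf S198_227_216_364_ok (br c3))
  (Ok.s3 212 (Ok.lf S198_212_216_364_ok (bl (br (br (br (br c1))))))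
  (Ok.lf S212_227_216_364_ok (bl (br (br (br (br (br c1))))))))))
  (Ok.s2 448 (Ok.lf S198_227_216_364_ok (bl (br (br (br c4)))))
  (Ok.s2 480 (Ok.lf S198_227_216_364_ok (bl (br c0)))
  (Ok.s3 212 (Ok.lf S198_212_216_364_ok (br (br (br (br (br (br c1)))))))
  (Ok.lf S212_227_216_364_ok (br (br c2)))))))
  (Ok.s2 448 (Ok.lf S198_227_216_364_ok (br (br (br (br c4)))))
  (Ok.s2 480 (Ok.lf S198_227_216_364_ok (br (br c0)))
  (Ok.s3 212 (Ok.lf S198_212_216_364_ok (bl c2))
  (Ok.lf S212_227_216_364_ok (bl (br c2)))))))))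

end Vale.Agent.P098.Ck
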