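import Vale.Agent.P098.CkGd
import Vale.Agent.P098.CkOk
import Vale.Agent.P098.Sh.A10
import Vale.Agent.P098.Sh.A12
import Vale.Agent.P098.Sh.A16
import Vale.Agent.P098.Sh.A19
import Vale.Agent.P098.Sh.A22
import Vale.Agent.P098.Sh.A8

namespace Vale.Agent.P098.Ck

theorem r480 :
    Ok Gd mult 256 384 160 192 320 384 140 169 512 660 ∧
    Ok Gd mult 256 384 128 192 256 384 169 198 512 660 ∧
    Ok Gd mult 256 384 128 192 256 384 140 169 660 808 ∧
    Ok Gd mult 256 384 128 192 256 320 169 198 660 808 :=
  have c0 : (go 16 Gd mult S169_198_512_660 (Tr.lf 13441205320 103513160 0) 256 384 128 160 256 320) = true := by decide +kernel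
  have c1 : (go 16 Gd mult S183_198_512_586 (Tr.lf 13440927880 103382088 0) 256 384 128 160 320 384) = true := by decide +kernel
  have c2 : (band (go 16 Gd mult S169_183_512_660 (Tr.lf 13978060872 103517256 0) 256 384 160 192 320 384)
  (go 16 Gd mult S140_154_512_660 (Tr.lf 13977798724 107707464 0) 256 384 160 192 320 384)) = true := by decide +kernel
  have c3 : (go 16 Gd mult S183_198_512_660 (Tr.lf 13986449480 107711433 0) 256 384 160 192 320 384) = true := by decide +kernel
  have c4 : (go 16 Gd mult S140_169_660_808 (Tr.lf 13440943240 99322824 0) 256 384 128 160 256 320) = true := by decide +kernel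
  have c5 : (go 16 Gd mult S140_169_660_808 (Tr.lf 13978862728 99323080 0) 256 384 128 160 320 352) = true := by decide +kernel
  have c6 : (go 16 Gd mult S140_169_660_808 (Tr.lf 13978862728 99323080 0) 256 384 128 160 352 384) = true := by decide +kernel
  have c7 : (go 16 Gd mult S140_169_660_808 (Tr.lf 13440944200 103513160 0) 256 384 160 192 320 384) = true := by decide +kernel
  have c8 : (band (go 16 Gd mult S169_198_660_808 (Tr.lf 13440156744 103652040 0) 256 384 160 192 256 320)
  (go 16 Gd mult S169_183_512_660 (Tr.lf 13441188932 99581000 0) 256 384 160 192 256 320)) = true := by decide +kernel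
  have c9 : (go 16 Gd mult S154_169_512_660 (Tr.lf 13977798728 103644232 0) 256 384 160 192 320 384) = true := by decide +kernel
  have c10 : (band (go 16 Gd mult S183_198_512_660 (Tr.lf 13441188936 107969608 0) 256 384 160 192 256 320)
  (go 16 Gd mult S140_169_660_808 (Tr.lf 13440943176 103521479 0) 256 384 160 192 256 320)) = true := by decide +kernel
  have c11 : (band (go 16 Gd mult S169_183_512_660 (Tr.lf 13978059848 99445832 0) 256 384 128 160 320 352)
  (go 16 Gd mult S169_183_512_660 (Tr.lf 13987497032 95259976 0) 256 384 128 160 352 384)) = true := by decide +kernel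
  have c12 : (go 16 Gd mult S183_198_586_660 (Tr.lf 13440927816 99187784 0) 256 384 128 160 320 384) = true := by decide +kernel
  have c13 : (go 16 Gd mult S169_198_660_808 (Tr.lf 9146238020 107846727 0) 256 384 128 160 256 320) = true := by decide +kernel
  (And.intro (Ok.s3 154 (Ok.lf S140_154_512_660_ok (br c2))
  (Ok.lf S154_169_512_660_ok c9))
  (And.intro (Ok.s2 320 (Ok.s1 160 (Ok.lf S169_198_512_660_ok c0)
  (Ok.s3 183 (Ok.lf S169_183_512_660_ok (br c8))
  (Ok.lf S183_198_512_660_ok (bl c10))))
  (Ok.s1 160 (Ok.s3 183 (Ok.s2 352 (Ok.lf S169_183_512_660_ok (bl c11))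
  (Ok.lf S169_183_512_660_ok (br c11)))
  (Ok.s4 586 (Ok.lf S183_198_512_586_ok c1)
  (Ok.lf S183_198_586_660_ok c12)))
  (Ok.s3 183 (Ok.lf S169_183_512_660_ok (bl c2))
  (Ok.lf S183_198_512_660_ok c3))))
  (And.intro (Ok.s2 320 (Ok.s1 160 (Ok.lf S140_169_660_808_ok c4)
  (Ok.lf S140_169_660_808_ok (br c10)))
  (Ok.s1 160 (Ok.s2 352 (Ok.lf S140_169_660_808_ok c5)
  (Ok.lf S140_169_660_808_ok c6))
  (Ok.lf S140_169_660_808_ok c7)))
  (Ok.s1 160 (Ok.lf S169_198_660_808_ok c13)
  (Ok.lf S169_198_660_808_ok (bl c8))))))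

end Vale.Agent.P098.Ck
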