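import Vale.Agent.P098.CkGd
import Vale.Agent.P098.CkOk
import Vale.Agent.P098.Sh.A16
import Vale.Agent.P098.Sh.A19
import Vale.Agent.P098.Sh.A22
import Vale.Agent.P098.Sh.A23
import Vale.Agent.P098.Sh.A30
import Vale.Agent.P098.Sh.A31

namespace Vale.Agent.P098.Ck

theorem r481 :
    Ok Gd mult 256 384 128 192 320 384 169 198 660 808 ∧
    Ok Gd mult 256 384 128 160 256 384 198 227 216 364 ∧
    Ok Gd mult 256 384 160 192 256 320 198 227 216 290 :=
  have c0 : (go 16 Gd mult S169_198_660_808 (Tr.lf 13441206340 99449928 0) 256 384 160 192 320 384) = true := by decide +kernel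
  have c1 : (band (go 16 Gd mult S198_212_216_290 (Tr.lf 13986448520 107711433 0) 256 384 128 160 320 352)
  (go 16 Gd mult S198_212_290_364 (Tr.lf 13449315400 95128521 0) 256 384 128 160 320 352)) = true := by decide +kernel
  have c2 : (go 16 Gd mult S198_212_216_290 (Tr.lf 13986448520 103644105 0) 256 384 128 160 352 384) = true := by decide +kernel
  have c3 : (go 16 Gd mult S212_227_216_290 (Tr.lf 13449316488 95001545 0) 256 384 128 160 320 384) = true := by decide +kernel
  have c4 : (go 16 Gd mult S198_212_216_290 (Tr.lf 13449578568 103771209 0) 256 384 160 176 256 320) = true := by decide +kernel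
  have c5 : (go 16 Gd mult S212_227_216_290 (Tr.lf 13449578568 99449929 0) 256 384 160 176 256 320) = true := by decide +kernel
  have c6 : (go 16 Gd mult S198_212_216_364 (Tr.lf 13449578536 99318857 0) 256 384 144 160 256 320) = true := by decide +kernel
  have c7 : (band (go 16 Gd mult S169_183_660_808 (Tr.lf 13978060868 99453896 0) 256 384 128 160 320 384)
  (go 16 Gd mult S183_198_660_808 (Tr.lf 13441189956 103509064 0) 256 384 128 160 320 384)) = true := by decide +kernel
  have c8 : (go 16 Gd mult S198_212_290_364 (Tr.lf 13986186376 103644105 0) 256 384 128 160 352 384) = true := by decide +kernel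
  have c9 : (go 16 Gd mult S212_227_290_364 (Tr.lf 13449316424 103517129 0) 256 384 128 160 320 384) = true := by decide +kernel
  have c10 : (band (go 16 Gd mult S198_212_216_290 (Tr.lf 18281415752 103508938 0) 256 384 176 192 256 288)
  (go 16 Gd mult S212_227_216_290 (Tr.lf 17744544840 94993354 0) 256 384 176 192 256 288)) = true := by decide +kernel
  have c11 : (band (go 16 Gd mult S198_212_216_290 (Tr.lf 18281415752 95120330 0) 256 384 176 192 288 320)
  (go 16 Gd mult S212_227_216_290 (Tr.lf 18281415752 103508938 0) 256 384 176 192 288 320)) = true := by decide +kernel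
  have c12 : (go 16 Gd mult S212_227_216_364 (Tr.lf 9145173060 103906375 0) 256 384 128 160 256 320) = true := by decide +kernel
  have c13 : (go 16 Gd mult S198_212_216_364 (Tr.lf 8608031778 99457991 0) 256 384 128 144 256 320) = true := by decide +kernel
  (And.intro (Ok.s1 160 (Ok.s3 183 (Ok.lf S169_183_660_808_ok (bl c7))
  (Ok.lf S183_198_660_808_ok (br c7)))
  (Ok.lf S169_198_660_808_ok c0))
  (And.intro (Ok.s3 212 (Ok.s2 320 (Ok.s1 144 (Ok.lf S198_212_216_364_ok c13)
  (Ok.lf S198_212_216_364_ok c6))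
  (Ok.s4 290 (Ok.s2 352 (Ok.lf S198_212_216_290_ok (bl c1))
  (Ok.lf S198_212_216_290_ok c2))
  (Ok.s2 352 (Ok.lf S198_212_290_364_ok (br c1))
  (Ok.lf S198_212_290_364_ok c8))))
  (Ok.s2 320 (Ok.lf S212_227_216_364_ok c12)
  (Ok.s4 290 (Ok.lf S212_227_216_290_ok c3)
  (Ok.lf S212_227_290_364_ok c9))))
  (Ok.s3 212 (Ok.s1 176 (Ok.lf S198_212_216_290_ok c4)
  (Ok.s2 288 (Ok.lf S198_212_216_290_ok (bl c10))
  (Ok.lf S198_212_216_290_ok (bl c11))))
  (Ok.s1 176 (Ok.lf S212_227_216_290_ok c5)
  (Ok.s2 288 (Ok.lf S212_227_216_290_ok (br c10))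
  (Ok.lf S212_227_216_290_ok (br c11)))))))

end Vale.Agent.P098.Ck
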