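import Vale.Agent.P098.CkGd
import Vale.Agent.P098.CkOk
import Vale.Agent.P098.Sh.A23
import Vale.Agent.P098.Sh.A26
import Vale.Agent.P098.Sh.A31
import Vale.Agent.P098.Sh.A34
import Vale.Agent.P098.Sh.A39

namespace Vale.Agent.P098.Ck

theorem r483 :
    Ok Gd mult 256 384 128 192 320 384 227 256 216 364 ∧
    Ok Gd mult 256 384 128 192 256 384 198 227 364 512 :=
  have c0 : (go 16 Gd mult S198_227_364_438 (Tr.lf 13449332868 103771209 0) 256 320 160 192 256 320) = true := by decide +kernel
  have c1 : (go 16 Gd mult S198_227_364_438 (Tr.lf 13986203780 107711433 0) 256 320 128 160 320 384) = true := by decide +kernel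
  have c2 : (band (go 16 Gd mult S198_227_438_512 (Tr.lf 13986203780 99453897 0) 256 320 160 192 320 384)
  (go 16 Gd mult S198_227_438_512 (Tr.lf 13440943170 103771336 0) 320 384 160 192 256 320)) = true := by decide +kernel
  have c3 : (go 16 Gd mult S198_212_364_512 (Tr.lf 13986449540 99322825 0) 320 384 128 160 320 384) = true := by decide +kernel
  have c4 : (go 16 Gd mult S198_212_364_512 (Tr.lf 13986449540 99318857 0) 320 384 160 192 320 384) = true := by decide +kernel
  have c5 : (go 16 Gd mult S212_227_364_512 (Tr.lf 13440141444 103639753 0) 320 384 128 192 320 384) = true := by decide +kernel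
  have c6 : (band (go 16 Gd mult S227_241_216_364 (Tr.lf 13448529960 99576649 0) 256 384 176 192 320 384)
  (go 16 Gd mult S227_241_216_364 (Tr.lf 13440140324 99445449 0) 256 384 160 176 320 384)) = true := by decide +kernel
  have c7 : (go 16 Gd mult S241_256_216_364 (Tr.lf 9144124548 99711815 0) 256 384 128 192 320 384) = true := by decide +kernel
  have c8 : (band (go 16 Gd mult S198_227_438_512 (Tr.lf 13449332804 103640137 0) 256 320 160 192 256 320)
  (go 16 Gd mult S198_227_438_512 (Tr.lf 13449332804 99191753 0) 256 320 128 160 320 384)) = true := by decide +kernel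
  have c9 : (band (go 16 Gd mult S198_212_364_438 (Tr.lf 13986187396 86993993 0) 256 320 160 192 320 384)
  (go 16 Gd mult S212_227_364_438 (Tr.lf 18281154692 103246794 0) 256 320 160 192 320 384)) = true := by decide +kernel
  have c10 : (go 16 Gd mult S198_227_364_438 (Tr.lf 13449332804 107965513 0) 320 384 160 192 256 320) = true := by decide +kernel
  have c11 : (go 16 Gd mult S227_241_216_364 (Tr.lf 9145164868 103652295 0) 256 384 128 160 320 384) = true := by decide +kernel
  have c12 : (go 16 Gd mult S198_227_364_512 (Tr.lf 9144927298 112298951 0) 320 384 128 160 256 320) = true := by decide +kernel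
  have c13 : (go 16 Gd mult S198_227_364_512 (Tr.lf 9144910914 112040903 0) 256 320 128 160 256 320) = true := by decide +kernel
  (And.intro (Ok.s3 241 (Ok.s1 160 (Ok.lf S227_241_216_364_ok c11)
  (Ok.s1 176 (Ok.lf S227_241_216_364_ok (br c6))
  (Ok.lf S227_241_216_364_ok (bl c6))))
  (Ok.lf S241_256_216_364_ok c7))
  (Ok.s0 320 (Ok.s2 320 (Ok.s1 160 (Ok.lf S198_227_364_512_ok c13)
  (Ok.s4 438 (Ok.lf S198_227_364_438_ok c0)
  (Ok.lf S198_227_438_512_ok (bl c8))))
  (Ok.s4 438 (Ok.s1 160 (Ok.lf S198_227_364_438_ok c1)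
  (Ok.s3 212 (Ok.lf S198_212_364_438_ok (bl c9))
  (Ok.lf S212_227_364_438_ok (br c9))))
  (Ok.s1 160 (Ok.lf S198_227_438_512_ok (br c8))
  (Ok.lf S198_227_438_512_ok (bl c2)))))
  (Ok.s2 320 (Ok.s1 160 (Ok.lf S198_227_364_512_ok c12)
  (Ok.s4 438 (Ok.lf S198_227_364_438_ok c10)
  (Ok.lf S198_227_438_512_ok (br c2))))
  (Ok.s3 212 (Ok.s1 160 (Ok.lf S198_212_364_512_ok c3)
  (Ok.lf S198_212_364_512_ok c4))
  (Ok.lf S212_227_364_512_ok c5)))))

end Vale.Agent.P098.Ck
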