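import Vale.Agent.P098.CkGd
import Vale.Agent.P098.CkOk
import Vale.Agent.P098.Sh.A24
import Vale.Agent.P098.Sh.A27
import Vale.Agent.P098.Sh.A32
import Vale.Agent.P098.Sh.A35
import Vale.Agent.P098.Sh.A37
import Vale.Agent.P098.Sh.A38
import Vale.Agent.P098.Sh.A39
import Vale.Agent.P098.Sh.A41
import Vale.Agent.P098.Sh.A45

namespace Vale.Agent.P098.Ck

theorem r484 :
    Ok Gd mult 256 384 128 192 256 384 227 256 364 512 ∧
    Ok Gd mult 256 384 128 192 256 384 198 256 512 808 ∧
    Ok Gd mult 256 384 128 192 256 384 256 314 216 512 :=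
  have c0 : (go 16 Gd mult S198_227_512_660 (Tr.lf 13441206340 103512905 0) 256 384 128 160 320 384) = true := by decide +kernel
  have c1 : (band (go 16 Gd mult S198_212_512_660 (Tr.lf 13986449480 99453897 0) 256 384 160 192 320 384)
  (go 16 Gd mult S212_227_512_660 (Tr.lf 13440140356 103517000 0) 256 384 160 192 320 384)) = true := by decide +kernel
  have c2 : (band (go 16 Gd mult S227_256_512_660 (Tr.lf 9144125572 99846855 0) 256 384 128 192 256 384)
  (band (go 16 Gd mult S227_256_660_808 (Tr.lf 8598602820 103774791 0) 256 384 128 192 256 384)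
  (go 16 Gd mult S285_314_216_364 (Tr.lf 4303627332 104037445 0) 256 384 128 192 256 384))) = true := by decide +kernel
  have c3 : (band (go 16 Gd mult S198_227_660_808 (Tr.lf 13440157764 103643976 0) 256 384 160 192 256 384)
  (go 16 Gd mult S241_256_364_512 (Tr.lf 9143855140 95648583 0) 256 384 160 192 256 384)) = true := by decide +kernel
  have c4 : (band (go 16 Gd mult S198_212_512_660 (Tr.lf 13441188936 103648328 0) 256 384 160 192 256 320)
  (band (go 16 Gd mult S227_241_364_512 (Tr.lf 13440132164 107965384 0) 256 384 160 192 256 320)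
  (go 16 Gd mult S212_227_512_660 (Tr.lf 13440132164 103648072 0) 256 384 160 192 256 320))) = true := by decide +kernel
  have c5 : (band (go 16 Gd mult S256_285_216_364 (Tr.lf 13505939588 107968969 0) 256 384 128 192 256 384)
  (band (go 16 Gd mult S256_285_364_512 (Tr.lf 8598602820 108096199 0) 256 384 128 192 256 384)
  (go 16 Gd mult S285_314_364_512 (Tr.lf 4303635522 108366789 0) 256 384 128 192 256 384))) = true := by decide +kernel
  have c6 : (band (go 16 Gd mult S227_256_364_512 (Tr.lf 8608041028 99457991 0) 256 384 128 160 256 384)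
  (go 16 Gd mult S198_227_660_808 (Tr.lf 9144911940 107846726 0) 256 384 128 160 256 384)) = true := by decide +kernel
  have c7 : (go 16 Gd mult S227_241_364_512 (Tr.lf 13440140356 103640008 0) 256 384 160 192 320 384) = true := by decide +kernel
  have c8 : (go 16 Gd mult S198_227_512_660 (Tr.lf 9144910884 108100551 0) 256 384 128 160 256 320) = true := by decide +kernel
  (And.intro (Ok.s1 160 (Ok.lf S227_256_364_512_ok (bl c6))
  (Ok.s3 241 (Ok.s2 320 (Ok.lf S227_241_364_512_ok (bl (br c4)))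
  (Ok.lf S227_241_364_512_ok c7))
  (Ok.lf S241_256_364_512_ok (br c3))))
  (And.intro (Ok.s4 660 (Ok.s3 227 (Ok.s2 320 (Ok.s1 160 (Ok.lf S198_227_512_660_ok c8)
  (Ok.s3 212 (Ok.lf S198_212_512_660_ok (bl c4))
  (Ok.lf S212_227_512_660_ok (br (br c4)))))
  (Ok.s1 160 (Ok.lf S198_227_512_660_ok c0)
  (Ok.s3 212 (Ok.lf S198_212_512_660_ok (bl c1))
  (Ok.lf S212_227_512_660_ok (br c1)))))
  (Ok.lf S227_256_512_660_ok (bl c2)))
  (Ok.s3 227 (Ok.s1 160 (Ok.lf S198_227_660_808_ok (br c6))
  (Ok.lf S198_227_660_808_ok (bl c3)))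
  (Ok.lf S227_256_660_808_ok (bl (br c2)))))
  (Ok.s4 364 (Ok.s3 285 (Ok.lf S256_285_216_364_ok (bl c5))
  (Ok.lf S285_314_216_364_ok (br (br c2))))
  (Ok.s3 285 (Ok.lf S256_285_364_512_ok (bl (br c5)))
  (Ok.lf S285_314_364_512_ok (br (br c5)))))))

end Vale.Agent.P098.Ck
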