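import Vale.Agent.P098.CkGd
import Vale.Agent.P098.CkOk
import Vale.Agent.P098.Sh.A42
import Vale.Agent.P098.Sh.A46
import Vale.Agent.P098.Sh.A47
import Vale.Agent.P098.Sh.A48
import Vale.Agent.P098.Sh.A49
import Vale.Agent.P098.Sh.A51
import Vale.Agent.P098.Sh.A52
import Vale.Agent.P098.Sh.A54
import Vale.Agent.P098.Sh.A56

namespace Vale.Agent.P098.Ck

theorem r485 :
    Ok Gd mult 256 384 128 192 256 384 256 314 512 808 ∧
    Ok Gd mult 256 384 128 192 256 384 314 372 216 808 ∧
    Ok Gd mult 256 384 128 192 256 320 372 430 216 364 :=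
  have c0 : (band (go 16 Gd mult S343_372_512_660 (Tr.lf 4842621060 95394887 0) 256 384 128 192 256 384)
  (go 16 Gd mult S314_343_512_660 (Tr.lf 546588740 91204805 0) 256 384 128 192 256 384)) = true := by decide +kernel
  have c1 : (band (go 16 Gd mult S343_372_216_364 (Tr.lf 9136523396 103774920 0) 256 384 128 192 256 384)
  (band (go 16 Gd mult S343_372_364_512 (Tr.lf 9136523396 103774920 0) 256 384 128 192 256 384)
  (go 16 Gd mult S314_343_216_364 (Tr.lf 8599651396 99707592 0) 256 384 128 192 256 384))) = true := by decide +kernel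
  have c2 : (go 16 Gd mult S401_430_216_364 (Tr.lf 13970475076 86867017 0) 256 320 160 192 256 320) = true := by decide +kernel
  have c3 : (band (go 16 Gd mult S372_401_216_364 (Tr.lf 13432537736 95255369 0) 256 384 128 192 256 288)
  (go 16 Gd mult S372_401_216_364 (Tr.lf 9137570436 103783495 0) 256 384 128 192 288 320)) = true := by decide +kernel
  have c4 : (band (go 16 Gd mult S314_343_660_808 (Tr.lf 4841556036 91462853 0) 256 384 128 192 256 384)
  (band (go 16 Gd mult S314_343_364_512 (Tr.lf 8599651396 103770824 0) 256 384 128 192 256 384)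
  (band (go 16 Gd mult S256_285_512_660 (Tr.lf 8598594628 103897799 0) 256 384 128 192 256 384)
  (band (go 16 Gd mult S285_314_512_660 (Tr.lf 4303635522 108104645 0) 256 384 128 192 256 384)
  (go 16 Gd mult S285_314_660_808 (Tr.lf 4303635522 104037317 0) 256 384 128 192 256 384))))) = true := by decide +kernel
  have c5 : (band (go 16 Gd mult S343_372_660_808 (Tr.lf 4850993220 91323591 0) 256 384 128 160 256 384)
  (go 16 Gd mult S343_372_660_808 (Tr.lf 4850993220 91458759 0) 256 384 160 192 256 384)) = true := by decide +kernel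
  have c6 : (go 16 Gd mult S401_430_216_364 (Tr.lf 13970458692 95386442 0) 320 384 160 192 256 320) = true := by decide +kernel
  have c7 : (go 16 Gd mult S401_430_216_364 (Tr.lf 9674310724 91065288 0) 256 384 128 160 256 320) = true := by decide +kernel
  have c8 : (go 16 Gd mult S256_285_660_808 (Tr.lf 8598594626 99449415 0) 256 384 128 192 256 384) = true := by decide +kernel
  (And.intro (Ok.s4 660 (Ok.s3 285 (Ok.lf S256_285_512_660_ok (bl (br (br c4))))
  (Ok.lf S285_314_512_660_ok (bl (br (br (br c4))))))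
  (Ok.s3 285 (Ok.lf S256_285_660_808_ok c8)
  (Ok.lf S285_314_660_808_ok (br (br (br (br c4)))))))
  (And.intro (Ok.s4 512 (Ok.s4 364 (Ok.s3 343 (Ok.lf S314_343_216_364_ok (br (br c1)))
  (Ok.lf S343_372_216_364_ok (bl c1)))
  (Ok.s3 343 (Ok.lf S314_343_364_512_ok (bl (br c4)))
  (Ok.lf S343_372_364_512_ok (bl (br c1)))))
  (Ok.s4 660 (Ok.s3 343 (Ok.lf S314_343_512_660_ok (br c0))
  (Ok.lf S343_372_512_660_ok (bl c0)))
  (Ok.s3 343 (Ok.lf S314_343_660_808_ok (bl c4))
  (Ok.s1 160 (Ok.lf S343_372_660_808_ok (bl c5))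
  (Ok.lf S343_372_660_808_ok (br c5))))))
  (Ok.s3 401 (Ok.s2 288 (Ok.lf S372_401_216_364_ok (bl c3))
  (Ok.lf S372_401_216_364_ok (br c3)))
  (Ok.s1 160 (Ok.lf S401_430_216_364_ok c7)
  (Ok.s0 320 (Ok.lf S401_430_216_364_ok c2)
  (Ok.lf S401_430_216_364_ok c6))))))

end Vale.Agent.P098.Ck
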