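import Vale.Agent.P098.CkGd
import Vale.Agent.P098.CkOk
import Vale.Agent.P098.Sh.A54
import Vale.Agent.P098.Sh.A56
import Vale.Agent.P098.Sh.A57

namespace Vale.Agent.P098.Ck

theorem r486 :
    Ok Gd mult 256 384 128 192 320 384 372 430 216 364 ∧
    Ok Gd mult 256 384 128 192 256 384 372 430 364 512 ∧
    Ok Gd mult 256 384 128 192 256 384 372 430 512 660 :=
  have c0 : (band (go 16 Gd mult S401_430_364_512 (Tr.lf 9675376776 91065289 0) 256 384 128 160 256 384)
  (go 16 Gd mult S372_401_364_512 (Tr.lf 9674328132 99322824 0) 256 384 128 160 256 384)) = true := by decide +kernel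
  have c1 : (band (go 16 Gd mult S401_430_512_660 (Tr.lf 13970344072 99318602 0) 256 384 160 192 320 384)
  (go 16 Gd mult S372_401_512_660 (Tr.lf 9675375684 95259593 0) 256 384 160 192 320 384)) = true := by decide +kernel
  have c2 : (band (go 16 Gd mult S401_430_364_512 (Tr.lf 13970344068 91061321 0) 256 320 160 192 256 320)
  (go 16 Gd mult S401_430_512_660 (Tr.lf 13970344068 86867017 0) 256 320 160 192 256 320)) = true := by decide +kernel
  have c3 : (band (go 16 Gd mult S401_430_364_512 (Tr.lf 13970344008 99318602 0) 256 384 160 192 320 384)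
  (band (go 16 Gd mult S372_401_364_512 (Tr.lf 9674310724 95259592 0) 256 384 160 192 320 384)
  (go 16 Gd mult S401_430_364_512 (Tr.lf 13970342980 95386442 0) 320 384 160 192 256 320))) = true := by decide +kernel
  have c4 : (band (go 16 Gd mult S372_401_364_512 (Tr.lf 13432554568 95255369 0) 256 384 160 192 256 320)
  (go 16 Gd mult S372_401_512_660 (Tr.lf 9674458184 95255624 0) 256 384 160 192 256 320)) = true := by decide +kernel
  have c5 : (go 16 Gd mult S372_401_512_660 (Tr.lf 9683896388 99331017 0) 256 384 128 160 256 384) = true := by decide +kernel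
  have c6 : (band (go 16 Gd mult S401_430_512_660 (Tr.lf 9675375748 95255497 0) 256 384 128 160 320 384)
  (band (go 16 Gd mult S401_430_216_364 (Tr.lf 9675490372 95255497 0) 256 384 128 160 320 384)
  (band (go 16 Gd mult S401_430_512_660 (Tr.lf 13970344004 95386442 0) 320 384 160 192 256 320)
  (go 16 Gd mult S401_430_216_364 (Tr.lf 13970458692 95251274 0) 256 320 160 192 320 384)))) = true := by decide +kernel
  have c7 : (go 16 Gd mult S372_401_216_364 (Tr.lf 9137570948 95644616 0) 256 384 128 192 320 384) = true := by decide +kernel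
  have c8 : (go 16 Gd mult S401_430_216_364 (Tr.lf 9675360324 91196361 0) 320 384 160 192 320 384) = true := by decide +kernel
  have c9 : (go 16 Gd mult S401_430_512_660 (Tr.lf 9674310724 91065288 0) 256 384 128 160 256 320) = true := by decide +kernel
  (And.intro (Ok.s3 401 (Ok.lf S372_401_216_364_ok c7)
  (Ok.s1 160 (Ok.lf S401_430_216_364_ok (bl (br c6)))
  (Ok.s0 320 (Ok.lf S401_430_216_364_ok (br (br (br c6))))
  (Ok.lf S401_430_216_364_ok c8))))
  (And.intro (Ok.s1 160 (Ok.s3 401 (Ok.lf S372_401_364_512_ok (br c0))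
  (Ok.lf S401_430_364_512_ok (bl c0)))
  (Ok.s3 401 (Ok.s2 320 (Ok.lf S372_401_364_512_ok (bl c4))
  (Ok.lf S372_401_364_512_ok (bl (br c3))))
  (Ok.s2 320 (Ok.s0 320 (Ok.lf S401_430_364_512_ok (bl c2))
  (Ok.lf S401_430_364_512_ok (br (br c3))))
  (Ok.lf S401_430_364_512_ok (bl c3)))))
  (Ok.s1 160 (Ok.s3 401 (Ok.lf S372_401_512_660_ok c5)
  (Ok.s2 320 (Ok.lf S401_430_512_660_ok c9)
  (Ok.lf S401_430_512_660_ok (bl c6))))
  (Ok.s3 401 (Ok.s2 320 (Ok.lf S372_401_512_660_ok (br c4))
  (Ok.lf S372_401_512_660_ok (br c1)))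
  (Ok.s2 320 (Ok.s0 320 (Ok.lf S401_430_512_660_ok (br c2))
  (Ok.lf S401_430_512_660_ok (bl (br (br c6)))))
  (Ok.lf S401_430_512_660_ok (bl c1)))))))

end Vale.Agent.P098.Ck
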