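import Vale.Agent.P098.CkGd
import Vale.Agent.P098.CkOk
import Vale.Agent.P098.Sh.A54
import Vale.Agent.P098.Sh.A56
import Vale.Agent.P098.Sh.A57
import Vale.Agent.P098.Sh.A58
import Vale.Agent.P098.Sh.A59

namespace Vale.Agent.P098.Ck

theorem r487 :
    Ok Gd mult 256 384 128 192 256 384 372 401 660 808 ∧
    Ok Gd mult 256 384 128 192 256 384 401 430 660 808 ∧
    Ok Gd mult 256 384 128 192 256 384 430 488 216 364 ∧
    Ok Gd mult 256 384 128 192 256 320 430 488 364 512 :=
  have c0 : (band (go 16 Gd mult S430_488_216_364 (Tr.lf 9666988168 95247305 0) 256 384 128 160 320 384)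
  (go 16 Gd mult S430_488_216_364 (Tr.lf 9666987140 91057097 0) 256 384 128 160 256 320)) = true := by decide +kernel
  have c1 : (band (go 16 Gd mult S430_488_364_512 (Tr.lf 9666988168 91057097 0) 256 384 128 160 256 320)
  (go 16 Gd mult S401_430_660_808 (Tr.lf 9675375684 91065289 0) 256 384 128 160 256 320)) = true := by decide +kernel
  have c2 : (band (go 16 Gd mult S430_459_364_512 (Tr.lf 13961955464 95378505 0) 256 384 160 192 256 320)
  (go 16 Gd mult S459_488_216_364 (Tr.lf 13961873544 91184201 0) 256 384 160 192 256 320)) = true := by decide +kernel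
  have c3 : (go 16 Gd mult S372_401_660_808 (Tr.lf 9137587336 103914312 0) 256 384 128 192 256 320) = true := by decide +kernel
  have c4 : (go 16 Gd mult S372_401_660_808 (Tr.lf 9683895432 95267785 0) 256 384 128 192 320 384) = true := by decide +kernel
  have c5 : (band (go 16 Gd mult S415_430_660_808 (Tr.lf 13970458760 95386442 0) 256 384 160 192 256 320)
  (go 16 Gd mult S459_488_364_512 (Tr.lf 13961873544 91184201 0) 256 384 160 192 256 320)) = true := by decide +kernel
  have c6 : (band (go 16 Gd mult S459_488_216_364 (Tr.lf 13961889928 95116106 0) 256 384 160 192 320 384)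
  (go 16 Gd mult S430_459_216_364 (Tr.lf 13970327688 99318602 0) 256 384 160 192 320 384)) = true := by decide +kernel
  have c7 : (band (go 16 Gd mult S415_430_660_808 (Tr.lf 13970327688 99318602 0) 256 384 160 192 320 384)
  (go 16 Gd mult S401_415_660_808 (Tr.lf 9683878984 91196489 0) 256 384 160 192 320 384)) = true := by decide +kernel
  have c8 : (go 16 Gd mult S401_415_660_808 (Tr.lf 13969410120 103643977 0) 256 384 160 192 256 320) = true := by decide +kernel
  have c9 : (go 16 Gd mult S401_430_660_808 (Tr.lf 9675506820 95255497 0) 256 384 128 160 320 384) = true := by decide +kernel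
  have c10 : (band (go 16 Gd mult S430_459_216_364 (Tr.lf 13970327684 82672713 0) 256 320 160 192 256 320)
  (go 16 Gd mult S430_459_216_364 (Tr.lf 13961939076 95378505 0) 320 384 160 192 256 320)) = true := by decide +kernel
  (And.intro (Ok.s2 320 (Ok.lf S372_401_660_808_ok c3)
  (Ok.lf S372_401_660_808_ok c4))
  (And.intro (Ok.s2 320 (Ok.s1 160 (Ok.lf S401_430_660_808_ok (br c1))
  (Ok.s3 415 (Ok.lf S401_415_660_808_ok c8)
  (Ok.lf S415_430_660_808_ok (bl c5))))
  (Ok.s1 160 (Ok.lf S401_430_660_808_ok c9)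
  (Ok.s3 415 (Ok.lf S401_415_660_808_ok (br c7))
  (Ok.lf S415_430_660_808_ok (bl c7)))))
  (And.intro (Ok.s2 320 (Ok.s1 160 (Ok.lf S430_488_216_364_ok (br c0))
  (Ok.s3 459 (Ok.s0 320 (Ok.lf S430_459_216_364_ok (bl c10))
  (Ok.lf S430_459_216_364_ok (br c10)))
  (Ok.lf S459_488_216_364_ok (br c2))))
  (Ok.s1 160 (Ok.lf S430_488_216_364_ok (bl c0))
  (Ok.s3 459 (Ok.lf S430_459_216_364_ok (br c6))
  (Ok.lf S459_488_216_364_ok (bl c6)))))
  (Ok.s1 160 (Ok.lf S430_488_364_512_ok (bl c1))
  (Ok.s3 459 (Ok.lf S430_459_364_512_ok (bl c2))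
  (Ok.lf S459_488_364_512_ok (br c5)))))))

end Vale.Agent.P098.Ck
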