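import Vale.Agent.P098.CkGd
import Vale.Agent.P098.CkOk
import Vale.Agent.P098.Sh.A58
import Vale.Agent.P098.Sh.A59

namespace Vale.Agent.P098.Ck

theorem r488 :
    Ok Gd mult 256 384 128 192 320 384 430 488 364 512 ∧
    Ok Gd mult 256 384 128 192 256 384 430 488 512 808 :=
  have c0 : (band (go 16 Gd mult S430_488_364_512 (Tr.lf 9666988168 95247305 0) 256 384 128 160 320 384)
  (band (go 16 Gd mult S430_459_512_660 (Tr.lf 9675359364 95255497 0) 256 384 128 160 320 384)
  (go 16 Gd mult S459_488_512_660 (Tr.lf 9675293764 91061193 0) 256 384 128 160 320 384))) = true := by decide +kernel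
  have c1 : (band (go 16 Gd mult S430_459_512_660 (Tr.lf 13961955464 95378505 0) 256 384 160 192 256 320)
  (go 16 Gd mult S459_488_512_660 (Tr.lf 13961873544 91184201 0) 256 384 160 192 256 320)) = true := by decide +kernel
  have c2 : (band (go 16 Gd mult S430_459_512_660 (Tr.lf 13970344072 99318602 0) 256 384 160 192 320 384)
  (go 16 Gd mult S459_488_660_808 (Tr.lf 13961873544 95116106 0) 256 384 160 192 320 384)) = true := by decide +kernel
  have c3 : (band (go 16 Gd mult S430_459_660_808 (Tr.lf 13961955464 95378505 0) 256 384 160 192 256 320)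
  (go 16 Gd mult S459_488_660_808 (Tr.lf 13961873544 91184201 0) 256 384 160 192 256 320)) = true := by decide +kernel
  have c4 : (band (go 16 Gd mult S459_488_512_660 (Tr.lf 13961889928 95116106 0) 256 384 160 192 320 384)
  (go 16 Gd mult S430_459_364_512 (Tr.lf 13970327688 99318602 0) 256 384 160 192 320 384)) = true := by decide +kernel
  have c5 : (band (go 16 Gd mult S430_488_512_660 (Tr.lf 9666921608 91057097 0) 256 384 128 160 256 320)
  (band (go 16 Gd mult S430_459_660_808 (Tr.lf 9666970692 91057097 0) 256 384 128 160 256 320)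
  (band (go 16 Gd mult S459_488_660_808 (Tr.lf 9666905156 91057097 0) 256 384 128 160 256 320)
  (band (go 16 Gd mult S430_459_660_808 (Tr.lf 9675359364 95255497 0) 256 384 128 160 320 384)
  (go 16 Gd mult S459_488_660_808 (Tr.lf 9675293764 91061193 0) 256 384 128 160 320 384))))) = true := by decide +kernel
  have c6 : (band (go 16 Gd mult S430_459_660_808 (Tr.lf 13970342984 99318602 0) 256 384 160 192 320 352)
  (go 16 Gd mult S430_459_660_808 (Tr.lf 13970342984 90929994 0) 256 384 160 192 352 384)) = true := by decide +kernel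
  have c7 : (band (go 16 Gd mult S459_488_364_512 (Tr.lf 13961873476 90790730 0) 256 384 160 176 320 384)
  (go 16 Gd mult S459_488_364_512 (Tr.lf 13961873476 95116106 0) 256 384 176 192 320 384)) = true := by decide +kernel
  (And.intro (Ok.s1 160 (Ok.lf S430_488_364_512_ok (bl c0))
  (Ok.s3 459 (Ok.lf S430_459_364_512_ok (br c4))
  (Ok.s1 176 (Ok.lf S459_488_364_512_ok (bl c7))
  (Ok.lf S459_488_364_512_ok (br c7)))))
  (Ok.s4 660 (Ok.s2 320 (Ok.s1 160 (Ok.lf S430_488_512_660_ok (bl c5))
  (Ok.s3 459 (Ok.lf S430_459_512_660_ok (bl c1))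
  (Ok.lf S459_488_512_660_ok (br c1))))
  (Ok.s3 459 (Ok.s1 160 (Ok.lf S430_459_512_660_ok (bl (br c0)))
  (Ok.lf S430_459_512_660_ok (bl c2)))
  (Ok.s1 160 (Ok.lf S459_488_512_660_ok (br (br c0)))
  (Ok.lf S459_488_512_660_ok (bl c4)))))
  (Ok.s2 320 (Ok.s3 459 (Ok.s1 160 (Ok.lf S430_459_660_808_ok (bl (br c5)))
  (Ok.lf S430_459_660_808_ok (bl c3)))
  (Ok.s1 160 (Ok.lf S459_488_660_808_ok (bl (br (br c5))))
  (Ok.lf S459_488_660_808_ok (br c3))))
  (Ok.s3 459 (Ok.s1 160 (Ok.lf S430_459_660_808_ok (bl (br (br (br c5)))))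
  (Ok.s2 352 (Ok.lf S430_459_660_808_ok (bl c6))
  (Ok.lf S430_459_660_808_ok (br c6))))
  (Ok.s1 160 (Ok.lf S459_488_660_808_ok (br (br (br (br c5)))))
  (Ok.lf S459_488_660_808_ok (br c2)))))))

end Vale.Agent.P098.Ck
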