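import Vale.Agent.P098.CkGd
import Vale.Agent.P098.CkOk
import Vale.Agent.P098.Sh.A0
import Vale.Agent.P098.Sh.A1
import Vale.Agent.P098.Sh.A2
import Vale.Agent.P098.Sh.A5

namespace Vale.Agent.P098.Ck

theorem r489 :
    Ok Gd mult 256 384 128 192 384 512 24 82 216 512 ∧
    Ok Gd mult 256 384 128 192 384 512 24 82 512 808 ∧
    Ok Gd mult 256 384 128 192 384 512 82 140 216 364 ∧
    Ok Gd mult 256 384 128 192 384 448 82 111 364 512 :=
  have c0 : (go 16 Gd mult S82_111_364_512 (Tr.lf 13978732680 94862409 0) 256 384 128 160 384 448) = true := by decide +kernel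
  have c1 : (band (go 16 Gd mult S82_111_216_364 (Tr.lf 13978862728 107576393 0) 256 384 128 192 384 416)
  (go 16 Gd mult S24_82_364_512 (Tr.lf 9137390212 103644231 0) 256 384 128 192 384 416)) = true := by decide +kernel
  have c2 : (band (go 16 Gd mult S24_82_216_364 (Tr.lf 9137391752 103378119 0) 256 384 128 192 384 448)
  (go 16 Gd mult S24_82_512_660 (Tr.lf 9137391748 103386183 0) 256 384 128 192 384 448)) = true := by decide +kernel
  have c3 : (band (go 16 Gd mult S111_140_216_364 (Tr.lf 13978862664 103513288 0) 256 384 128 144 384 416)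
  (band (go 16 Gd mult S111_140_216_364 (Tr.lf 9145975940 99323079 0) 256 384 128 192 416 448)
  (go 16 Gd mult S82_111_216_364 (Tr.lf 9137439876 103378119 0) 256 384 128 192 416 448))) = true := by decide +kernel
  have c4 : (go 16 Gd mult S24_82_660_808 (Tr.lf 9137391748 103386183 0) 256 384 128 192 384 448) = true := by decide +kernel
  have c5 : (band (go 16 Gd mult S111_140_216_364 (Tr.lf 4842473604 112037062 0) 256 384 128 192 448 512)
  (band (go 16 Gd mult S82_111_216_364 (Tr.lf 4841358404 107842502 0) 256 384 128 192 448 512)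
  (band (go 16 Gd mult S24_82_216_364 (Tr.lf 4832969794 107961286 0) 256 384 128 192 448 512)
  (band (go 16 Gd mult S24_82_364_512 (Tr.lf 4832969794 107703238 0) 256 384 128 192 448 512)
  (band (go 16 Gd mult S24_82_512_660 (Tr.lf 4832969794 107703238 0) 256 384 128 192 448 512)
  (band (go 16 Gd mult S24_82_660_808 (Tr.lf 4832969794 107703238 0) 256 384 128 192 448 512)
  (go 16 Gd mult S24_82_364_512 (Tr.lf 9137373764 99191879 0) 256 384 128 192 416 448))))))) = true := by decide +kernel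
  have c6 : (go 16 Gd mult S111_140_216_364 (Tr.lf 13440943140 99191752 0) 256 384 144 160 384 416) = true := by decide +kernel
  have c7 : (go 16 Gd mult S111_140_216_364 (Tr.lf 9145958980 103525447 0) 256 384 160 192 384 416) = true := by decide +kernel
  have c8 : (go 16 Gd mult S82_111_364_512 (Tr.lf 9137374244 103386183 0) 256 384 160 192 384 448) = true := by decide +kernel
  (And.intro (Ok.s4 364 (Ok.s2 448 (Ok.lf S24_82_216_364_ok (bl c2))
  (Ok.lf S24_82_216_364_ok (bl (br (br c5)))))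
  (Ok.s2 448 (Ok.s2 416 (Ok.lf S24_82_364_512_ok (br c1))
  (Ok.lf S24_82_364_512_ok (br (br (br (br (br (br c5))))))))
  (Ok.lf S24_82_364_512_ok (bl (br (br (br c5)))))))
  (And.intro (Ok.s4 660 (Ok.s2 448 (Ok.lf S24_82_512_660_ok (br c2))
  (Ok.lf S24_82_512_660_ok (bl (br (br (br (br c5)))))))
  (Ok.s2 448 (Ok.lf S24_82_660_808_ok c4)
  (Ok.lf S24_82_660_808_ok (bl (br (br (br (br (br c5)))))))))
  (And.intro (Ok.s2 448 (Ok.s2 416 (Ok.s3 111 (Ok.lf S82_111_216_364_ok (bl c1))
  (Ok.s1 160 (Ok.s1 144 (Ok.lf S111_140_216_364_ok (bl c3))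
  (Ok.lf S111_140_216_364_ok c6))
  (Ok.lf S111_140_216_364_ok c7)))
  (Ok.s3 111 (Ok.lf S82_111_216_364_ok (br (br c3)))
  (Ok.lf S111_140_216_364_ok (bl (br c3)))))
  (Ok.s3 111 (Ok.lf S82_111_216_364_ok (bl (br c5)))
  (Ok.lf S111_140_216_364_ok (bl c5))))
  (Ok.s1 160 (Ok.lf S82_111_364_512_ok c0)
  (Ok.lf S82_111_364_512_ok c8)))))

end Vale.Agent.P098.Ck
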