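import Vale.Agent.P098.CkGd
import Vale.Agent.P098.CkOk
import Vale.Agent.P098.Sh.A23
import Vale.Agent.P098.Sh.A25
import Vale.Agent.P098.Sh.A26
import Vale.Agent.P098.Sh.A30
import Vale.Agent.P098.Sh.A36

namespace Vale.Agent.P098.Ck

theorem r49 :
    Ok Gd mult 124 126 120 128 384 512 198 227 216 364 ∧
    Ok Gd mult 126 128 112 128 384 512 198 227 216 364 ∧
    Ok Gd mult 0 128 96 128 384 512 227 256 216 364 ∧
    Ok Gd mult 0 128 64 128 384 448 198 227 364 512 :=
  have c0 : (go 16 Gd mult S227_256_216_364 (Tr.lf 9145190466 95255495 99022122187672873074688) 64 128 96 128 448 512) = true := by decide +kernel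
  have c1 : (band (go 16 Gd mult S198_227_216_364 (Tr.lf 13986465825 103386184 0) 124 126 120 128 448 480)
  (band (go 16 Gd mult S198_227_216_364 (Tr.lf 13986465809 103386184 0) 126 128 124 128 448 480)
  (band (go 16 Gd mult S198_227_216_364 (Tr.lf 13978076177 103377992 0) 126 128 112 120 448 480)
  (go 16 Gd mult S198_227_216_364 (Tr.lf 13986464785 103386184 0) 126 128 120 124 448 480)))) = true := by decide +kernel
  have c2 : (go 16 Gd mult S198_227_364_512 (Tr.lf 4841555012 107838279 0) 0 128 64 128 384 448) = true := by decide +kernel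
  have c3 : (go 16 Gd mult S227_256_216_364 (Tr.lf 4907616290 103910341 213594849629607452213248) 0 64 96 128 448 512) = true := by decide +kernel
  have c4 : (band (go 16 Gd mult S198_212_216_364 (Tr.lf 13986449425 103517383 0) 124 126 120 128 480 512)
  (band (go 16 Gd mult S212_227_216_364 (Tr.lf 9136784401 112168005 0) 124 126 120 128 480 512)
  (band (go 16 Gd mult S198_212_216_364 (Tr.lf 13986449425 107711687 0) 126 128 112 120 480 512)
  (band (go 16 Gd mult S212_227_216_364 (Tr.lf 9136785425 103902405 0) 126 128 112 120 480 512)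
  (band (go 16 Gd mult S198_212_216_364 (Tr.lf 13986449425 103517383 0) 126 128 120 124 480 512)
  (band (go 16 Gd mult S212_227_216_364 (Tr.lf 9136784401 112168005 0) 126 128 120 124 480 512)
  (go 16 Gd mult S198_212_216_364 (Tr.lf 13986449425 103517383 0) 126 128 124 128 480 512))))))) = true := by decide +kernel
  have c5 : (go 16 Gd mult S212_227_216_364 (Tr.lf 9135735825 107973445 0) 126 128 124 128 480 512) = true := by decide +kernel
  have c6 : (go 16 Gd mult S227_256_216_364 (Tr.lf 4303496226 95255366 0) 0 128 96 128 384 448) = true := by decide +kernel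
  have c7 : (band (go 16 Gd mult S198_227_216_364 (Tr.lf 4841415185 107973829 0) 124 126 120 128 384 448)
  (band (go 16 Gd mult S198_227_216_364 (Tr.lf 4841415185 107973829 0) 126 128 120 124 384 448)
  (band (go 16 Gd mult S198_227_216_364 (Tr.lf 4304544273 99585221 0) 126 128 112 120 384 448)
  (go 16 Gd mult S198_227_216_364 (Tr.lf 4841415185 107973829 0) 126 128 124 128 384 448)))) = true := by decide +kernel
  (And.intro (Ok.s2 448 (Ok.lf S198_227_216_364_ok (bl c7))
  (Ok.s2 480 (Ok.lf S198_227_216_364_ok (bl c1))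
  (Ok.s3 212 (Ok.lf S198_212_216_364_ok (bl c4))
  (Ok.lf S212_227_216_364_ok (bl (br c4))))))
  (And.intro (Ok.s1 120 (Ok.s2 448 (Ok.lf S198_227_216_364_ok (bl (br (br c7))))
  (Ok.s2 480 (Ok.lf S198_227_216_364_ok (bl (br (br c1))))
  (Ok.s3 212 (Ok.lf S198_212_216_364_ok (bl (br (br c4))))
  (Ok.lf S212_227_216_364_ok (bl (br (br (br c4))))))))
  (Ok.s1 124 (Ok.s2 448 (Ok.lf S198_227_216_364_ok (bl (br c7)))
  (Ok.s2 480 (Ok.lf S198_227_216_364_ok (br (br (br c1))))
  (Ok.s3 212 (Ok.lf S198_212_216_364_ok (bl (br (br (br (br c4))))))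
  (Ok.lf S212_227_216_364_ok (bl (br (br (br (br (br c4))))))))))
  (Ok.s2 448 (Ok.lf S198_227_216_364_ok (br (br (br c7))))
  (Ok.s2 480 (Ok.lf S198_227_216_364_ok (bl (br c1)))
  (Ok.s3 212 (Ok.lf S198_212_216_364_ok (br (br (br (br (br (br c4)))))))
  (Ok.lf S212_227_216_364_ok c5))))))
  (And.intro (Ok.s2 448 (Ok.lf S227_256_216_364_ok c6)
  (Ok.s0 64 (Ok.lf S227_256_216_364_ok c3)
  (Ok.lf S227_256_216_364_ok c0)))
  (Ok.lf S198_227_364_512_ok c2))))

end Vale.Agent.P098.Ck
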