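import Vale.Agent.P098.CkGd
import Vale.Agent.P098.CkOk
import Vale.Agent.P098.Sh.A2
import Vale.Agent.P098.Sh.A3
import Vale.Agent.P098.Sh.A4
import Vale.Agent.P098.Sh.A5
import Vale.Agent.P098.Sh.A6

namespace Vale.Agent.P098.Ck

theorem r490 :
    Ok Gd mult 256 384 128 192 384 448 111 140 364 512 ∧
    Ok Gd mult 256 384 128 192 448 512 82 140 364 512 ∧
    Ok Gd mult 256 384 128 192 384 512 82 140 512 808 :=
  have c0 : (band (go 16 Gd mult S111_140_512_660 (Tr.lf 13978862728 107580616 0) 256 384 128 160 384 416)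
  (go 16 Gd mult S125_140_364_512 (Tr.lf 13978846280 107580616 0) 256 384 128 160 384 416)) = true := by decide +kernel
  have c1 : (band (go 16 Gd mult S111_140_660_808 (Tr.lf 13978862728 107580616 0) 256 384 128 160 384 416)
  (go 16 Gd mult S111_125_364_512 (Tr.lf 13978715208 103386312 0) 256 384 128 160 384 416)) = true := by decide +kernel
  have c2 : (band (go 16 Gd mult S82_140_660_808 (Tr.lf 4841572484 112036806 0) 256 384 128 192 448 512)
  (band (go 16 Gd mult S111_140_364_512 (Tr.lf 4842473540 112037062 0) 256 384 128 192 448 512)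
  (go 16 Gd mult S82_111_364_512 (Tr.lf 4841358404 107842502 0) 256 384 128 192 448 512))) = true := by decide +kernel
  have c3 : (band (go 16 Gd mult S82_111_512_660 (Tr.lf 13977684040 103119689 0) 256 384 128 160 384 448)
  (go 16 Gd mult S82_111_660_808 (Tr.lf 13440796744 94731081 0) 256 384 128 160 384 448)) = true := by decide +kernel
  have c4 : (band (go 16 Gd mult S111_140_364_512 (Tr.lf 9145829444 103517383 0) 256 384 160 192 384 448)
  (band (go 16 Gd mult S111_140_512_660 (Tr.lf 9145829444 103517383 0) 256 384 160 192 384 448)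
  (band (go 16 Gd mult S111_140_660_808 (Tr.lf 9137440836 103517255 0) 256 384 160 192 384 448)
  (band (go 16 Gd mult S82_111_512_660 (Tr.lf 9137374244 103386183 0) 256 384 160 192 384 448)
  (band (go 16 Gd mult S82_111_660_808 (Tr.lf 9137431588 103386183 0) 256 384 160 192 384 448)
  (go 16 Gd mult S111_140_512_660 (Tr.lf 4842473540 112037062 0) 256 384 128 192 448 512)))))) = true := by decide +kernel
  have c5 : (band (go 16 Gd mult S111_140_660_808 (Tr.lf 9145959492 99327047 0) 256 384 128 160 416 448)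
  (band (go 16 Gd mult S111_140_512_660 (Tr.lf 9145828420 99327047 0) 256 384 128 160 416 448)
  (go 16 Gd mult S111_140_364_512 (Tr.lf 9145828420 99327047 0) 256 384 128 160 416 448))) = true := by decide +kernel
  have c6 : (go 16 Gd mult S82_111_512_660 (Tr.lf 4841350212 107842502 0) 256 384 128 192 448 512) = true := by decide +kernel
  (And.intro (Ok.s1 160 (Ok.s2 416 (Ok.s3 125 (Ok.lf S111_125_364_512_ok (br c1))
  (Ok.lf S125_140_364_512_ok (br c0)))
  (Ok.lf S111_140_364_512_ok (br (br c5))))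
  (Ok.lf S111_140_364_512_ok (bl c4)))
  (And.intro (Ok.s3 111 (Ok.lf S82_111_364_512_ok (br (br c2)))
  (Ok.lf S111_140_364_512_ok (bl (br c2))))
  (Ok.s4 660 (Ok.s2 448 (Ok.s3 111 (Ok.s1 160 (Ok.lf S82_111_512_660_ok (bl c3))
  (Ok.lf S82_111_512_660_ok (bl (br (br (br c4))))))
  (Ok.s1 160 (Ok.s2 416 (Ok.lf S111_140_512_660_ok (bl c0))
  (Ok.lf S111_140_512_660_ok (bl (br c5))))
  (Ok.lf S111_140_512_660_ok (bl (br c4)))))
  (Ok.s3 111 (Ok.lf S82_111_512_660_ok c6)
  (Ok.lf S111_140_512_660_ok (br (br (br (br (br c4))))))))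
  (Ok.s2 448 (Ok.s3 111 (Ok.s1 160 (Ok.lf S82_111_660_808_ok (br c3))
  (Ok.lf S82_111_660_808_ok (bl (br (br (br (br c4)))))))
  (Ok.s1 160 (Ok.s2 416 (Ok.lf S111_140_660_808_ok (bl c1))
  (Ok.lf S111_140_660_808_ok (bl c5)))
  (Ok.lf S111_140_660_808_ok (bl (br (br c4))))))
  (Ok.lf S82_140_660_808_ok (bl c2))))))

end Vale.Agent.P098.Ck
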