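import Vale.Agent.P098.CkGd
import Vale.Agent.P098.CkOk
import Vale.Agent.P098.Sh.A12
import Vale.Agent.P098.Sh.A14
import Vale.Agent.P098.Sh.A20
import Vale.Agent.P098.Sh.A21
import Vale.Agent.P098.Sh.A7
import Vale.Agent.P098.Sh.A8

namespace Vale.Agent.P098.Ck

theorem r491 :
    Ok Gd mult 256 384 128 160 384 448 140 169 216 364 ∧
    Ok Gd mult 256 384 160 192 384 448 140 169 216 364 ∧
    Ok Gd mult 256 384 128 192 384 448 169 198 216 364 :=
  have c0 : (go 16 Gd mult S154_169_216_364 (Tr.lf 13987497096 103517512 0) 256 384 128 160 384 416) = true := by decide +kernel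
  have c1 : (go 16 Gd mult S169_183_216_364 (Tr.lf 13987497096 107711816 0) 256 384 128 160 384 416) = true := by decide +kernel
  have c2 : (band (go 16 Gd mult S169_183_216_364 (Tr.lf 13987497096 107453513 0) 256 384 128 160 416 448)
  (go 16 Gd mult S140_154_216_364 (Tr.lf 13977797700 99056457 0) 256 384 128 160 416 448)) = true := by decide +kernel
  have c3 : (go 16 Gd mult S183_198_216_290 (Tr.lf 13987497096 103640265 0) 256 384 128 160 384 416) = true := by decide +kernel
  have c4 : (go 16 Gd mult S183_198_290_364 (Tr.lf 13986187400 111647561 0) 256 384 128 160 416 448) = true := by decide +kernel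
  have c5 : (band (go 16 Gd mult S140_154_216_364 (Tr.lf 13987497032 99323208 0) 256 384 128 160 384 416)
  (go 16 Gd mult S183_198_290_364 (Tr.lf 13986186376 103648073 0) 256 384 128 160 384 416)) = true := by decide +kernel
  have c6 : (band (go 16 Gd mult S154_169_216_364 (Tr.lf 13987497032 103259209 0) 256 384 128 160 416 448)
  (go 16 Gd mult S183_198_216_290 (Tr.lf 13987234952 103390281 0) 256 384 128 160 416 448)) = true := by decide +kernel
  have c7 : (band (go 16 Gd mult S140_169_216_364 (Tr.lf 13441205316 94997321 0) 256 384 160 192 384 416)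
  (go 16 Gd mult S169_183_216_364 (Tr.lf 13986448456 99322825 0) 256 384 160 192 384 416)) = true := by decide +kernel
  have c8 : (band (go 16 Gd mult S183_198_216_290 (Tr.lf 13986186376 107711433 0) 256 384 160 192 384 416)
  (go 16 Gd mult S183_198_290_364 (Tr.lf 13986186376 107711433 0) 256 384 160 192 384 416)) = true := by decide +kernel
  have c9 : (band (go 16 Gd mult S183_198_290_364 (Tr.lf 13986186376 99322825 0) 256 384 160 192 416 448)
  (band (go 16 Gd mult S183_198_216_290 (Tr.lf 13986186312 99322825 0) 256 384 160 192 416 448)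
  (band (go 16 Gd mult S169_183_216_364 (Tr.lf 9146213444 103648455 0) 256 384 160 192 416 448)
  (go 16 Gd mult S140_169_216_364 (Tr.lf 9145959460 99454151 0) 256 384 160 192 416 448)))) = true := by decide +kernel
  (And.intro (Ok.s2 416 (Ok.s3 154 (Ok.lf S140_154_216_364_ok (bl c5))
  (Ok.lf S154_169_216_364_ok c0))
  (Ok.s3 154 (Ok.lf S140_154_216_364_ok (br c2))
  (Ok.lf S154_169_216_364_ok (bl c6))))
  (And.intro (Ok.s2 416 (Ok.lf S140_169_216_364_ok (bl c7))
  (Ok.lf S140_169_216_364_ok (br (br (br c9)))))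
  (Ok.s3 183 (Ok.s1 160 (Ok.s2 416 (Ok.lf S169_183_216_364_ok c1)
  (Ok.lf S169_183_216_364_ok (bl c2)))
  (Ok.s2 416 (Ok.lf S169_183_216_364_ok (br c7))
  (Ok.lf S169_183_216_364_ok (bl (br (br c9))))))
  (Ok.s1 160 (Ok.s2 416 (Ok.s4 290 (Ok.lf S183_198_216_290_ok c3)
  (Ok.lf S183_198_290_364_ok (br c5)))
  (Ok.s4 290 (Ok.lf S183_198_216_290_ok (br c6))
  (Ok.lf S183_198_290_364_ok c4)))
  (Ok.s4 290 (Ok.s2 416 (Ok.lf S183_198_216_290_ok (bl c8))
  (Ok.lf S183_198_216_290_ok (bl (br c9))))
  (Ok.s2 416 (Ok.lf S183_198_290_364_ok (br c8))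
  (Ok.lf S183_198_290_364_ok (bl c9))))))))

end Vale.Agent.P098.Ck
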