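import Vale.Agent.P098.CkGd
import Vale.Agent.P098.CkOk
import Vale.Agent.P098.Sh.A11
import Vale.Agent.P098.Sh.A12
import Vale.Agent.P098.Sh.A14
import Vale.Agent.P098.Sh.A15
import Vale.Agent.P098.Sh.A17
import Vale.Agent.P098.Sh.A20
import Vale.Agent.P098.Sh.A21
import Vale.Agent.P098.Sh.A7
import Vale.Agent.P098.Sh.A8
import Vale.Agent.P098.Sh.A9

namespace Vale.Agent.P098.Ck

theorem r492 :
    Ok Gd mult 256 384 128 192 448 464 140 198 216 364 ∧
    Ok Gd mult 256 384 128 192 464 480 140 198 216 364 ∧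
    Ok Gd mult 256 384 128 192 480 512 140 198 216 364 ∧
    Ok Gd mult 256 384 128 192 384 448 140 169 364 512 ∧
    Ok Gd mult 256 384 128 160 384 416 169 198 364 512 :=
  have c0 : (band (go 16 Gd mult S183_198_216_364 (Tr.lf 13986448520 107453257 0) 256 384 128 160 448 464)
  (go 16 Gd mult S169_183_216_364 (Tr.lf 13986447940 103258953 0) 256 384 128 160 448 464)) = true := by decide +kernel
  have c1 : (band (go 16 Gd mult S169_198_216_364 (Tr.lf 13449593928 94862281 0) 256 384 128 160 464 480)
  (go 16 Gd mult S140_169_216_364 (Tr.lf 4849943074 107977670 0) 256 384 128 160 464 480)) = true := by decide +kernel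
  have c2 : (band (go 16 Gd mult S140_154_364_512 (Tr.lf 13987235976 99323208 0) 256 384 128 160 384 416)
  (go 16 Gd mult S140_154_364_512 (Tr.lf 13977797700 99056457 0) 256 384 128 160 416 448)) = true := by decide +kernel
  have c3 : (go 16 Gd mult S154_169_364_512 (Tr.lf 9146221704 103779654 0) 256 384 128 160 384 416) = true := by decide +kernel
  have c4 : (go 16 Gd mult S154_169_364_512 (Tr.lf 9146222664 103521351 0) 256 384 128 160 416 448) = true := by decide +kernel
  have c5 : (go 16 Gd mult S169_183_364_512 (Tr.lf 9146221704 107973958 0) 256 384 128 160 384 416) = true := by decide +kernel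
  have c6 : (go 16 Gd mult S183_198_364_512 (Tr.lf 13986448520 99454024 0) 256 384 128 160 384 416) = true := by decide +kernel
  have c7 : (go 16 Gd mult S140_169_364_512 (Tr.lf 13440943176 94997321 0) 256 384 160 192 384 416) = true := by decide +kernel
  have c8 : (go 16 Gd mult S140_169_216_364 (Tr.lf 9145975428 99323079 0) 256 384 128 192 448 464) = true := by decide +kernel
  have c9 : (go 16 Gd mult S140_198_216_364 (Tr.lf 4841833028 107973829 0) 256 384 160 192 464 480) = true := by decide +kernel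
  have c10 : (band (go 16 Gd mult S169_198_216_364 (Tr.lf 9144927300 103385800 905485438891357251854925824) 256 384 128 192 480 512)
  (go 16 Gd mult S140_169_216_364 (Tr.lf 4841423426 103648198 0) 256 384 128 192 480 512)) = true := by decide +kernel
  have c11 : (go 16 Gd mult S140_169_364_512 (Tr.lf 9145959460 107711687 0) 256 384 160 192 416 448) = true := by decide +kernel
  have c12 : (go 16 Gd mult S169_198_216_364 (Tr.lf 9144910372 99453895 0) 256 384 160 192 448 464) = true := by decide +kernel
  (And.intro (Ok.s3 169 (Ok.lf S140_169_216_364_ok c8)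
  (Ok.s1 160 (Ok.s3 183 (Ok.lf S169_183_216_364_ok (br c0))
  (Ok.lf S183_198_216_364_ok (bl c0)))
  (Ok.lf S169_198_216_364_ok c12)))
  (And.intro (Ok.s1 160 (Ok.s3 169 (Ok.lf S140_169_216_364_ok (br c1))
  (Ok.lf S169_198_216_364_ok (bl c1)))
  (Ok.lf S140_198_216_364_ok c9))
  (And.intro (Ok.s3 169 (Ok.lf S140_169_216_364_ok (br c10))
  (Ok.lf S169_198_216_364_ok (bl c10)))
  (And.intro (Ok.s1 160 (Ok.s2 416 (Ok.s3 154 (Ok.lf S140_154_364_512_ok (bl c2))
  (Ok.lf S154_169_364_512_ok c3))
  (Ok.s3 154 (Ok.lf S140_154_364_512_ok (br c2))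
  (Ok.lf S154_169_364_512_ok c4)))
  (Ok.s2 416 (Ok.lf S140_169_364_512_ok c7)
  (Ok.lf S140_169_364_512_ok c11)))
  (Ok.s3 183 (Ok.lf S169_183_364_512_ok c5)
  (Ok.lf S183_198_364_512_ok c6))))))

end Vale.Agent.P098.Ck
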