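import Vale.Agent.P098.CkGd
import Vale.Agent.P098.CkOk
import Vale.Agent.P098.Sh.A11
import Vale.Agent.P098.Sh.A12
import Vale.Agent.P098.Sh.A15
import Vale.Agent.P098.Sh.A18
import Vale.Agent.P098.Sh.A21
import Vale.Agent.P098.Sh.A8
import Vale.Agent.P098.Sh.A9

namespace Vale.Agent.P098.Ck

theorem r493 :
    Ok Gd mult 256 384 128 160 416 448 169 198 364 512 ∧
    Ok Gd mult 256 384 160 192 384 448 169 198 364 512 ∧
    Ok Gd mult 256 384 128 192 448 512 140 198 364 512 ∧
    Ok Gd mult 256 384 128 160 384 416 140 169 512 660 :=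
  have c0 : (go 16 Gd mult S169_183_364_512 (Tr.lf 9146221704 107715910 0) 256 384 128 160 416 448) = true := by decide +kernel
  have c1 : (go 16 Gd mult S183_198_364_512 (Tr.lf 13986448520 103517129 0) 256 384 160 192 384 416) = true := by decide +kernel
  have c2 : (band (go 16 Gd mult S183_198_364_512 (Tr.lf 13986448520 107580361 0) 256 384 160 192 416 448)
  (go 16 Gd mult S169_183_364_512 (Tr.lf 13440926788 94989257 0) 256 384 160 192 416 448)) = true := by decide +kernel
  have c3 : (go 16 Gd mult S140_154_512_660 (Tr.lf 13987497096 99323208 0) 256 384 128 160 384 416) = true := by decide +kernel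
  have c4 : (band (go 16 Gd mult S183_198_364_438 (Tr.lf 13986186376 107453512 0) 256 384 128 160 416 448)
  (go 16 Gd mult S183_198_438_512 (Tr.lf 13986186376 107453512 0) 256 384 128 160 416 448)) = true := by decide +kernel
  have c5 : (go 16 Gd mult S169_183_364_512 (Tr.lf 13986448456 107580361 0) 256 384 160 192 384 416) = true := by decide +kernel
  have c6 : (band (go 16 Gd mult S183_198_364_512 (Tr.lf 13986448456 107453257 0) 256 384 128 160 448 464)
  (go 16 Gd mult S169_183_364_512 (Tr.lf 13986186308 103258953 0) 256 384 128 160 448 464)) = true := by decide +kernel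
  have c7 : (band (go 16 Gd mult S169_198_364_512 (Tr.lf 13449593924 94870345 0) 256 384 128 160 464 480)
  (band (go 16 Gd mult S140_169_364_512 (Tr.lf 4841423394 107969733 0) 256 384 128 160 464 480)
  (band (go 16 Gd mult S140_169_364_512 (Tr.lf 4841423426 103648198 0) 256 384 128 192 480 512)
  (band (go 16 Gd mult S169_198_364_512 (Tr.lf 9144910916 99191496 0) 256 384 128 192 480 512)
  (go 16 Gd mult S169_198_364_512 (Tr.lf 9144910370 103517127 0) 256 384 160 192 448 464))))) = true := by decide +kernel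
  have c8 : (go 16 Gd mult S154_169_512_660 (Tr.lf 9145959560 103779654 0) 256 384 128 160 384 416) = true := by decide +kernel
  have c9 : (go 16 Gd mult S140_169_364_512 (Tr.lf 9145959044 99323079 0) 256 384 128 192 448 464) = true := by decide +kernel
  have c10 : (go 16 Gd mult S140_198_364_512 (Tr.lf 4841570852 103779525 0) 256 384 160 192 464 480) = true := by decide +kernel
  (And.intro (Ok.s3 183 (Ok.lf S169_183_364_512_ok c0)
  (Ok.s4 438 (Ok.lf S183_198_364_438_ok (bl c4))
  (Ok.lf S183_198_438_512_ok (br c4))))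
  (And.intro (Ok.s2 416 (Ok.s3 183 (Ok.lf S169_183_364_512_ok c5)
  (Ok.lf S183_198_364_512_ok c1))
  (Ok.s3 183 (Ok.lf S169_183_364_512_ok (br c2))
  (Ok.lf S183_198_364_512_ok (bl c2))))
  (And.intro (Ok.s2 480 (Ok.s2 464 (Ok.s3 169 (Ok.lf S140_169_364_512_ok c9)
  (Ok.s1 160 (Ok.s3 183 (Ok.lf S169_183_364_512_ok (br c6))
  (Ok.lf S183_198_364_512_ok (bl c6)))
  (Ok.lf S169_198_364_512_ok (br (br (br (br c7)))))))
  (Ok.s1 160 (Ok.s3 169 (Ok.lf S140_169_364_512_ok (bl (br c7)))
  (Ok.lf S169_198_364_512_ok (bl c7)))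
  (Ok.lf S140_198_364_512_ok c10)))
  (Ok.s3 169 (Ok.lf S140_169_364_512_ok (bl (br (br c7))))
  (Ok.lf S169_198_364_512_ok (bl (br (br (br c7)))))))
  (Ok.s3 154 (Ok.lf S140_154_512_660_ok c3)
  (Ok.lf S154_169_512_660_ok c8)))))

end Vale.Agent.P098.Ck
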