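import Vale.Agent.P098.CkGd
import Vale.Agent.P098.CkOk
import Vale.Agent.P098.Sh.A10
import Vale.Agent.P098.Sh.A11
import Vale.Agent.P098.Sh.A12
import Vale.Agent.P098.Sh.A16
import Vale.Agent.P098.Sh.A18
import Vale.Agent.P098.Sh.A19
import Vale.Agent.P098.Sh.A22
import Vale.Agent.P098.Sh.A8

namespace Vale.Agent.P098.Ck

theorem r494 :
    Ok Gd mult 256 384 128 160 416 448 140 169 512 660 ∧
    Ok Gd mult 256 384 160 192 384 448 140 169 512 660 ∧
    Ok Gd mult 256 384 128 192 384 448 169 198 512 660 ∧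
    Ok Gd mult 256 384 128 192 448 512 140 198 512 660 :=
  have c0 : (band (go 16 Gd mult S169_198_512_660 (Tr.lf 13978075784 103246793 0) 256 384 128 192 448 464)
  (go 16 Gd mult S140_169_512_660 (Tr.lf 9145959044 99323079 0) 256 384 128 192 448 464)) = true := by decide +kernel
  have c1 : (band (go 16 Gd mult S154_169_512_660 (Tr.lf 9146222664 103521606 0) 256 384 128 160 416 448)
  (go 16 Gd mult S140_154_512_660 (Tr.lf 13977789508 99056457 0) 256 384 128 160 416 448)) = true := by decide +kernel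
  have c2 : (go 16 Gd mult S183_198_512_660 (Tr.lf 13986448520 99454024 0) 256 384 128 160 384 416) = true := by decide +kernel
  have c3 : (go 16 Gd mult S169_183_512_660 (Tr.lf 9146221704 103521606 0) 256 384 128 160 416 448) = true := by decide +kernel
  have c4 : (band (go 16 Gd mult S140_169_512_660 (Tr.lf 13440943176 99060808 0) 256 384 160 192 384 416)
  (go 16 Gd mult S169_198_512_586 (Tr.lf 13986202696 107580361 0) 256 384 160 192 384 416)) = true := by decide +kernel
  have c5 : (go 16 Gd mult S169_183_512_660 (Tr.lf 9146221640 103779654 0) 256 384 128 160 384 416) = true := by decide +kernel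
  have c6 : (go 16 Gd mult S183_198_512_660 (Tr.lf 9145173064 107973702 0) 256 384 128 160 416 448) = true := by decide +kernel
  have c7 : (go 16 Gd mult S169_198_586_660 (Tr.lf 13440944196 94997321 0) 256 384 160 192 384 448) = true := by decide +kernel
  have c8 : (band (go 16 Gd mult S169_198_512_586 (Tr.lf 13440943172 94997321 0) 256 384 160 192 416 448)
  (go 16 Gd mult S140_169_512_660 (Tr.lf 9145959460 107719751 0) 256 384 160 192 416 448)) = true := by decide +kernel
  have c9 : (band (go 16 Gd mult S169_198_512_660 (Tr.lf 9145958980 103521351 0) 256 384 128 160 464 480)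
  (band (go 16 Gd mult S140_169_512_660 (Tr.lf 9136382498 103381831 0) 256 384 128 160 464 480)
  (band (go 16 Gd mult S169_198_512_660 (Tr.lf 9136522306 99183304 0) 256 384 128 192 480 512)
  (go 16 Gd mult S140_169_512_660 (Tr.lf 4841415234 103648198 0) 256 384 128 192 480 512)))) = true := by decide +kernel
  have c10 : (go 16 Gd mult S140_198_512_660 (Tr.lf 4841570850 103779525 0) 256 384 160 192 464 480) = true := by decide +kernel
  (And.intro (Ok.s3 154 (Ok.lf S140_154_512_660_ok (br c1))
  (Ok.lf S154_169_512_660_ok (bl c1)))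
  (And.intro (Ok.s2 416 (Ok.lf S140_169_512_660_ok (bl c4))
  (Ok.lf S140_169_512_660_ok (br c8)))
  (And.intro (Ok.s1 160 (Ok.s2 416 (Ok.s3 183 (Ok.lf S169_183_512_660_ok c5)
  (Ok.lf S183_198_512_660_ok c2))
  (Ok.s3 183 (Ok.lf S169_183_512_660_ok c3)
  (Ok.lf S183_198_512_660_ok c6)))
  (Ok.s4 586 (Ok.s2 416 (Ok.lf S169_198_512_586_ok (br c4))
  (Ok.lf S169_198_512_586_ok (bl c8)))
  (Ok.lf S169_198_586_660_ok c7)))
  (Ok.s2 480 (Ok.s2 464 (Ok.s3 169 (Ok.lf S140_169_512_660_ok (br c0))
  (Ok.lf S169_198_512_660_ok (bl c0)))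
  (Ok.s1 160 (Ok.s3 169 (Ok.lf S140_169_512_660_ok (bl (br c9)))
  (Ok.lf S169_198_512_660_ok (bl c9)))
  (Ok.lf S140_198_512_660_ok c10)))
  (Ok.s3 169 (Ok.lf S140_169_512_660_ok (br (br (br c9))))
  (Ok.lf S169_198_512_660_ok (bl (br (br c9)))))))))

end Vale.Agent.P098.Ck
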