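import Vale.Agent.P098.CkGd
import Vale.Agent.P098.CkOk
import Vale.Agent.P098.Sh.A23
import Vale.Agent.P098.Sh.A29
import Vale.Agent.P098.Sh.A30
import Vale.Agent.P098.Sh.A33
import Vale.Agent.P098.Sh.A34
import Vale.Agent.P098.Sh.A36
import Vale.Agent.P098.Sh.A39

namespace Vale.Agent.P098.Ck

theorem r496 :
    Ok Gd mult 256 384 128 192 384 416 212 227 216 364 ∧
    Ok Gd mult 256 384 128 192 416 448 212 227 216 364 ∧
    Ok Gd mult 256 384 128 192 448 512 198 227 216 364 ∧
    Ok Gd mult 256 384 128 192 384 512 227 256 216 364 :=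
  have c0 : (band (go 16 Gd mult S212_227_216_364 (Tr.lf 13449577608 95124425 0) 256 384 128 160 384 416)
  (go 16 Gd mult S212_227_216_364 (Tr.lf 9145173060 99322823 2753933017082125259980668928) 256 384 128 192 480 512)) = true := by decide +kernel
  have c1 : (go 16 Gd mult S212_227_216_364 (Tr.lf 13449577608 99453769 0) 256 384 128 160 416 448) = true := by decide +kernel
  have c2 : (go 16 Gd mult S212_227_216_364 (Tr.lf 13449577608 95128521 0) 256 384 160 192 416 448) = true := by decide +kernel
  have c3 : (go 16 Gd mult S212_227_216_364 (Tr.lf 13449578568 99064649 0) 256 384 128 160 448 480) = true := by decide +kernel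
  have c4 : (band (go 16 Gd mult S212_219_216_364 (Tr.lf 13986440328 103648201 0) 256 384 160 192 384 416)
  (go 16 Gd mult S219_227_216_364 (Tr.lf 13449569352 103517129 0) 256 384 160 192 384 416)) = true := by decide +kernel
  have c5 : (band (go 16 Gd mult S198_212_216_290 (Tr.lf 13986187336 107453257 0) 256 384 128 160 448 480)
  (go 16 Gd mult S198_212_290_364 (Tr.lf 13986187336 107453257 0) 256 384 128 160 448 480)) = true := by decide +kernel
  have c6 : (band (go 16 Gd mult S227_241_216_364 (Tr.lf 13440141380 103508681 0) 256 384 160 192 384 448)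
  (go 16 Gd mult S227_241_216_364 (Tr.lf 9145173060 103906247 0) 256 384 128 160 384 448)) = true := by decide +kernel
  have c7 : (band (go 16 Gd mult S227_256_216_364 (Tr.lf 9145189444 103906247 0) 256 384 128 192 448 480)
  (band (go 16 Gd mult S227_256_216_364 (Tr.lf 9145189444 107846471 2756350868721354518330081280) 256 384 128 192 480 512)
  (go 16 Gd mult S198_212_216_364 (Tr.lf 9145164868 95128519 2230468137188990827332894720) 256 384 128 192 480 512))) = true := by decide +kernel
  have c8 : (go 16 Gd mult S241_256_216_364 (Tr.lf 9144116356 103910087 0) 256 384 128 192 384 448) = true := by decide +kernel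
  have c9 : (band (go 16 Gd mult S198_212_216_364 (Tr.lf 9145164836 103648199 0) 256 384 160 192 448 480)
  (go 16 Gd mult S212_227_216_364 (Tr.lf 9145164836 103648199 0) 256 384 160 192 448 480)) = true := by decide +kernel
  (And.intro (Ok.s1 160 (Ok.lf S212_227_216_364_ok (bl c0))
  (Ok.s3 219 (Ok.lf S212_219_216_364_ok (bl c4))
  (Ok.lf S219_227_216_364_ok (br c4))))
  (And.intro (Ok.s1 160 (Ok.lf S212_227_216_364_ok c1)
  (Ok.lf S212_227_216_364_ok c2))
  (And.intro (Ok.s3 212 (Ok.s2 480 (Ok.s1 160 (Ok.s4 290 (Ok.lf S198_212_216_290_ok (bl c5))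
  (Ok.lf S198_212_290_364_ok (br c5)))
  (Ok.lf S198_212_216_364_ok (bl c9)))
  (Ok.lf S198_212_216_364_ok (br (br c7))))
  (Ok.s2 480 (Ok.s1 160 (Ok.lf S212_227_216_364_ok c3)
  (Ok.lf S212_227_216_364_ok (br c9)))
  (Ok.lf S212_227_216_364_ok (br c0))))
  (Ok.s2 448 (Ok.s3 241 (Ok.s1 160 (Ok.lf S227_241_216_364_ok (br c6))
  (Ok.lf S227_241_216_364_ok (bl c6)))
  (Ok.lf S241_256_216_364_ok c8))
  (Ok.s2 480 (Ok.lf S227_256_216_364_ok (bl c7))
  (Ok.lf S227_256_216_364_ok (bl (br c7))))))))

end Vale.Agent.P098.Ck
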