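import Vale.Agent.P098.CkGd
import Vale.Agent.P098.CkOk
import Vale.Agent.P098.Sh.A23
import Vale.Agent.P098.Sh.A24
import Vale.Agent.P098.Sh.A26
import Vale.Agent.P098.Sh.A31
import Vale.Agent.P098.Sh.A37

namespace Vale.Agent.P098.Ck

theorem r497 :
    Ok Gd mult 256 384 128 160 384 448 198 212 364 512 ∧
    Ok Gd mult 256 384 128 160 384 448 212 227 364 512 ∧
    Ok Gd mult 256 384 160 192 384 448 198 227 364 512 ∧
    Ok Gd mult 256 384 128 192 384 448 227 256 364 512 ∧
    Ok Gd mult 256 384 128 192 448 464 198 256 364 512 :=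
  have c0 : (band (go 16 Gd mult S212_227_364_512 (Tr.lf 13986448520 107711433 0) 256 384 160 192 384 416)
  (go 16 Gd mult S212_227_364_512 (Tr.lf 13449577028 99322952 0) 256 384 128 160 448 464)) = true := by decide +kernel
  have c1 : (go 16 Gd mult S227_256_364_512 (Tr.lf 13440157764 99314377 0) 256 384 160 192 384 448) = true := by decide +kernel
  have c2 : (band (go 16 Gd mult S198_212_364_438 (Tr.lf 13986186376 99318729 0) 256 384 128 160 384 416)
  (go 16 Gd mult S198_212_438_512 (Tr.lf 13986186376 107584584 0) 256 384 128 160 384 416)) = true := by decide +kernel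
  have c3 : (band (go 16 Gd mult S198_212_364_438 (Tr.lf 13986186376 103648328 0) 256 384 128 160 416 448)
  (go 16 Gd mult S198_212_438_512 (Tr.lf 13986186376 103648328 0) 256 384 128 160 416 448)) = true := by decide +kernel
  have c4 : (band (go 16 Gd mult S212_227_364_512 (Tr.lf 13449577544 103381961 0) 256 384 128 160 384 416)
  (go 16 Gd mult S212_227_364_512 (Tr.lf 13449577544 99454024 0) 256 384 128 160 416 448)) = true := by decide +kernel
  have c5 : (band (go 16 Gd mult S198_212_364_438 (Tr.lf 13986186376 107711433 0) 256 384 160 192 384 416)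
  (go 16 Gd mult S198_212_438_512 (Tr.lf 13986186376 103517129 0) 256 384 160 192 384 416)) = true := by decide +kernel
  have c6 : (band (go 16 Gd mult S198_212_364_438 (Tr.lf 13986186376 111774665 0) 256 384 160 192 416 448)
  (go 16 Gd mult S212_227_364_512 (Tr.lf 13449577544 103386312 0) 256 384 160 192 416 448)) = true := by decide +kernel
  have c7 : (go 16 Gd mult S198_212_364_512 (Tr.lf 13986448456 107453512 0) 256 384 128 160 448 464) = true := by decide +kernel
  have c8 : (go 16 Gd mult S198_212_438_512 (Tr.lf 13986186312 107580616 0) 256 384 160 192 416 448) = true := by decide +kernel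
  have c9 : (go 16 Gd mult S227_256_364_512 (Tr.lf 9144927300 107969479 0) 256 384 128 160 384 448) = true := by decide +kernel
  have c10 : (go 16 Gd mult S227_256_364_512 (Tr.lf 9144910468 107969479 0) 256 384 128 192 448 464) = true := by decide +kernel
  have c11 : (go 16 Gd mult S198_227_364_512 (Tr.lf 9144910404 107711431 0) 256 384 160 192 448 464) = true := by decide +kernel
  (And.intro (Ok.s2 416 (Ok.s4 438 (Ok.lf S198_212_364_438_ok (bl c2))
  (Ok.lf S198_212_438_512_ok (br c2)))
  (Ok.s4 438 (Ok.lf S198_212_364_438_ok (bl c3))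
  (Ok.lf S198_212_438_512_ok (br c3))))
  (And.intro (Ok.s2 416 (Ok.lf S212_227_364_512_ok (bl c4))
  (Ok.lf S212_227_364_512_ok (br c4)))
  (And.intro (Ok.s3 212 (Ok.s2 416 (Ok.s4 438 (Ok.lf S198_212_364_438_ok (bl c5))
  (Ok.lf S198_212_438_512_ok (br c5)))
  (Ok.s4 438 (Ok.lf S198_212_364_438_ok (bl c6))
  (Ok.lf S198_212_438_512_ok c8)))
  (Ok.s2 416 (Ok.lf S212_227_364_512_ok (bl c0))
  (Ok.lf S212_227_364_512_ok (br c6))))
  (And.intro (Ok.s1 160 (Ok.lf S227_256_364_512_ok c9)
  (Ok.lf S227_256_364_512_ok c1))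
  (Ok.s3 227 (Ok.s1 160 (Ok.s3 212 (Ok.lf S198_212_364_512_ok c7)
  (Ok.lf S212_227_364_512_ok (br c0)))
  (Ok.lf S198_227_364_512_ok c11))
  (Ok.lf S227_256_364_512_ok c10))))))

end Vale.Agent.P098.Ck
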