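import Vale.Agent.P098.CkGd
import Vale.Agent.P098.CkOk
import Vale.Agent.P098.Sh.A24
import Vale.Agent.P098.Sh.A26
import Vale.Agent.P098.Sh.A27
import Vale.Agent.P098.Sh.A32
import Vale.Agent.P098.Sh.A37

namespace Vale.Agent.P098.Ck

theorem r498 :
    Ok Gd mult 256 384 128 192 464 480 198 256 364 512 ∧
    Ok Gd mult 256 384 128 192 480 512 198 256 364 512 ∧
    Ok Gd mult 256 384 128 192 384 512 198 256 512 660 ∧
    Ok Gd mult 256 384 128 192 384 512 198 227 660 808 :=
  have c0 : (band (go 16 Gd mult S198_227_364_512 (Tr.lf 13449593928 94870345 0) 256 384 128 160 464 480)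
  (band (go 16 Gd mult S227_256_364_512 (Tr.lf 9144910372 107715399 0) 256 384 128 160 464 480)
  (go 16 Gd mult S227_256_364_512 (Tr.lf 9144910404 103652167 0) 256 384 128 192 480 496))) = true := by decide +kernel
  have c1 : (go 16 Gd mult S198_212_512_660 (Tr.lf 13441189960 103509064 0) 256 384 128 160 384 448) = true := by decide +kernel
  have c2 : (go 16 Gd mult S198_212_512_660 (Tr.lf 13986449480 107580616 0) 256 384 160 192 384 448) = true := by decide +kernel
  have c3 : (go 16 Gd mult S212_227_512_660 (Tr.lf 13440141444 99449672 0) 256 384 128 192 384 448) = true := by decide +kernel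
  have c4 : (go 16 Gd mult S198_212_512_660 (Tr.lf 13441188996 99060553 0) 256 384 128 192 448 480) = true := by decide +kernel
  have c5 : (band (go 16 Gd mult S227_256_512_660 (Tr.lf 9143863428 107842247 0) 256 384 128 192 384 448)
  (band (go 16 Gd mult S227_256_512_660 (Tr.lf 8598603844 95378119 0) 256 384 128 192 448 512)
  (go 16 Gd mult S212_227_512_660 (Tr.lf 9144911940 103783239 0) 256 384 128 192 448 512))) = true := by decide +kernel
  have c6 : (band (go 16 Gd mult S198_227_660_808 (Tr.lf 9144912004 99580871 0) 256 384 128 192 448 512)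
  (band (go 16 Gd mult S198_227_660_808 (Tr.lf 9136523394 103775302 0) 256 320 128 192 384 448)
  (go 16 Gd mult S198_227_660_808 (Tr.lf 9144910978 112164038 0) 320 384 128 192 384 448))) = true := by decide +kernel
  have c7 : (go 16 Gd mult S198_227_364_512 (Tr.lf 9144926788 103386055 0) 256 384 128 192 480 496) = true := by decide +kernel
  have c8 : (go 16 Gd mult S198_212_512_660 (Tr.lf 9144902722 103644103 0) 256 384 128 192 480 512) = true := by decide +kernel
  have c9 : (band (go 16 Gd mult S198_227_364_512 (Tr.lf 4840505666 107969477 7501384710708774029051822080) 256 384 128 192 496 512)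
  (band (go 16 Gd mult S227_256_364_512 (Tr.lf 4840505666 107969477 7501384710708774029051822080) 256 384 128 192 496 512)
  (band (go 16 Gd mult S198_227_364_512 (Tr.lf 9143861538 99588679 0) 256 384 160 192 464 480)
  (go 16 Gd mult S227_256_364_512 (Tr.lf 9143861538 107846470 0) 256 384 160 192 464 480)))) = true := by decide +kernel
  (And.intro (Ok.s1 160 (Ok.s3 227 (Ok.lf S198_227_364_512_ok (bl c0))
  (Ok.lf S227_256_364_512_ok (bl (br c0))))
  (Ok.s3 227 (Ok.lf S198_227_364_512_ok (bl (br (br c9))))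
  (Ok.lf S227_256_364_512_ok (br (br (br c9))))))
  (And.intro (Ok.s2 496 (Ok.s3 227 (Ok.lf S198_227_364_512_ok c7)
  (Ok.lf S227_256_364_512_ok (br (br c0))))
  (Ok.s3 227 (Ok.lf S198_227_364_512_ok (bl c9))
  (Ok.lf S227_256_364_512_ok (bl (br c9)))))
  (And.intro (Ok.s3 227 (Ok.s3 212 (Ok.s2 448 (Ok.s1 160 (Ok.lf S198_212_512_660_ok c1)
  (Ok.lf S198_212_512_660_ok c2))
  (Ok.s2 480 (Ok.lf S198_212_512_660_ok c4)
  (Ok.lf S198_212_512_660_ok c8)))
  (Ok.s2 448 (Ok.lf S212_227_512_660_ok c3)
  (Ok.lf S212_227_512_660_ok (br (br c5)))))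
  (Ok.s2 448 (Ok.lf S227_256_512_660_ok (bl c5))
  (Ok.lf S227_256_512_660_ok (bl (br c5)))))
  (Ok.s2 448 (Ok.s0 320 (Ok.lf S198_227_660_808_ok (bl (br c6)))
  (Ok.lf S198_227_660_808_ok (br (br c6))))
  (Ok.lf S198_227_660_808_ok (bl c6))))))

end Vale.Agent.P098.Ck
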