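import Vale.Agent.P098.CkGd
import Vale.Agent.P098.CkOk
import Vale.Agent.P098.Sh.A38
import Vale.Agent.P098.Sh.A41
import Vale.Agent.P098.Sh.A42
import Vale.Agent.P098.Sh.A44
import Vale.Agent.P098.Sh.A45
import Vale.Agent.P098.Sh.A46
import Vale.Agent.P098.Sh.A47
import Vale.Agent.P098.Sh.A48
import Vale.Agent.P098.Sh.A51

namespace Vale.Agent.P098.Ck

theorem r499 :
    Ok Gd mult 256 384 128 192 384 512 227 256 660 808 ∧
    Ok Gd mult 256 384 128 192 384 512 256 314 216 808 ∧
    Ok Gd mult 256 384 128 192 384 512 314 372 216 512 :=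
  have c0 : (band (go 16 Gd mult S256_285_512_660 (Tr.lf 4303652996 107973318 50507185273816752327220) 256 384 128 192 384 512)
  (go 16 Gd mult S285_314_512_660 (Tr.lf 4303636548 104037062 132226261520350065983613) 256 384 128 192 384 512)) = true := by decide +kernel
  have c1 : (band (go 16 Gd mult S256_285_364_512 (Tr.lf 8598603908 103639751 0) 256 384 128 192 384 512)
  (band (go 16 Gd mult S285_314_216_364 (Tr.lf 4303628354 108362438 0) 256 384 128 192 384 512)
  (band (go 16 Gd mult S285_314_364_512 (Tr.lf 4303628354 104168134 0) 256 384 128 192 384 512)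
  (go 16 Gd mult S314_343_216_364 (Tr.lf 9709634 95780037 0) 256 384 128 192 384 512)))) = true := by decide +kernel
  have c2 : (band (go 16 Gd mult S256_314_660_808 (Tr.lf 4303651972 103905990 0) 256 384 128 192 448 480)
  (band (go 16 Gd mult S227_256_660_808 (Tr.lf 4303626818 99843013 0) 256 384 128 192 448 480)
  (band (go 16 Gd mult S256_314_660_808 (Tr.lf 4303651906 103905990 0) 256 384 128 192 384 448)
  (go 16 Gd mult S256_285_216_364 (Tr.lf 8598602820 99576519 0) 256 384 128 192 384 448)))) = true := by decide +kernel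
  have c3 : (band (go 16 Gd mult S227_256_660_808 (Tr.lf 9144124484 103643847 261224342827800960434349) 256 384 128 192 480 512)
  (band (go 16 Gd mult S256_285_660_808 (Tr.lf 4849157188 103779142 632483514055279396258557) 256 384 128 192 480 512)
  (go 16 Gd mult S285_314_660_808 (Tr.lf 4848895044 112036678 934180013380799112937567) 256 384 128 192 480 512))) = true := by decide +kernel
  have c4 : (go 16 Gd mult S314_343_364_512 (Tr.lf 9586754 104037573 0) 256 384 128 192 384 512) = true := by decide +kernel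
  have c5 : (band (go 16 Gd mult S227_256_660_808 (Tr.lf 8598602818 99572423 0) 256 384 128 192 384 448)
  (band (go 16 Gd mult S343_372_216_364 (Tr.lf 547505220 91331527 0) 256 384 128 192 384 448)
  (band (go 16 Gd mult S343_372_364_512 (Tr.lf 4842472514 95525831 0) 256 384 128 192 384 448)
  (band (go 16 Gd mult S343_372_216_364 (Tr.lf 547505218 99585222 0) 256 384 128 192 448 512)
  (band (go 16 Gd mult S256_285_216_364 (Tr.lf 4303635522 104037317 279261864330979339357126656) 256 384 128 192 448 512)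
  (go 16 Gd mult S343_372_364_512 (Tr.lf 547636290 99585222 0) 256 384 128 192 448 512)))))) = true := by decide +kernel
  (And.intro (Ok.s2 448 (Ok.lf S227_256_660_808_ok (bl c5))
  (Ok.s2 480 (Ok.lf S227_256_660_808_ok (bl (br c2)))
  (Ok.lf S227_256_660_808_ok (bl c3))))
  (And.intro (Ok.s4 512 (Ok.s4 364 (Ok.s3 285 (Ok.s2 448 (Ok.lf S256_285_216_364_ok (br (br (br c2))))
  (Ok.lf S256_285_216_364_ok (bl (br (br (br (br c5)))))))
  (Ok.lf S285_314_216_364_ok (bl (br c1))))
  (Ok.s3 285 (Ok.lf S256_285_364_512_ok (bl c1))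
  (Ok.lf S285_314_364_512_ok (bl (br (br c1))))))
  (Ok.s4 660 (Ok.s3 285 (Ok.lf S256_285_512_660_ok (bl c0))
  (Ok.lf S285_314_512_660_ok (br c0)))
  (Ok.s2 448 (Ok.lf S256_314_660_808_ok (bl (br (br c2))))
  (Ok.s2 480 (Ok.lf S256_314_660_808_ok (bl c2))
  (Ok.s3 285 (Ok.lf S256_285_660_808_ok (bl (br c3)))
  (Ok.lf S285_314_660_808_ok (br (br c3))))))))
  (Ok.s4 364 (Ok.s3 343 (Ok.lf S314_343_216_364_ok (br (br (br c1))))
  (Ok.s2 448 (Ok.lf S343_372_216_364_ok (bl (br c5)))
  (Ok.lf S343_372_216_364_ok (bl (br (br (br c5)))))))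
  (Ok.s3 343 (Ok.lf S314_343_364_512_ok c4)
  (Ok.s2 448 (Ok.lf S343_372_364_512_ok (bl (br (br c5))))
  (Ok.lf S343_372_364_512_ok (br (br (br (br (br c5)))))))))))

end Vale.Agent.P098.Ck
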