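import Vale.Agent.P098.CkGd
import Vale.Agent.P098.CkOk
import Vale.Agent.P098.Sh.A0
import Vale.Agent.P098.Sh.A1
import Vale.Agent.P098.Sh.A11
import Vale.Agent.P098.Sh.A25
import Vale.Agent.P098.Sh.A26
import Vale.Agent.P098.Sh.A27
import Vale.Agent.P098.Sh.A3
import Vale.Agent.P098.Sh.A36
import Vale.Agent.P098.Sh.A37
import Vale.Agent.P098.Sh.A38
import Vale.Agent.P098.Sh.A4

namespace Vale.Agent.P098.Ck

theorem r5 :
    Ok Gd mult 0 128 0 64 128 256 24 82 216 808 ∧
    Ok Gd mult 0 128 0 64 128 256 82 140 216 808 ∧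
    Ok Gd mult 0 128 0 64 128 256 140 256 216 808 :=
  have c0 : (band (go 16 Gd mult S140_198_216_364 (Tr.lf 1227393154 95653063 0) 0 128 0 64 128 256)
  (go 16 Gd mult S82_140_216_364 (Tr.lf 1161069698 99716040 0) 0 128 0 64 128 256)) = true := by decide +kernel
  have c1 : (band (go 16 Gd mult S140_198_512_660 (Tr.lf 1160022146 103783495 0) 0 128 0 64 128 256)
  (band (go 16 Gd mult S140_198_364_512 (Tr.lf 1227129986 99716295 0) 0 128 0 64 128 256)
  (go 16 Gd mult S140_198_660_808 (Tr.lf 623150210 112303302 0) 0 128 0 64 128 256))) = true := by decide +kernel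
  have c2 : (band (go 16 Gd mult S24_82_364_512 (Tr.lf 540117122 103771079 0) 0 128 0 64 128 256)
  (band (go 16 Gd mult S82_140_364_512 (Tr.lf 1160938626 99716040 0) 0 128 0 64 128 256)
  (band (go 16 Gd mult S82_140_512_660 (Tr.lf 1160938626 103910599 0) 0 128 0 64 128 256)
  (band (go 16 Gd mult S82_140_660_808 (Tr.lf 1160938626 103910599 0) 0 128 0 64 128 256)
  (go 16 Gd mult S24_82_216_364 (Tr.lf 540116098 99576775 0) 0 128 0 64 128 256))))) = true := by decide +kernel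
  have c3 : (band (go 16 Gd mult S198_227_660_808 (Tr.lf 690242690 107978054 0) 0 128 0 64 128 256)
  (band (go 16 Gd mult S198_227_364_512 (Tr.lf 690242689 103783623 0) 0 128 0 64 128 256)
  (band (go 16 Gd mult S227_256_364_512 (Tr.lf 689194113 103783367 0) 0 128 0 64 128 256)
  (band (go 16 Gd mult S198_227_512_660 (Tr.lf 690242689 103787591 0) 0 128 0 64 128 256)
  (band (go 16 Gd mult S227_256_512_660 (Tr.lf 689185922 108108870 0) 0 128 0 64 128 256)
  (go 16 Gd mult S227_256_660_808 (Tr.lf 622077058 104045765 0) 0 128 0 64 128 256)))))) = true := by decide +kernel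
  have c4 : (band (go 16 Gd mult S198_227_216_364 (Tr.lf 1227113538 95788231 0) 0 128 0 64 128 256)
  (band (go 16 Gd mult S24_82_512_660 (Tr.lf 540099714 99576775 0) 0 128 0 64 128 256)
  (band (go 16 Gd mult S24_82_660_808 (Tr.lf 540099714 99576775 0) 0 128 0 64 128 256)
  (go 16 Gd mult S227_256_216_364 (Tr.lf 689194049 103914439 0) 0 128 0 64 128 256)))) = true := by decide +kernel
  (And.intro (Ok.s4 512 (Ok.s4 364 (Ok.lf S24_82_216_364_ok (br (br (br (br c2)))))
  (Ok.lf S24_82_364_512_ok (bl c2)))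
  (Ok.s4 660 (Ok.lf S24_82_512_660_ok (bl (br c4)))
  (Ok.lf S24_82_660_808_ok (bl (br (br c4))))))
  (And.intro (Ok.s4 512 (Ok.s4 364 (Ok.lf S82_140_216_364_ok (br c0))
  (Ok.lf S82_140_364_512_ok (bl (br c2))))
  (Ok.s4 660 (Ok.lf S82_140_512_660_ok (bl (br (br c2))))
  (Ok.lf S82_140_660_808_ok (bl (br (br (br c2)))))))
  (Ok.s3 198 (Ok.s4 512 (Ok.s4 364 (Ok.lf S140_198_216_364_ok (bl c0))
  (Ok.lf S140_198_364_512_ok (bl (br c1))))
  (Ok.s4 660 (Ok.lf S140_198_512_660_ok (bl c1))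
  (Ok.lf S140_198_660_808_ok (br (br c1)))))
  (Ok.s4 512 (Ok.s4 364 (Ok.s3 227 (Ok.lf S198_227_216_364_ok (bl c4))
  (Ok.lf S227_256_216_364_ok (br (br (br c4)))))
  (Ok.s3 227 (Ok.lf S198_227_364_512_ok (bl (br c3)))
  (Ok.lf S227_256_364_512_ok (bl (br (br c3))))))
  (Ok.s4 660 (Ok.s3 227 (Ok.lf S198_227_512_660_ok (bl (br (br (br c3)))))
  (Ok.lf S227_256_512_660_ok (bl (br (br (br (br c3)))))))
  (Ok.s3 227 (Ok.lf S198_227_660_808_ok (bl c3))
  (Ok.lf S227_256_660_808_ok (br (br (br (br (br c3))))))))))))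

end Vale.Agent.P098.Ck
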