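import Vale.Agent.P098.CkGd
import Vale.Agent.P098.CkOk
import Vale.Agent.P098.Sh.A22
import Vale.Agent.P098.Sh.A29
import Vale.Agent.P098.Sh.A30
import Vale.Agent.P098.Sh.A31
import Vale.Agent.P098.Sh.A33

namespace Vale.Agent.P098.Ck

theorem r50 :
    Ok Gd mult 0 128 64 128 448 512 198 205 364 512 ∧
    Ok Gd mult 0 128 64 128 448 512 205 212 364 512 ∧
    Ok Gd mult 0 128 64 128 448 512 212 227 364 512 :=
  have c0 : (band (go 16 Gd mult S198_205_364_512 (Tr.lf 9145165960 99326791 0) 0 128 96 128 480 512)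
  (go 16 Gd mult S198_205_364_512 (Tr.lf 13986441284 99191625 54583923876880887840768) 64 128 64 96 480 512)) = true := by decide +kernel
  have c1 : (band (go 16 Gd mult S198_205_364_512 (Tr.lf 13978051720 98921417 0) 0 128 96 128 448 480)
  (band (go 16 Gd mult S212_227_364_512 (Tr.lf 13439878216 86469321 0) 0 128 96 128 448 480)
  (go 16 Gd mult S212_227_364_512 (Tr.lf 4303635586 103787460 6272186030037603242406313984) 64 96 64 128 496 512))) = true := by decide +kernel
  have c2 : (band (go 16 Gd mult S205_212_364_512 (Tr.lf 9145165956 99454022 73879210015206754222080) 64 128 64 96 480 512)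
  (go 16 Gd mult S205_212_364_512 (Tr.lf 9145165956 99454022 22486581025851943419904) 64 128 96 128 480 512)) = true := by decide +kernel
  have c3 : (band (go 16 Gd mult S212_227_364_512 (Tr.lf 13985399876 103385928 34071144468118459187247) 64 128 96 128 480 496)
  (go 16 Gd mult S212_227_364_512 (Tr.lf 9145173058 99589062 107968793063422005608477) 96 128 64 96 496 512)) = true := by decide +kernel
  have c4 : (band (go 16 Gd mult S212_219_364_512 (Tr.lf 9145164930 103652549 5847653602709199840264323167) 96 128 96 128 496 512)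
  (go 16 Gd mult S219_227_364_512 (Tr.lf 9144116290 107846597 5848925487266336837547851776) 96 128 96 128 496 512)) = true := by decide +kernel
  have c5 : (go 16 Gd mult S205_212_364_512 (Tr.lf 13978051652 103242697 0) 64 128 96 128 448 480) = true := by decide +kernel
  have c6 : (band (go 16 Gd mult S212_227_364_512 (Tr.lf 9136514178 99310535 185057736547454221811712) 0 64 64 128 480 512)
  (go 16 Gd mult S212_227_364_512 (Tr.lf 9144902210 103390023 0) 64 128 64 96 480 496)) = true := by decide +kernel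
  have c7 : (go 16 Gd mult S205_212_364_512 (Tr.lf 9144899650 99191751 152185638608103800832000) 0 64 96 128 448 512) = true := by decide +kernel
  have c8 : (band (go 16 Gd mult S198_205_364_512 (Tr.lf 9136509986 103381831 303153792107342771257373) 0 64 64 96 480 512)
  (band (go 16 Gd mult S205_212_364_512 (Tr.lf 9136378914 99187527 332041393326771929088000) 0 64 64 96 480 512)
  (band (go 16 Gd mult S205_212_364_512 (Tr.lf 4841411106 103648198 0) 0 128 64 96 448 480)
  (band (go 16 Gd mult S198_205_364_512 (Tr.lf 4841411108 103648198 0) 0 128 64 96 448 480)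
  (go 16 Gd mult S212_227_364_512 (Tr.lf 4841415202 107842502 0) 0 128 64 96 448 480))))) = true := by decide +kernel
  (And.intro (Ok.s1 96 (Ok.s2 480 (Ok.lf S198_205_364_512_ok (bl (br (br (br c8)))))
  (Ok.s0 64 (Ok.lf S198_205_364_512_ok (bl c8))
  (Ok.lf S198_205_364_512_ok (br c0))))
  (Ok.s2 480 (Ok.lf S198_205_364_512_ok (bl c1))
  (Ok.lf S198_205_364_512_ok (bl c0))))
  (And.intro (Ok.s1 96 (Ok.s2 480 (Ok.lf S205_212_364_512_ok (bl (br (br c8))))
  (Ok.s0 64 (Ok.lf S205_212_364_512_ok (bl (br c8)))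
  (Ok.lf S205_212_364_512_ok (bl c2))))
  (Ok.s0 64 (Ok.lf S205_212_364_512_ok c7)
  (Ok.s2 480 (Ok.lf S205_212_364_512_ok c5)
  (Ok.lf S205_212_364_512_ok (br c2)))))
  (Ok.s2 480 (Ok.s1 96 (Ok.lf S212_227_364_512_ok (br (br (br (br c8)))))
  (Ok.lf S212_227_364_512_ok (bl (br c1))))
  (Ok.s0 64 (Ok.lf S212_227_364_512_ok (bl c6))
  (Ok.s2 496 (Ok.s1 96 (Ok.lf S212_227_364_512_ok (br c6))
  (Ok.lf S212_227_364_512_ok (bl c3)))
  (Ok.s0 96 (Ok.lf S212_227_364_512_ok (br (br c1)))
  (Ok.s1 96 (Ok.lf S212_227_364_512_ok (br c3))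
  (Ok.s3 219 (Ok.lf S212_219_364_512_ok (bl c4))
  (Ok.lf S219_227_364_512_ok (br c4))))))))))

end Vale.Agent.P098.Ck
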