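import Vale.Agent.P098.CkGd
import Vale.Agent.P098.CkOk
import Vale.Agent.P098.Sh.A48
import Vale.Agent.P098.Sh.A49
import Vale.Agent.P098.Sh.A52
import Vale.Agent.P098.Sh.A54
import Vale.Agent.P098.Sh.A56

namespace Vale.Agent.P098.Ck

theorem r500 :
    Ok Gd mult 256 384 128 192 384 512 314 372 512 660 ∧
    Ok Gd mult 256 384 128 192 384 512 314 372 660 808 ∧
    Ok Gd mult 256 384 128 192 384 512 372 430 216 512 :=
  have c0 : (go 16 Gd mult S314_343_512_660 (Tr.lf 547653764 91200455 18188489684844013420544) 256 384 128 192 384 512) = true := by decide +kernel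
  have c1 : (band (go 16 Gd mult S372_401_364_512 (Tr.lf 548702340 95398728 44770247902330856931328) 256 384 128 192 448 512)
  (go 16 Gd mult S314_343_660_808 (Tr.lf 547653698 99461959 285832299540099369009152) 256 384 128 192 448 512)) = true := by decide +kernel
  have c2 : (band (go 16 Gd mult S372_401_364_512 (Tr.lf 5380409476 91061193 0) 256 384 128 192 384 448)
  (band (go 16 Gd mult S372_401_216_364 (Tr.lf 4842604676 99720135 0) 256 384 128 192 384 448)
  (go 16 Gd mult S314_343_660_808 (Tr.lf 4841555010 95394758 0) 256 384 128 192 384 448))) = true := by decide +kernel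
  have c3 : (band (go 16 Gd mult S401_430_364_512 (Tr.lf 9675376712 99449801 0) 256 384 160 192 384 448)
  (go 16 Gd mult S401_430_216_364 (Tr.lf 9675491400 99449801 0) 256 384 160 192 384 448)) = true := by decide +kernel
  have c4 : (band (go 16 Gd mult S372_401_216_364 (Tr.lf 548685956 91204424 41578961225974795993088) 256 384 128 192 448 512)
  (band (go 16 Gd mult S343_372_660_808 (Tr.lf 547637316 95267910 2305843123485593829376) 256 384 128 192 448 512)
  (go 16 Gd mult S343_372_512_660 (Tr.lf 547636292 95398982 0) 256 384 128 192 448 512))) = true := by decide +kernel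
  have c5 : (band (go 16 Gd mult S401_430_216_364 (Tr.lf 1085572228 90799176 865698302235049200000696320) 256 384 128 192 480 512)
  (band (go 16 Gd mult S401_430_364_512 (Tr.lf 1085441156 86735944 808868975045145850726580224) 256 384 128 192 480 512)
  (go 16 Gd mult S401_430_364_512 (Tr.lf 9675376708 95251401 0) 256 384 128 160 384 448))) = true := by decide +kernel
  have c6 : (band (go 16 Gd mult S401_430_364_512 (Tr.lf 5380408452 95128648 0) 256 384 128 192 448 480)
  (band (go 16 Gd mult S401_430_216_364 (Tr.lf 5380392068 95128648 0) 256 384 128 192 448 480)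
  (go 16 Gd mult S401_430_216_364 (Tr.lf 9675360324 95251401 0) 256 384 128 160 384 448))) = true := by decide +kernel
  have c7 : (band (go 16 Gd mult S343_372_512_660 (Tr.lf 4850992260 95517895 0) 256 384 128 192 384 448)
  (go 16 Gd mult S343_372_660_808 (Tr.lf 4850992260 91323591 0) 256 384 128 192 384 448)) = true := by decide +kernel
  (And.intro (Ok.s3 343 (Ok.lf S314_343_512_660_ok c0)
  (Ok.s2 448 (Ok.lf S343_372_512_660_ok (bl c7))
  (Ok.lf S343_372_512_660_ok (br (br c4)))))
  (And.intro (Ok.s2 448 (Ok.s3 343 (Ok.lf S314_343_660_808_ok (br (br c2)))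
  (Ok.lf S343_372_660_808_ok (br c7)))
  (Ok.s3 343 (Ok.lf S314_343_660_808_ok (br c1))
  (Ok.lf S343_372_660_808_ok (bl (br c4)))))
  (Ok.s4 364 (Ok.s2 448 (Ok.s3 401 (Ok.lf S372_401_216_364_ok (bl (br c2)))
  (Ok.s1 160 (Ok.lf S401_430_216_364_ok (br (br c6)))
  (Ok.lf S401_430_216_364_ok (br c3))))
  (Ok.s3 401 (Ok.lf S372_401_216_364_ok (bl c4))
  (Ok.s2 480 (Ok.lf S401_430_216_364_ok (bl (br c6)))
  (Ok.lf S401_430_216_364_ok (bl c5)))))
  (Ok.s2 448 (Ok.s3 401 (Ok.lf S372_401_364_512_ok (bl c2))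
  (Ok.s1 160 (Ok.lf S401_430_364_512_ok (br (br c5)))
  (Ok.lf S401_430_364_512_ok (bl c3))))
  (Ok.s3 401 (Ok.lf S372_401_364_512_ok (bl c1))
  (Ok.s2 480 (Ok.lf S401_430_364_512_ok (bl c6))
  (Ok.lf S401_430_364_512_ok (bl (br c5)))))))))

end Vale.Agent.P098.Ck
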