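import Vale.Agent.P098.CkGd
import Vale.Agent.P098.CkOk
import Vale.Agent.P098.Sh.A58
import Vale.Agent.P098.Sh.A59

namespace Vale.Agent.P098.Ck

theorem r502 :
    Ok Gd mult 256 384 128 192 384 448 430 488 216 364 ∧
    Ok Gd mult 256 384 128 192 448 512 430 488 216 364 ∧
    Ok Gd mult 256 384 128 192 384 512 430 488 364 512 ∧
    Ok Gd mult 256 384 128 192 384 448 430 488 512 660 :=
  have c0 : (go 16 Gd mult S459_488_216_364 (Tr.lf 5372020872 90926152 1686458122296786086832177152) 256 384 128 192 448 512) = true := by decide +kernel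
  have c1 : (go 16 Gd mult S459_488_364_512 (Tr.lf 5371955336 90926152 1686458122296786086832177152) 256 384 128 192 448 512) = true := by decide +kernel
  have c2 : (band (go 16 Gd mult S430_459_216_364 (Tr.lf 9675360392 99449801 0) 256 384 160 192 384 448)
  (go 16 Gd mult S430_459_364_512 (Tr.lf 9675376712 99449801 0) 256 384 160 192 384 448)) = true := by decide +kernel
  have c3 : (band (go 16 Gd mult S430_459_512_660 (Tr.lf 9675376712 99449801 0) 256 384 160 192 384 448)
  (band (go 16 Gd mult S459_488_216_364 (Tr.lf 9666906184 95247305 0) 256 384 160 192 384 448)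
  (go 16 Gd mult S459_488_364_512 (Tr.lf 9666906184 95247305 0) 256 384 160 192 384 448))) = true := by decide +kernel
  have c4 : (band (go 16 Gd mult S430_459_216_364 (Tr.lf 9675360388 91057097 0) 256 384 128 160 384 448)
  (band (go 16 Gd mult S430_459_364_512 (Tr.lf 9675360388 91057097 0) 256 384 128 160 384 448)
  (band (go 16 Gd mult S430_459_512_660 (Tr.lf 9675376708 91057097 0) 256 384 128 160 384 448)
  (go 16 Gd mult S459_488_216_364 (Tr.lf 9666906180 86854601 0) 256 384 128 160 384 448)))) = true := by decide +kernel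
  have c5 : (band (go 16 Gd mult S430_459_216_364 (Tr.lf 5380409412 90668104 8374821934082619539456) 256 384 128 160 448 512)
  (go 16 Gd mult S430_459_364_512 (Tr.lf 5380409412 90668104 8374821932467707904000) 256 384 128 160 448 512)) = true := by decide +kernel
  have c6 : (band (go 16 Gd mult S430_459_216_364 (Tr.lf 9675360328 99314633 1339489808133009125574443008) 256 384 160 192 448 512)
  (go 16 Gd mult S430_459_364_512 (Tr.lf 9675360328 99314633 1334654104854550608875618304) 256 384 160 192 448 512)) = true := by decide +kernel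
  have c7 : (band (go 16 Gd mult S459_488_512_660 (Tr.lf 9675294792 95255497 0) 256 384 160 192 384 448)
  (band (go 16 Gd mult S459_488_512_660 (Tr.lf 9666906180 86854601 0) 256 384 128 160 384 448)
  (go 16 Gd mult S459_488_364_512 (Tr.lf 9666906180 86854601 0) 256 384 128 160 384 448))) = true := by decide +kernel
  (And.intro (Ok.s3 459 (Ok.s1 160 (Ok.lf S430_459_216_364_ok (bl c4))
  (Ok.lf S430_459_216_364_ok (bl c2)))
  (Ok.s1 160 (Ok.lf S459_488_216_364_ok (br (br (br c4))))
  (Ok.lf S459_488_216_364_ok (bl (br c3)))))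
  (And.intro (Ok.s3 459 (Ok.s1 160 (Ok.lf S430_459_216_364_ok (bl c5))
  (Ok.lf S430_459_216_364_ok (bl c6)))
  (Ok.lf S459_488_216_364_ok c0))
  (And.intro (Ok.s2 448 (Ok.s3 459 (Ok.s1 160 (Ok.lf S430_459_364_512_ok (bl (br c4)))
  (Ok.lf S430_459_364_512_ok (br c2)))
  (Ok.s1 160 (Ok.lf S459_488_364_512_ok (br (br c7)))
  (Ok.lf S459_488_364_512_ok (br (br c3)))))
  (Ok.s3 459 (Ok.s1 160 (Ok.lf S430_459_364_512_ok (br c5))
  (Ok.lf S430_459_364_512_ok (br c6)))
  (Ok.lf S459_488_364_512_ok c1)))
  (Ok.s3 459 (Ok.s1 160 (Ok.lf S430_459_512_660_ok (bl (br (br c4))))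
  (Ok.lf S430_459_512_660_ok (bl c3)))
  (Ok.s1 160 (Ok.lf S459_488_512_660_ok (bl (br c7)))
  (Ok.lf S459_488_512_660_ok (bl c7)))))))

end Vale.Agent.P098.Ck
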