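import Vale.Agent.P098.CkGd
import Vale.Agent.P098.CkOk
import Vale.Agent.P098.Sh.A0
import Vale.Agent.P098.Sh.A1
import Vale.Agent.P098.Sh.A58
import Vale.Agent.P098.Sh.A59

namespace Vale.Agent.P098.Ck

theorem r503 :
    Ok Gd mult 256 384 128 192 448 512 430 488 512 660 ∧
    Ok Gd mult 256 384 128 192 384 512 430 488 660 808 ∧
    Ok Gd mult 256 384 192 256 0 128 24 82 216 808 :=
  have c0 : (band (go 16 Gd mult S430_459_660_808 (Tr.lf 13970344072 91048906 0) 256 384 160 192 384 448)
  (go 16 Gd mult S459_488_660_808 (Tr.lf 9675294792 95255497 0) 256 384 160 192 384 448)) = true := by decide +kernel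
  have c1 : (go 16 Gd mult S459_488_660_808 (Tr.lf 5372020872 90926152 1686458122296786086836043776) 256 384 128 192 448 512) = true := by decide +kernel
  have c2 : (go 16 Gd mult S459_488_512_660 (Tr.lf 5371955336 90926152 1686458122296786086832177152) 256 384 128 192 448 512) = true := by decide +kernel
  have c3 : (band (go 16 Gd mult S430_459_660_808 (Tr.lf 5380409416 86735944 7821419487252858077184) 256 384 128 160 448 512)
  (band (go 16 Gd mult S430_459_512_660 (Tr.lf 5380409412 90668104 8374821932540719267840) 256 384 128 160 448 512)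
  (go 16 Gd mult S430_459_660_808 (Tr.lf 9675376708 86862793 0) 256 384 128 160 384 448))) = true := by decide +kernel
  have c4 : (band (go 16 Gd mult S430_459_660_808 (Tr.lf 9675376712 99314633 1314102365921101912905613312) 256 384 160 192 448 512)
  (go 16 Gd mult S430_459_512_660 (Tr.lf 9675360328 99314633 1323773772478018946303262720) 256 384 160 192 448 512)) = true := by decide +kernel
  have c5 : (band (go 16 Gd mult S24_82_216_364 (Tr.lf 17181083780 90917704 0) 256 320 192 256 0 128)
  (go 16 Gd mult S24_82_660_808 (Tr.lf 17181083780 82660168 0) 256 320 192 256 0 128)) = true := by decide +kernel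
  have c6 : (band (go 16 Gd mult S24_82_364_512 (Tr.lf 17181017224 90922055 0) 256 384 192 256 0 64)
  (go 16 Gd mult S24_82_364_512 (Tr.lf 17717888136 90786760 0) 256 384 192 256 64 128)) = true := by decide +kernel
  have c7 : (go 16 Gd mult S24_82_512_660 (Tr.lf 17181018244 90917704 0) 256 320 192 256 0 128) = true := by decide +kernel
  have c8 : (go 16 Gd mult S459_488_660_808 (Tr.lf 9666906180 82660297 0) 256 384 128 160 384 448) = true := by decide +kernel
  have c9 : (band (go 16 Gd mult S24_82_216_364 (Tr.lf 12884984898 95386438 0) 320 384 192 256 0 128)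
  (band (go 16 Gd mult S24_82_660_808 (Tr.lf 12884984898 99580742 0) 320 384 192 256 0 128)
  (go 16 Gd mult S24_82_512_660 (Tr.lf 12884984898 99580742 0) 320 384 192 256 0 128))) = true := by decide +kernel
  (And.intro (Ok.s3 459 (Ok.s1 160 (Ok.lf S430_459_512_660_ok (bl (br c3)))
  (Ok.lf S430_459_512_660_ok (br c4)))
  (Ok.lf S459_488_512_660_ok c2))
  (And.intro (Ok.s2 448 (Ok.s3 459 (Ok.s1 160 (Ok.lf S430_459_660_808_ok (br (br c3)))
  (Ok.lf S430_459_660_808_ok (bl c0)))
  (Ok.s1 160 (Ok.lf S459_488_660_808_ok c8)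
  (Ok.lf S459_488_660_808_ok (br c0))))
  (Ok.s3 459 (Ok.s1 160 (Ok.lf S430_459_660_808_ok (bl c3))
  (Ok.lf S430_459_660_808_ok (bl c4)))
  (Ok.lf S459_488_660_808_ok c1)))
  (Ok.s4 512 (Ok.s4 364 (Ok.s0 320 (Ok.lf S24_82_216_364_ok (bl c5))
  (Ok.lf S24_82_216_364_ok (bl c9)))
  (Ok.s2 64 (Ok.lf S24_82_364_512_ok (bl c6))
  (Ok.lf S24_82_364_512_ok (br c6))))
  (Ok.s4 660 (Ok.s0 320 (Ok.lf S24_82_512_660_ok c7)
  (Ok.lf S24_82_512_660_ok (br (br c9))))
  (Ok.s0 320 (Ok.lf S24_82_660_808_ok (br c5))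
  (Ok.lf S24_82_660_808_ok (bl (br c9))))))))

end Vale.Agent.P098.Ck
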