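import Vale.Agent.P098.CkGd
import Vale.Agent.P098.CkOk
import Vale.Agent.P098.Sh.A14
import Vale.Agent.P098.Sh.A2
import Vale.Agent.P098.Sh.A20
import Vale.Agent.P098.Sh.A4
import Vale.Agent.P098.Sh.A5
import Vale.Agent.P098.Sh.A8

namespace Vale.Agent.P098.Ck

theorem r504 :
    Ok Gd mult 256 384 192 256 0 128 82 140 216 364 ∧
    Ok Gd mult 256 384 192 256 0 128 82 140 364 512 ∧
    Ok Gd mult 256 384 192 256 0 128 82 140 512 808 ∧
    Ok Gd mult 256 384 192 256 0 128 140 169 216 364 ∧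
    Ok Gd mult 256 384 192 256 0 64 169 198 216 364 :=
  have c0 : (band (go 16 Gd mult S111_140_364_512 (Tr.lf 12885067848 95382470 0) 256 384 224 256 0 128)
  (band (go 16 Gd mult S82_140_512_660 (Tr.lf 12885066824 91188166 0) 256 384 224 256 0 128)
  (band (go 16 Gd mult S82_140_660_808 (Tr.lf 12885050404 95251398 0) 256 384 224 256 0 128)
  (go 16 Gd mult S82_111_364_512 (Tr.lf 12884976674 95386438 0) 256 384 224 256 0 128)))) = true := by decide +kernel
  have c1 : (go 16 Gd mult S111_140_216_364 (Tr.lf 13423102084 108096582 0) 256 320 192 256 0 128) = true := by decide +kernel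
  have c2 : (go 16 Gd mult S111_140_216_364 (Tr.lf 9136538756 108235846 0) 320 384 192 256 0 128) = true := by decide +kernel
  have c3 : (band (go 16 Gd mult S140_169_216_364 (Tr.lf 12886246532 103910470 0) 320 384 192 256 0 64)
  (go 16 Gd mult S140_169_216_364 (Tr.lf 17726472772 103910343 0) 256 320 224 256 0 64)) = true := by decide +kernel
  have c4 : (go 16 Gd mult S140_169_216_364 (Tr.lf 17736172612 103648328 0) 256 320 192 224 64 128) = true := by decide +kernel
  have c5 : (band (go 16 Gd mult S82_140_512_660 (Tr.lf 12886116392 99449926 0) 256 384 192 224 0 128)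
  (band (go 16 Gd mult S82_140_660_808 (Tr.lf 12886116392 91192390 0) 256 384 192 224 0 128)
  (band (go 16 Gd mult S111_140_364_512 (Tr.lf 12886100008 99449926 0) 256 384 192 224 0 128)
  (go 16 Gd mult S82_111_364_512 (Tr.lf 12886026276 91061318 0) 256 384 192 224 0 128)))) = true := by decide +kernel
  have c6 : (band (go 16 Gd mult S169_183_216_364 (Tr.lf 17718060168 99449672 0) 256 384 192 256 0 64)
  (go 16 Gd mult S183_198_216_364 (Tr.lf 17726448776 107977544 0) 256 384 192 256 0 64)) = true := by decide +kernel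
  have c7 : (go 16 Gd mult S82_111_216_364 (Tr.lf 12886100036 91065414 0) 256 384 192 256 0 128) = true := by decide +kernel
  have c8 : (band (go 16 Gd mult S140_169_216_364 (Tr.lf 13431489604 108100551 0) 320 384 192 224 64 128)
  (go 16 Gd mult S140_169_216_364 (Tr.lf 17735893572 99454152 0) 256 384 224 256 64 128)) = true := by decide +kernel
  have c9 : (go 16 Gd mult S140_169_216_364 (Tr.lf 12894487620 99974214 0) 256 320 192 224 0 64) = true := by decide +kernel
  (And.intro (Ok.s3 111 (Ok.lf S82_111_216_364_ok c7)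
  (Ok.s0 320 (Ok.lf S111_140_216_364_ok c1)
  (Ok.lf S111_140_216_364_ok c2)))
  (And.intro (Ok.s3 111 (Ok.s1 224 (Ok.lf S82_111_364_512_ok (br (br (br c5))))
  (Ok.lf S82_111_364_512_ok (br (br (br c0)))))
  (Ok.s1 224 (Ok.lf S111_140_364_512_ok (bl (br (br c5))))
  (Ok.lf S111_140_364_512_ok (bl c0))))
  (And.intro (Ok.s4 660 (Ok.s1 224 (Ok.lf S82_140_512_660_ok (bl c5))
  (Ok.lf S82_140_512_660_ok (bl (br c0))))
  (Ok.s1 224 (Ok.lf S82_140_660_808_ok (bl (br c5)))
  (Ok.lf S82_140_660_808_ok (bl (br (br c0))))))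
  (And.intro (Ok.s2 64 (Ok.s0 320 (Ok.s1 224 (Ok.lf S140_169_216_364_ok c9)
  (Ok.lf S140_169_216_364_ok (br c3)))
  (Ok.lf S140_169_216_364_ok (bl c3)))
  (Ok.s1 224 (Ok.s0 320 (Ok.lf S140_169_216_364_ok c4)
  (Ok.lf S140_169_216_364_ok (bl c8)))
  (Ok.lf S140_169_216_364_ok (br c8))))
  (Ok.s3 183 (Ok.lf S169_183_216_364_ok (bl c6))
  (Ok.lf S183_198_216_364_ok (br c6)))))))

end Vale.Agent.P098.Ck
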