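import Vale.Agent.P098.CkGd
import Vale.Agent.P098.CkOk
import Vale.Agent.P098.Sh.A10
import Vale.Agent.P098.Sh.A14
import Vale.Agent.P098.Sh.A17
import Vale.Agent.P098.Sh.A18
import Vale.Agent.P098.Sh.A19
import Vale.Agent.P098.Sh.A20
import Vale.Agent.P098.Sh.A25
import Vale.Agent.P098.Sh.A9

namespace Vale.Agent.P098.Ck

theorem r505 :
    Ok Gd mult 256 384 192 256 64 128 169 198 216 364 ∧
    Ok Gd mult 256 384 192 256 0 128 140 198 364 512 ∧
    Ok Gd mult 256 384 192 256 0 128 140 198 512 808 ∧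
    Ok Gd mult 256 384 192 256 0 64 198 227 216 364 :=
  have c0 : (band (go 16 Gd mult S169_198_216_364 (Tr.lf 22021702728 99310282 0) 256 384 224 256 64 128)
  (go 16 Gd mult S169_198_512_660 (Tr.lf 12885180964 103906246 0) 256 384 224 256 64 128)) = true := by decide +kernel
  have c1 : (band (go 16 Gd mult S140_169_364_512 (Tr.lf 12885198920 95382215 0) 256 384 192 224 0 128)
  (go 16 Gd mult S140_169_512_660 (Tr.lf 12885051464 99445702 0) 256 384 192 224 0 128)) = true := by decide +kernel
  have c2 : (go 16 Gd mult S140_169_364_512 (Tr.lf 12885198920 95386566 0) 256 384 224 256 0 128) = true := by decide +kernel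
  have c3 : (go 16 Gd mult S169_198_364_512 (Tr.lf 12885198980 108227526 0) 256 320 192 256 0 128) = true := by decide +kernel
  have c4 : (band (go 16 Gd mult S140_169_660_808 (Tr.lf 12885182600 99449798 0) 256 384 192 256 0 128)
  (go 16 Gd mult S169_198_734_808 (Tr.lf 12885050500 95386566 0) 256 384 192 256 0 128)) = true := by decide +kernel
  have c5 : (band (go 16 Gd mult S198_227_216_290 (Tr.lf 22012004484 99306185 0) 320 384 192 256 0 64)
  (go 16 Gd mult S198_227_290_364 (Tr.lf 17725277250 104037319 0) 320 384 192 256 0 64)) = true := by decide +kernel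
  have c6 : (go 16 Gd mult S169_198_660_734 (Tr.lf 12885051528 99580870 0) 256 384 192 256 0 128) = true := by decide +kernel
  have c7 : (band (go 16 Gd mult S169_183_216_364 (Tr.lf 18273027144 112036809 0) 256 384 192 224 64 128)
  (go 16 Gd mult S183_198_216_364 (Tr.lf 18273027144 99589065 0) 256 384 192 224 64 128)) = true := by decide +kernel
  have c8 : (go 16 Gd mult S169_198_364_512 (Tr.lf 17734846596 103775049 0) 320 384 192 256 0 128) = true := by decide +kernel
  have c9 : (go 16 Gd mult S140_169_512_660 (Tr.lf 12885182536 95386566 0) 256 384 224 256 0 128) = true := by decide +kernel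
  have c10 : (go 16 Gd mult S169_198_512_660 (Tr.lf 12885443656 95648710 0) 256 384 224 256 0 64) = true := by decide +kernel
  have c11 : (go 16 Gd mult S169_198_512_660 (Tr.lf 12885181512 95644614 0) 256 384 192 224 0 128) = true := by decide +kernel
  have c12 : (go 16 Gd mult S198_227_216_364 (Tr.lf 22020375684 103770697 0) 256 320 192 256 0 64) = true := by decide +kernel
  (And.intro (Ok.s1 224 (Ok.s3 183 (Ok.lf S169_183_216_364_ok (bl c7))
  (Ok.lf S183_198_216_364_ok (br c7)))
  (Ok.lf S169_198_216_364_ok (bl c0)))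
  (And.intro (Ok.s3 169 (Ok.s1 224 (Ok.lf S140_169_364_512_ok (bl c1))
  (Ok.lf S140_169_364_512_ok c2))
  (Ok.s0 320 (Ok.lf S169_198_364_512_ok c3)
  (Ok.lf S169_198_364_512_ok c8)))
  (And.intro (Ok.s4 660 (Ok.s3 169 (Ok.s1 224 (Ok.lf S140_169_512_660_ok (br c1))
  (Ok.lf S140_169_512_660_ok c9))
  (Ok.s1 224 (Ok.lf S169_198_512_660_ok c11)
  (Ok.s2 64 (Ok.lf S169_198_512_660_ok c10)
  (Ok.lf S169_198_512_660_ok (br c0)))))
  (Ok.s3 169 (Ok.lf S140_169_660_808_ok (bl c4))
  (Ok.s4 734 (Ok.lf S169_198_660_734_ok c6)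
  (Ok.lf S169_198_734_808_ok (br c4)))))
  (Ok.s0 320 (Ok.lf S198_227_216_364_ok c12)
  (Ok.s4 290 (Ok.lf S198_227_216_290_ok (bl c5))
  (Ok.lf S198_227_290_364_ok (br c5)))))))

end Vale.Agent.P098.Ck
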