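import Vale.Agent.P098.CkGd
import Vale.Agent.P098.CkOk
import Vale.Agent.P098.Sh.A25
import Vale.Agent.P098.Sh.A26
import Vale.Agent.P098.Sh.A27
import Vale.Agent.P098.Sh.A36
import Vale.Agent.P098.Sh.A37

namespace Vale.Agent.P098.Ck

theorem r506 :
    Ok Gd mult 256 384 192 256 64 128 198 227 216 364 ∧
    Ok Gd mult 256 384 192 256 0 128 227 256 216 364 ∧
    Ok Gd mult 256 384 192 256 0 128 198 256 364 512 ∧
    Ok Gd mult 256 384 192 256 0 128 198 227 512 660 :=
  have c0 : (go 16 Gd mult S198_227_216_290 (Tr.lf 17735911496 107969864 0) 256 384 192 224 64 128) = true := by decide +kernel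
  have c1 : (band (go 16 Gd mult S227_256_216_364 (Tr.lf 17735124100 107973704 0) 320 384 192 256 64 128)
  (go 16 Gd mult S198_227_290_364 (Tr.lf 17734730884 103779400 0) 320 384 192 256 64 128)) = true := by decide +kernel
  have c2 : (go 16 Gd mult S227_256_364_512 (Tr.lf 17735108740 99585096 0) 320 384 192 256 0 128) = true := by decide +kernel
  have c3 : (go 16 Gd mult S198_227_512_660 (Tr.lf 12885460040 99584966 0) 256 384 224 256 0 64) = true := by decide +kernel
  have c4 : (go 16 Gd mult S198_227_216_290 (Tr.lf 22566700104 107961162 0) 256 384 224 256 64 128) = true := by decide +kernel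
  have c5 : (band (go 16 Gd mult S198_227_290_364 (Tr.lf 22566700164 107957066 0) 256 320 192 256 64 128)
  (go 16 Gd mult S227_256_290_364 (Tr.lf 22566700164 111893322 0) 256 320 192 256 64 128)) = true := by decide +kernel
  have c6 : (band (go 16 Gd mult S227_256_216_290 (Tr.lf 22012003460 95242953 0) 320 384 192 256 0 64)
  (band (go 16 Gd mult S227_256_290_364 (Tr.lf 17725276740 108231623 0) 320 384 192 256 0 64)
  (go 16 Gd mult S227_256_216_290 (Tr.lf 22566700164 103635786 0) 256 320 192 256 64 128))) = true := by decide +kernel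
  have c7 : (band (go 16 Gd mult S198_227_364_512 (Tr.lf 17725670532 112299078 0) 256 320 192 256 0 64)
  (go 16 Gd mult S227_256_216_364 (Tr.lf 22020375684 103770697 0) 256 320 192 256 0 64)) = true := by decide +kernel
  have c8 : (go 16 Gd mult S198_227_364_512 (Tr.lf 22566945924 112028362 0) 256 320 192 256 64 128) = true := by decide +kernel
  have c9 : (band (go 16 Gd mult S227_256_364_438 (Tr.lf 22566684804 112028362 0) 256 320 192 256 0 128)
  (go 16 Gd mult S227_256_438_512 (Tr.lf 17792518276 103905992 0) 256 320 192 256 0 128)) = true := by decide +kernel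
  have c10 : (go 16 Gd mult S198_227_364_512 (Tr.lf 17734846596 99585096 0) 320 384 192 256 0 128) = true := by decide +kernel
  have c11 : (go 16 Gd mult S198_227_512_660 (Tr.lf 12885443656 103775174 0) 256 384 192 224 0 64) = true := by decide +kernel
  have c12 : (go 16 Gd mult S198_227_512_660 (Tr.lf 12885181000 99843014 0) 256 384 192 256 64 128) = true := by decide +kernel
  (And.intro (Ok.s4 290 (Ok.s1 224 (Ok.lf S198_227_216_290_ok c0)
  (Ok.lf S198_227_216_290_ok c4))
  (Ok.s0 320 (Ok.lf S198_227_290_364_ok (bl c5))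
  (Ok.lf S198_227_290_364_ok (br c1))))
  (And.intro (Ok.s2 64 (Ok.s0 320 (Ok.lf S227_256_216_364_ok (br c7))
  (Ok.s4 290 (Ok.lf S227_256_216_290_ok (bl c6))
  (Ok.lf S227_256_290_364_ok (bl (br c6)))))
  (Ok.s0 320 (Ok.s4 290 (Ok.lf S227_256_216_290_ok (br (br c6)))
  (Ok.lf S227_256_290_364_ok (br c5)))
  (Ok.lf S227_256_216_364_ok (bl c1))))
  (And.intro (Ok.s0 320 (Ok.s3 227 (Ok.s2 64 (Ok.lf S198_227_364_512_ok (bl c7))
  (Ok.lf S198_227_364_512_ok c8))
  (Ok.s4 438 (Ok.lf S227_256_364_438_ok (bl c9))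
  (Ok.lf S227_256_438_512_ok (br c9))))
  (Ok.s3 227 (Ok.lf S198_227_364_512_ok c10)
  (Ok.lf S227_256_364_512_ok c2)))
  (Ok.s2 64 (Ok.s1 224 (Ok.lf S198_227_512_660_ok c11)
  (Ok.lf S198_227_512_660_ok c3))
  (Ok.lf S198_227_512_660_ok c12)))))

end Vale.Agent.P098.Ck
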