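import Vale.Agent.P098.CkGd
import Vale.Agent.P098.CkOk
import Vale.Agent.P098.Sh.A27
import Vale.Agent.P098.Sh.A35
import Vale.Agent.P098.Sh.A37
import Vale.Agent.P098.Sh.A39

namespace Vale.Agent.P098.Ck

theorem r51 :
    Ok Gd mult 0 128 64 96 384 512 227 241 364 512 ∧
    Ok Gd mult 0 128 96 128 384 512 227 241 364 512 ∧
    Ok Gd mult 0 128 64 128 384 512 241 256 364 512 ∧
    Ok Gd mult 0 128 64 128 384 448 198 256 512 660 ∧
    Ok Gd mult 0 128 64 128 448 480 198 256 512 660 ∧
    Ok Gd mult 0 128 64 128 480 496 198 256 512 660 ∧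
    Ok Gd mult 0 64 64 128 496 512 198 256 512 660 :=
  have c0 : (go 16 Gd mult S227_241_364_512 (Tr.lf 13440141444 90790601 194871404394667703271424) 64 128 96 128 448 512) = true := by decide +kernel
  have c1 : (go 16 Gd mult S227_256_512_660 (Tr.lf 13440156804 90798665 238184359482099962478843) 64 128 64 128 480 496) = true := by decide +kernel
  have c2 : (go 16 Gd mult S241_256_364_512 (Tr.lf 9144117380 99322567 328499618464619695177728) 0 128 64 128 448 512) = true := by decide +kernel
  have c3 : (go 16 Gd mult S198_227_512_660 (Tr.lf 9144927304 103517127 0) 0 128 96 128 448 480) = true := by decide +kernel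
  have c4 : (go 16 Gd mult S198_227_512_660 (Tr.lf 13977027650 107572040 64065542216522108239919) 96 128 96 128 480 496) = true := by decide +kernel
  have c5 : (go 16 Gd mult S227_241_364_512 (Tr.lf 4840761410 108096581 443754875438565722947584) 0 64 96 128 384 512) = true := by decide +kernel
  have c6 : (band (go 16 Gd mult S227_256_512_660 (Tr.lf 9135473284 94984776 0) 0 128 64 128 448 480)
  (band (go 16 Gd mult S227_256_512_660 (Tr.lf 4840505922 103779269 6537243384922991420122333184) 0 64 64 128 496 512)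
  (band (go 16 Gd mult S198_227_512_660 (Tr.lf 9136521794 103512903 6717148374001597261333659677) 0 64 64 128 496 512)
  (band (go 16 Gd mult S198_227_512_660 (Tr.lf 9136521858 103377863 137409796605062449987584) 0 64 64 128 480 496)
  (band (go 16 Gd mult S227_256_512_660 (Tr.lf 4840505666 107973573 428739225761157398659101) 0 64 64 128 480 496)
  (band (go 16 Gd mult S198_227_512_660 (Tr.lf 9144910402 103521095 0) 64 128 64 96 480 496)
  (go 16 Gd mult S198_227_512_660 (Tr.lf 9144910402 103521350 98155125216208524148736) 64 96 96 128 480 496))))))) = true := by decide +kernel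
  have c7 : (go 16 Gd mult S227_241_364_512 (Tr.lf 9144910916 95255495 278010879934876652404736) 0 128 64 96 480 512) = true := by decide +kernel
  have c8 : (band (go 16 Gd mult S198_227_512_660 (Tr.lf 4304675908 99449671 0) 0 128 64 128 384 448)
  (band (go 16 Gd mult S227_256_512_660 (Tr.lf 4303495746 95255366 0) 0 128 64 128 384 448)
  (go 16 Gd mult S241_256_364_512 (Tr.lf 4303491650 99449415 0) 0 128 64 128 384 448))) = true := by decide +kernel
  have c9 : (band (go 16 Gd mult S198_227_512_660 (Tr.lf 4841554466 103771206 0) 0 128 64 96 448 480)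
  (band (go 16 Gd mult S227_241_364_512 (Tr.lf 4303491362 99453638 0) 0 128 64 96 448 480)
  (go 16 Gd mult S227_241_364_512 (Tr.lf 4303491601 99576646 0) 64 128 96 128 384 448))) = true := by decide +kernel
  have c10 : (go 16 Gd mult S227_241_364_512 (Tr.lf 8458769 99847236 0) 0 128 64 96 384 448) = true := by decide +kernel
  (And.intro (Ok.s2 448 (Ok.lf S227_241_364_512_ok c10)
  (Ok.s2 480 (Ok.lf S227_241_364_512_ok (bl (br c9)))
  (Ok.lf S227_241_364_512_ok c7)))
  (And.intro (Ok.s0 64 (Ok.lf S227_241_364_512_ok c5)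
  (Ok.s2 448 (Ok.lf S227_241_364_512_ok (br (br c9)))
  (Ok.lf S227_241_364_512_ok c0)))
  (And.intro (Ok.s2 448 (Ok.lf S241_256_364_512_ok (br (br c8)))
  (Ok.lf S241_256_364_512_ok c2))
  (And.intro (Ok.s3 227 (Ok.lf S198_227_512_660_ok (bl c8))
  (Ok.lf S227_256_512_660_ok (bl (br c8))))
  (And.intro (Ok.s3 227 (Ok.s1 96 (Ok.lf S198_227_512_660_ok (bl c9))
  (Ok.lf S198_227_512_660_ok c3))
  (Ok.lf S227_256_512_660_ok (bl c6)))
  (And.intro (Ok.s0 64 (Ok.s3 227 (Ok.lf S198_227_512_660_ok (bl (br (br (br c6)))))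
  (Ok.lf S227_256_512_660_ok (bl (br (br (br (br c6)))))))
  (Ok.s3 227 (Ok.s1 96 (Ok.lf S198_227_512_660_ok (bl (br (br (br (br (br c6)))))))
  (Ok.s0 96 (Ok.lf S198_227_512_660_ok (br (br (br (br (br (br c6)))))))
  (Ok.lf S198_227_512_660_ok c4)))
  (Ok.lf S227_256_512_660_ok c1)))
  (Ok.s3 227 (Ok.lf S198_227_512_660_ok (bl (br (br c6))))
  (Ok.lf S227_256_512_660_ok (bl (br c6))))))))))

end Vale.Agent.P098.Ck
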