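import Vale.Agent.P098.CkGd
import Vale.Agent.P098.CkOk
import Vale.Agent.P098.Sh.A0
import Vale.Agent.P098.Sh.A1
import Vale.Agent.P098.Sh.A58
import Vale.Agent.P098.Sh.A59

namespace Vale.Agent.P098.Ck

theorem r511 :
    Ok Gd mult 256 384 192 256 0 128 430 488 364 512 ∧
    Ok Gd mult 256 384 192 256 0 128 430 488 512 808 ∧
    Ok Gd mult 256 384 192 256 128 256 24 82 216 808 :=
  have c0 : (band (go 16 Gd mult S24_82_216_364 (Tr.lf 13424035912 99183815 0) 256 384 192 224 128 256)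
  (go 16 Gd mult S24_82_512_660 (Tr.lf 13423970376 99183815 0) 256 384 192 224 128 256)) = true := by decide +kernel
  have c1 : (band (go 16 Gd mult S430_488_364_512 (Tr.lf 17717889096 103906120 0) 256 384 224 256 0 128)
  (band (go 16 Gd mult S430_488_660_808 (Tr.lf 17717889096 103906120 0) 256 384 224 256 0 128)
  (go 16 Gd mult S430_488_512_660 (Tr.lf 17717889096 103906120 0) 256 384 224 256 0 128))) = true := by decide +kernel
  have c2 : (band (go 16 Gd mult S24_82_364_512 (Tr.lf 13423970376 99183815 0) 256 384 192 224 128 256)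
  (go 16 Gd mult S24_82_660_808 (Tr.lf 13423970376 99183815 0) 256 384 192 224 128 256)) = true := by decide +kernel
  have c3 : (band (go 16 Gd mult S430_459_660_808 (Tr.lf 18265294920 99720010 0) 256 384 192 224 0 128)
  (band (go 16 Gd mult S430_459_364_512 (Tr.lf 18265229384 99720010 0) 256 384 192 224 0 128)
  (go 16 Gd mult S430_459_512_660 (Tr.lf 18265229384 107977546 0) 256 384 192 224 0 128))) = true := by decide +kernel
  have c4 : (band (go 16 Gd mult S459_488_364_512 (Tr.lf 22011791432 99445193 0) 256 384 192 224 0 64)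
  (band (go 16 Gd mult S459_488_512_660 (Tr.lf 22011790408 99445193 0) 256 384 192 224 0 64)
  (band (go 16 Gd mult S459_488_660_808 (Tr.lf 22011790408 99445193 0) 256 384 192 224 0 64)
  (band (go 16 Gd mult S459_488_364_512 (Tr.lf 22550758472 103373387 0) 256 384 192 224 64 128)
  (go 16 Gd mult S459_488_512_660 (Tr.lf 22550758472 103373387 0) 256 384 192 224 64 128))))) = true := by decide +kernel
  have c5 : (go 16 Gd mult S459_488_660_808 (Tr.lf 22550758472 103373387 0) 256 384 192 224 64 128) = true := by decide +kernel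
  have c6 : (band (go 16 Gd mult S24_82_216_364 (Tr.lf 8591066146 95513925 0) 256 384 224 256 128 256)
  (band (go 16 Gd mult S24_82_512_660 (Tr.lf 8591066146 99708229 0) 256 384 224 256 128 256)
  (band (go 16 Gd mult S24_82_660_808 (Tr.lf 8591066146 99708229 0) 256 384 224 256 128 256)
  (go 16 Gd mult S24_82_364_512 (Tr.lf 8591066146 99708229 0) 256 384 224 256 128 256)))) = true := by decide +kernel
  (And.intro (Ok.s1 224 (Ok.s3 459 (Ok.lf S430_459_364_512_ok (bl (br c3)))
  (Ok.s2 64 (Ok.lf S459_488_364_512_ok (bl c4))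
  (Ok.lf S459_488_364_512_ok (bl (br (br (br c4)))))))
  (Ok.lf S430_488_364_512_ok (bl c1)))
  (And.intro (Ok.s4 660 (Ok.s1 224 (Ok.s3 459 (Ok.lf S430_459_512_660_ok (br (br c3)))
  (Ok.s2 64 (Ok.lf S459_488_512_660_ok (bl (br c4)))
  (Ok.lf S459_488_512_660_ok (br (br (br (br c4)))))))
  (Ok.lf S430_488_512_660_ok (br (br c1))))
  (Ok.s1 224 (Ok.s3 459 (Ok.lf S430_459_660_808_ok (bl c3))
  (Ok.s2 64 (Ok.lf S459_488_660_808_ok (bl (br (br c4))))
  (Ok.lf S459_488_660_808_ok c5)))
  (Ok.lf S430_488_660_808_ok (bl (br c1)))))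
  (Ok.s4 512 (Ok.s4 364 (Ok.s1 224 (Ok.lf S24_82_216_364_ok (bl c0))
  (Ok.lf S24_82_216_364_ok (bl c6)))
  (Ok.s1 224 (Ok.lf S24_82_364_512_ok (bl c2))
  (Ok.lf S24_82_364_512_ok (br (br (br c6))))))
  (Ok.s4 660 (Ok.s1 224 (Ok.lf S24_82_512_660_ok (br c0))
  (Ok.lf S24_82_512_660_ok (bl (br c6))))
  (Ok.s1 224 (Ok.lf S24_82_660_808_ok (br c2))
  (Ok.lf S24_82_660_808_ok (bl (br (br c6)))))))))

end Vale.Agent.P098.Ck
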