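import Vale.Agent.P098.CkGd
import Vale.Agent.P098.CkOk
import Vale.Agent.P098.Sh.A12
import Vale.Agent.P098.Sh.A14
import Vale.Agent.P098.Sh.A2
import Vale.Agent.P098.Sh.A20
import Vale.Agent.P098.Sh.A3
import Vale.Agent.P098.Sh.A4
import Vale.Agent.P098.Sh.A5
import Vale.Agent.P098.Sh.A7
import Vale.Agent.P098.Sh.A8

namespace Vale.Agent.P098.Ck

theorem r512 :
    Ok Gd mult 256 384 192 256 128 256 82 140 216 364 ∧
    Ok Gd mult 256 384 192 256 128 256 82 140 364 512 ∧
    Ok Gd mult 256 384 192 256 128 256 82 140 512 808 ∧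
    Ok Gd mult 256 384 192 224 128 192 140 198 216 290 ∧
    Ok Gd mult 256 384 192 224 192 256 140 169 216 290 :=
  have c0 : (go 16 Gd mult S183_198_216_290 (Tr.lf 22577432648 103509067 0) 256 384 192 224 128 192) = true := by decide +kernel
  have c1 : (band (go 16 Gd mult S154_169_216_290 (Tr.lf 13440927880 99585096 0) 256 384 192 224 192 256)
  (go 16 Gd mult S140_154_216_290 (Tr.lf 13440926792 99454024 0) 256 384 192 224 192 256)) = true := by decide +kernel
  have c2 : (band (go 16 Gd mult S82_140_660_808 (Tr.lf 13423118466 103508935 0) 256 320 192 256 128 256)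
  (band (go 16 Gd mult S111_140_364_512 (Tr.lf 13432408194 103517383 0) 256 320 192 256 128 256)
  (band (go 16 Gd mult S111_140_512_660 (Tr.lf 13431358594 103517127 0) 256 320 192 256 128 256)
  (go 16 Gd mult S82_111_512_660 (Tr.lf 13422969922 103635911 0) 256 320 192 256 128 256)))) = true := by decide +kernel
  have c3 : (band (go 16 Gd mult S111_140_216_364 (Tr.lf 13432555588 99323079 0) 256 384 192 224 128 256)
  (go 16 Gd mult S82_111_364_512 (Tr.lf 13422969892 99441607 0) 256 384 192 224 128 256)) = true := by decide +kernel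
  have c4 : (band (go 16 Gd mult S140_169_216_290 (Tr.lf 17735911492 95382473 0) 256 320 192 224 128 192)
  (band (go 16 Gd mult S169_183_216_290 (Tr.lf 17735895108 99449801 0) 256 320 192 224 128 192)
  (go 16 Gd mult S140_169_216_290 (Tr.lf 13440943172 107842632 0) 320 384 192 224 128 192))) = true := by decide +kernel
  have c5 : (go 16 Gd mult S82_111_216_364 (Tr.lf 13422971012 99437639 0) 256 384 192 256 128 256) = true := by decide +kernel
  have c6 : (go 16 Gd mult S169_183_216_290 (Tr.lf 13440927812 108096712 0) 320 384 192 224 128 192) = true := by decide +kernel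
  have c7 : (band (go 16 Gd mult S82_140_512_660 (Tr.lf 9136407682 107978053 0) 320 384 192 256 128 256)
  (band (go 16 Gd mult S82_140_660_808 (Tr.lf 8591148162 99581253 0) 320 384 192 256 128 256)
  (go 16 Gd mult S111_140_364_512 (Tr.lf 9136391234 107977798 0) 320 384 192 256 128 256))) = true := by decide +kernel
  have c8 : (band (go 16 Gd mult S111_140_216_364 (Tr.lf 8591123492 95644997 0) 256 384 224 256 128 256)
  (go 16 Gd mult S82_111_364_512 (Tr.lf 8591057442 95521989 0) 256 384 224 256 128 256)) = true := by decide +kernel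
  (And.intro (Ok.s3 111 (Ok.lf S82_111_216_364_ok c5)
  (Ok.s1 224 (Ok.lf S111_140_216_364_ok (bl c3))
  (Ok.lf S111_140_216_364_ok (bl c8))))
  (And.intro (Ok.s3 111 (Ok.s1 224 (Ok.lf S82_111_364_512_ok (br c3))
  (Ok.lf S82_111_364_512_ok (br c8)))
  (Ok.s0 320 (Ok.lf S111_140_364_512_ok (bl (br c2)))
  (Ok.lf S111_140_364_512_ok (br (br c7)))))
  (And.intro (Ok.s4 660 (Ok.s0 320 (Ok.s3 111 (Ok.lf S82_111_512_660_ok (br (br (br c2))))
  (Ok.lf S111_140_512_660_ok (bl (br (br c2)))))
  (Ok.lf S82_140_512_660_ok (bl c7)))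
  (Ok.s0 320 (Ok.lf S82_140_660_808_ok (bl c2))
  (Ok.lf S82_140_660_808_ok (bl (br c7)))))
  (And.intro (Ok.s3 169 (Ok.s0 320 (Ok.lf S140_169_216_290_ok (bl c4))
  (Ok.lf S140_169_216_290_ok (br (br c4))))
  (Ok.s3 183 (Ok.s0 320 (Ok.lf S169_183_216_290_ok (bl (br c4)))
  (Ok.lf S169_183_216_290_ok c6))
  (Ok.lf S183_198_216_290_ok c0)))
  (Ok.s3 154 (Ok.lf S140_154_216_290_ok (br c1))
  (Ok.lf S154_169_216_290_ok (bl c1)))))))

end Vale.Agent.P098.Ck
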