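import Vale.Agent.P098.CkGd
import Vale.Agent.P098.CkOk
import Vale.Agent.P098.Sh.A10
import Vale.Agent.P098.Sh.A15
import Vale.Agent.P098.Sh.A18
import Vale.Agent.P098.Sh.A19
import Vale.Agent.P098.Sh.A21
import Vale.Agent.P098.Sh.A23
import Vale.Agent.P098.Sh.A30
import Vale.Agent.P098.Sh.A9

namespace Vale.Agent.P098.Ck

theorem r514 :
    Ok Gd mult 256 384 192 256 128 256 140 169 364 512 ∧
    Ok Gd mult 256 384 192 256 128 256 169 198 364 512 ∧
    Ok Gd mult 256 384 192 256 128 256 140 198 512 808 ∧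
    Ok Gd mult 256 384 192 256 128 192 198 227 216 290 :=
  have c0 : (band (go 16 Gd mult S140_169_364_512 (Tr.lf 13441205320 99585096 0) 256 384 192 224 192 256)
  (go 16 Gd mult S169_183_364_512 (Tr.lf 13440926792 103910472 0) 256 384 192 224 192 256)) = true := by decide +kernel
  have c1 : (go 16 Gd mult S169_198_364_512 (Tr.lf 13440156744 112163784 0) 256 384 192 224 128 192) = true := by decide +kernel
  have c2 : (band (go 16 Gd mult S169_198_364_512 (Tr.lf 13440156744 107973576 0) 256 384 224 256 192 256)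
  (go 16 Gd mult S140_169_364_512 (Tr.lf 9136521764 108231878 0) 256 384 224 256 192 256)) = true := by decide +kernel
  have c3 : (go 16 Gd mult S198_212_216_290 (Tr.lf 22577432648 103640139 0) 256 384 192 224 128 192) = true := by decide +kernel
  have c4 : (go 16 Gd mult S212_227_216_290 (Tr.lf 22576384072 103504843 0) 256 384 192 224 128 192) = true := by decide +kernel
  have c5 : (go 16 Gd mult S169_198_512_660 (Tr.lf 13439895682 107969480 0) 256 320 192 256 128 256) = true := by decide +kernel
  have c6 : (go 16 Gd mult S140_169_364_512 (Tr.lf 13431505992 99584967 0) 256 384 192 224 128 192) = true := by decide +kernel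
  have c7 : (band (go 16 Gd mult S169_198_364_512 (Tr.lf 13439894600 112159816 0) 256 384 224 256 128 192)
  (band (go 16 Gd mult S212_227_216_290 (Tr.lf 22576121928 103508939 0) 256 384 224 256 128 192)
  (go 16 Gd mult S140_169_364_512 (Tr.lf 12894487076 91192391 0) 256 384 224 256 128 192))) = true := by decide +kernel
  have c8 : (go 16 Gd mult S183_198_364_512 (Tr.lf 13441188936 107969736 0) 256 384 192 224 192 256) = true := by decide +kernel
  have c9 : (band (go 16 Gd mult S140_169_660_808 (Tr.lf 13431490692 99580999 0) 256 384 192 256 128 256)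
  (go 16 Gd mult S169_198_660_808 (Tr.lf 9136523396 108104902 0) 256 384 192 256 128 256)) = true := by decide +kernel
  have c10 : (go 16 Gd mult S169_198_512_660 (Tr.lf 9136523394 99978438 0) 320 384 192 256 128 256) = true := by decide +kernel
  have c11 : (go 16 Gd mult S140_169_512_660 (Tr.lf 13431490628 107834439 0) 256 384 192 224 128 256) = true := by decide +kernel
  have c12 : (go 16 Gd mult S198_212_216_290 (Tr.lf 22576120904 99314635 0) 256 384 224 256 128 192) = true := by decide +kernel
  have c13 : (go 16 Gd mult S140_169_512_660 (Tr.lf 8590083108 99843141 0) 256 384 224 256 128 256) = true := by decide +kernel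
  (And.intro (Ok.s2 192 (Ok.s1 224 (Ok.lf S140_169_364_512_ok c6)
  (Ok.lf S140_169_364_512_ok (br (br c7))))
  (Ok.s1 224 (Ok.lf S140_169_364_512_ok (bl c0))
  (Ok.lf S140_169_364_512_ok (br c2))))
  (And.intro (Ok.s2 192 (Ok.s1 224 (Ok.lf S169_198_364_512_ok c1)
  (Ok.lf S169_198_364_512_ok (bl c7)))
  (Ok.s1 224 (Ok.s3 183 (Ok.lf S169_183_364_512_ok (br c0))
  (Ok.lf S183_198_364_512_ok c8))
  (Ok.lf S169_198_364_512_ok (bl c2))))
  (And.intro (Ok.s4 660 (Ok.s3 169 (Ok.s1 224 (Ok.lf S140_169_512_660_ok c11)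
  (Ok.lf S140_169_512_660_ok c13))
  (Ok.s0 320 (Ok.lf S169_198_512_660_ok c5)
  (Ok.lf S169_198_512_660_ok c10)))
  (Ok.s3 169 (Ok.lf S140_169_660_808_ok (bl c9))
  (Ok.lf S169_198_660_808_ok (br c9))))
  (Ok.s1 224 (Ok.s3 212 (Ok.lf S198_212_216_290_ok c3)
  (Ok.lf S212_227_216_290_ok c4))
  (Ok.s3 212 (Ok.lf S198_212_216_290_ok c12)
  (Ok.lf S212_227_216_290_ok (bl (br c7))))))))

end Vale.Agent.P098.Ck
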