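import Vale.Agent.P098.CkGd
import Vale.Agent.P098.CkOk
import Vale.Agent.P098.Sh.A23
import Vale.Agent.P098.Sh.A26
import Vale.Agent.P098.Sh.A31
import Vale.Agent.P098.Sh.A35
import Vale.Agent.P098.Sh.A37

namespace Vale.Agent.P098.Ck

theorem r517 :
    Ok Gd mult 256 384 192 256 128 192 198 227 364 438 ∧
    Ok Gd mult 256 384 192 256 192 256 198 227 364 438 ∧
    Ok Gd mult 256 384 192 256 128 256 198 227 438 512 ∧
    Ok Gd mult 256 384 192 256 128 192 227 256 364 512 ∧
    Ok Gd mult 256 384 192 256 192 256 227 241 364 512 :=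
  have c0 : (band (go 16 Gd mult S198_227_364_438 (Tr.lf 13438847108 108096328 0) 320 384 192 256 192 256)
  (go 16 Gd mult S227_241_364_512 (Tr.lf 13439083652 108096328 0) 320 384 192 256 192 256)) = true := by decide +kernel
  have c1 : (band (go 16 Gd mult S198_227_364_438 (Tr.lf 17734862916 99580745 0) 256 320 224 256 128 192)
  (band (go 16 Gd mult S227_256_364_438 (Tr.lf 17734861892 99581000 0) 256 320 224 256 128 192)
  (go 16 Gd mult S198_227_364_438 (Tr.lf 17734861892 103770953 0) 256 320 192 224 128 192))) = true := by decide +kernel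
  have c2 : (band (go 16 Gd mult S212_227_364_438 (Tr.lf 18280106116 95255242 0) 256 320 192 224 192 256)
  (go 16 Gd mult S227_241_364_438 (Tr.lf 18280106116 95255242 0) 256 320 192 224 192 256)) = true := by decide +kernel
  have c3 : (band (go 16 Gd mult S212_227_364_438 (Tr.lf 18280106116 107969226 0) 256 320 224 256 192 256)
  (go 16 Gd mult S227_241_364_438 (Tr.lf 18280106116 107969226 0) 256 320 224 256 192 256)) = true := by decide +kernel
  have c4 : (band (go 16 Gd mult S198_227_438_512 (Tr.lf 13439894660 108100552 0) 256 320 192 256 192 256)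
  (go 16 Gd mult S227_241_438_512 (Tr.lf 13439878276 108100807 0) 256 320 192 256 192 256)) = true := by decide +kernel
  have c5 : (go 16 Gd mult S227_256_438_512 (Tr.lf 13438829704 108096328 0) 256 384 192 256 128 192) = true := by decide +kernel
  have c6 : (band (go 16 Gd mult S198_227_438_512 (Tr.lf 13439764610 108096584 0) 320 384 192 256 128 256)
  (go 16 Gd mult S198_227_438_512 (Tr.lf 13439763588 104037320 0) 256 320 192 256 128 192)) = true := by decide +kernel
  have c7 : (band (go 16 Gd mult S198_227_364_438 (Tr.lf 13438715012 104033096 0) 320 384 192 256 128 192)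
  (go 16 Gd mult S227_256_364_438 (Tr.lf 13438829700 104033096 0) 320 384 192 256 128 192)) = true := by decide +kernel
  have c8 : (band (go 16 Gd mult S198_212_364_438 (Tr.lf 17734845572 95386186 0) 256 320 192 256 224 256)
  (go 16 Gd mult S198_212_364_438 (Tr.lf 17734845060 95386441 0) 256 320 192 256 192 224)) = true := by decide +kernel
  have c9 : (go 16 Gd mult S227_256_364_438 (Tr.lf 17734861892 103770953 0) 256 320 192 224 128 192) = true := by decide +kernel
  (And.intro (Ok.s0 320 (Ok.s1 224 (Ok.lf S198_227_364_438_ok (br (br c1)))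
  (Ok.lf S198_227_364_438_ok (bl c1)))
  (Ok.lf S198_227_364_438_ok (bl c7)))
  (And.intro (Ok.s0 320 (Ok.s3 212 (Ok.s2 224 (Ok.lf S198_212_364_438_ok (br c8))
  (Ok.lf S198_212_364_438_ok (bl c8)))
  (Ok.s1 224 (Ok.lf S212_227_364_438_ok (bl c2))
  (Ok.lf S212_227_364_438_ok (bl c3))))
  (Ok.lf S198_227_364_438_ok (bl c0)))
  (And.intro (Ok.s0 320 (Ok.s2 192 (Ok.lf S198_227_438_512_ok (br c6))
  (Ok.lf S198_227_438_512_ok (bl c4)))
  (Ok.lf S198_227_438_512_ok (bl c6)))
  (And.intro (Ok.s4 438 (Ok.s0 320 (Ok.s1 224 (Ok.lf S227_256_364_438_ok c9)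
  (Ok.lf S227_256_364_438_ok (bl (br c1))))
  (Ok.lf S227_256_364_438_ok (br c7)))
  (Ok.lf S227_256_438_512_ok c5))
  (Ok.s0 320 (Ok.s4 438 (Ok.s1 224 (Ok.lf S227_241_364_438_ok (br c2))
  (Ok.lf S227_241_364_438_ok (br c3)))
  (Ok.lf S227_241_438_512_ok (br c4)))
  (Ok.lf S227_241_364_512_ok (br c0)))))))

end Vale.Agent.P098.Ck
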