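import Vale.Agent.P098.CkGd
import Vale.Agent.P098.CkOk
import Vale.Agent.P098.Sh.A40
import Vale.Agent.P098.Sh.A42
import Vale.Agent.P098.Sh.A44
import Vale.Agent.P098.Sh.A45
import Vale.Agent.P098.Sh.A46
import Vale.Agent.P098.Sh.A47
import Vale.Agent.P098.Sh.A48
import Vale.Agent.P098.Sh.A49
import Vale.Agent.P098.Sh.A51
import Vale.Agent.P098.Sh.A52

namespace Vale.Agent.P098.Ck

theorem r519 :
    Ok Gd mult 256 384 192 256 128 256 256 314 364 512 ∧
    Ok Gd mult 256 384 192 256 128 256 256 314 512 808 ∧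
    Ok Gd mult 256 384 192 256 128 256 314 372 216 808 :=
  have c0 : (band (go 16 Gd mult S256_270_364_512 (Tr.lf 17734051976 99445194 0) 256 384 192 256 128 256)
  (go 16 Gd mult S270_285_364_512 (Tr.lf 17725401160 99572042 0) 256 384 192 256 128 256)) = true := by decide +kernel
  have c1 : (band (go 16 Gd mult S343_372_512_660 (Tr.lf 13431490696 107973448 0) 256 384 192 256 128 256)
  (go 16 Gd mult S285_314_364_512 (Tr.lf 12885182532 99703368 0) 256 384 192 256 128 256)) = true := by decide +kernel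
  have c2 : (band (go 16 Gd mult S314_343_216_364 (Tr.lf 12894619780 95390536 0) 256 384 192 256 128 256)
  (band (go 16 Gd mult S343_372_660_808 (Tr.lf 13431490692 107973448 0) 256 384 192 256 128 256)
  (go 16 Gd mult S256_285_512_660 (Tr.lf 13497549892 108231240 0) 256 384 192 256 128 256))) = true := by decide +kernel
  have c3 : (band (go 16 Gd mult S343_372_216_364 (Tr.lf 13431490692 108100424 0) 256 320 192 256 128 256)
  (go 16 Gd mult S343_372_216_364 (Tr.lf 12886231106 103770952 0) 320 384 192 256 128 256)) = true := by decide +kernel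
  have c4 : (band (go 16 Gd mult S314_343_364_512 (Tr.lf 12894619716 99453768 0) 256 384 192 256 128 256)
  (band (go 16 Gd mult S256_285_660_808 (Tr.lf 12893570116 95382343 0) 256 384 192 256 128 256)
  (band (go 16 Gd mult S285_314_660_808 (Tr.lf 12893570116 95382088 0) 256 384 192 256 128 256)
  (band (go 16 Gd mult S314_343_512_660 (Tr.lf 8598602820 104168390 0) 256 384 192 256 128 256)
  (go 16 Gd mult S314_343_660_808 (Tr.lf 8598602820 104045382 0) 256 384 192 256 128 256))))) = true := by decide +kernel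
  have c5 : (band (go 16 Gd mult S343_372_364_512 (Tr.lf 13431489608 112168007 0) 256 384 192 256 128 192)
  (go 16 Gd mult S343_372_364_512 (Tr.lf 9136522308 108108998 0) 256 384 192 256 192 256)) = true := by decide +kernel
  have c6 : (go 16 Gd mult S285_314_512_660 (Tr.lf 8598594628 108108614 0) 256 384 192 256 128 256) = true := by decide +kernel
  (And.intro (Ok.s3 285 (Ok.s3 270 (Ok.lf S256_270_364_512_ok (bl c0))
  (Ok.lf S270_285_364_512_ok (br c0)))
  (Ok.lf S285_314_364_512_ok (br c1)))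
  (And.intro (Ok.s4 660 (Ok.s3 285 (Ok.lf S256_285_512_660_ok (br (br c2)))
  (Ok.lf S285_314_512_660_ok c6))
  (Ok.s3 285 (Ok.lf S256_285_660_808_ok (bl (br c4)))
  (Ok.lf S285_314_660_808_ok (bl (br (br c4))))))
  (Ok.s4 512 (Ok.s4 364 (Ok.s3 343 (Ok.lf S314_343_216_364_ok (bl c2))
  (Ok.s0 320 (Ok.lf S343_372_216_364_ok (bl c3))
  (Ok.lf S343_372_216_364_ok (br c3))))
  (Ok.s3 343 (Ok.lf S314_343_364_512_ok (bl c4))
  (Ok.s2 192 (Ok.lf S343_372_364_512_ok (bl c5))
  (Ok.lf S343_372_364_512_ok (br c5)))))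
  (Ok.s4 660 (Ok.s3 343 (Ok.lf S314_343_512_660_ok (bl (br (br (br c4)))))
  (Ok.lf S343_372_512_660_ok (bl c1)))
  (Ok.s3 343 (Ok.lf S314_343_660_808_ok (br (br (br (br c4)))))
  (Ok.lf S343_372_660_808_ok (bl (br c2))))))))

end Vale.Agent.P098.Ck
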