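import Vale.Agent.P098.CkGd
import Vale.Agent.P098.CkOk
import Vale.Agent.P098.Sh.A24
import Vale.Agent.P098.Sh.A27
import Vale.Agent.P098.Sh.A32
import Vale.Agent.P098.Sh.A35
import Vale.Agent.P098.Sh.A38
import Vale.Agent.P098.Sh.A39

namespace Vale.Agent.P098.Ck

theorem r52 :
    Ok Gd mult 64 128 64 128 496 504 198 212 512 660 ∧
    Ok Gd mult 64 128 64 128 496 504 212 227 512 660 ∧
    Ok Gd mult 64 128 64 128 504 512 198 227 512 660 ∧
    Ok Gd mult 64 128 64 128 496 512 227 256 512 660 ∧
    Ok Gd mult 0 128 64 128 384 448 198 256 660 808 ∧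
    Ok Gd mult 0 128 64 128 448 480 198 256 660 808 ∧
    Ok Gd mult 0 128 64 128 480 496 198 256 660 808 :=
  have c0 : (go 16 Gd mult S198_227_660_808 (Tr.lf 13440156744 90663625 136856394290990126465053) 0 128 96 128 480 496) = true := by decide +kernel
  have c1 : (go 16 Gd mult S227_256_660_808 (Tr.lf 13440156232 94857929 372734910753375199953021) 0 128 96 128 480 496) = true := by decide +kernel
  have c2 : (go 16 Gd mult S212_227_512_660 (Tr.lf 13986464386 95005640 7215113563245130976528957440) 112 128 64 128 500 504) = true := by decide +kernel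
  have c3 : (band (go 16 Gd mult S198_227_512_660 (Tr.lf 13977027140 99183432 12840243077622247239033290752) 64 128 64 96 504 512)
  (go 16 Gd mult S198_227_512_660 (Tr.lf 13978075716 103386311 43453921561506453435583561728) 64 128 96 128 504 512)) = true := by decide +kernel
  have c4 : (go 16 Gd mult S227_241_512_660 (Tr.lf 13977011268 103508808 5250781435862658061143179293) 64 128 96 128 496 512) = true := by decide +kernel
  have c5 : (band (go 16 Gd mult S198_227_660_808 (Tr.lf 9136522372 103500616 0) 0 128 64 128 448 480)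
  (band (go 16 Gd mult S227_256_660_808 (Tr.lf 4303635012 95263430 0) 0 128 64 128 448 480)
  (band (go 16 Gd mult S198_227_660_808 (Tr.lf 9144910404 95128519 0) 0 128 64 96 480 496)
  (go 16 Gd mult S227_256_660_808 (Tr.lf 4840505636 107973573 0) 0 128 64 96 480 496)))) = true := by decide +kernel
  have c6 : (go 16 Gd mult S198_212_512_660 (Tr.lf 13986447940 99199944 5586497605068190771128041472) 64 128 96 128 496 504) = true := by decide +kernel
  have c7 : (band (go 16 Gd mult S212_227_512_660 (Tr.lf 13977010817 99191496 6594972987010499525772050432) 96 112 64 128 496 504)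
  (go 16 Gd mult S212_227_512_660 (Tr.lf 18281415042 90799049 5558804910142880223212863488) 112 128 96 128 496 500)) = true := by decide +kernel
  have c8 : (go 16 Gd mult S198_212_512_660 (Tr.lf 13976748612 99183432 0) 64 128 64 96 496 504) = true := by decide +kernel
  have c9 : (go 16 Gd mult S241_256_512_660 (Tr.lf 9143853698 103521094 6560326957927302109956407547) 64 128 64 128 496 512) = true := by decide +kernel
  have c10 : (band (go 16 Gd mult S198_227_660_808 (Tr.lf 4304675906 95255622 0) 0 128 64 128 384 448)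
  (go 16 Gd mult S227_256_660_808 (Tr.lf 4303495746 99576646 0) 0 128 64 128 384 448)) = true := by decide +kernel
  have c11 : (go 16 Gd mult S227_241_512_660 (Tr.lf 9143853634 99584838 374173756791124544979147) 64 128 64 96 496 512) = true := by decide +kernel
  have c12 : (band (go 16 Gd mult S212_227_512_660 (Tr.lf 9144902017 103648326 6639737313472544946778013696) 64 96 64 128 496 504)
  (go 16 Gd mult S212_227_512_660 (Tr.lf 9144901921 99454022 0) 112 128 64 96 496 500)) = true := by decide +kernel
  (And.intro (Ok.s1 96 (Ok.lf S198_212_512_660_ok c8)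
  (Ok.lf S198_212_512_660_ok c6))
  (And.intro (Ok.s0 96 (Ok.lf S212_227_512_660_ok (bl c12))
  (Ok.s0 112 (Ok.lf S212_227_512_660_ok (bl c7))
  (Ok.s2 500 (Ok.s1 96 (Ok.lf S212_227_512_660_ok (br c12))
  (Ok.lf S212_227_512_660_ok (br c7)))
  (Ok.lf S212_227_512_660_ok c2))))
  (And.intro (Ok.s1 96 (Ok.lf S198_227_512_660_ok (bl c3))
  (Ok.lf S198_227_512_660_ok (br c3)))
  (And.intro (Ok.s3 241 (Ok.s1 96 (Ok.lf S227_241_512_660_ok c11)
  (Ok.lf S227_241_512_660_ok c4))
  (Ok.lf S241_256_512_660_ok c9))
  (And.intro (Ok.s3 227 (Ok.lf S198_227_660_808_ok (bl c10))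
  (Ok.lf S227_256_660_808_ok (br c10)))
  (And.intro (Ok.s3 227 (Ok.lf S198_227_660_808_ok (bl c5))
  (Ok.lf S227_256_660_808_ok (bl (br c5))))
  (Ok.s3 227 (Ok.s1 96 (Ok.lf S198_227_660_808_ok (bl (br (br c5))))
  (Ok.lf S198_227_660_808_ok c0))
  (Ok.s1 96 (Ok.lf S227_256_660_808_ok (br (br (br c5))))
  (Ok.lf S227_256_660_808_ok c1)))))))))

end Vale.Agent.P098.Ck
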