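import Vale.Agent.P098.CkGd
import Vale.Agent.P098.CkOk
import Vale.Agent.P098.Sh.A0
import Vale.Agent.P098.Sh.A1
import Vale.Agent.P098.Sh.A2
import Vale.Agent.P098.Sh.A5
import Vale.Agent.P098.Sh.A58
import Vale.Agent.P098.Sh.A59

namespace Vale.Agent.P098.Ck

theorem r523 :
    Ok Gd mult 256 384 192 224 128 256 430 488 660 808 ∧
    Ok Gd mult 256 384 224 256 128 256 430 488 660 808 ∧
    Ok Gd mult 256 384 192 256 256 384 24 82 216 808 ∧
    Ok Gd mult 256 384 192 256 256 384 82 140 216 512 :=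
  have c0 : (band (go 16 Gd mult S430_459_660_808 (Tr.lf 18802182280 95124554 0) 256 384 192 224 128 192)
  (go 16 Gd mult S459_488_660_808 (Tr.lf 18803148936 95124300 0) 256 384 192 224 128 192)) = true := by decide +kernel
  have c1 : (band (go 16 Gd mult S430_459_660_808 (Tr.lf 13961955464 99449674 0) 256 384 192 224 192 256)
  (go 16 Gd mult S459_488_660_808 (Tr.lf 13961873480 95255370 0) 256 384 192 224 192 256)) = true := by decide +kernel
  have c2 : (band (go 16 Gd mult S430_459_660_808 (Tr.lf 18255874184 112028362 0) 256 384 224 256 128 256)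
  (go 16 Gd mult S459_488_660_808 (Tr.lf 18255792264 107834058 0) 256 384 224 256 128 256)) = true := by decide +kernel
  have c3 : (band (go 16 Gd mult S82_111_216_364 (Tr.lf 9137440904 107846727 0) 256 384 192 256 256 384)
  (go 16 Gd mult S82_111_364_512 (Tr.lf 9137440900 107846727 0) 256 384 192 256 256 384)) = true := by decide +kernel
  have c4 : (band (go 16 Gd mult S111_140_216_364 (Tr.lf 9137570948 107977799 0) 256 384 192 256 256 320)
  (band (go 16 Gd mult S111_140_364_512 (Tr.lf 9137439876 107977799 0) 256 384 192 256 256 320)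
  (band (go 16 Gd mult S24_82_216_364 (Tr.lf 9128985732 103902279 0) 256 384 192 256 256 320)
  (band (go 16 Gd mult S24_82_364_512 (Tr.lf 9128985732 103902279 0) 256 384 192 256 256 320)
  (go 16 Gd mult S24_82_512_660 (Tr.lf 9128985668 103902279 0) 256 384 192 256 256 320))))) = true := by decide +kernel
  have c5 : (band (go 16 Gd mult S111_140_216_364 (Tr.lf 9136522308 103783494 0) 256 384 192 256 320 384)
  (band (go 16 Gd mult S111_140_364_512 (Tr.lf 9136391236 103783494 0) 256 384 192 256 320 384)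
  (band (go 16 Gd mult S24_82_216_364 (Tr.lf 9127936580 107965510 0) 256 384 192 256 320 384)
  (band (go 16 Gd mult S24_82_364_512 (Tr.lf 9127936580 107965510 0) 256 384 192 256 320 384)
  (band (go 16 Gd mult S24_82_512_660 (Tr.lf 9127936580 99707974 0) 256 384 192 256 320 384)
  (band (go 16 Gd mult S24_82_660_808 (Tr.lf 9127936580 99707974 0) 256 384 192 256 320 384)
  (go 16 Gd mult S24_82_660_808 (Tr.lf 9128985668 103902279 0) 256 384 192 256 256 320))))))) = true := by decide +kernel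
  (And.intro (Ok.s3 459 (Ok.s2 192 (Ok.lf S430_459_660_808_ok (bl c0))
  (Ok.lf S430_459_660_808_ok (bl c1)))
  (Ok.s2 192 (Ok.lf S459_488_660_808_ok (br c0))
  (Ok.lf S459_488_660_808_ok (br c1))))
  (And.intro (Ok.s3 459 (Ok.lf S430_459_660_808_ok (bl c2))
  (Ok.lf S459_488_660_808_ok (br c2)))
  (And.intro (Ok.s4 512 (Ok.s4 364 (Ok.s2 320 (Ok.lf S24_82_216_364_ok (bl (br (br c4))))
  (Ok.lf S24_82_216_364_ok (bl (br (br c5)))))
  (Ok.s2 320 (Ok.lf S24_82_364_512_ok (bl (br (br (br c4)))))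
  (Ok.lf S24_82_364_512_ok (bl (br (br (br c5)))))))
  (Ok.s4 660 (Ok.s2 320 (Ok.lf S24_82_512_660_ok (br (br (br (br c4)))))
  (Ok.lf S24_82_512_660_ok (bl (br (br (br (br c5)))))))
  (Ok.s2 320 (Ok.lf S24_82_660_808_ok (br (br (br (br (br (br c5)))))))
  (Ok.lf S24_82_660_808_ok (bl (br (br (br (br (br c5))))))))))
  (Ok.s4 364 (Ok.s3 111 (Ok.lf S82_111_216_364_ok (bl c3))
  (Ok.s2 320 (Ok.lf S111_140_216_364_ok (bl c4))
  (Ok.lf S111_140_216_364_ok (bl c5))))
  (Ok.s3 111 (Ok.lf S82_111_364_512_ok (br c3))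
  (Ok.s2 320 (Ok.lf S111_140_364_512_ok (bl (br c4)))
  (Ok.lf S111_140_364_512_ok (bl (br c5)))))))))

end Vale.Agent.P098.Ck
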