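import Vale.Agent.P098.CkGd
import Vale.Agent.P098.CkOk
import Vale.Agent.P098.Sh.A12
import Vale.Agent.P098.Sh.A14
import Vale.Agent.P098.Sh.A15
import Vale.Agent.P098.Sh.A16
import Vale.Agent.P098.Sh.A17
import Vale.Agent.P098.Sh.A20
import Vale.Agent.P098.Sh.A21
import Vale.Agent.P098.Sh.A3
import Vale.Agent.P098.Sh.A5
import Vale.Agent.P098.Sh.A6
import Vale.Agent.P098.Sh.A7
import Vale.Agent.P098.Sh.A8

namespace Vale.Agent.P098.Ck

theorem r524 :
    Ok Gd mult 256 384 192 256 256 384 82 140 512 808 ∧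
    Ok Gd mult 256 384 192 256 256 384 140 198 216 364 :=
  have c0 : (band (go 16 Gd mult S111_140_512_660 (Tr.lf 9137571976 107977799 0) 256 384 192 256 256 384)
  (go 16 Gd mult S82_111_512_660 (Tr.lf 9129052292 107838535 0) 256 384 192 256 256 384)) = true := by decide +kernel
  have c1 : (band (go 16 Gd mult S154_169_216_364 (Tr.lf 13441189960 99327048 0) 256 384 192 224 256 320)
  (go 16 Gd mult S140_154_216_364 (Tr.lf 13440918596 95259720 0) 256 384 192 224 256 320)) = true := by decide +kernel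
  have c2 : (go 16 Gd mult S183_198_216_290 (Tr.lf 18281416776 107703242 0) 256 384 192 208 256 320) = true := by decide +kernel
  have c3 : (go 16 Gd mult S183_198_290_364 (Tr.lf 13449316488 103766986 0) 256 384 192 224 256 320) = true := by decide +kernel
  have c4 : (band (go 16 Gd mult S183_198_216_364 (Tr.lf 13986449540 107838537 0) 256 320 192 224 320 384)
  (go 16 Gd mult S183_198_216_364 (Tr.lf 13441188932 99580873 0) 320 384 192 224 320 384)) = true := by decide +kernel
  have c5 : (go 16 Gd mult S169_198_216_364 (Tr.lf 13440156744 99457992 0) 256 384 224 256 256 320) = true := by decide +kernel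
  have c6 : (band (go 16 Gd mult S111_140_660_808 (Tr.lf 9136523396 107977798 0) 256 384 192 256 256 384)
  (go 16 Gd mult S82_111_660_808 (Tr.lf 9129052292 107838535 0) 256 384 192 256 256 384)) = true := by decide +kernel
  have c7 : (band (go 16 Gd mult S140_169_216_364 (Tr.lf 9146238020 103775559 0) 256 384 192 224 320 384)
  (go 16 Gd mult S169_183_216_364 (Tr.lf 13441188936 99449801 0) 256 384 192 224 320 384)) = true := by decide +kernel
  have c8 : (go 16 Gd mult S169_183_216_290 (Tr.lf 13986187336 99449929 0) 256 384 192 208 256 320) = true := by decide +kernel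
  have c9 : (go 16 Gd mult S169_183_290_364 (Tr.lf 13440927816 103644360 0) 256 384 192 224 256 320) = true := by decide +kernel
  have c10 : (band (go 16 Gd mult S169_198_216_290 (Tr.lf 13440944164 103902408 0) 256 320 208 224 256 320)
  (go 16 Gd mult S169_198_216_290 (Tr.lf 13439894564 103775176 0) 320 384 208 224 256 320)) = true := by decide +kernel
  have c11 : (go 16 Gd mult S140_169_216_364 (Tr.lf 9136523300 107973575 0) 256 384 224 256 256 384) = true := by decide +kernel
  have c12 : (go 16 Gd mult S169_198_216_364 (Tr.lf 9136522276 107977671 0) 256 384 224 256 320 384) = true := by decide +kernel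
  (And.intro (Ok.s4 660 (Ok.s3 111 (Ok.lf S82_111_512_660_ok (br c0))
  (Ok.lf S111_140_512_660_ok (bl c0)))
  (Ok.s3 111 (Ok.lf S82_111_660_808_ok (br c6))
  (Ok.lf S111_140_660_808_ok (bl c6))))
  (Ok.s1 224 (Ok.s3 169 (Ok.s2 320 (Ok.s3 154 (Ok.lf S140_154_216_364_ok (br c1))
  (Ok.lf S154_169_216_364_ok (bl c1)))
  (Ok.lf S140_169_216_364_ok (bl c7)))
  (Ok.s2 320 (Ok.s4 290 (Ok.s1 208 (Ok.s3 183 (Ok.lf S169_183_216_290_ok c8)
  (Ok.lf S183_198_216_290_ok c2))
  (Ok.s0 320 (Ok.lf S169_198_216_290_ok (bl c10))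
  (Ok.lf S169_198_216_290_ok (br c10))))
  (Ok.s3 183 (Ok.lf S169_183_290_364_ok c9)
  (Ok.lf S183_198_290_364_ok c3)))
  (Ok.s3 183 (Ok.lf S169_183_216_364_ok (br c7))
  (Ok.s0 320 (Ok.lf S183_198_216_364_ok (bl c4))
  (Ok.lf S183_198_216_364_ok (br c4))))))
  (Ok.s3 169 (Ok.lf S140_169_216_364_ok c11)
  (Ok.s2 320 (Ok.lf S169_198_216_364_ok c5)
  (Ok.lf S169_198_216_364_ok c12)))))

end Vale.Agent.P098.Ck
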