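import Vale.Agent.P098.CkGd
import Vale.Agent.P098.CkOk
import Vale.Agent.P098.Sh.A10
import Vale.Agent.P098.Sh.A19
import Vale.Agent.P098.Sh.A23
import Vale.Agent.P098.Sh.A30
import Vale.Agent.P098.Sh.A31

namespace Vale.Agent.P098.Ck

theorem r526 :
    Ok Gd mult 256 384 192 256 256 384 140 198 660 808 ∧
    Ok Gd mult 256 384 192 224 256 320 198 227 216 364 ∧
    Ok Gd mult 256 384 224 256 256 320 198 227 216 290 :=
  have c0 : (go 16 Gd mult S169_198_660_808 (Tr.lf 13440157764 99584840 0) 256 384 192 224 256 384) = true := by decide +kernel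
  have c1 : (go 16 Gd mult S198_212_216_290 (Tr.lf 18281416836 99576778 0) 256 320 192 224 256 320) = true := by decide +kernel
  have c2 : (go 16 Gd mult S212_227_216_290 (Tr.lf 18281415816 103644106 0) 256 384 192 224 288 320) = true := by decide +kernel
  have c3 : (band (go 16 Gd mult S198_212_216_290 (Tr.lf 18281415812 103644106 0) 320 384 192 224 256 288)
  (go 16 Gd mult S212_227_216_290 (Tr.lf 18281415812 103644106 0) 320 384 192 224 256 288)) = true := by decide +kernel
  have c4 : (go 16 Gd mult S198_212_216_290 (Tr.lf 18281415812 99449802 0) 320 384 192 224 288 320) = true := by decide +kernel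
  have c5 : (band (go 16 Gd mult S212_227_216_290 (Tr.lf 22584771716 90925772 0) 256 320 192 224 256 288)
  (go 16 Gd mult S212_227_290_364 (Tr.lf 18280367236 99576522 0) 256 320 192 224 256 288)) = true := by decide +kernel
  have c6 : (band (go 16 Gd mult S198_212_290_364 (Tr.lf 18281154692 99576778 0) 256 320 192 224 256 320)
  (go 16 Gd mult S198_212_290_364 (Tr.lf 13449316484 103898058 0) 320 384 192 224 256 320)) = true := by decide +kernel
  have c7 : (band (go 16 Gd mult S212_227_290_364 (Tr.lf 17743235204 95255242 0) 320 384 192 224 256 320)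
  (go 16 Gd mult S212_227_290_364 (Tr.lf 18281153668 107834314 0) 256 320 192 224 288 320)) = true := by decide +kernel
  have c8 : (go 16 Gd mult S198_212_216_290 (Tr.lf 13439879240 99581000 0) 256 384 224 256 256 320) = true := by decide +kernel
  have c9 : (go 16 Gd mult S212_227_216_290 (Tr.lf 17743497284 99322570 0) 256 320 224 256 256 320) = true := by decide +kernel
  have c10 : (band (go 16 Gd mult S140_169_660_808 (Tr.lf 13432538244 103644232 0) 256 384 192 256 256 320)
  (go 16 Gd mult S140_169_660_808 (Tr.lf 13432538244 99449928 0) 256 384 192 256 320 384)) = true := by decide +kernel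
  have c11 : (go 16 Gd mult S212_227_216_290 (Tr.lf 18281153604 103513162 0) 320 384 224 256 256 320) = true := by decide +kernel
  have c12 : (go 16 Gd mult S169_198_660_808 (Tr.lf 9135473700 108239686 0) 256 384 224 256 256 384) = true := by decide +kernel
  (And.intro (Ok.s3 169 (Ok.s2 320 (Ok.lf S140_169_660_808_ok (bl c10))
  (Ok.lf S140_169_660_808_ok (br c10)))
  (Ok.s1 224 (Ok.lf S169_198_660_808_ok c0)
  (Ok.lf S169_198_660_808_ok c12)))
  (And.intro (Ok.s4 290 (Ok.s3 212 (Ok.s0 320 (Ok.lf S198_212_216_290_ok c1)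
  (Ok.s2 288 (Ok.lf S198_212_216_290_ok (bl c3))
  (Ok.lf S198_212_216_290_ok c4)))
  (Ok.s2 288 (Ok.s0 320 (Ok.lf S212_227_216_290_ok (bl c5))
  (Ok.lf S212_227_216_290_ok (br c3)))
  (Ok.lf S212_227_216_290_ok c2)))
  (Ok.s3 212 (Ok.s0 320 (Ok.lf S198_212_290_364_ok (bl c6))
  (Ok.lf S198_212_290_364_ok (br c6)))
  (Ok.s0 320 (Ok.s2 288 (Ok.lf S212_227_290_364_ok (br c5))
  (Ok.lf S212_227_290_364_ok (br c7)))
  (Ok.lf S212_227_290_364_ok (bl c7)))))
  (Ok.s3 212 (Ok.lf S198_212_216_290_ok c8)
  (Ok.s0 320 (Ok.lf S212_227_216_290_ok c9)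
  (Ok.lf S212_227_216_290_ok c11)))))

end Vale.Agent.P098.Ck
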