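import Vale.Agent.P098.CkGd
import Vale.Agent.P098.CkOk
import Vale.Agent.P098.Sh.A23
import Vale.Agent.P098.Sh.A25
import Vale.Agent.P098.Sh.A30
import Vale.Agent.P098.Sh.A31
import Vale.Agent.P098.Sh.A34
import Vale.Agent.P098.Sh.A39

namespace Vale.Agent.P098.Ck

theorem r527 :
    Ok Gd mult 256 384 224 256 256 320 198 227 290 364 ∧
    Ok Gd mult 256 384 192 256 320 384 198 227 216 364 ∧
    Ok Gd mult 256 320 192 256 256 320 227 256 216 290 :=
  have c0 : (go 16 Gd mult S198_212_290_364 (Tr.lf 17734846600 99187402 0) 256 384 224 256 256 320) = true := by decide +kernel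
  have c1 : (go 16 Gd mult S212_227_290_364 (Tr.lf 18280368260 107711178 0) 256 320 224 256 256 320) = true := by decide +kernel
  have c2 : (go 16 Gd mult S198_212_216_290 (Tr.lf 13986448520 103640265 0) 256 384 192 224 320 352) = true := by decide +kernel
  have c3 : (go 16 Gd mult S198_212_216_290 (Tr.lf 13986448520 107711561 0) 256 384 192 224 352 384) = true := by decide +kernel
  have c4 : (go 16 Gd mult S212_227_216_290 (Tr.lf 13986448520 107834569 0) 256 384 192 224 320 352) = true := by decide +kernel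
  have c5 : (go 16 Gd mult S212_227_216_290 (Tr.lf 13986448520 107969609 0) 256 384 192 224 352 384) = true := by decide +kernel
  have c6 : (go 16 Gd mult S198_212_290_364 (Tr.lf 18281170056 103513034 0) 256 384 192 224 320 352) = true := by decide +kernel
  have c7 : (go 16 Gd mult S198_212_290_364 (Tr.lf 18281170056 99318475 0) 256 384 192 224 352 384) = true := by decide +kernel
  have c8 : (go 16 Gd mult S212_227_290_364 (Tr.lf 18281170056 103513034 0) 256 384 192 224 320 352) = true := by decide +kernel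
  have c9 : (go 16 Gd mult S212_227_290_364 (Tr.lf 18281170056 99318730 0) 256 384 192 224 352 384) = true := by decide +kernel
  have c10 : (band (go 16 Gd mult S241_256_216_290 (Tr.lf 17734060162 99441098 0) 256 288 192 256 256 320)
  (go 16 Gd mult S241_256_216_290 (Tr.lf 22575335554 99051980 0) 288 320 192 256 256 320)) = true := by decide +kernel
  have c11 : (go 16 Gd mult S227_241_216_290 (Tr.lf 17743235204 91187914 0) 256 320 192 224 256 320) = true := by decide +kernel
  have c12 : (go 16 Gd mult S227_241_216_290 (Tr.lf 17743497284 99322570 0) 256 320 224 256 256 320) = true := by decide +kernel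
  have c13 : (band (go 16 Gd mult S198_227_290_364 (Tr.lf 13439894596 99457737 0) 256 384 224 256 320 384)
  (band (go 16 Gd mult S212_227_216_290 (Tr.lf 13439878212 99449928 0) 256 384 224 256 320 384)
  (go 16 Gd mult S198_212_216_290 (Tr.lf 9144902692 108100552 0) 256 384 224 256 320 384))) = true := by decide +kernel
  have c14 : (go 16 Gd mult S212_227_290_364 (Tr.lf 13439878210 107838536 0) 320 384 224 256 256 320) = true := by decide +kernel
  (And.intro (Ok.s3 212 (Ok.lf S198_212_290_364_ok c0)
  (Ok.s0 320 (Ok.lf S212_227_290_364_ok c1)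
  (Ok.lf S212_227_290_364_ok c14)))
  (And.intro (Ok.s4 290 (Ok.s3 212 (Ok.s1 224 (Ok.s2 352 (Ok.lf S198_212_216_290_ok c2)
  (Ok.lf S198_212_216_290_ok c3))
  (Ok.lf S198_212_216_290_ok (br (br c13))))
  (Ok.s1 224 (Ok.s2 352 (Ok.lf S212_227_216_290_ok c4)
  (Ok.lf S212_227_216_290_ok c5))
  (Ok.lf S212_227_216_290_ok (bl (br c13)))))
  (Ok.s1 224 (Ok.s3 212 (Ok.s2 352 (Ok.lf S198_212_290_364_ok c6)
  (Ok.lf S198_212_290_364_ok c7))
  (Ok.s2 352 (Ok.lf S212_227_290_364_ok c8)
  (Ok.lf S212_227_290_364_ok c9)))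
  (Ok.lf S198_227_290_364_ok (bl c13))))
  (Ok.s3 241 (Ok.s1 224 (Ok.lf S227_241_216_290_ok c11)
  (Ok.lf S227_241_216_290_ok c12))
  (Ok.s0 288 (Ok.lf S241_256_216_290_ok (bl c10))
  (Ok.lf S241_256_216_290_ok (br c10))))))

end Vale.Agent.P098.Ck
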