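import Vale.Agent.P098.CkGd
import Vale.Agent.P098.CkOk
import Vale.Agent.P098.Sh.A23
import Vale.Agent.P098.Sh.A34
import Vale.Agent.P098.Sh.A36
import Vale.Agent.P098.Sh.A39

namespace Vale.Agent.P098.Ck

theorem r528 :
    Ok Gd mult 320 384 192 256 256 320 227 256 216 290 ∧
    Ok Gd mult 256 384 192 256 320 384 227 256 216 290 ∧
    Ok Gd mult 256 384 192 256 256 384 227 256 290 364 ∧
    Ok Gd mult 256 384 192 256 256 320 198 212 364 512 :=
  have c0 : (band (go 16 Gd mult S227_241_216_290 (Tr.lf 13448529992 107961289 0) 256 384 192 224 320 384)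
  (go 16 Gd mult S241_256_216_290 (Tr.lf 13438829636 103774920 0) 256 384 192 224 320 384)) = true := by decide +kernel
  have c1 : (band (go 16 Gd mult S227_241_290_364 (Tr.lf 18280368260 99576522 0) 256 320 192 224 256 320)
  (go 16 Gd mult S241_256_290_364 (Tr.lf 17733797956 99437002 0) 256 320 192 224 256 320)) = true := by decide +kernel
  have c2 : (go 16 Gd mult S227_241_290_364 (Tr.lf 18280368260 107711178 0) 256 320 224 256 256 320) = true := by decide +kernel
  have c3 : (band (go 16 Gd mult S227_256_290_364 (Tr.lf 13448284292 103898057 0) 320 384 192 224 256 320)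
  (go 16 Gd mult S227_256_290_364 (Tr.lf 13439894596 107838536 0) 320 384 224 256 256 320)) = true := by decide +kernel
  have c4 : (go 16 Gd mult S227_256_290_364 (Tr.lf 13439895684 99457992 0) 320 384 192 256 320 384) = true := by decide +kernel
  have c5 : (go 16 Gd mult S198_212_364_512 (Tr.lf 18281416836 103640010 0) 256 320 192 224 256 320) = true := by decide +kernel
  have c6 : (band (go 16 Gd mult S198_212_364_512 (Tr.lf 13441190020 103652552 0) 320 384 192 256 256 320)
  (go 16 Gd mult S241_256_216_290 (Tr.lf 18280105092 107834186 0) 320 384 192 256 256 320)) = true := by decide +kernel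
  have c7 : (go 16 Gd mult S227_241_216_290 (Tr.lf 22584772676 94993100 0) 320 384 192 224 256 320) = true := by decide +kernel
  have c8 : (band (go 16 Gd mult S241_256_290_364 (Tr.lf 17733798020 95377866 0) 256 320 224 256 256 320)
  (band (go 16 Gd mult S198_212_364_512 (Tr.lf 17735108676 90925770 0) 256 320 224 256 256 320)
  (go 16 Gd mult S241_256_290_364 (Tr.lf 13438829698 103647944 0) 256 320 192 256 320 384))) = true := by decide +kernel
  have c9 : (go 16 Gd mult S227_241_290_364 (Tr.lf 13448267908 99576777 0) 256 320 192 256 320 384) = true := by decide +kernel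
  have c10 : (go 16 Gd mult S227_256_216_290 (Tr.lf 13438846020 99457736 0) 256 384 224 256 320 384) = true := by decide +kernel
  have c11 : (go 16 Gd mult S227_241_216_290 (Tr.lf 18281153604 103513162 0) 320 384 224 256 256 320) = true := by decide +kernel
  (And.intro (Ok.s3 241 (Ok.s1 224 (Ok.lf S227_241_216_290_ok c7)
  (Ok.lf S227_241_216_290_ok c11))
  (Ok.lf S241_256_216_290_ok (br c6)))
  (And.intro (Ok.s1 224 (Ok.s3 241 (Ok.lf S227_241_216_290_ok (bl c0))
  (Ok.lf S241_256_216_290_ok (br c0)))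
  (Ok.lf S227_256_216_290_ok c10))
  (And.intro (Ok.s0 320 (Ok.s2 320 (Ok.s3 241 (Ok.s1 224 (Ok.lf S227_241_290_364_ok (bl c1))
  (Ok.lf S227_241_290_364_ok c2))
  (Ok.s1 224 (Ok.lf S241_256_290_364_ok (br c1))
  (Ok.lf S241_256_290_364_ok (bl c8))))
  (Ok.s3 241 (Ok.lf S227_241_290_364_ok c9)
  (Ok.lf S241_256_290_364_ok (br (br c8)))))
  (Ok.s2 320 (Ok.s1 224 (Ok.lf S227_256_290_364_ok (bl c3))
  (Ok.lf S227_256_290_364_ok (br c3)))
  (Ok.lf S227_256_290_364_ok c4)))
  (Ok.s0 320 (Ok.s1 224 (Ok.lf S198_212_364_512_ok c5)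
  (Ok.lf S198_212_364_512_ok (bl (br c8))))
  (Ok.lf S198_212_364_512_ok (bl c6))))))

end Vale.Agent.P098.Ck
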