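import Vale.Agent.P098.CkGd
import Vale.Agent.P098.CkOk
import Vale.Agent.P098.Sh.A25
import Vale.Agent.P098.Sh.A27
import Vale.Agent.P098.Sh.A33
import Vale.Agent.P098.Sh.A36
import Vale.Agent.P098.Sh.A40
import Vale.Agent.P098.Sh.A41
import Vale.Agent.P098.Sh.A42
import Vale.Agent.P098.Sh.A44
import Vale.Agent.P098.Sh.A45
import Vale.Agent.P098.Sh.A46

namespace Vale.Agent.P098.Ck

theorem r53 :
    Ok Gd mult 0 128 64 128 496 512 198 227 660 808 ∧
    Ok Gd mult 0 128 64 128 496 512 227 256 660 808 ∧
    Ok Gd mult 0 128 64 128 384 512 256 314 216 512 ∧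
    Ok Gd mult 0 128 64 128 384 512 256 314 512 660 ∧
    Ok Gd mult 0 128 64 128 384 448 256 314 660 808 ∧
    Ok Gd mult 0 128 64 128 448 480 256 314 660 808 ∧
    Ok Gd mult 0 128 64 128 480 496 256 314 660 808 :=
  have c0 : (go 16 Gd mult S285_314_660_808 (Tr.lf 9144140424 99322567 496863051625366772777133) 0 128 64 128 480 496) = true := by decide +kernel
  have c1 : (go 16 Gd mult S241_256_660_808 (Tr.lf 9144124040 99588934 6220730516097700412713337286) 0 128 64 128 496 512) = true := by decide +kernel
  have c2 : (go 16 Gd mult S256_285_660_808 (Tr.lf 9144124040 99330886 614295024398601778364493) 0 128 64 128 480 496) = true := by decide +kernel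
  have c3 : (band (go 16 Gd mult S212_227_660_808 (Tr.lf 13986448516 99322952 5187861288919526662979190784) 64 128 96 128 496 512)
  (go 16 Gd mult S212_227_660_808 (Tr.lf 13978059844 99056712 349362886011985198055424) 64 128 64 96 496 512)) = true := by decide +kernel
  have c4 : (go 16 Gd mult S227_241_660_808 (Tr.lf 13977011272 107576136 7879136287299970836404895744) 0 128 96 128 496 512) = true := by decide +kernel
  have c5 : (band (go 16 Gd mult S256_285_216_364 (Tr.lf 4840507524 103643974 381663134885050622935805) 0 128 64 128 384 512)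
  (go 16 Gd mult S285_314_364_512 (Tr.lf 4841556100 103910342 526304055167415239049467) 0 128 64 128 384 512)) = true := by decide +kernel
  have c6 : (go 16 Gd mult S198_212_660_808 (Tr.lf 13440132228 94989128 6649317519326782206060265549) 64 128 64 128 496 512) = true := by decide +kernel
  have c7 : (go 16 Gd mult S227_241_660_808 (Tr.lf 9680987208 103516871 541873107165218078720000) 0 128 64 96 496 512) = true := by decide +kernel
  have c8 : (go 16 Gd mult S285_314_216_364 (Tr.lf 546588740 103787589 470299740163588705222751) 0 128 64 128 384 512) = true := by decide +kernel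
  have c9 : (go 16 Gd mult S256_285_364_512 (Tr.lf 4840506500 103779269 488137741678502154870292) 0 128 64 128 448 512) = true := by decide +kernel
  have c10 : (band (go 16 Gd mult S256_285_512_660 (Tr.lf 9135473796 99314375 756353400510239035359309) 0 128 64 128 480 512)
  (go 16 Gd mult S285_314_512_660 (Tr.lf 9143862404 95128263 736707618072275233800239) 0 128 64 128 480 512)) = true := by decide +kernel
  have c11 : (band (go 16 Gd mult S256_314_512_660 (Tr.lf 4303651396 95390406 0) 0 128 64 128 448 480)
  (go 16 Gd mult S256_314_660_808 (Tr.lf 4303651396 103648197 0) 0 128 64 128 448 480)) = true := by decide +kernel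
  have c12 : (band (go 16 Gd mult S256_314_660_808 (Tr.lf 8553026 104041540 0) 0 128 64 128 384 448)
  (band (go 16 Gd mult S256_314_512_660 (Tr.lf 8536642 104041540 0) 0 128 64 128 384 448)
  (go 16 Gd mult S256_285_364_512 (Tr.lf 8528450 108108868 0) 0 128 64 128 384 448))) = true := by decide +kernel
  have c13 : (go 16 Gd mult S198_227_660_808 (Tr.lf 4841554498 108100805 6562472019115168067261300736) 0 64 64 128 496 512) = true := by decide +kernel
  (And.intro (Ok.s0 64 (Ok.lf S198_227_660_808_ok c13)
  (Ok.s3 212 (Ok.lf S198_212_660_808_ok c6)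
  (Ok.s1 96 (Ok.lf S212_227_660_808_ok (br c3))
  (Ok.lf S212_227_660_808_ok (bl c3)))))
  (And.intro (Ok.s3 241 (Ok.s1 96 (Ok.lf S227_241_660_808_ok c7)
  (Ok.lf S227_241_660_808_ok c4))
  (Ok.lf S241_256_660_808_ok c1))
  (And.intro (Ok.s4 364 (Ok.s3 285 (Ok.lf S256_285_216_364_ok (bl c5))
  (Ok.lf S285_314_216_364_ok c8))
  (Ok.s3 285 (Ok.s2 448 (Ok.lf S256_285_364_512_ok (br (br c12)))
  (Ok.lf S256_285_364_512_ok c9))
  (Ok.lf S285_314_364_512_ok (br c5))))
  (And.intro (Ok.s2 448 (Ok.lf S256_314_512_660_ok (bl (br c12)))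
  (Ok.s2 480 (Ok.lf S256_314_512_660_ok (bl c11))
  (Ok.s3 285 (Ok.lf S256_285_512_660_ok (bl c10))
  (Ok.lf S285_314_512_660_ok (br c10)))))
  (And.intro (Ok.lf S256_314_660_808_ok (bl c12))
  (And.intro (Ok.lf S256_314_660_808_ok (br c11))
  (Ok.s3 285 (Ok.lf S256_285_660_808_ok c2)
  (Ok.lf S285_314_660_808_ok c0))))))))

end Vale.Agent.P098.Ck
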