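import Vale.Agent.P098.CkGd
import Vale.Agent.P098.CkOk
import Vale.Agent.P098.Sh.A27
import Vale.Agent.P098.Sh.A35
import Vale.Agent.P098.Sh.A37
import Vale.Agent.P098.Sh.A38
import Vale.Agent.P098.Sh.A39
import Vale.Agent.P098.Sh.A41

namespace Vale.Agent.P098.Ck

theorem r530 :
    Ok Gd mult 288 320 192 256 256 384 227 256 364 512 ∧
    Ok Gd mult 320 384 192 256 256 384 227 256 364 512 ∧
    Ok Gd mult 256 384 192 256 256 384 198 256 512 808 ∧
    Ok Gd mult 256 384 192 256 256 384 256 285 216 364 :=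
  have c0 : (band (go 16 Gd mult S227_241_364_512 (Tr.lf 13439092868 103910088 0) 320 384 192 256 256 384)
  (go 16 Gd mult S241_256_364_512 (Tr.lf 13438830722 107973320 0) 320 384 192 256 256 384)) = true := by decide +kernel
  have c1 : (band (go 16 Gd mult S227_256_512_586 (Tr.lf 13430458500 103639752 0) 256 384 192 256 256 384)
  (go 16 Gd mult S227_256_586_660 (Tr.lf 9135343684 103918406 0) 256 384 192 256 256 384)) = true := by decide +kernel
  have c2 : (go 16 Gd mult S198_227_660_808 (Tr.lf 13440157764 99584840 0) 256 384 192 224 256 384) = true := by decide +kernel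
  have c3 : (go 16 Gd mult S256_285_216_364 (Tr.lf 18346443848 112163274 0) 256 384 192 224 256 320) = true := by decide +kernel
  have c4 : (go 16 Gd mult S256_285_216_364 (Tr.lf 18346443908 103778762 0) 256 384 192 256 320 384) = true := by decide +kernel
  have c5 : (band (go 16 Gd mult S227_241_364_512 (Tr.lf 17735108738 99183306 0) 288 320 192 256 256 320)
  (go 16 Gd mult S241_256_364_512 (Tr.lf 13439083650 108100296 0) 288 320 192 256 256 320)) = true := by decide +kernel
  have c6 : (go 16 Gd mult S227_256_364_512 (Tr.lf 13440156802 103648200 0) 288 320 192 256 320 384) = true := by decide +kernel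
  have c7 : (go 16 Gd mult S198_227_512_586 (Tr.lf 13440944196 103779400 0) 256 320 192 224 256 384) = true := by decide +kernel
  have c8 : (go 16 Gd mult S198_227_586_660 (Tr.lf 13439895620 107973448 0) 256 384 192 224 256 384) = true := by decide +kernel
  have c9 : (band (go 16 Gd mult S256_285_216_290 (Tr.lf 18279072840 103647690 0) 256 384 224 256 256 320)
  (go 16 Gd mult S256_285_290_364 (Tr.lf 18346181704 103909834 0) 256 384 224 256 256 320)) = true := by decide +kernel
  have c10 : (band (go 16 Gd mult S198_227_512_586 (Tr.lf 13431375940 103640008 0) 256 384 224 256 256 384)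
  (band (go 16 Gd mult S198_227_586_660 (Tr.lf 13430310948 103774792 0) 256 384 224 256 256 384)
  (go 16 Gd mult S198_227_660_808 (Tr.lf 9135473700 108239686 0) 256 384 224 256 256 384))) = true := by decide +kernel
  have c11 : (go 16 Gd mult S227_256_660_808 (Tr.lf 8598602820 103914310 0) 256 384 192 256 256 384) = true := by decide +kernel
  have c12 : (go 16 Gd mult S198_227_512_586 (Tr.lf 9144780866 104037447 0) 320 384 192 224 256 384) = true := by decide +kernel
  (And.intro (Ok.s2 320 (Ok.s3 241 (Ok.lf S227_241_364_512_ok (bl c5))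
  (Ok.lf S241_256_364_512_ok (br c5)))
  (Ok.lf S227_256_364_512_ok c6))
  (And.intro (Ok.s3 241 (Ok.lf S227_241_364_512_ok (bl c0))
  (Ok.lf S241_256_364_512_ok (br c0)))
  (And.intro (Ok.s4 660 (Ok.s4 586 (Ok.s3 227 (Ok.s1 224 (Ok.s0 320 (Ok.lf S198_227_512_586_ok c7)
  (Ok.lf S198_227_512_586_ok c12))
  (Ok.lf S198_227_512_586_ok (bl c10)))
  (Ok.lf S227_256_512_586_ok (bl c1)))
  (Ok.s3 227 (Ok.s1 224 (Ok.lf S198_227_586_660_ok c8)
  (Ok.lf S198_227_586_660_ok (bl (br c10))))
  (Ok.lf S227_256_586_660_ok (br c1))))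
  (Ok.s3 227 (Ok.s1 224 (Ok.lf S198_227_660_808_ok c2)
  (Ok.lf S198_227_660_808_ok (br (br c10))))
  (Ok.lf S227_256_660_808_ok c11)))
  (Ok.s2 320 (Ok.s1 224 (Ok.lf S256_285_216_364_ok c3)
  (Ok.s4 290 (Ok.lf S256_285_216_290_ok (bl c9))
  (Ok.lf S256_285_290_364_ok (br c9))))
  (Ok.lf S256_285_216_364_ok c4)))))

end Vale.Agent.P098.Ck
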