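import Vale.Agent.P098.CkGd
import Vale.Agent.P098.CkOk
import Vale.Agent.P098.Sh.A41
import Vale.Agent.P098.Sh.A42
import Vale.Agent.P098.Sh.A45
import Vale.Agent.P098.Sh.A46
import Vale.Agent.P098.Sh.A47
import Vale.Agent.P098.Sh.A48
import Vale.Agent.P098.Sh.A49
import Vale.Agent.P098.Sh.A51
import Vale.Agent.P098.Sh.A52
import Vale.Agent.P098.Sh.A54

namespace Vale.Agent.P098.Ck

theorem r531 :
    Ok Gd mult 256 384 192 256 256 384 285 314 216 364 ∧
    Ok Gd mult 256 384 192 256 256 384 256 314 364 512 ∧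
    Ok Gd mult 256 384 192 256 256 384 256 314 512 808 ∧
    Ok Gd mult 256 384 192 256 256 384 314 372 216 808 ∧
    Ok Gd mult 256 384 192 256 256 384 372 401 216 364 :=
  have c0 : (go 16 Gd mult S256_285_364_512 (Tr.lf 18346428548 107968970 0) 256 320 192 256 256 384) = true := by decide +kernel
  have c1 : (band (go 16 Gd mult S285_314_216_364 (Tr.lf 13439879300 108100297 0) 256 384 192 256 256 384)
  (band (go 16 Gd mult S343_372_216_364 (Tr.lf 9136523396 108235719 0) 256 384 192 256 256 384)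
  (go 16 Gd mult S285_314_364_512 (Tr.lf 8598602820 99973831 0) 256 384 192 256 256 384))) = true := by decide +kernel
  have c2 : (band (go 16 Gd mult S372_401_216_364 (Tr.lf 13432538248 107973449 0) 256 384 192 256 256 320)
  (go 16 Gd mult S372_401_216_364 (Tr.lf 9137570948 104041416 0) 256 384 192 256 320 384)) = true := by decide +kernel
  have c3 : (band (go 16 Gd mult S343_372_364_512 (Tr.lf 9136392324 108235719 0) 256 384 192 256 256 384)
  (band (go 16 Gd mult S343_372_512_660 (Tr.lf 9136392324 108235719 0) 256 384 192 256 256 384)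
  (band (go 16 Gd mult S314_343_216_364 (Tr.lf 8590215236 104159943 0) 256 384 192 256 256 384)
  (go 16 Gd mult S256_285_512_660 (Tr.lf 8598602820 104037318 0) 256 384 192 256 256 384)))) = true := by decide +kernel
  have c4 : (band (go 16 Gd mult S343_372_660_808 (Tr.lf 9136523332 104041415 0) 256 384 192 256 256 384)
  (band (go 16 Gd mult S256_285_660_808 (Tr.lf 8598594628 99846982 0) 256 384 192 256 256 384)
  (band (go 16 Gd mult S285_314_660_808 (Tr.lf 8598602818 99846727 0) 256 384 192 256 256 384)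
  (band (go 16 Gd mult S314_343_364_512 (Tr.lf 8599520324 99974087 0) 256 384 192 256 256 384)
  (band (go 16 Gd mult S314_343_512_660 (Tr.lf 8599520324 104037319 0) 256 384 192 256 256 384)
  (go 16 Gd mult S314_343_660_808 (Tr.lf 8599651394 95656775 0) 256 384 192 256 256 384)))))) = true := by decide +kernel
  have c5 : (go 16 Gd mult S256_285_364_512 (Tr.lf 13505939522 104041160 0) 320 384 192 256 256 384) = true := by decide +kernel
  have c6 : (go 16 Gd mult S285_314_512_660 (Tr.lf 8590074948 99711559 0) 256 384 192 256 256 384) = true := by decide +kernel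
  (And.intro (Ok.lf S285_314_216_364_ok (bl c1))
  (And.intro (Ok.s3 285 (Ok.s0 320 (Ok.lf S256_285_364_512_ok c0)
  (Ok.lf S256_285_364_512_ok c5))
  (Ok.lf S285_314_364_512_ok (br (br c1))))
  (And.intro (Ok.s4 660 (Ok.s3 285 (Ok.lf S256_285_512_660_ok (br (br (br c3))))
  (Ok.lf S285_314_512_660_ok c6))
  (Ok.s3 285 (Ok.lf S256_285_660_808_ok (bl (br c4)))
  (Ok.lf S285_314_660_808_ok (bl (br (br c4))))))
  (And.intro (Ok.s4 512 (Ok.s4 364 (Ok.s3 343 (Ok.lf S314_343_216_364_ok (bl (br (br c3))))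
  (Ok.lf S343_372_216_364_ok (bl (br c1))))
  (Ok.s3 343 (Ok.lf S314_343_364_512_ok (bl (br (br (br c4)))))
  (Ok.lf S343_372_364_512_ok (bl c3))))
  (Ok.s4 660 (Ok.s3 343 (Ok.lf S314_343_512_660_ok (bl (br (br (br (br c4))))))
  (Ok.lf S343_372_512_660_ok (bl (br c3))))
  (Ok.s3 343 (Ok.lf S314_343_660_808_ok (br (br (br (br (br c4))))))
  (Ok.lf S343_372_660_808_ok (bl c4)))))
  (Ok.s2 320 (Ok.lf S372_401_216_364_ok (bl c2))
  (Ok.lf S372_401_216_364_ok (br c2)))))))

end Vale.Agent.P098.Ck
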