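import Vale.Agent.P098.CkGd
import Vale.Agent.P098.CkOk
import Vale.Agent.P098.Sh.A54
import Vale.Agent.P098.Sh.A57
import Vale.Agent.P098.Sh.A58
import Vale.Agent.P098.Sh.A59

namespace Vale.Agent.P098.Ck

theorem r533 :
    Ok Gd mult 256 384 192 256 256 384 372 401 660 808 ∧
    Ok Gd mult 256 384 192 256 256 384 401 430 660 808 ∧
    Ok Gd mult 256 384 192 256 256 384 430 488 216 364 ∧
    Ok Gd mult 256 384 192 256 256 320 430 488 364 512 :=
  have c0 : (band (go 16 Gd mult S430_459_216_364 (Tr.lf 13961955464 99576650 0) 256 384 192 224 256 320)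
  (go 16 Gd mult S459_488_216_364 (Tr.lf 13961873480 99576650 0) 256 384 192 224 256 320)) = true := by decide +kernel
  have c1 : (go 16 Gd mult S430_488_216_364 (Tr.lf 13960906888 107838536 0) 256 384 224 256 256 320) = true := by decide +kernel
  have c2 : (band (go 16 Gd mult S430_459_364_512 (Tr.lf 13961955464 99576650 0) 256 384 192 224 256 320)
  (go 16 Gd mult S459_488_364_512 (Tr.lf 13961873480 99576650 0) 256 384 192 224 256 320)) = true := by decide +kernel
  have c3 : (go 16 Gd mult S430_488_364_512 (Tr.lf 13960906888 107838536 0) 256 384 224 256 256 320) = true := by decide +kernel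
  have c4 : (band (go 16 Gd mult S401_430_660_808 (Tr.lf 13970475140 95517514 0) 256 320 192 224 256 320)
  (go 16 Gd mult S401_430_660_808 (Tr.lf 13970474052 99584842 0) 320 384 192 224 256 320)) = true := by decide +kernel
  have c5 : (band (go 16 Gd mult S430_459_216_364 (Tr.lf 13970327688 103775050 0) 256 384 192 224 320 384)
  (band (go 16 Gd mult S372_401_660_808 (Tr.lf 9674458180 95386696 0) 256 384 192 224 320 384)
  (go 16 Gd mult S459_488_216_364 (Tr.lf 13961873480 103766858 0) 256 384 192 224 320 384))) = true := by decide +kernel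
  have c6 : (band (go 16 Gd mult S430_488_216_364 (Tr.lf 13960906824 103770953 0) 256 384 224 256 320 384)
  (band (go 16 Gd mult S401_430_660_808 (Tr.lf 13960905800 103770953 0) 256 384 224 256 320 384)
  (go 16 Gd mult S401_430_660_808 (Tr.lf 13970344004 103775050 0) 320 384 192 224 320 384))) = true := by decide +kernel
  have c7 : (band (go 16 Gd mult S372_401_660_808 (Tr.lf 13432554568 99711817 0) 256 384 192 224 256 320)
  (go 16 Gd mult S372_401_660_808 (Tr.lf 13432555588 103779145 0) 256 384 224 256 256 384)) = true := by decide +kernel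
  have c8 : (band (go 16 Gd mult S401_430_660_808 (Tr.lf 13961036872 107838536 0) 256 384 224 256 256 320)
  (go 16 Gd mult S401_430_660_808 (Tr.lf 13970475076 99449929 0) 256 320 192 224 320 384)) = true := by decide +kernel
  (And.intro (Ok.s1 224 (Ok.s2 320 (Ok.lf S372_401_660_808_ok (bl c7))
  (Ok.lf S372_401_660_808_ok (bl (br c5))))
  (Ok.lf S372_401_660_808_ok (br c7)))
  (And.intro (Ok.s2 320 (Ok.s1 224 (Ok.s0 320 (Ok.lf S401_430_660_808_ok (bl c4))
  (Ok.lf S401_430_660_808_ok (br c4)))
  (Ok.lf S401_430_660_808_ok (bl c8)))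
  (Ok.s1 224 (Ok.s0 320 (Ok.lf S401_430_660_808_ok (br c8))
  (Ok.lf S401_430_660_808_ok (br (br c6))))
  (Ok.lf S401_430_660_808_ok (bl (br c6)))))
  (And.intro (Ok.s2 320 (Ok.s1 224 (Ok.s3 459 (Ok.lf S430_459_216_364_ok (bl c0))
  (Ok.lf S459_488_216_364_ok (br c0)))
  (Ok.lf S430_488_216_364_ok c1))
  (Ok.s1 224 (Ok.s3 459 (Ok.lf S430_459_216_364_ok (bl c5))
  (Ok.lf S459_488_216_364_ok (br (br c5))))
  (Ok.lf S430_488_216_364_ok (bl c6))))
  (Ok.s1 224 (Ok.s3 459 (Ok.lf S430_459_364_512_ok (bl c2))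
  (Ok.lf S459_488_364_512_ok (br c2)))
  (Ok.lf S430_488_364_512_ok c3)))))

end Vale.Agent.P098.Ck
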