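import Vale.Agent.P098.CkGd
import Vale.Agent.P098.CkOk
import Vale.Agent.P098.Sh.A0
import Vale.Agent.P098.Sh.A1
import Vale.Agent.P098.Sh.A11
import Vale.Agent.P098.Sh.A17
import Vale.Agent.P098.Sh.A18
import Vale.Agent.P098.Sh.A3
import Vale.Agent.P098.Sh.A4
import Vale.Agent.P098.Sh.A8
import Vale.Agent.P098.Sh.A9

namespace Vale.Agent.P098.Ck

theorem r535 :
    Ok Gd mult 256 384 192 256 384 512 24 82 216 808 ∧
    Ok Gd mult 256 384 192 256 384 512 82 140 216 808 ∧
    Ok Gd mult 256 384 192 256 384 512 140 198 216 364 ∧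
    Ok Gd mult 256 384 192 256 384 448 140 198 364 512 :=
  have c0 : (go 16 Gd mult S82_140_364_512 (Tr.lf 4841572484 104041414 0) 256 320 192 256 384 512) = true := by decide +kernel
  have c1 : (band (go 16 Gd mult S82_140_216_364 (Tr.lf 546605124 103910597 1795218686755222436446208) 256 384 192 256 448 512)
  (band (go 16 Gd mult S82_140_512_660 (Tr.lf 76710980 103783621 462810375296031595167744) 256 384 192 256 448 512)
  (band (go 16 Gd mult S82_140_660_808 (Tr.lf 4296164418 99707846 396125382238838911401984) 256 384 192 256 448 512)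
  (go 16 Gd mult S82_140_660_808 (Tr.lf 4841423940 104045765 0) 256 384 192 256 384 448)))) = true := by decide +kernel
  have c2 : (band (go 16 Gd mult S169_198_216_364 (Tr.lf 9145189444 103906375 0) 256 384 192 224 384 448)
  (go 16 Gd mult S169_198_364_512 (Tr.lf 9144928324 107969607 0) 256 384 192 224 384 448)) = true := by decide +kernel
  have c3 : (band (go 16 Gd mult S140_198_216_364 (Tr.lf 538215492 103910469 12723940583577655341335259663) 256 384 192 256 480 512)
  (go 16 Gd mult S140_198_216_364 (Tr.lf 4304699972 99851461 6783282773857684299276353536) 256 384 192 256 448 480)) = true := by decide +kernel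
  have c4 : (band (go 16 Gd mult S82_140_216_364 (Tr.lf 4841440324 104045765 0) 256 384 192 256 384 448)
  (band (go 16 Gd mult S140_169_216_364 (Tr.lf 9136522308 103648199 0) 256 384 192 256 384 448)
  (band (go 16 Gd mult S82_140_512_660 (Tr.lf 4841423940 104045765 0) 256 384 192 256 384 448)
  (go 16 Gd mult S140_169_364_512 (Tr.lf 9136391236 103648199 0) 256 384 192 256 384 448)))) = true := by decide +kernel
  have c5 : (go 16 Gd mult S82_140_364_512 (Tr.lf 4296116290 99711942 0) 320 384 192 256 384 512) = true := by decide +kernel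
  have c6 : (band (go 16 Gd mult S24_82_216_364 (Tr.lf 4296099906 99838918 0) 256 384 192 256 384 512)
  (band (go 16 Gd mult S24_82_364_512 (Tr.lf 4296099906 99838918 0) 256 384 192 256 384 512)
  (band (go 16 Gd mult S24_82_512_660 (Tr.lf 4296099906 99838918 0) 256 384 192 256 384 512)
  (go 16 Gd mult S24_82_660_808 (Tr.lf 4296099906 99838918 0) 256 384 192 256 384 512)))) = true := by decide +kernel
  have c7 : (band (go 16 Gd mult S169_198_216_364 (Tr.lf 4303634978 99978309 1943952717940323712927531008) 256 384 224 256 384 448)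
  (go 16 Gd mult S169_198_364_512 (Tr.lf 4303503906 104041541 0) 256 384 224 256 384 448)) = true := by decide +kernel
  (And.intro (Ok.s4 512 (Ok.s4 364 (Ok.lf S24_82_216_364_ok (bl c6))
  (Ok.lf S24_82_364_512_ok (bl (br c6))))
  (Ok.s4 660 (Ok.lf S24_82_512_660_ok (bl (br (br c6))))
  (Ok.lf S24_82_660_808_ok (br (br (br c6))))))
  (And.intro (Ok.s4 512 (Ok.s4 364 (Ok.s2 448 (Ok.lf S82_140_216_364_ok (bl c4))
  (Ok.lf S82_140_216_364_ok (bl c1)))
  (Ok.s0 320 (Ok.lf S82_140_364_512_ok c0)
  (Ok.lf S82_140_364_512_ok c5)))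
  (Ok.s4 660 (Ok.s2 448 (Ok.lf S82_140_512_660_ok (bl (br (br c4))))
  (Ok.lf S82_140_512_660_ok (bl (br c1))))
  (Ok.s2 448 (Ok.lf S82_140_660_808_ok (br (br (br c1))))
  (Ok.lf S82_140_660_808_ok (bl (br (br c1)))))))
  (And.intro (Ok.s2 448 (Ok.s3 169 (Ok.lf S140_169_216_364_ok (bl (br c4)))
  (Ok.s1 224 (Ok.lf S169_198_216_364_ok (bl c2))
  (Ok.lf S169_198_216_364_ok (bl c7))))
  (Ok.s2 480 (Ok.lf S140_198_216_364_ok (br c3))
  (Ok.lf S140_198_216_364_ok (bl c3))))
  (Ok.s3 169 (Ok.lf S140_169_364_512_ok (br (br (br c4))))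
  (Ok.s1 224 (Ok.lf S169_198_364_512_ok (br c2))
  (Ok.lf S169_198_364_512_ok (br c7)))))))

end Vale.Agent.P098.Ck
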