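import Vale.Agent.P098.CkGd
import Vale.Agent.P098.CkOk
import Vale.Agent.P098.Sh.A10
import Vale.Agent.P098.Sh.A11
import Vale.Agent.P098.Sh.A19
import Vale.Agent.P098.Sh.A25
import Vale.Agent.P098.Sh.A36

namespace Vale.Agent.P098.Ck

theorem r536 :
    Ok Gd mult 256 384 192 256 448 512 140 198 364 512 ∧
    Ok Gd mult 256 384 192 256 384 512 140 198 512 808 ∧
    Ok Gd mult 256 384 192 256 384 448 198 256 216 364 ∧
    Ok Gd mult 256 384 192 256 448 512 198 227 216 364 :=
  have c0 : (go 16 Gd mult S198_227_216_364 (Tr.lf 13440157764 99318473 0) 256 320 192 224 384 448) = true := by decide +kernel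
  have c1 : (band (go 16 Gd mult S169_198_512_660 (Tr.lf 13439895620 103381705 0) 256 384 192 224 384 448)
  (go 16 Gd mult S227_256_216_290 (Tr.lf 13439895620 99449800 0) 256 384 192 224 384 448)) = true := by decide +kernel
  have c2 : (band (go 16 Gd mult S169_198_660_808 (Tr.lf 9136523396 103906247 0) 256 384 192 256 384 448)
  (band (go 16 Gd mult S140_169_512_660 (Tr.lf 9136391236 99711943 0) 256 384 192 256 384 448)
  (go 16 Gd mult S140_169_660_808 (Tr.lf 9136391236 103775175 0) 256 384 192 256 384 448))) = true := by decide +kernel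
  have c3 : (go 16 Gd mult S227_256_290_364 (Tr.lf 13439895620 99449800 0) 256 384 192 224 384 448) = true := by decide +kernel
  have c4 : (band (go 16 Gd mult S140_198_660_808 (Tr.lf 623150148 99978311 3636443756260128408392829008) 256 384 192 256 480 512)
  (band (go 16 Gd mult S140_198_364_512 (Tr.lf 9732676 112561221 10770317675670137896424447383) 256 384 192 256 480 512)
  (band (go 16 Gd mult S140_198_512_660 (Tr.lf 76710468 108112965 7322460351399984246900460509) 256 384 192 256 480 512)
  (band (go 16 Gd mult S198_227_216_364 (Tr.lf 546587204 99720389 15424579293788114205120921629) 256 384 192 256 480 512)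
  (go 16 Gd mult S140_198_512_660 (Tr.lf 4303520324 99720133 3572375796961229211256750080) 256 384 192 256 448 480))))) = true := by decide +kernel
  have c5 : (go 16 Gd mult S198_227_216_364 (Tr.lf 9144124482 108100423 0) 320 384 192 224 384 448) = true := by decide +kernel
  have c6 : (band (go 16 Gd mult S140_198_364_512 (Tr.lf 4303520324 103914437 5714592349318352108836093952) 256 384 192 256 448 480)
  (band (go 16 Gd mult S140_198_660_808 (Tr.lf 4303520322 99847109 1488187683945608514063302656) 256 384 192 256 448 480)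
  (band (go 16 Gd mult S198_227_216_364 (Tr.lf 4303635010 99724229 7744378800451314493167763456) 256 384 192 256 448 480)
  (band (go 16 Gd mult S198_227_216_364 (Tr.lf 8598602276 99715783 3640075642859648445040295936) 256 384 224 256 384 448)
  (band (go 16 Gd mult S227_256_216_364 (Tr.lf 8598602788 99716038 3642493494498877703389708288) 256 384 224 256 384 448)
  (go 16 Gd mult S169_198_512_660 (Tr.lf 8598463522 95517383 0) 256 384 224 256 384 448)))))) = true := by decide +kernel
  (And.intro (Ok.s2 480 (Ok.lf S140_198_364_512_ok (bl c6))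
  (Ok.lf S140_198_364_512_ok (bl (br c4))))
  (And.intro (Ok.s4 660 (Ok.s2 448 (Ok.s3 169 (Ok.lf S140_169_512_660_ok (bl (br c2)))
  (Ok.s1 224 (Ok.lf S169_198_512_660_ok (bl c1))
  (Ok.lf S169_198_512_660_ok (br (br (br (br (br c6))))))))
  (Ok.s2 480 (Ok.lf S140_198_512_660_ok (br (br (br (br c4)))))
  (Ok.lf S140_198_512_660_ok (bl (br (br c4))))))
  (Ok.s2 448 (Ok.s3 169 (Ok.lf S140_169_660_808_ok (br (br c2)))
  (Ok.lf S169_198_660_808_ok (bl c2)))
  (Ok.s2 480 (Ok.lf S140_198_660_808_ok (bl (br c6)))
  (Ok.lf S140_198_660_808_ok (bl c4)))))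
  (And.intro (Ok.s1 224 (Ok.s3 227 (Ok.s0 320 (Ok.lf S198_227_216_364_ok c0)
  (Ok.lf S198_227_216_364_ok c5))
  (Ok.s4 290 (Ok.lf S227_256_216_290_ok (br c1))
  (Ok.lf S227_256_290_364_ok c3)))
  (Ok.s3 227 (Ok.lf S198_227_216_364_ok (bl (br (br (br c6)))))
  (Ok.lf S227_256_216_364_ok (bl (br (br (br (br c6))))))))
  (Ok.s2 480 (Ok.lf S198_227_216_364_ok (bl (br (br c6))))
  (Ok.lf S198_227_216_364_ok (bl (br (br (br c4)))))))))

end Vale.Agent.P098.Ck
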