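import Vale.Agent.P098.CkGd
import Vale.Agent.P098.CkOk
import Vale.Agent.P098.Sh.A26
import Vale.Agent.P098.Sh.A27
import Vale.Agent.P098.Sh.A36
import Vale.Agent.P098.Sh.A37

namespace Vale.Agent.P098.Ck

theorem r537 :
    Ok Gd mult 256 384 192 256 448 512 227 256 216 364 ∧
    Ok Gd mult 256 384 192 256 384 512 198 256 364 512 ∧
    Ok Gd mult 256 384 192 256 384 448 198 256 512 660 :=
  have c0 : (band (go 16 Gd mult S227_256_364_512 (Tr.lf 13440157764 95255496 0) 256 384 192 224 384 448)
  (band (go 16 Gd mult S227_256_512_660 (Tr.lf 9143862308 108104391 0) 256 384 192 224 384 448)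
  (go 16 Gd mult S227_256_512_660 (Tr.lf 8598602276 99720006 0) 256 384 224 256 384 448))) = true := by decide +kernel
  have c1 : (go 16 Gd mult S198_227_364_512 (Tr.lf 13440157762 95382472 0) 256 320 192 224 384 448) = true := by decide +kernel
  have c2 : (go 16 Gd mult S198_227_512_660 (Tr.lf 13439895620 103381960 0) 256 384 192 224 384 448) = true := by decide +kernel
  have c3 : (band (go 16 Gd mult S227_256_216_364 (Tr.lf 4303635010 99724229 7744378800451314493167763456) 256 384 192 256 448 480)
  (band (go 16 Gd mult S198_227_364_512 (Tr.lf 8598602306 95386311 6256191116505705979104460800) 256 384 192 256 448 480)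
  (band (go 16 Gd mult S227_256_364_512 (Tr.lf 4303635010 104045509 6256191116505705979104460800) 256 384 192 256 448 480)
  (band (go 16 Gd mult S198_227_364_512 (Tr.lf 9143862306 112163655 0) 320 384 192 224 384 448)
  (band (go 16 Gd mult S198_227_364_512 (Tr.lf 8598602786 95521479 906694364710971881029632000) 256 384 224 256 384 448)
  (band (go 16 Gd mult S227_256_364_512 (Tr.lf 8598602276 95521734 907903290530586510204338176) 256 384 224 256 384 448)
  (go 16 Gd mult S198_227_512_660 (Tr.lf 8598602786 99453894 0) 256 384 224 256 384 448))))))) = true := by decide +kernel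
  have c4 : (band (go 16 Gd mult S227_256_216_364 (Tr.lf 4303626530 99847364 15425893458282668269250805760) 256 384 192 256 480 496)
  (band (go 16 Gd mult S227_256_364_512 (Tr.lf 4303626530 103918660 11623821755594659514799882240) 256 384 192 256 480 496)
  (band (go 16 Gd mult S198_227_364_512 (Tr.lf 4303495458 99724101 11622612829775044885625176064) 256 384 192 256 480 496)
  (band (go 16 Gd mult S198_227_364_512 (Tr.lf 8528161 112430148 36649791816400700091451927684) 256 384 192 256 496 512)
  (band (go 16 Gd mult S227_256_216_364 (Tr.lf 4303495458 99716037 32067963843874643059601134638) 256 384 192 256 496 512)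
  (go 16 Gd mult S227_256_364_512 (Tr.lf 4303495458 99716037 36649792701553366006693063045) 256 384 192 256 496 512)))))) = true := by decide +kernel
  (And.intro (Ok.s2 480 (Ok.lf S227_256_216_364_ok (bl c3))
  (Ok.s2 496 (Ok.lf S227_256_216_364_ok (bl c4))
  (Ok.lf S227_256_216_364_ok (bl (br (br (br (br c4))))))))
  (And.intro (Ok.s2 448 (Ok.s3 227 (Ok.s1 224 (Ok.s0 320 (Ok.lf S198_227_364_512_ok c1)
  (Ok.lf S198_227_364_512_ok (bl (br (br (br c3))))))
  (Ok.lf S198_227_364_512_ok (bl (br (br (br (br c3)))))))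
  (Ok.s1 224 (Ok.lf S227_256_364_512_ok (bl c0))
  (Ok.lf S227_256_364_512_ok (bl (br (br (br (br (br c3)))))))))
  (Ok.s3 227 (Ok.s2 480 (Ok.lf S198_227_364_512_ok (bl (br c3)))
  (Ok.s2 496 (Ok.lf S198_227_364_512_ok (bl (br (br c4))))
  (Ok.lf S198_227_364_512_ok (bl (br (br (br c4)))))))
  (Ok.s2 480 (Ok.lf S227_256_364_512_ok (bl (br (br c3))))
  (Ok.s2 496 (Ok.lf S227_256_364_512_ok (bl (br c4)))
  (Ok.lf S227_256_364_512_ok (br (br (br (br (br c4))))))))))
  (Ok.s1 224 (Ok.s3 227 (Ok.lf S198_227_512_660_ok c2)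
  (Ok.lf S227_256_512_660_ok (bl (br c0))))
  (Ok.s3 227 (Ok.lf S198_227_512_660_ok (br (br (br (br (br (br c3)))))))
  (Ok.lf S227_256_512_660_ok (br (br c0)))))))

end Vale.Agent.P098.Ck
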