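import Vale.Agent.P098.CkGd
import Vale.Agent.P098.CkOk
import Vale.Agent.P098.Sh.A27
import Vale.Agent.P098.Sh.A37
import Vale.Agent.P098.Sh.A38
import Vale.Agent.P098.Sh.A41
import Vale.Agent.P098.Sh.A45

namespace Vale.Agent.P098.Ck

theorem r538 :
    Ok Gd mult 256 384 192 256 448 512 198 256 512 660 ∧
    Ok Gd mult 256 384 192 256 384 512 198 256 660 808 ∧
    Ok Gd mult 256 384 192 256 384 512 256 314 216 364 ∧
    Ok Gd mult 256 384 192 256 384 448 256 314 364 512 :=
  have c0 : (band (go 16 Gd mult S198_227_660_808 (Tr.lf 9136538756 103906502 0) 256 384 192 256 384 448)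
  (band (go 16 Gd mult S256_285_216_364 (Tr.lf 8598602820 103779015 1895595685155738545939283968) 256 384 192 256 384 448)
  (band (go 16 Gd mult S227_256_660_808 (Tr.lf 8598602818 95394630 0) 256 384 192 256 384 448)
  (band (go 16 Gd mult S256_285_364_512 (Tr.lf 8598602818 99842759 0) 256 384 192 256 384 448)
  (go 16 Gd mult S285_314_216_364 (Tr.lf 4303627330 108104773 0) 256 384 192 256 384 448))))) = true := by decide +kernel
  have c1 : (go 16 Gd mult S227_256_660_808 (Tr.lf 8598602820 95390279 114572727517706392174669) 256 384 192 256 448 512) = true := by decide +kernel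
  have c2 : (go 16 Gd mult S198_227_660_808 (Tr.lf 4303627329 104045381 999781652821298327482007552) 256 320 192 256 448 512) = true := by decide +kernel
  have c3 : (band (go 16 Gd mult S198_227_512_660 (Tr.lf 8598471234 91060935 3611061423188897344847347712) 256 384 192 256 448 480)
  (band (go 16 Gd mult S256_285_216_364 (Tr.lf 4303626818 99851205 6879996839426854633252847616) 256 384 192 256 448 480)
  (band (go 16 Gd mult S227_256_512_660 (Tr.lf 8598594114 99584838 3365649481807127622381993984) 256 384 192 256 448 480)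
  (band (go 16 Gd mult S285_314_216_364 (Tr.lf 4303495714 108235717 5157277546476008059296546816) 256 384 192 256 448 480)
  (band (go 16 Gd mult S227_256_512_660 (Tr.lf 4303626786 104045636 6945396616146955244174049280) 256 384 192 256 480 512)
  (band (go 16 Gd mult S256_285_216_364 (Tr.lf 4303626530 103910596 12994743635037648998916685824) 256 384 192 256 480 496)
  (band (go 16 Gd mult S285_314_216_364 (Tr.lf 4303495458 104045381 9881770883597119763165216768) 256 384 192 256 480 496)
  (go 16 Gd mult S198_227_512_660 (Tr.lf 4303495458 103787333 7385327832025769628280029184) 256 384 192 256 480 496)))))))) = true := by decide +kernel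
  have c4 : (go 16 Gd mult S285_314_364_512 (Tr.lf 4303496258 112426053 0) 256 384 192 256 384 448) = true := by decide +kernel
  have c5 : (go 16 Gd mult S198_227_660_808 (Tr.lf 4303495713 103910341 0) 320 384 192 256 448 512) = true := by decide +kernel
  have c6 : (band (go 16 Gd mult S256_285_216_364 (Tr.lf 4303495458 99716037 34925864479976483767662952683) 256 384 192 256 496 512)
  (band (go 16 Gd mult S285_314_216_364 (Tr.lf 8528162 104041540 38928617868037381892264048658) 256 384 192 256 496 512)
  (go 16 Gd mult S198_227_512_660 (Tr.lf 8524066 108235844 40101275919512886842862047491) 256 384 192 256 496 512))) = true := by decide +kernel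
  (And.intro (Ok.s3 227 (Ok.s2 480 (Ok.lf S198_227_512_660_ok (bl c3))
  (Ok.s2 496 (Ok.lf S198_227_512_660_ok (br (br (br (br (br (br (br c3))))))))
  (Ok.lf S198_227_512_660_ok (br (br c6)))))
  (Ok.s2 480 (Ok.lf S227_256_512_660_ok (bl (br (br c3))))
  (Ok.lf S227_256_512_660_ok (bl (br (br (br (br c3))))))))
  (And.intro (Ok.s2 448 (Ok.s3 227 (Ok.lf S198_227_660_808_ok (bl c0))
  (Ok.lf S227_256_660_808_ok (bl (br (br c0)))))
  (Ok.s3 227 (Ok.s0 320 (Ok.lf S198_227_660_808_ok c2)
  (Ok.lf S198_227_660_808_ok c5))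
  (Ok.lf S227_256_660_808_ok c1)))
  (And.intro (Ok.s3 285 (Ok.s2 448 (Ok.lf S256_285_216_364_ok (bl (br c0)))
  (Ok.s2 480 (Ok.lf S256_285_216_364_ok (bl (br c3)))
  (Ok.s2 496 (Ok.lf S256_285_216_364_ok (bl (br (br (br (br (br c3)))))))
  (Ok.lf S256_285_216_364_ok (bl c6)))))
  (Ok.s2 448 (Ok.lf S285_314_216_364_ok (br (br (br (br c0)))))
  (Ok.s2 480 (Ok.lf S285_314_216_364_ok (bl (br (br (br c3)))))
  (Ok.s2 496 (Ok.lf S285_314_216_364_ok (bl (br (br (br (br (br (br c3))))))))
  (Ok.lf S285_314_216_364_ok (bl (br c6)))))))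
  (Ok.s3 285 (Ok.lf S256_285_364_512_ok (bl (br (br (br c0)))))
  (Ok.lf S285_314_364_512_ok c4)))))

end Vale.Agent.P098.Ck
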