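import Vale.Agent.P098.CkGd
import Vale.Agent.P098.CkOk
import Vale.Agent.P098.Sh.A41
import Vale.Agent.P098.Sh.A42
import Vale.Agent.P098.Sh.A45
import Vale.Agent.P098.Sh.A46
import Vale.Agent.P098.Sh.A47
import Vale.Agent.P098.Sh.A49
import Vale.Agent.P098.Sh.A51

namespace Vale.Agent.P098.Ck

theorem r539 :
    Ok Gd mult 256 384 192 256 448 512 256 285 364 512 ∧
    Ok Gd mult 256 384 192 256 448 512 285 314 364 512 ∧
    Ok Gd mult 256 384 192 256 384 512 256 314 512 808 ∧
    Ok Gd mult 256 384 192 256 384 512 314 372 216 364 :=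
  have c0 : (band (go 16 Gd mult S314_372_216_364 (Tr.lf 4841572484 99720517 0) 256 384 192 256 384 448)
  (band (go 16 Gd mult S256_285_512_660 (Tr.lf 8598594626 99580615 0) 256 384 192 256 384 448)
  (band (go 16 Gd mult S256_285_660_808 (Tr.lf 8598594626 95513287 0) 256 384 192 256 384 448)
  (go 16 Gd mult S285_314_512_660 (Tr.lf 8598463042 99707591 0) 256 384 192 256 384 448)))) = true := by decide +kernel
  have c1 : (band (go 16 Gd mult S256_285_660_808 (Tr.lf 8598864964 99445447 294778970297878634823680) 256 384 192 256 448 512)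
  (band (go 16 Gd mult S285_314_660_808 (Tr.lf 4303635524 108104645 428757672505231108210688) 256 384 192 256 448 512)
  (go 16 Gd mult S285_314_660_808 (Tr.lf 8598602306 95513287 13558365057075400998941) 256 384 192 256 384 448))) = true := by decide +kernel
  have c2 : (band (go 16 Gd mult S256_285_364_512 (Tr.lf 4303626818 108366789 5318064680484753739532468224) 256 384 192 256 448 480)
  (band (go 16 Gd mult S256_285_512_660 (Tr.lf 4303495746 104041413 807577979661082352146186240) 256 384 192 256 448 480)
  (band (go 16 Gd mult S285_314_512_660 (Tr.lf 4303495746 108104645 209628799653635344564224) 256 384 192 256 448 480)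
  (band (go 16 Gd mult S343_372_216_364 (Tr.lf 4841415234 103914693 4387191799381489275008712704) 256 384 192 256 448 480)
  (band (go 16 Gd mult S285_314_364_512 (Tr.lf 4303495714 104041413 3869785992387037702813384829) 256 384 192 256 448 480)
  (band (go 16 Gd mult S314_343_216_364 (Tr.lf 4304544034 104041669 3896367916617949830078005248) 256 384 192 256 448 480)
  (band (go 16 Gd mult S343_372_216_364 (Tr.lf 547496514 91335495 8646630930934934792497528832) 256 384 192 256 480 512)
  (go 16 Gd mult S314_343_216_364 (Tr.lf 9576994 99978309 7851460323571535143053033472) 256 384 192 256 480 512)))))))) = true := by decide +kernel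
  have c3 : (band (go 16 Gd mult S256_285_512_660 (Tr.lf 4303626818 104045381 1935774870464078647086022656) 256 384 192 256 480 512)
  (go 16 Gd mult S285_314_512_660 (Tr.lf 4303634978 103779269 293531509229894026395648000) 256 384 192 256 480 512)) = true := by decide +kernel
  have c4 : (band (go 16 Gd mult S256_285_364_512 (Tr.lf 4303626530 108239940 10138051923288280259085991936) 256 384 192 256 480 496)
  (band (go 16 Gd mult S285_314_364_512 (Tr.lf 4303495458 108108613 7806177496027065893970247680) 256 384 192 256 480 496)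
  (band (go 16 Gd mult S285_314_364_512 (Tr.lf 8528161 108362820 40098858062692743254034172333) 256 384 192 256 496 512)
  (go 16 Gd mult S256_285_364_512 (Tr.lf 4303495458 103779269 38665072041841286568630311608) 256 384 192 256 496 512)))) = true := by decide +kernel
  (And.intro (Ok.s2 480 (Ok.lf S256_285_364_512_ok (bl c2))
  (Ok.s2 496 (Ok.lf S256_285_364_512_ok (bl c4))
  (Ok.lf S256_285_364_512_ok (br (br (br c4))))))
  (And.intro (Ok.s2 480 (Ok.lf S285_314_364_512_ok (bl (br (br (br (br c2))))))
  (Ok.s2 496 (Ok.lf S285_314_364_512_ok (bl (br c4)))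
  (Ok.lf S285_314_364_512_ok (bl (br (br c4))))))
  (And.intro (Ok.s4 660 (Ok.s3 285 (Ok.s2 448 (Ok.lf S256_285_512_660_ok (bl (br c0)))
  (Ok.s2 480 (Ok.lf S256_285_512_660_ok (bl (br c2)))
  (Ok.lf S256_285_512_660_ok (bl c3))))
  (Ok.s2 448 (Ok.lf S285_314_512_660_ok (br (br (br c0))))
  (Ok.s2 480 (Ok.lf S285_314_512_660_ok (bl (br (br c2))))
  (Ok.lf S285_314_512_660_ok (br c3)))))
  (Ok.s2 448 (Ok.s3 285 (Ok.lf S256_285_660_808_ok (bl (br (br c0))))
  (Ok.lf S285_314_660_808_ok (br (br c1))))
  (Ok.s3 285 (Ok.lf S256_285_660_808_ok (bl c1))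
  (Ok.lf S285_314_660_808_ok (bl (br c1))))))
  (Ok.s2 448 (Ok.lf S314_372_216_364_ok (bl c0))
  (Ok.s3 343 (Ok.s2 480 (Ok.lf S314_343_216_364_ok (bl (br (br (br (br (br c2)))))))
  (Ok.lf S314_343_216_364_ok (br (br (br (br (br (br (br c2)))))))))
  (Ok.s2 480 (Ok.lf S343_372_216_364_ok (bl (br (br (br c2)))))
  (Ok.lf S343_372_216_364_ok (bl (br (br (br (br (br (br c2))))))))))))))

end Vale.Agent.P098.Ck
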