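import Vale.Agent.P098.CkGd
import Vale.Agent.P098.CkOk
import Vale.Agent.P098.Sh.A42
import Vale.Agent.P098.Sh.A43
import Vale.Agent.P098.Sh.A44
import Vale.Agent.P098.Sh.A46
import Vale.Agent.P098.Sh.A47

namespace Vale.Agent.P098.Ck

theorem r54 :
    Ok Gd mult 0 128 64 128 496 512 256 314 660 734 ∧
    Ok Gd mult 0 128 64 128 496 512 256 314 734 771 ∧
    Ok Gd mult 0 128 64 128 496 504 256 314 771 808 ∧
    Ok Gd mult 0 128 64 96 504 512 256 285 771 808 :=
  have c0 : (band (go 16 Gd mult S285_314_660_734 (Tr.lf 9144926856 107846471 6113000719050497718768107549) 0 128 64 128 496 504)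
  (band (go 16 Gd mult S256_285_660_734 (Tr.lf 9681666440 107711431 6113054731117145209622757376) 0 128 64 128 496 504)
  (go 16 Gd mult S285_314_660_734 (Tr.lf 9681797704 103517127 17067210977431793407545573376) 0 128 64 96 504 512))) = true := by decide +kernel
  have c1 : (go 16 Gd mult S256_285_660_734 (Tr.lf 9681797768 107711431 14449968499956552588425428992) 0 128 64 128 504 512) = true := by decide +kernel
  have c2 : (band (go 16 Gd mult S285_314_734_771 (Tr.lf 9681797768 103517127 16714124357874115855205269659) 0 128 64 96 504 508)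
  (band (go 16 Gd mult S256_285_771_808 (Tr.lf 13976633736 103381832 16584789475913364221118644224) 0 128 64 96 504 508)
  (go 16 Gd mult S256_285_771_808 (Tr.lf 9681666376 103648327 49643327421647759436603457403) 0 128 64 96 508 512))) = true := by decide +kernel
  have c3 : (band (go 16 Gd mult S285_314_734_771 (Tr.lf 9681666440 99454023 50736196362579384210537840507) 0 128 64 96 508 512)
  (band (go 16 Gd mult S285_314_734_771 (Tr.lf 9143746884 103651911 127287662303454380295192576) 0 128 64 96 496 504)
  (band (go 16 Gd mult S285_314_771_808 (Tr.lf 9143746888 103651911 237325608202874329709412352) 0 128 64 96 496 504)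
  (band (go 16 Gd mult S256_285_771_808 (Tr.lf 9143730504 103652166 237313820733411229305929728) 0 128 64 96 496 504)
  (band (go 16 Gd mult S256_285_734_771 (Tr.lf 9143664964 103652166 127254476610859793922392064) 0 128 64 96 496 504)
  (band (go 16 Gd mult S256_285_734_771 (Tr.lf 9143664964 99588934 7417673921057858221395410944) 0 128 96 128 496 504)
  (go 16 Gd mult S285_314_734_771 (Tr.lf 9144713540 103652422 7417701609620712859432386560) 0 128 96 128 496 504))))))) = true := by decide +kernel
  have c4 : (band (go 16 Gd mult S256_285_734_771 (Tr.lf 13985022532 95001416 12516895228949045000011776000) 64 128 64 96 504 512)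
  (go 16 Gd mult S256_285_734_771 (Tr.lf 13976633668 103381832 16714221941150262828090785792) 0 64 64 96 504 512)) = true := by decide +kernel
  have c5 : (go 16 Gd mult S256_314_734_771 (Tr.sp 0 64 Tr.skip (Tr.lf 9143747140 99584583 31713732357845564546000879616)) 0 128 96 128 504 512) = true := by decide +kernel
  have c6 : (band (go 16 Gd mult S256_285_771_808 (Tr.lf 9143664964 99588934 7381422564071644947655165404) 0 128 96 128 496 504)
  (go 16 Gd mult S285_314_771_808 (Tr.lf 9144713540 103652422 7381448278832883698770116608) 0 128 96 128 496 504)) = true := by decide +kernel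
  have c7 : (go 16 Gd mult S285_314_660_734 (Tr.lf 9143730468 103651911 31869665932127588358692012032) 0 128 96 128 504 512) = true := by decide +kernel
  (And.intro (Ok.s2 504 (Ok.s3 285 (Ok.lf S256_285_660_734_ok (bl (br c0)))
  (Ok.lf S285_314_660_734_ok (bl c0)))
  (Ok.s3 285 (Ok.lf S256_285_660_734_ok c1)
  (Ok.s1 96 (Ok.lf S285_314_660_734_ok (br (br c0)))
  (Ok.lf S285_314_660_734_ok c7))))
  (And.intro (Ok.s2 504 (Ok.s3 285 (Ok.s1 96 (Ok.lf S256_285_734_771_ok (bl (br (br (br (br c3))))))
  (Ok.lf S256_285_734_771_ok (bl (br (br (br (br (br c3))))))))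
  (Ok.s1 96 (Ok.lf S285_314_734_771_ok (bl (br c3)))
  (Ok.lf S285_314_734_771_ok (br (br (br (br (br (br c3)))))))))
  (Ok.s1 96 (Ok.s3 285 (Ok.s0 64 (Ok.lf S256_285_734_771_ok (br c4))
  (Ok.lf S256_285_734_771_ok (bl c4)))
  (Ok.s2 508 (Ok.lf S285_314_734_771_ok (bl c2))
  (Ok.lf S285_314_734_771_ok (bl c3))))
  (Ok.lf S256_314_734_771_ok c5)))
  (And.intro (Ok.s1 96 (Ok.s3 285 (Ok.lf S256_285_771_808_ok (bl (br (br (br c3)))))
  (Ok.lf S285_314_771_808_ok (bl (br (br c3)))))
  (Ok.s3 285 (Ok.lf S256_285_771_808_ok (bl c6))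
  (Ok.lf S285_314_771_808_ok (br c6))))
  (Ok.s2 508 (Ok.lf S256_285_771_808_ok (bl (br c2)))
  (Ok.lf S256_285_771_808_ok (br (br c2)))))))

end Vale.Agent.P098.Ck
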