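import Vale.Agent.P098.CkGd
import Vale.Agent.P098.CkOk
import Vale.Agent.P098.Sh.A48
import Vale.Agent.P098.Sh.A49
import Vale.Agent.P098.Sh.A51
import Vale.Agent.P098.Sh.A52

namespace Vale.Agent.P098.Ck

theorem r540 :
    Ok Gd mult 256 384 192 256 384 512 314 343 364 512 ∧
    Ok Gd mult 256 384 192 256 384 512 343 372 364 512 ∧
    Ok Gd mult 256 384 192 256 384 512 314 372 512 808 :=
  have c0 : (band (go 16 Gd mult S343_372_660_808 (Tr.lf 547652676 91335750 6205405958620187183431160578) 256 384 192 256 480 512)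
  (band (go 16 Gd mult S314_343_660_808 (Tr.lf 547636292 99724103 1201844301294660869954608) 256 384 192 256 480 512)
  (band (go 16 Gd mult S314_343_512_660 (Tr.lf 547635778 95521735 2219585352708034204800717337) 256 384 192 256 480 512)
  (band (go 16 Gd mult S314_343_660_808 (Tr.lf 8599651394 95386567 83139475540208949133312) 256 384 192 256 384 448)
  (go 16 Gd mult S343_372_660_808 (Tr.lf 4842603588 99720263 0) 256 384 192 256 384 448))))) = true := by decide +kernel
  have c1 : (band (go 16 Gd mult S343_372_660_808 (Tr.lf 4842603588 103914439 2894265460477994030197637120) 256 384 192 256 448 480)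
  (band (go 16 Gd mult S343_372_512_660 (Tr.lf 4842603076 108108743 3482915286309746652328493056) 256 384 192 256 448 480)
  (band (go 16 Gd mult S314_343_660_808 (Tr.lf 4841554498 107977925 310089776041831887273984) 256 384 192 256 448 480)
  (band (go 16 Gd mult S314_343_512_660 (Tr.lf 4841423426 99720389 867014311403778212930519040) 256 384 192 256 448 480)
  (band (go 16 Gd mult S314_343_364_512 (Tr.lf 4304544322 104041669 3129985482523443274004299776) 256 384 192 256 448 480)
  (band (go 16 Gd mult S314_343_512_660 (Tr.lf 8599520322 99580871 48182895520529348820992) 256 384 192 256 384 448)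
  (go 16 Gd mult S314_343_364_512 (Tr.lf 4296156226 104168645 0) 256 384 192 256 384 448))))))) = true := by decide +kernel
  have c2 : (band (go 16 Gd mult S343_372_512_660 (Tr.lf 4842472516 99720263 0) 256 384 192 256 384 448)
  (band (go 16 Gd mult S343_372_364_512 (Tr.lf 4841423938 99720517 0) 256 384 192 256 384 448)
  (band (go 16 Gd mult S343_372_364_512 (Tr.lf 547505218 91200455 4094736510094531958474276864) 256 320 192 256 448 512)
  (band (go 16 Gd mult S343_372_364_512 (Tr.lf 4841423937 103914693 0) 320 384 192 256 448 512)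
  (band (go 16 Gd mult S343_372_512_660 (Tr.lf 4842471748 99716039 7175217240310417137646698496) 256 384 192 256 480 496)
  (band (go 16 Gd mult S314_343_364_512 (Tr.lf 9576738 99978309 6595052916752570909259202560) 256 384 192 256 480 496)
  (band (go 16 Gd mult S343_372_512_660 (Tr.lf 9584930 108236100 40071050463831970204470498632) 256 384 192 256 496 512)
  (go 16 Gd mult S314_343_364_512 (Tr.lf 9576738 108235845 39872788050434930621959986679) 256 384 192 256 496 512)))))))) = true := by decide +kernel
  (And.intro (Ok.s2 448 (Ok.lf S314_343_364_512_ok (br (br (br (br (br (br c1)))))))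
  (Ok.s2 480 (Ok.lf S314_343_364_512_ok (bl (br (br (br (br c1))))))
  (Ok.s2 496 (Ok.lf S314_343_364_512_ok (bl (br (br (br (br (br c2)))))))
  (Ok.lf S314_343_364_512_ok (br (br (br (br (br (br (br c2)))))))))))
  (And.intro (Ok.s2 448 (Ok.lf S343_372_364_512_ok (bl (br c2)))
  (Ok.s0 320 (Ok.lf S343_372_364_512_ok (bl (br (br c2))))
  (Ok.lf S343_372_364_512_ok (bl (br (br (br c2)))))))
  (Ok.s4 660 (Ok.s2 448 (Ok.s3 343 (Ok.lf S314_343_512_660_ok (bl (br (br (br (br (br c1)))))))
  (Ok.lf S343_372_512_660_ok (bl c2)))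
  (Ok.s2 480 (Ok.s3 343 (Ok.lf S314_343_512_660_ok (bl (br (br (br c1)))))
  (Ok.lf S343_372_512_660_ok (bl (br c1))))
  (Ok.s3 343 (Ok.lf S314_343_512_660_ok (bl (br (br c0))))
  (Ok.s2 496 (Ok.lf S343_372_512_660_ok (bl (br (br (br (br c2))))))
  (Ok.lf S343_372_512_660_ok (bl (br (br (br (br (br (br c2))))))))))))
  (Ok.s2 448 (Ok.s3 343 (Ok.lf S314_343_660_808_ok (bl (br (br (br c0)))))
  (Ok.lf S343_372_660_808_ok (br (br (br (br c0))))))
  (Ok.s2 480 (Ok.s3 343 (Ok.lf S314_343_660_808_ok (bl (br (br c1))))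
  (Ok.lf S343_372_660_808_ok (bl c1)))
  (Ok.s3 343 (Ok.lf S314_343_660_808_ok (bl (br c0)))
  (Ok.lf S343_372_660_808_ok (bl c0))))))))

end Vale.Agent.P098.Ck
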