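import Vale.Agent.P098.CkGd
import Vale.Agent.P098.CkOk
import Vale.Agent.P098.Sh.A54
import Vale.Agent.P098.Sh.A56
import Vale.Agent.P098.Sh.A57

namespace Vale.Agent.P098.Ck

theorem r541 :
    Ok Gd mult 256 384 192 256 384 448 372 430 216 364 ∧
    Ok Gd mult 256 384 192 256 448 512 372 430 216 364 ∧
    Ok Gd mult 256 384 192 256 384 512 372 430 364 512 ∧
    Ok Gd mult 256 384 192 256 384 448 372 430 512 660 :=
  have c0 : (band (go 16 Gd mult S372_401_512_660 (Tr.lf 9674328200 103644232 0) 256 384 192 256 384 448)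
  (go 16 Gd mult S372_401_364_512 (Tr.lf 9137440900 104045384 0) 256 384 192 256 384 448)) = true := by decide +kernel
  have c1 : (go 16 Gd mult S401_430_512_660 (Tr.lf 13970344072 103512906 0) 256 384 192 224 384 448) = true := by decide +kernel
  have c2 : (band (go 16 Gd mult S401_430_364_512 (Tr.lf 9675376712 95390665 0) 256 384 192 224 384 448)
  (go 16 Gd mult S401_430_216_364 (Tr.lf 9675491400 95390665 0) 256 384 192 224 384 448)) = true := by decide +kernel
  have c3 : (band (go 16 Gd mult S401_430_216_364 (Tr.lf 9675359368 103775177 6765148886563464861655760896) 256 384 192 256 448 480)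
  (band (go 16 Gd mult S401_430_364_512 (Tr.lf 9675359368 103775177 6734925741073099132288106496) 256 384 192 256 448 480)
  (band (go 16 Gd mult S372_401_216_364 (Tr.lf 4842472068 104045511 5590072989898045303841357824) 256 384 192 256 448 480)
  (band (go 16 Gd mult S372_401_364_512 (Tr.lf 4842472068 99851207 5471598259575811644720152576) 256 384 192 256 448 480)
  (go 16 Gd mult S401_430_216_364 (Tr.lf 9129051204 104037447 1900431388434197062638108672) 256 384 224 256 384 448))))) = true := by decide +kernel
  have c4 : (go 16 Gd mult S372_401_216_364 (Tr.lf 9137570948 104045384 0) 256 384 192 256 384 448) = true := by decide +kernel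
  have c5 : (band (go 16 Gd mult S401_430_216_364 (Tr.lf 5380392068 99453769 12674378292839772267619549184) 256 384 192 256 480 512)
  (band (go 16 Gd mult S401_430_364_512 (Tr.lf 5380392068 99453769 12587335633827518967040704512) 256 384 192 256 480 512)
  (band (go 16 Gd mult S372_401_364_512 (Tr.lf 4842472516 103918407 10382254938850435352376639488) 256 384 192 256 480 512)
  (band (go 16 Gd mult S372_401_216_364 (Tr.lf 4842472004 103918407 10570847366710317503630802944) 256 384 192 256 480 512)
  (band (go 16 Gd mult S401_430_364_512 (Tr.lf 9129051204 104037447 1837567245814236345553387520) 256 384 224 256 384 448)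
  (go 16 Gd mult S401_430_512_660 (Tr.lf 9129051204 104037192 1702167554017397877986295808) 256 384 224 256 384 448)))))) = true := by decide +kernel
  (And.intro (Ok.s3 401 (Ok.lf S372_401_216_364_ok c4)
  (Ok.s1 224 (Ok.lf S401_430_216_364_ok (br c2))
  (Ok.lf S401_430_216_364_ok (br (br (br (br c3)))))))
  (And.intro (Ok.s3 401 (Ok.s2 480 (Ok.lf S372_401_216_364_ok (bl (br (br c3))))
  (Ok.lf S372_401_216_364_ok (bl (br (br (br c5))))))
  (Ok.s2 480 (Ok.lf S401_430_216_364_ok (bl c3))
  (Ok.lf S401_430_216_364_ok (bl c5))))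
  (And.intro (Ok.s2 448 (Ok.s3 401 (Ok.lf S372_401_364_512_ok (br c0))
  (Ok.s1 224 (Ok.lf S401_430_364_512_ok (bl c2))
  (Ok.lf S401_430_364_512_ok (bl (br (br (br (br c5))))))))
  (Ok.s3 401 (Ok.s2 480 (Ok.lf S372_401_364_512_ok (bl (br (br (br c3)))))
  (Ok.lf S372_401_364_512_ok (bl (br (br c5)))))
  (Ok.s2 480 (Ok.lf S401_430_364_512_ok (bl (br c3)))
  (Ok.lf S401_430_364_512_ok (bl (br c5))))))
  (Ok.s3 401 (Ok.lf S372_401_512_660_ok (bl c0))
  (Ok.s1 224 (Ok.lf S401_430_512_660_ok c1)
  (Ok.lf S401_430_512_660_ok (br (br (br (br (br c5)))))))))))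

end Vale.Agent.P098.Ck
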