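import Vale.Agent.P098.CkGd
import Vale.Agent.P098.CkOk
import Vale.Agent.P098.Sh.A54
import Vale.Agent.P098.Sh.A57
import Vale.Agent.P098.Sh.A58
import Vale.Agent.P098.Sh.A59

namespace Vale.Agent.P098.Ck

theorem r542 :
    Ok Gd mult 256 384 192 256 448 512 372 430 512 660 ∧
    Ok Gd mult 256 384 192 256 384 512 372 430 660 808 ∧
    Ok Gd mult 256 384 192 256 384 512 430 488 216 364 :=
  have c0 : (go 16 Gd mult S372_401_660_808 (Tr.lf 9675507844 103643978 0) 256 384 192 256 384 448) = true := by decide +kernel
  have c1 : (band (go 16 Gd mult S401_430_660_808 (Tr.lf 13970344068 99445578 0) 256 320 192 224 384 448)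
  (go 16 Gd mult S401_430_660_808 (Tr.lf 9675375752 103775177 6598317123456646035546308608) 256 384 192 256 448 480)) = true := by decide +kernel
  have c2 : (go 16 Gd mult S430_488_216_364 (Tr.lf 9666988104 103512905 4526218268637171630099922944) 256 384 192 224 448 512) = true := by decide +kernel
  have c3 : (band (go 16 Gd mult S401_430_512_660 (Tr.lf 9675359368 103775177 6666016969355065269329854464) 256 384 192 256 448 480)
  (band (go 16 Gd mult S372_401_512_660 (Tr.lf 4842472580 99851207 5214097059997895630507737088) 256 384 192 256 448 480)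
  (band (go 16 Gd mult S401_430_512_660 (Tr.lf 5380392068 99453769 12396325354328407557437128704) 256 384 192 256 480 512)
  (go 16 Gd mult S401_430_660_808 (Tr.lf 5380392072 99453769 12205315074829296147833552896) 256 384 192 256 480 512)))) = true := by decide +kernel
  have c4 : (go 16 Gd mult S372_401_660_808 (Tr.lf 4842604674 99851207 699968049556870292154875904) 320 384 192 256 448 512) = true := by decide +kernel
  have c5 : (band (go 16 Gd mult S430_459_216_364 (Tr.lf 9675360328 95390665 0) 256 384 192 224 384 448)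
  (go 16 Gd mult S459_488_216_364 (Tr.lf 9666906184 95382473 0) 256 384 192 224 384 448)) = true := by decide +kernel
  have c6 : (band (go 16 Gd mult S430_488_216_364 (Tr.lf 9129002056 103779399 3637657791220419186690883584) 256 384 224 256 384 448)
  (band (go 16 Gd mult S401_430_660_808 (Tr.lf 9129051208 104037192 1567976788040174039593910272) 256 384 224 256 384 448)
  (go 16 Gd mult S401_430_660_808 (Tr.lf 9675360324 95390665 0) 320 384 192 224 384 448))) = true := by decide +kernel
  have c7 : (band (go 16 Gd mult S372_401_660_808 (Tr.lf 4842472580 107977671 4955386934600364987120615424) 256 320 192 256 448 480)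
  (go 16 Gd mult S372_401_660_808 (Tr.sp 2 496 (Tr.lf 4842472066 99851334 9558976455692872884401733632) Tr.skip) 256 320 192 256 480 512)) = true := by decide +kernel
  have c8 : (band (go 16 Gd mult S372_401_512_660 (Tr.lf 4842472004 103918407 9972429086001076062151245824) 256 384 192 256 480 496)
  (go 16 Gd mult S372_401_512_660 (Tr.lf 547504450 95398982 38830694875877668913689603435) 256 384 192 256 496 512)) = true := by decide +kernel
  have c9 : (band (go 16 Gd mult S430_488_216_364 (Tr.lf 4834017860 104037319 10349613941720840364659572736) 256 384 224 256 448 480)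
  (go 16 Gd mult S430_488_216_364 (Tr.lf 4834017828 103910470 28355029864516363720169553920) 256 384 224 256 480 512)) = true := by decide +kernel
  (And.intro (Ok.s3 401 (Ok.s2 480 (Ok.lf S372_401_512_660_ok (bl (br c3)))
  (Ok.s2 496 (Ok.lf S372_401_512_660_ok (bl c8))
  (Ok.lf S372_401_512_660_ok (br c8))))
  (Ok.s2 480 (Ok.lf S401_430_512_660_ok (bl c3))
  (Ok.lf S401_430_512_660_ok (bl (br (br c3))))))
  (And.intro (Ok.s2 448 (Ok.s3 401 (Ok.lf S372_401_660_808_ok c0)
  (Ok.s1 224 (Ok.s0 320 (Ok.lf S401_430_660_808_ok (bl c1))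
  (Ok.lf S401_430_660_808_ok (br (br c6))))
  (Ok.lf S401_430_660_808_ok (bl (br c6)))))
  (Ok.s3 401 (Ok.s0 320 (Ok.s2 480 (Ok.lf S372_401_660_808_ok (bl c7))
  (Ok.lf S372_401_660_808_ok (br c7)))
  (Ok.lf S372_401_660_808_ok c4))
  (Ok.s2 480 (Ok.lf S401_430_660_808_ok (br c1))
  (Ok.lf S401_430_660_808_ok (br (br (br c3)))))))
  (Ok.s1 224 (Ok.s2 448 (Ok.s3 459 (Ok.lf S430_459_216_364_ok (bl c5))
  (Ok.lf S459_488_216_364_ok (br c5)))
  (Ok.lf S430_488_216_364_ok c2))
  (Ok.s2 448 (Ok.lf S430_488_216_364_ok (bl c6))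
  (Ok.s2 480 (Ok.lf S430_488_216_364_ok (bl c9))
  (Ok.lf S430_488_216_364_ok (br c9)))))))

end Vale.Agent.P098.Ck
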