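import Vale.Agent.P098.CkGd
import Vale.Agent.P098.CkOk
import Vale.Agent.P098.Sh.A58
import Vale.Agent.P098.Sh.A59

namespace Vale.Agent.P098.Ck

theorem r543 :
    Ok Gd mult 256 384 192 224 384 512 430 488 364 512 ∧
    Ok Gd mult 256 384 224 256 384 512 430 488 364 512 ∧
    Ok Gd mult 256 384 192 256 384 512 430 488 512 808 :=
  have c0 : (band (go 16 Gd mult S430_459_660_808 (Tr.lf 13970344072 103512906 0) 256 384 192 224 384 448)
  (go 16 Gd mult S459_488_364_512 (Tr.lf 9666906184 95382473 0) 256 384 192 224 384 448)) = true := by decide +kernel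
  have c1 : (go 16 Gd mult S459_488_660_808 (Tr.lf 9666922632 99580873 2645129693316808634257113088) 256 384 192 256 384 448) = true := by decide +kernel
  have c2 : (band (go 16 Gd mult S430_459_364_512 (Tr.lf 9675360392 95390665 0) 256 384 192 224 384 448)
  (go 16 Gd mult S430_459_512_660 (Tr.lf 13970327688 103512906 0) 256 384 192 224 384 448)) = true := by decide +kernel
  have c3 : (band (go 16 Gd mult S430_488_364_512 (Tr.lf 9666988104 103512905 4526218268637171630099922944) 256 384 192 224 448 512)
  (band (go 16 Gd mult S430_459_512_660 (Tr.lf 9675294792 103521097 4034185460054017555994509312) 256 384 192 224 448 512)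
  (go 16 Gd mult S459_488_512_660 (Tr.lf 9666906180 103770953 4525009342817557000925216768) 256 384 192 224 448 512))) = true := by decide +kernel
  have c4 : (band (go 16 Gd mult S430_459_660_808 (Tr.lf 9675359368 103775177 7513473968904920320798883840) 256 384 192 256 448 480)
  (band (go 16 Gd mult S459_488_660_808 (Tr.lf 9666905220 103766985 7741960948812085234818351104) 256 384 192 256 448 480)
  (band (go 16 Gd mult S459_488_660_808 (Tr.lf 5371937924 99445832 15417430977545365865027862528) 256 384 192 256 480 512)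
  (band (go 16 Gd mult S430_459_660_808 (Tr.lf 5371937928 99445577 14771864589871153885734764544) 256 384 192 256 480 512)
  (go 16 Gd mult S430_459_660_808 (Tr.lf 9128985672 107973703 3342679891234449668062576640) 256 384 224 256 384 448))))) = true := by decide +kernel
  have c5 : (band (go 16 Gd mult S430_488_364_512 (Tr.lf 9129002056 107973703 3638866717040033815865589760) 256 384 224 256 384 448)
  (band (go 16 Gd mult S430_488_512_660 (Tr.lf 9129002056 107973703 3637657791220419186690883584) 256 384 224 256 384 448)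
  (band (go 16 Gd mult S430_488_364_512 (Tr.lf 4834034212 104037319 10349613941720840364659572736) 256 384 224 256 448 480)
  (go 16 Gd mult S430_488_512_660 (Tr.lf 4834034212 104037319 10349613941720840364659572736) 256 384 224 256 448 480)))) = true := by decide +kernel
  have c6 : (go 16 Gd mult S459_488_512_660 (Tr.lf 9666906184 95382473 0) 256 384 192 224 384 448) = true := by decide +kernel
  have c7 : (band (go 16 Gd mult S430_488_364_512 (Tr.lf 4834017828 103910470 28353820606655355764622819328) 256 384 224 256 480 512)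
  (go 16 Gd mult S430_488_512_660 (Tr.lf 4834017828 103910470 28353820606655355764399144960) 256 384 224 256 480 512)) = true := by decide +kernel
  (And.intro (Ok.s2 448 (Ok.s3 459 (Ok.lf S430_459_364_512_ok (bl c2))
  (Ok.lf S459_488_364_512_ok (br c0)))
  (Ok.lf S430_488_364_512_ok (bl c3)))
  (And.intro (Ok.s2 448 (Ok.lf S430_488_364_512_ok (bl c5))
  (Ok.s2 480 (Ok.lf S430_488_364_512_ok (bl (br (br c5))))
  (Ok.lf S430_488_364_512_ok (bl c7))))
  (Ok.s4 660 (Ok.s1 224 (Ok.s2 448 (Ok.s3 459 (Ok.lf S430_459_512_660_ok (br c2))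
  (Ok.lf S459_488_512_660_ok c6))
  (Ok.s3 459 (Ok.lf S430_459_512_660_ok (bl (br c3)))
  (Ok.lf S459_488_512_660_ok (br (br c3)))))
  (Ok.s2 448 (Ok.lf S430_488_512_660_ok (bl (br c5)))
  (Ok.s2 480 (Ok.lf S430_488_512_660_ok (br (br (br c5))))
  (Ok.lf S430_488_512_660_ok (br c7)))))
  (Ok.s2 448 (Ok.s3 459 (Ok.s1 224 (Ok.lf S430_459_660_808_ok (bl c0))
  (Ok.lf S430_459_660_808_ok (br (br (br (br c4))))))
  (Ok.lf S459_488_660_808_ok c1))
  (Ok.s3 459 (Ok.s2 480 (Ok.lf S430_459_660_808_ok (bl c4))
  (Ok.lf S430_459_660_808_ok (bl (br (br (br c4))))))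
  (Ok.s2 480 (Ok.lf S459_488_660_808_ok (bl (br c4)))
  (Ok.lf S459_488_660_808_ok (bl (br (br c4))))))))))

end Vale.Agent.P098.Ck
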