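import Vale.Agent.P098.CkGd
import Vale.Agent.P098.CkOk
import Vale.Agent.P098.Sh.A0
import Vale.Agent.P098.Sh.A1
import Vale.Agent.P098.Sh.A17
import Vale.Agent.P098.Sh.A2
import Vale.Agent.P098.Sh.A4
import Vale.Agent.P098.Sh.A5
import Vale.Agent.P098.Sh.A8

namespace Vale.Agent.P098.Ck

theorem r544 :
    Ok Gd mult 256 384 256 320 0 128 24 82 216 512 ∧
    Ok Gd mult 256 384 256 320 0 128 24 82 512 808 ∧
    Ok Gd mult 256 384 256 320 0 128 82 140 216 808 ∧
    Ok Gd mult 256 384 256 320 0 128 140 198 216 364 :=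
  have c0 : (band (go 16 Gd mult S24_82_660_808 (Tr.lf 12885067912 95382470 0) 256 384 256 320 0 128)
  (go 16 Gd mult S82_111_216_364 (Tr.lf 8590009412 104049732 0) 256 384 256 320 0 128)) = true := by decide +kernel
  have c1 : (go 16 Gd mult S111_140_216_364 (Tr.lf 13490226312 99843270 0) 256 384 256 320 0 128) = true := by decide +kernel
  have c2 : (go 16 Gd mult S82_140_660_808 (Tr.lf 8590230664 104045764 0) 256 384 256 320 0 128) = true := by decide +kernel
  have c3 : (band (go 16 Gd mult S82_140_364_512 (Tr.lf 8590100552 104172740 0) 256 384 256 288 0 128)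
  (go 16 Gd mult S140_169_216_364 (Tr.lf 17718084680 99441608 0) 256 384 256 288 0 128)) = true := by decide +kernel
  have c4 : (go 16 Gd mult S169_198_216_364 (Tr.lf 22021686404 90925770 0) 256 320 256 320 64 128) = true := by decide +kernel
  have c5 : (go 16 Gd mult S82_140_512_660 (Tr.lf 8590099528 103914692 0) 256 384 256 288 0 128) = true := by decide +kernel
  have c6 : (band (go 16 Gd mult S169_198_216_364 (Tr.lf 22011987012 95246921 0) 256 320 256 320 0 64)
  (go 16 Gd mult S169_198_216_364 (Tr.lf 17717019716 95378248 0) 320 384 256 320 0 128)) = true := by decide +kernel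
  have c7 : (band (go 16 Gd mult S24_82_216_364 (Tr.lf 12885001284 95648837 0) 256 384 256 320 0 64)
  (band (go 16 Gd mult S24_82_364_512 (Tr.lf 17179952196 91052871 0) 256 384 256 320 0 64)
  (band (go 16 Gd mult S24_82_512_660 (Tr.lf 17179952196 91052871 0) 256 384 256 320 0 64)
  (band (go 16 Gd mult S24_82_364_512 (Tr.lf 12884984354 95259462 0) 256 384 256 320 64 128)
  (band (go 16 Gd mult S24_82_512_660 (Tr.lf 12884984354 95259462 0) 256 384 256 320 64 128)
  (go 16 Gd mult S24_82_216_364 (Tr.lf 12884984354 95259462 0) 256 384 256 320 64 128)))))) = true := by decide +kernel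
  have c8 : (band (go 16 Gd mult S82_140_364_512 (Tr.lf 8590017572 104172740 0) 256 384 288 320 0 128)
  (band (go 16 Gd mult S82_140_512_660 (Tr.lf 8590017572 103914692 0) 256 384 288 320 0 128)
  (go 16 Gd mult S140_169_216_364 (Tr.lf 17717928996 91184072 0) 256 384 288 320 0 128))) = true := by decide +kernel
  (And.intro (Ok.s4 364 (Ok.s2 64 (Ok.lf S24_82_216_364_ok (bl c7))
  (Ok.lf S24_82_216_364_ok (br (br (br (br (br c7)))))))
  (Ok.s2 64 (Ok.lf S24_82_364_512_ok (bl (br c7)))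
  (Ok.lf S24_82_364_512_ok (bl (br (br (br c7)))))))
  (And.intro (Ok.s4 660 (Ok.s2 64 (Ok.lf S24_82_512_660_ok (bl (br (br c7))))
  (Ok.lf S24_82_512_660_ok (bl (br (br (br (br c7)))))))
  (Ok.lf S24_82_660_808_ok (bl c0)))
  (And.intro (Ok.s4 512 (Ok.s4 364 (Ok.s3 111 (Ok.lf S82_111_216_364_ok (br c0))
  (Ok.lf S111_140_216_364_ok c1))
  (Ok.s1 288 (Ok.lf S82_140_364_512_ok (bl c3))
  (Ok.lf S82_140_364_512_ok (bl c8))))
  (Ok.s4 660 (Ok.s1 288 (Ok.lf S82_140_512_660_ok c5)
  (Ok.lf S82_140_512_660_ok (bl (br c8))))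
  (Ok.lf S82_140_660_808_ok c2)))
  (Ok.s3 169 (Ok.s1 288 (Ok.lf S140_169_216_364_ok (br c3))
  (Ok.lf S140_169_216_364_ok (br (br c8))))
  (Ok.s0 320 (Ok.s2 64 (Ok.lf S169_198_216_364_ok (bl c6))
  (Ok.lf S169_198_216_364_ok c4))
  (Ok.lf S169_198_216_364_ok (br c6)))))))

end Vale.Agent.P098.Ck
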