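import Vale.Agent.P098.CkGd
import Vale.Agent.P098.CkOk
import Vale.Agent.P098.Sh.A10
import Vale.Agent.P098.Sh.A18
import Vale.Agent.P098.Sh.A19
import Vale.Agent.P098.Sh.A25
import Vale.Agent.P098.Sh.A9

namespace Vale.Agent.P098.Ck

theorem r545 :
    Ok Gd mult 256 384 256 320 0 128 140 198 364 512 ∧
    Ok Gd mult 256 384 256 320 0 128 140 198 512 808 ∧
    Ok Gd mult 256 384 256 320 0 128 198 227 216 364 :=
  have c0 : (go 16 Gd mult S140_169_660_808 (Tr.lf 8590215304 104049860 0) 256 384 256 320 0 128) = true := by decide +kernel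
  have c1 : (go 16 Gd mult S198_227_216_290 (Tr.lf 22020392072 91187658 0) 256 320 256 320 64 128) = true := by decide +kernel
  have c2 : (go 16 Gd mult S198_227_290_364 (Tr.lf 22012003464 99572552 0) 256 320 256 320 0 64) = true := by decide +kernel
  have c3 : (go 16 Gd mult S169_198_364_512 (Tr.lf 17717019784 99449544 0) 256 384 256 320 0 128) = true := by decide +kernel
  have c4 : (band (go 16 Gd mult S169_198_512_660 (Tr.lf 17725670472 99453640 0) 256 384 256 288 0 128)
  (band (go 16 Gd mult S140_169_364_512 (Tr.lf 17718068296 99441608 0) 256 384 256 288 0 128)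
  (go 16 Gd mult S169_198_660_808 (Tr.lf 8590214216 104049860 0) 256 384 256 288 0 128))) = true := by decide +kernel
  have c5 : (band (go 16 Gd mult S198_227_216_290 (Tr.lf 22012004420 103893832 0) 256 320 256 288 0 64)
  (go 16 Gd mult S198_227_216_290 (Tr.lf 22012003400 103766856 0) 256 320 288 320 0 64)) = true := by decide +kernel
  have c6 : (go 16 Gd mult S198_227_216_290 (Tr.lf 22011987080 95247049 0) 320 384 256 320 0 64) = true := by decide +kernel
  have c7 : (go 16 Gd mult S198_227_290_364 (Tr.lf 22566700164 103648201 0) 256 320 256 320 64 128) = true := by decide +kernel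
  have c8 : (go 16 Gd mult S198_227_290_364 (Tr.lf 22011857028 91044426 0) 320 384 256 320 0 128) = true := by decide +kernel
  have c9 : (go 16 Gd mult S140_169_512_660 (Tr.lf 8590214216 108113092 0) 256 384 256 288 0 128) = true := by decide +kernel
  have c10 : (go 16 Gd mult S198_227_216_290 (Tr.lf 17725277252 103906120 0) 320 384 256 320 64 128) = true := by decide +kernel
  have c11 : (band (go 16 Gd mult S140_169_364_512 (Tr.lf 13422961700 104037574 0) 256 384 288 320 0 128)
  (band (go 16 Gd mult S169_198_512_660 (Tr.lf 13430301732 104041542 0) 256 384 288 320 0 128)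
  (band (go 16 Gd mult S140_169_512_660 (Tr.lf 13422961188 104037574 0) 256 384 288 320 0 128)
  (go 16 Gd mult S169_198_660_808 (Tr.lf 13497410082 108235846 0) 256 384 288 320 0 128)))) = true := by decide +kernel
  (And.intro (Ok.s3 169 (Ok.s1 288 (Ok.lf S140_169_364_512_ok (bl (br c4)))
  (Ok.lf S140_169_364_512_ok (bl c11)))
  (Ok.lf S169_198_364_512_ok c3))
  (And.intro (Ok.s4 660 (Ok.s3 169 (Ok.s1 288 (Ok.lf S140_169_512_660_ok c9)
  (Ok.lf S140_169_512_660_ok (bl (br (br c11)))))
  (Ok.s1 288 (Ok.lf S169_198_512_660_ok (bl c4))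
  (Ok.lf S169_198_512_660_ok (bl (br c11)))))
  (Ok.s3 169 (Ok.lf S140_169_660_808_ok c0)
  (Ok.s1 288 (Ok.lf S169_198_660_808_ok (br (br c4)))
  (Ok.lf S169_198_660_808_ok (br (br (br c11)))))))
  (Ok.s4 290 (Ok.s0 320 (Ok.s2 64 (Ok.s1 288 (Ok.lf S198_227_216_290_ok (bl c5))
  (Ok.lf S198_227_216_290_ok (br c5)))
  (Ok.lf S198_227_216_290_ok c1))
  (Ok.s2 64 (Ok.lf S198_227_216_290_ok c6)
  (Ok.lf S198_227_216_290_ok c10)))
  (Ok.s0 320 (Ok.s2 64 (Ok.lf S198_227_290_364_ok c2)
  (Ok.lf S198_227_290_364_ok c7))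
  (Ok.lf S198_227_290_364_ok c8)))))

end Vale.Agent.P098.Ck
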