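import Vale.Agent.P098.CkGd
import Vale.Agent.P098.CkOk
import Vale.Agent.P098.Sh.A26
import Vale.Agent.P098.Sh.A27
import Vale.Agent.P098.Sh.A29
import Vale.Agent.P098.Sh.A36
import Vale.Agent.P098.Sh.A37
import Vale.Agent.P098.Sh.A38

namespace Vale.Agent.P098.Ck

theorem r546 :
    Ok Gd mult 256 320 256 320 0 64 227 256 216 364 ∧
    Ok Gd mult 256 320 256 320 64 128 227 256 216 364 ∧
    Ok Gd mult 320 384 256 320 0 128 227 256 216 364 ∧
    Ok Gd mult 256 384 256 320 0 128 198 256 364 512 ∧
    Ok Gd mult 256 384 256 320 0 128 198 256 512 808 :=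
  have c0 : (band (go 16 Gd mult S198_227_364_512 (Tr.lf 22566946888 103639882 0) 256 384 256 288 0 128)
  (go 16 Gd mult S227_256_660_808 (Tr.lf 12885443652 91196358 0) 256 384 256 288 0 128)) = true := by decide +kernel
  have c1 : (go 16 Gd mult S227_256_364_512 (Tr.lf 22566946888 103639882 0) 256 384 256 288 0 128) = true := by decide +kernel
  have c2 : (go 16 Gd mult S198_227_512_660 (Tr.lf 17725686856 95390408 0) 256 384 256 288 0 128) = true := by decide +kernel
  have c3 : (go 16 Gd mult S227_256_512_660 (Tr.lf 17725686856 95390408 0) 256 384 256 288 0 128) = true := by decide +kernel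
  have c4 : (band (go 16 Gd mult S227_256_216_290 (Tr.lf 22012004420 103893832 0) 256 320 256 288 0 64)
  (go 16 Gd mult S227_256_216_290 (Tr.lf 22020392068 91187913 0) 256 320 256 320 64 128)) = true := by decide +kernel
  have c5 : (go 16 Gd mult S227_256_216_290 (Tr.lf 22011987080 103766856 0) 256 320 288 320 0 64) = true := by decide +kernel
  have c6 : (go 16 Gd mult S227_256_290_364 (Tr.lf 22011987080 99572552 0) 256 320 256 320 0 64) = true := by decide +kernel
  have c7 : (go 16 Gd mult S227_256_290_364 (Tr.lf 22566700164 103648201 0) 256 320 256 320 64 128) = true := by decide +kernel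
  have c8 : (go 16 Gd mult S227_256_216_364 (Tr.lf 22012249160 99441353 0) 320 384 288 320 0 64) = true := by decide +kernel
  have c9 : (go 16 Gd mult S198_227_660_808 (Tr.lf 13497812040 108243910 0) 256 384 256 288 0 128) = true := by decide +kernel
  have c10 : (band (go 16 Gd mult S198_227_364_512 (Tr.lf 17717019688 103774920 0) 256 384 288 320 0 128)
  (band (go 16 Gd mult S198_256_660_808 (Tr.lf 12885197860 99584966 0) 256 384 288 320 0 128)
  (band (go 16 Gd mult S227_256_364_512 (Tr.lf 17717019688 103774920 0) 256 384 288 320 0 128)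
  (go 16 Gd mult S198_256_512_660 (Tr.lf 13430457380 104041542 0) 256 384 288 320 0 128)))) = true := by decide +kernel
  have c11 : (band (go 16 Gd mult S227_256_216_364 (Tr.lf 17725408324 103906120 0) 320 384 256 320 64 128)
  (go 16 Gd mult S227_256_216_364 (Tr.lf 17717019172 104033223 0) 320 384 256 288 0 64)) = true := by decide +kernel
  (And.intro (Ok.s4 290 (Ok.s1 288 (Ok.lf S227_256_216_290_ok (bl c4))
  (Ok.lf S227_256_216_290_ok c5))
  (Ok.lf S227_256_290_364_ok c6))
  (And.intro (Ok.s4 290 (Ok.lf S227_256_216_290_ok (br c4))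
  (Ok.lf S227_256_290_364_ok c7))
  (And.intro (Ok.s2 64 (Ok.s1 288 (Ok.lf S227_256_216_364_ok (br c11))
  (Ok.lf S227_256_216_364_ok c8))
  (Ok.lf S227_256_216_364_ok (bl c11)))
  (And.intro (Ok.s1 288 (Ok.s3 227 (Ok.lf S198_227_364_512_ok (bl c0))
  (Ok.lf S227_256_364_512_ok c1))
  (Ok.s3 227 (Ok.lf S198_227_364_512_ok (bl c10))
  (Ok.lf S227_256_364_512_ok (bl (br (br c10))))))
  (Ok.s4 660 (Ok.s1 288 (Ok.s3 227 (Ok.lf S198_227_512_660_ok c2)
  (Ok.lf S227_256_512_660_ok c3))
  (Ok.lf S198_256_512_660_ok (br (br (br c10)))))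
  (Ok.s1 288 (Ok.s3 227 (Ok.lf S198_227_660_808_ok c9)
  (Ok.lf S227_256_660_808_ok (br c0)))
  (Ok.lf S198_256_660_808_ok (bl (br c10)))))))))

end Vale.Agent.P098.Ck
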