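import Vale.Agent.P098.CkGd
import Vale.Agent.P098.CkOk
import Vale.Agent.P098.Sh.A41
import Vale.Agent.P098.Sh.A42
import Vale.Agent.P098.Sh.A43
import Vale.Agent.P098.Sh.A44
import Vale.Agent.P098.Sh.A45
import Vale.Agent.P098.Sh.A46
import Vale.Agent.P098.Sh.A48
import Vale.Agent.P098.Sh.A49
import Vale.Agent.P098.Sh.A51

namespace Vale.Agent.P098.Ck

theorem r547 :
    Ok Gd mult 256 384 256 288 0 128 256 314 216 364 ∧
    Ok Gd mult 256 384 288 320 0 128 256 314 216 364 ∧
    Ok Gd mult 256 384 256 320 0 128 256 314 364 512 ∧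
    Ok Gd mult 256 384 256 320 0 128 256 314 512 808 ∧
    Ok Gd mult 256 384 256 320 0 128 314 372 216 512 :=
  have c0 : (band (go 16 Gd mult S256_285_364_512 (Tr.lf 17734075464 99715912 0) 256 384 256 288 0 128)
  (go 16 Gd mult S285_314_216_364 (Tr.lf 17717019684 99576520 0) 256 384 256 288 0 128)) = true := by decide +kernel
  have c1 : (go 16 Gd mult S256_285_512_660 (Tr.lf 8590492744 104172868 0) 256 384 256 288 0 128) = true := by decide +kernel
  have c2 : (go 16 Gd mult S314_372_216_364 (Tr.lf 17725424776 103779016 0) 256 384 256 320 0 128) = true := by decide +kernel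
  have c3 : (go 16 Gd mult S256_285_216_364 (Tr.lf 22565898308 107838153 0) 256 320 256 288 0 128) = true := by decide +kernel
  have c4 : (band (go 16 Gd mult S285_314_364_512 (Tr.lf 17725670472 99453640 0) 256 384 256 288 0 128)
  (go 16 Gd mult S285_314_512_660 (Tr.lf 8590476360 99855556 0) 256 384 256 288 0 128)) = true := by decide +kernel
  have c5 : (go 16 Gd mult S314_343_364_512 (Tr.lf 13430703176 108104774 0) 256 384 256 288 0 128) = true := by decide +kernel
  have c6 : (go 16 Gd mult S343_372_364_512 (Tr.lf 17725408392 99715784 0) 256 384 256 320 0 128) = true := by decide +kernel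
  have c7 : (band (go 16 Gd mult S256_314_364_512 (Tr.lf 17717036072 99707592 0) 256 384 288 320 0 128)
  (band (go 16 Gd mult S256_314_512_660 (Tr.lf 8590230564 103914820 0) 256 384 288 320 0 128)
  (band (go 16 Gd mult S285_314_216_364 (Tr.lf 17717010980 103771079 0) 256 384 288 320 0 128)
  (go 16 Gd mult S314_343_364_512 (Tr.lf 13430301220 104041542 0) 256 384 288 320 0 128)))) = true := by decide +kernel
  have c8 : (band (go 16 Gd mult S256_285_660_808 (Tr.lf 17180410948 82791367 0) 256 320 256 320 0 128)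
  (go 16 Gd mult S285_314_660_808 (Tr.lf 17180410948 91056967 0) 256 320 256 320 0 128)) = true := by decide +kernel
  have c9 : (band (go 16 Gd mult S256_285_216_364 (Tr.lf 17717020708 108096200 0) 320 384 256 288 0 128)
  (band (go 16 Gd mult S256_285_216_364 (Tr.lf 22011987012 99306185 0) 256 320 288 320 0 128)
  (go 16 Gd mult S256_285_216_364 (Tr.lf 17717019682 107969479 0) 320 384 288 320 0 128))) = true := by decide +kernel
  have c10 : (band (go 16 Gd mult S256_285_660_808 (Tr.lf 17792517186 95517384 0) 320 384 256 320 0 128)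
  (go 16 Gd mult S285_314_660_808 (Tr.lf 17792517186 95517384 0) 320 384 256 320 0 128)) = true := by decide +kernel
  (And.intro (Ok.s3 285 (Ok.s0 320 (Ok.lf S256_285_216_364_ok c3)
  (Ok.lf S256_285_216_364_ok (bl c9)))
  (Ok.lf S285_314_216_364_ok (br c0)))
  (And.intro (Ok.s3 285 (Ok.s0 320 (Ok.lf S256_285_216_364_ok (bl (br c9)))
  (Ok.lf S256_285_216_364_ok (br (br c9))))
  (Ok.lf S285_314_216_364_ok (bl (br (br c7)))))
  (And.intro (Ok.s1 288 (Ok.s3 285 (Ok.lf S256_285_364_512_ok (bl c0))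
  (Ok.lf S285_314_364_512_ok (bl c4)))
  (Ok.lf S256_314_364_512_ok (bl c7)))
  (And.intro (Ok.s4 660 (Ok.s1 288 (Ok.s3 285 (Ok.lf S256_285_512_660_ok c1)
  (Ok.lf S285_314_512_660_ok (br c4)))
  (Ok.lf S256_314_512_660_ok (bl (br c7))))
  (Ok.s3 285 (Ok.s0 320 (Ok.lf S256_285_660_808_ok (bl c8))
  (Ok.lf S256_285_660_808_ok (bl c10)))
  (Ok.s0 320 (Ok.lf S285_314_660_808_ok (br c8))
  (Ok.lf S285_314_660_808_ok (br c10)))))
  (Ok.s4 364 (Ok.lf S314_372_216_364_ok c2)
  (Ok.s3 343 (Ok.s1 288 (Ok.lf S314_343_364_512_ok c5)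
  (Ok.lf S314_343_364_512_ok (br (br (br c7)))))
  (Ok.lf S343_372_364_512_ok c6)))))))

end Vale.Agent.P098.Ck
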