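import Vale.Agent.P098.CkGd
import Vale.Agent.P098.CkOk
import Vale.Agent.P098.Sh.A48
import Vale.Agent.P098.Sh.A49
import Vale.Agent.P098.Sh.A50
import Vale.Agent.P098.Sh.A52
import Vale.Agent.P098.Sh.A54
import Vale.Agent.P098.Sh.A56
import Vale.Agent.P098.Sh.A57

namespace Vale.Agent.P098.Ck

theorem r548 :
    Ok Gd mult 256 384 256 320 0 128 314 372 512 660 ∧
    Ok Gd mult 256 384 256 320 0 128 314 372 660 808 ∧
    Ok Gd mult 256 384 256 320 0 128 372 430 216 808 :=
  have c0 : (band (go 16 Gd mult S314_343_512_660 (Tr.lf 13497812040 104172614 0) 256 384 256 288 0 128)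
  (go 16 Gd mult S314_343_660_808 (Tr.lf 8590492740 104049860 0) 256 384 256 288 0 128)) = true := by decide +kernel
  have c1 : (band (go 16 Gd mult S343_372_660_808 (Tr.lf 13430457416 104041542 0) 256 384 256 288 0 128)
  (band (go 16 Gd mult S401_430_364_512 (Tr.lf 22011856968 91048394 0) 256 384 256 288 0 128)
  (go 16 Gd mult S343_372_512_660 (Tr.lf 17725408328 99584712 0) 256 384 256 288 0 128))) = true := by decide +kernel
  have c2 : (band (go 16 Gd mult S372_401_216_364 (Tr.lf 17716881544 103901896 0) 256 384 256 320 0 128)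
  (band (go 16 Gd mult S372_401_364_512 (Tr.lf 17716888712 103901896 0) 256 384 256 320 0 128)
  (band (go 16 Gd mult S372_401_660_808 (Tr.lf 17725277316 103910088 0) 256 384 256 320 0 128)
  (go 16 Gd mult S372_401_512_660 (Tr.lf 17716888708 103901896 0) 256 384 256 320 0 128)))) = true := by decide +kernel
  have c3 : (band (go 16 Gd mult S401_430_512_660 (Tr.lf 17717937288 103902152 0) 256 384 256 320 64 128)
  (band (go 16 Gd mult S401_430_216_364 (Tr.lf 17717929096 103902152 0) 256 384 256 320 64 128)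
  (band (go 16 Gd mult S401_430_660_808 (Tr.lf 17717936776 103902152 0) 256 384 256 320 64 128)
  (go 16 Gd mult S401_430_216_364 (Tr.lf 22011847816 95251017 0) 256 384 256 320 0 64)))) = true := by decide +kernel
  have c4 : (band (go 16 Gd mult S401_430_512_660 (Tr.lf 22011790472 95242953 0) 256 384 256 320 0 64)
  (go 16 Gd mult S401_430_660_808 (Tr.lf 17716823176 103902151 0) 256 384 256 320 0 64)) = true := by decide +kernel
  have c5 : (band (go 16 Gd mult S314_372_660_808 (Tr.lf 13497566244 107981894 0) 256 384 288 320 0 128)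
  (band (go 16 Gd mult S401_430_364_512 (Tr.lf 22011782216 91056713 0) 256 384 288 320 0 128)
  (band (go 16 Gd mult S314_343_512_660 (Tr.lf 13497410084 108108870 0) 256 384 288 320 0 128)
  (go 16 Gd mult S343_372_512_660 (Tr.lf 13430301220 112430150 0) 256 384 288 320 0 128)))) = true := by decide +kernel
  (And.intro (Ok.s3 343 (Ok.s1 288 (Ok.lf S314_343_512_660_ok (bl c0))
  (Ok.lf S314_343_512_660_ok (bl (br (br c5)))))
  (Ok.s1 288 (Ok.lf S343_372_512_660_ok (br (br c1)))
  (Ok.lf S343_372_512_660_ok (br (br (br c5))))))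
  (And.intro (Ok.s1 288 (Ok.s3 343 (Ok.lf S314_343_660_808_ok (br c0))
  (Ok.lf S343_372_660_808_ok (bl c1)))
  (Ok.lf S314_372_660_808_ok (bl c5)))
  (Ok.s4 512 (Ok.s4 364 (Ok.s3 401 (Ok.lf S372_401_216_364_ok (bl c2))
  (Ok.s2 64 (Ok.lf S401_430_216_364_ok (br (br (br c3))))
  (Ok.lf S401_430_216_364_ok (bl (br c3)))))
  (Ok.s3 401 (Ok.lf S372_401_364_512_ok (bl (br c2)))
  (Ok.s1 288 (Ok.lf S401_430_364_512_ok (bl (br c1)))
  (Ok.lf S401_430_364_512_ok (bl (br c5))))))
  (Ok.s4 660 (Ok.s3 401 (Ok.lf S372_401_512_660_ok (br (br (br c2))))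
  (Ok.s2 64 (Ok.lf S401_430_512_660_ok (bl c4))
  (Ok.lf S401_430_512_660_ok (bl c3))))
  (Ok.s3 401 (Ok.lf S372_401_660_808_ok (bl (br (br c2))))
  (Ok.s2 64 (Ok.lf S401_430_660_808_ok (br c4))
  (Ok.lf S401_430_660_808_ok (bl (br (br c3))))))))))

end Vale.Agent.P098.Ck
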