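import Vale.Agent.P098.CkGd
import Vale.Agent.P098.CkOk
import Vale.Agent.P098.Sh.A43
import Vale.Agent.P098.Sh.A47
import Vale.Agent.P098.Sh.A48
import Vale.Agent.P098.Sh.A49
import Vale.Agent.P098.Sh.A50
import Vale.Agent.P098.Sh.A51
import Vale.Agent.P098.Sh.A52
import Vale.Agent.P098.Sh.A53

namespace Vale.Agent.P098.Ck

theorem r55 :
    Ok Gd mult 0 128 64 96 504 512 285 314 771 808 ∧
    Ok Gd mult 0 128 96 128 504 512 256 314 771 808 ∧
    Ok Gd mult 0 128 64 128 384 512 314 372 216 808 :=
  have c0 : (band (go 16 Gd mult S314_343_512_660 (Tr.lf 4841572484 107973574 704702517104260312727647) 0 128 64 128 448 512)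
  (go 16 Gd mult S343_372_512_660 (Tr.lf 547636356 103783494 740212499470958930690048) 0 128 64 128 448 512)) = true := by decide +kernel
  have c1 : (band (go 16 Gd mult S343_372_216_364 (Tr.lf 1161054340 99589192 479227964329160010104832) 0 128 64 128 384 512)
  (band (go 16 Gd mult S343_372_364_512 (Tr.lf 547637380 107977798 497951409563769046564864) 0 128 64 128 384 512)
  (go 16 Gd mult S314_343_216_364 (Tr.lf 9709634 104041796 493653318175026850037760) 0 128 64 128 384 512))) = true := by decide +kernel
  have c2 : (go 16 Gd mult S314_343_660_808 (Tr.lf 9145189444 103521095 604813398121633361690875) 0 128 64 96 480 512) = true := by decide +kernel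
  have c3 : (go 16 Gd mult S314_343_364_512 (Tr.lf 4841556036 107973574 520788478688968061222912) 0 128 64 128 384 512) = true := by decide +kernel
  have c4 : (go 16 Gd mult S285_314_771_808 (Tr.lf 13985153352 99195720 15355200203883175965397876957) 0 64 64 80 504 508) = true := by decide +kernel
  have c5 : (band (go 16 Gd mult S357_372_660_808 (Tr.lf 547628164 103910470 737888209692455774191616) 0 128 64 128 448 512)
  (go 16 Gd mult S343_357_660_808 (Tr.lf 546579586 103783493 651539000683421363077120) 0 128 64 128 448 512)) = true := by decide +kernel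
  have c6 : (go 16 Gd mult S314_343_660_808 (Tr.lf 4841555012 107842757 888874810045470508843055) 0 128 96 128 448 512) = true := by decide +kernel
  have c7 : (band (go 16 Gd mult S314_372_660_808 (Tr.lf 9732674 104041796 0) 0 128 64 128 384 448)
  (go 16 Gd mult S314_372_512_660 (Tr.lf 546472514 103914565 0) 0 128 64 128 384 448)) = true := by decide +kernel
  have c8 : (band (go 16 Gd mult S285_314_771_808 (Tr.lf 9681666344 107588551 49642118495828144807428751227) 0 128 64 80 508 512)
  (band (go 16 Gd mult S285_314_771_808 (Tr.lf 13976633668 90798665 56383672299938939381219357) 64 128 64 80 504 508)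
  (go 16 Gd mult S285_314_771_808 (Tr.lf 9681666340 103517127 31529837338023820310937075712) 0 128 80 96 504 512))) = true := by decide +kernel
  have c9 : (band (go 16 Gd mult S256_285_771_808 (Tr.lf 9143664964 99588934 29659753831963415401654648832) 0 128 96 128 504 512)
  (go 16 Gd mult S285_314_771_808 (Tr.lf 9144713540 103652167 29659776318544441253598068736) 0 128 96 128 504 512)) = true := by decide +kernel
  have c10 : (go 16 Gd mult S314_343_660_808 (Tr.lf 9576738 103918788 0) 0 128 64 96 448 480) = true := by decide +kernel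
  (And.intro (Ok.s1 80 (Ok.s2 508 (Ok.s0 64 (Ok.lf S285_314_771_808_ok c4)
  (Ok.lf S285_314_771_808_ok (bl (br c8))))
  (Ok.lf S285_314_771_808_ok (bl c8)))
  (Ok.lf S285_314_771_808_ok (br (br c8))))
  (And.intro (Ok.s3 285 (Ok.lf S256_285_771_808_ok (bl c9))
  (Ok.lf S285_314_771_808_ok (br c9)))
  (Ok.s4 512 (Ok.s4 364 (Ok.s3 343 (Ok.lf S314_343_216_364_ok (br (br c1)))
  (Ok.lf S343_372_216_364_ok (bl c1)))
  (Ok.s3 343 (Ok.lf S314_343_364_512_ok c3)
  (Ok.lf S343_372_364_512_ok (bl (br c1)))))
  (Ok.s4 660 (Ok.s2 448 (Ok.lf S314_372_512_660_ok (br c7))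
  (Ok.s3 343 (Ok.lf S314_343_512_660_ok (bl c0))
  (Ok.lf S343_372_512_660_ok (br c0))))
  (Ok.s2 448 (Ok.lf S314_372_660_808_ok (bl c7))
  (Ok.s3 343 (Ok.s1 96 (Ok.s2 480 (Ok.lf S314_343_660_808_ok c10)
  (Ok.lf S314_343_660_808_ok c2))
  (Ok.lf S314_343_660_808_ok c6))
  (Ok.s3 357 (Ok.lf S343_357_660_808_ok (br c5))
  (Ok.lf S357_372_660_808_ok (bl c5)))))))))

end Vale.Agent.P098.Ck
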