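import Vale.Agent.P098.CkGd
import Vale.Agent.P098.CkOk
import Vale.Agent.P098.Sh.A0
import Vale.Agent.P098.Sh.A1
import Vale.Agent.P098.Sh.A10
import Vale.Agent.P098.Sh.A11
import Vale.Agent.P098.Sh.A17
import Vale.Agent.P098.Sh.A18
import Vale.Agent.P098.Sh.A19
import Vale.Agent.P098.Sh.A3
import Vale.Agent.P098.Sh.A4
import Vale.Agent.P098.Sh.A59
import Vale.Agent.P098.Sh.A8
import Vale.Agent.P098.Sh.A9

namespace Vale.Agent.P098.Ck

theorem r550 :
    Ok Gd mult 256 384 256 320 0 128 459 488 660 808 ∧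
    Ok Gd mult 256 384 256 320 128 256 24 140 216 808 ∧
    Ok Gd mult 256 384 256 320 128 256 140 198 216 808 :=
  have c0 : (band (go 16 Gd mult S169_198_364_512 (Tr.lf 17734846600 90933962 276844012691750081007714304) 256 384 256 320 128 256)
  (band (go 16 Gd mult S140_198_660_808 (Tr.lf 8590099524 108235845 0) 256 384 256 320 128 256)
  (go 16 Gd mult S82_140_216_364 (Tr.lf 8590083140 99720133 0) 256 384 256 320 128 256))) = true := by decide +kernel
  have c1 : (go 16 Gd mult S169_198_216_364 (Tr.lf 17735107656 95263561 0) 256 384 256 288 128 192) = true := by decide +kernel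
  have c2 : (band (go 16 Gd mult S459_488_660_808 (Tr.lf 22011791496 99318472 0) 256 320 256 320 0 64)
  (go 16 Gd mult S459_488_660_808 (Tr.lf 22013887624 95247433 0) 256 320 256 320 64 128)) = true := by decide +kernel
  have c3 : (band (go 16 Gd mult S169_198_216_364 (Tr.lf 17726456900 95120074 1567976788040174039593910272) 256 384 288 320 128 256)
  (band (go 16 Gd mult S140_169_216_364 (Tr.lf 13431358500 95263815 550061247924656274491310080) 256 384 288 320 128 256)
  (band (go 16 Gd mult S169_198_216_364 (Tr.lf 17734845476 91060938 0) 256 384 256 288 192 256)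
  (go 16 Gd mult S140_169_216_364 (Tr.lf 13431358500 95390536 0) 256 384 256 288 128 256)))) = true := by decide +kernel
  have c4 : (band (go 16 Gd mult S140_169_364_512 (Tr.lf 13431358532 95263560 70117697537648492132958208) 256 384 256 320 128 256)
  (band (go 16 Gd mult S169_198_512_660 (Tr.lf 8590083140 104045637 66490920078804604608839680) 256 384 256 320 128 256)
  (band (go 16 Gd mult S82_140_364_512 (Tr.lf 8590017604 99720133 0) 256 384 256 320 128 256)
  (band (go 16 Gd mult S82_140_512_660 (Tr.lf 8590017604 103914437 0) 256 384 256 320 128 256)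
  (band (go 16 Gd mult S140_169_512_660 (Tr.lf 8590074948 104041541 0) 256 384 256 320 128 256)
  (band (go 16 Gd mult S82_140_660_808 (Tr.lf 8590017602 103914437 0) 256 384 256 320 128 256)
  (go 16 Gd mult S24_82_216_364 (Tr.lf 8590017570 103910341 0) 256 384 256 320 128 256))))))) = true := by decide +kernel
  have c5 : (band (go 16 Gd mult S459_488_660_808 (Tr.lf 22011782276 99445576 0) 320 384 256 320 0 64)
  (go 16 Gd mult S459_488_660_808 (Tr.lf 22012830852 95251018 0) 320 384 256 320 64 128)) = true := by decide +kernel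
  have c6 : (band (go 16 Gd mult S24_82_364_512 (Tr.lf 8590017570 95652805 0) 256 384 256 320 128 256)
  (band (go 16 Gd mult S24_82_512_660 (Tr.lf 8590009378 99716037 0) 256 384 256 320 128 256)
  (go 16 Gd mult S24_82_660_808 (Tr.lf 8590009378 99716037 0) 256 384 256 320 128 256))) = true := by decide +kernel
  (And.intro (Ok.s2 64 (Ok.s0 320 (Ok.lf S459_488_660_808_ok (bl c2))
  (Ok.lf S459_488_660_808_ok (bl c5)))
  (Ok.s0 320 (Ok.lf S459_488_660_808_ok (br c2))
  (Ok.lf S459_488_660_808_ok (br c5))))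
  (And.intro (Ok.s3 82 (Ok.s4 512 (Ok.s4 364 (Ok.lf S24_82_216_364_ok (br (br (br (br (br (br c4)))))))
  (Ok.lf S24_82_364_512_ok (bl c6)))
  (Ok.s4 660 (Ok.lf S24_82_512_660_ok (bl (br c6)))
  (Ok.lf S24_82_660_808_ok (br (br c6)))))
  (Ok.s4 512 (Ok.s4 364 (Ok.lf S82_140_216_364_ok (br (br c0)))
  (Ok.lf S82_140_364_512_ok (bl (br (br c4)))))
  (Ok.s4 660 (Ok.lf S82_140_512_660_ok (bl (br (br (br c4)))))
  (Ok.lf S82_140_660_808_ok (bl (br (br (br (br (br c4))))))))))
  (Ok.s4 512 (Ok.s4 364 (Ok.s1 288 (Ok.s3 169 (Ok.lf S140_169_216_364_ok (br (br (br c3))))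
  (Ok.s2 192 (Ok.lf S169_198_216_364_ok c1)
  (Ok.lf S169_198_216_364_ok (bl (br (br c3))))))
  (Ok.s3 169 (Ok.lf S140_169_216_364_ok (bl (br c3)))
  (Ok.lf S169_198_216_364_ok (bl c3))))
  (Ok.s3 169 (Ok.lf S140_169_364_512_ok (bl c4))
  (Ok.lf S169_198_364_512_ok (bl c0))))
  (Ok.s4 660 (Ok.s3 169 (Ok.lf S140_169_512_660_ok (bl (br (br (br (br c4))))))
  (Ok.lf S169_198_512_660_ok (bl (br c4))))
  (Ok.lf S140_198_660_808_ok (bl (br c0)))))))

end Vale.Agent.P098.Ck
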