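import Vale.Agent.P098.CkGd
import Vale.Agent.P098.CkOk
import Vale.Agent.P098.Sh.A25
import Vale.Agent.P098.Sh.A26
import Vale.Agent.P098.Sh.A27
import Vale.Agent.P098.Sh.A36
import Vale.Agent.P098.Sh.A37
import Vale.Agent.P098.Sh.A38

namespace Vale.Agent.P098.Ck

theorem r551 :
    Ok Gd mult 256 384 256 320 128 256 198 227 216 364 ∧
    Ok Gd mult 256 384 256 320 128 256 227 256 216 364 ∧
    Ok Gd mult 256 384 256 320 128 256 198 256 364 512 ∧
    Ok Gd mult 256 384 256 320 128 256 198 256 512 808 :=
  have c0 : (go 16 Gd mult S198_227_216_364 (Tr.lf 18280383620 107711306 1688869370001636957064527872) 256 320 256 320 192 256) = true := by decide +kernel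
  have c1 : (band (go 16 Gd mult S198_227_216_364 (Tr.lf 17735125060 95390410 0) 320 384 256 320 128 256)
  (band (go 16 Gd mult S198_227_364_512 (Tr.lf 17725409346 99314377 0) 320 384 256 320 128 256)
  (go 16 Gd mult S198_227_364_512 (Tr.lf 17725408290 95247049 1205299042155785287182057472) 256 320 288 320 128 256))) = true := by decide +kernel
  have c2 : (go 16 Gd mult S227_256_216_364 (Tr.lf 22574303300 94992843 0) 256 320 256 288 192 256) = true := by decide +kernel
  have c3 : (band (go 16 Gd mult S227_256_216_364 (Tr.lf 17734060164 95390409 0) 320 384 256 320 128 256)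
  (go 16 Gd mult S227_256_364_512 (Tr.lf 17725409346 99314377 0) 320 384 256 320 128 256)) = true := by decide +kernel
  have c4 : (band (go 16 Gd mult S227_256_364_438 (Tr.lf 22566570116 99179211 484779253665466299057176576) 256 320 256 320 128 256)
  (go 16 Gd mult S227_256_438_512 (Tr.lf 17726325826 99318601 176503169663735859507101696) 256 320 256 320 128 256)) = true := by decide +kernel
  have c5 : (band (go 16 Gd mult S198_227_216_364 (Tr.lf 22566962244 103508555 0) 256 320 256 288 128 192)
  (band (go 16 Gd mult S227_256_216_290 (Tr.lf 22575088708 103517002 0) 256 320 256 288 128 192)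
  (go 16 Gd mult S227_256_290_364 (Tr.lf 22575088708 103517002 0) 256 320 256 288 128 192))) = true := by decide +kernel
  have c6 : (go 16 Gd mult S198_227_364_512 (Tr.lf 22566701124 95111883 0) 256 320 256 288 128 256) = true := by decide +kernel
  have c7 : (go 16 Gd mult S227_256_216_364 (Tr.lf 17725409348 95120073 2788991865850949506047148032) 256 320 288 320 128 256) = true := by decide +kernel
  have c8 : (band (go 16 Gd mult S198_227_512_660 (Tr.lf 8590214212 103918661 60446290980731458735308800) 256 384 256 320 128 256)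
  (band (go 16 Gd mult S227_256_512_660 (Tr.lf 13497549892 99724103 53192736063043683687071744) 256 384 256 320 128 256)
  (band (go 16 Gd mult S227_256_660_808 (Tr.lf 8590206020 108235845 0) 256 384 256 320 128 256)
  (go 16 Gd mult S198_227_660_808 (Tr.lf 8590205508 99978309 0) 256 384 256 320 128 256)))) = true := by decide +kernel
  have c9 : (go 16 Gd mult S198_227_216_364 (Tr.lf 17725408290 95386440 0) 256 320 288 320 128 192) = true := by decide +kernel
  (And.intro (Ok.s0 320 (Ok.s2 192 (Ok.s1 288 (Ok.lf S198_227_216_364_ok (bl c5))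
  (Ok.lf S198_227_216_364_ok c9))
  (Ok.lf S198_227_216_364_ok c0))
  (Ok.lf S198_227_216_364_ok (bl c1)))
  (And.intro (Ok.s0 320 (Ok.s1 288 (Ok.s2 192 (Ok.s4 290 (Ok.lf S227_256_216_290_ok (bl (br c5)))
  (Ok.lf S227_256_290_364_ok (br (br c5))))
  (Ok.lf S227_256_216_364_ok c2))
  (Ok.lf S227_256_216_364_ok c7))
  (Ok.lf S227_256_216_364_ok (bl c3)))
  (And.intro (Ok.s0 320 (Ok.s3 227 (Ok.s1 288 (Ok.lf S198_227_364_512_ok c6)
  (Ok.lf S198_227_364_512_ok (br (br c1))))
  (Ok.s4 438 (Ok.lf S227_256_364_438_ok (bl c4))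
  (Ok.lf S227_256_438_512_ok (br c4))))
  (Ok.s3 227 (Ok.lf S198_227_364_512_ok (bl (br c1)))
  (Ok.lf S227_256_364_512_ok (br c3))))
  (Ok.s4 660 (Ok.s3 227 (Ok.lf S198_227_512_660_ok (bl c8))
  (Ok.lf S227_256_512_660_ok (bl (br c8))))
  (Ok.s3 227 (Ok.lf S198_227_660_808_ok (br (br (br c8))))
  (Ok.lf S227_256_660_808_ok (bl (br (br c8)))))))))

end Vale.Agent.P098.Ck
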