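import Vale.Agent.P098.CkGd
import Vale.Agent.P098.CkOk
import Vale.Agent.P098.Sh.A41
import Vale.Agent.P098.Sh.A42
import Vale.Agent.P098.Sh.A45
import Vale.Agent.P098.Sh.A46
import Vale.Agent.P098.Sh.A47
import Vale.Agent.P098.Sh.A48
import Vale.Agent.P098.Sh.A49
import Vale.Agent.P098.Sh.A50
import Vale.Agent.P098.Sh.A51
import Vale.Agent.P098.Sh.A52

namespace Vale.Agent.P098.Ck

theorem r552 :
    Ok Gd mult 256 384 256 288 128 256 256 314 216 364 ∧
    Ok Gd mult 256 384 288 320 128 256 256 314 216 364 ∧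
    Ok Gd mult 256 384 256 320 128 256 256 314 364 512 ∧
    Ok Gd mult 256 384 256 320 128 256 256 314 512 808 ∧
    Ok Gd mult 256 384 256 320 128 256 314 372 216 808 :=
  have c0 : (band (go 16 Gd mult S314_372_512_660 (Tr.lf 13431507076 108235847 55610587702272942036484096) 256 384 256 320 128 256)
  (band (go 16 Gd mult S285_314_364_512 (Tr.lf 17725400132 95382089 67699845898419233783545856) 256 384 256 320 128 256)
  (go 16 Gd mult S256_285_512_660 (Tr.lf 13497541700 108108615 0) 256 384 256 320 128 256))) = true := by decide +kernel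
  have c1 : (band (go 16 Gd mult S256_285_216_290 (Tr.lf 22574040136 103647818 0) 256 384 256 288 128 192)
  (band (go 16 Gd mult S256_285_290_364 (Tr.lf 22574023752 99453514 0) 256 384 256 288 128 192)
  (go 16 Gd mult S256_285_290_364 (Tr.lf 22574023752 95000907 0) 256 384 256 288 192 256))) = true := by decide +kernel
  have c2 : (go 16 Gd mult S256_285_216_290 (Tr.lf 22574040136 99187147 0) 256 384 256 288 192 256) = true := by decide +kernel
  have c3 : (band (go 16 Gd mult S256_285_364_512 (Tr.lf 17733798020 99326792 61655216800346087910014976) 256 320 256 320 128 256)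
  (go 16 Gd mult S256_285_364_512 (Tr.lf 17725408322 103643721 0) 320 384 256 320 128 256)) = true := by decide +kernel
  have c4 : (band (go 16 Gd mult S256_285_216_364 (Tr.lf 17725408328 103766729 1538962568369422939400962048) 256 384 288 320 128 256)
  (band (go 16 Gd mult S285_314_216_364 (Tr.lf 17725408292 95255113 1023960169213590910976131072) 256 384 288 320 128 256)
  (go 16 Gd mult S285_314_216_364 (Tr.lf 17725408324 103639625 0) 256 384 256 288 128 256))) = true := by decide +kernel
  have c5 : (band (go 16 Gd mult S285_314_512_660 (Tr.lf 8590206020 104041541 0) 256 384 256 320 128 256)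
  (band (go 16 Gd mult S256_285_660_808 (Tr.lf 8590214180 104168517 0) 256 384 256 320 128 256)
  (band (go 16 Gd mult S285_314_660_808 (Tr.lf 8590206020 99974213 0) 256 384 256 320 128 256)
  (band (go 16 Gd mult S314_343_216_364 (Tr.lf 13431481412 104041543 302231454903657293676544000) 256 384 256 320 128 256)
  (band (go 16 Gd mult S343_372_216_364 (Tr.lf 17726448708 103512905 334872452033252281393610752) 256 384 256 320 128 256)
  (go 16 Gd mult S314_343_364_512 (Tr.lf 8590206020 104045637 36267774588438875241185280) 256 384 256 320 128 256)))))) = true := by decide +kernel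
  have c6 : (band (go 16 Gd mult S314_343_660_808 (Tr.lf 8590083140 99978309 0) 256 384 256 320 128 256)
  (band (go 16 Gd mult S343_372_364_512 (Tr.lf 17726317636 99318601 124519359420306804994736128) 256 384 256 320 128 256)
  (go 16 Gd mult S343_372_660_808 (Tr.lf 8590074948 104045637 19342813113834066795298816) 256 384 256 320 128 256))) = true := by decide +kernel
  (And.intro (Ok.s3 285 (Ok.s2 192 (Ok.s4 290 (Ok.lf S256_285_216_290_ok (bl c1))
  (Ok.lf S256_285_290_364_ok (bl (br c1))))
  (Ok.s4 290 (Ok.lf S256_285_216_290_ok c2)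
  (Ok.lf S256_285_290_364_ok (br (br c1)))))
  (Ok.lf S285_314_216_364_ok (br (br c4))))
  (And.intro (Ok.s3 285 (Ok.lf S256_285_216_364_ok (bl c4))
  (Ok.lf S285_314_216_364_ok (bl (br c4))))
  (And.intro (Ok.s3 285 (Ok.s0 320 (Ok.lf S256_285_364_512_ok (bl c3))
  (Ok.lf S256_285_364_512_ok (br c3)))
  (Ok.lf S285_314_364_512_ok (bl (br c0))))
  (And.intro (Ok.s4 660 (Ok.s3 285 (Ok.lf S256_285_512_660_ok (br (br c0)))
  (Ok.lf S285_314_512_660_ok (bl c5)))
  (Ok.s3 285 (Ok.lf S256_285_660_808_ok (bl (br c5)))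
  (Ok.lf S285_314_660_808_ok (bl (br (br c5))))))
  (Ok.s4 512 (Ok.s4 364 (Ok.s3 343 (Ok.lf S314_343_216_364_ok (bl (br (br (br c5)))))
  (Ok.lf S343_372_216_364_ok (bl (br (br (br (br c5)))))))
  (Ok.s3 343 (Ok.lf S314_343_364_512_ok (br (br (br (br (br c5))))))
  (Ok.lf S343_372_364_512_ok (bl (br c6)))))
  (Ok.s4 660 (Ok.lf S314_372_512_660_ok (bl c0))
  (Ok.s3 343 (Ok.lf S314_343_660_808_ok (bl c6))
  (Ok.lf S343_372_660_808_ok (br (br c6))))))))))

end Vale.Agent.P098.Ck
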