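import Vale.Agent.P098.CkGd
import Vale.Agent.P098.CkOk
import Vale.Agent.P098.Sh.A54
import Vale.Agent.P098.Sh.A56
import Vale.Agent.P098.Sh.A57
import Vale.Agent.P098.Sh.A58
import Vale.Agent.P098.Sh.A59

namespace Vale.Agent.P098.Ck

theorem r553 :
    Ok Gd mult 256 384 256 320 128 256 372 430 216 364 ∧
    Ok Gd mult 256 384 256 320 128 256 372 430 364 512 ∧
    Ok Gd mult 256 384 256 320 128 256 372 430 512 808 ∧
    Ok Gd mult 256 384 256 320 128 256 430 488 216 512 ∧
    Ok Gd mult 256 384 256 320 128 256 430 488 512 660 :=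
  have c0 : (band (go 16 Gd mult S401_430_216_364 (Tr.lf 18264246344 112167881 0) 256 384 256 288 128 256)
  (band (go 16 Gd mult S401_430_364_512 (Tr.lf 18264246344 112167881 0) 256 384 256 288 128 256)
  (band (go 16 Gd mult S401_430_512_660 (Tr.lf 18264246344 112159817 0) 256 384 256 288 128 256)
  (go 16 Gd mult S372_401_216_364 (Tr.lf 18264245316 107965513 0) 256 384 256 288 128 256)))) = true := by decide +kernel
  have c1 : (band (go 16 Gd mult S372_430_216_364 (Tr.lf 17717953608 95247177 1720301441311617315606888448) 256 384 288 320 128 256)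
  (band (go 16 Gd mult S401_430_512_660 (Tr.lf 17717871684 99449545 2456537265456926483002949632) 256 384 288 320 128 256)
  (band (go 16 Gd mult S401_430_660_808 (Tr.lf 17717871684 95255241 2353778570789683003152924672) 256 384 288 320 128 256)
  (go 16 Gd mult S401_430_364_512 (Tr.lf 17717871684 99449545 2691068874462164542895947776) 256 384 288 320 128 256)))) = true := by decide +kernel
  have c2 : (band (go 16 Gd mult S372_401_364_512 (Tr.lf 18264246404 107838537 402572297931671515177156608) 256 384 256 320 128 256)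
  (band (go 16 Gd mult S372_401_660_808 (Tr.lf 17726326916 99449673 268381531954447676784771072) 256 384 256 320 128 256)
  (go 16 Gd mult S372_401_512_660 (Tr.lf 17727375492 99449929 298604677444813406152425472) 256 384 256 320 128 256))) = true := by decide +kernel
  have c3 : (go 16 Gd mult S401_430_660_808 (Tr.lf 18264246344 112159817 0) 256 384 256 288 128 256) = true := by decide +kernel
  have c4 : (band (go 16 Gd mult S430_488_216_364 (Tr.lf 22550775876 99310155 0) 256 320 256 288 128 256)
  (band (go 16 Gd mult S430_488_512_660 (Tr.lf 22550775876 103504459 0) 256 320 256 288 128 256)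
  (go 16 Gd mult S430_488_364_512 (Tr.lf 22550775876 103504459 0) 256 320 256 288 128 256))) = true := by decide +kernel
  have c5 : (band (go 16 Gd mult S430_488_216_364 (Tr.lf 17717872772 107965129 0) 320 384 256 320 128 256)
  (band (go 16 Gd mult S430_488_364_512 (Tr.lf 17717872772 107965129 0) 320 384 256 320 128 256)
  (band (go 16 Gd mult S430_488_512_660 (Tr.lf 17717872772 107965129 0) 320 384 256 320 128 256)
  (band (go 16 Gd mult S430_488_216_364 (Tr.lf 18255792196 103771081 4234867146110045998995734528) 256 320 288 320 128 256)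
  (go 16 Gd mult S430_488_364_512 (Tr.lf 18255792196 103771081 4159913745293938990163951616) 256 320 288 320 128 256))))) = true := by decide +kernel
  have c6 : (go 16 Gd mult S430_488_512_660 (Tr.lf 18255792196 103771081 4086169270297446610506874880) 256 320 288 320 128 256) = true := by decide +kernel
  (And.intro (Ok.s1 288 (Ok.s3 401 (Ok.lf S372_401_216_364_ok (br (br (br c0))))
  (Ok.lf S401_430_216_364_ok (bl c0)))
  (Ok.lf S372_430_216_364_ok (bl c1)))
  (And.intro (Ok.s3 401 (Ok.lf S372_401_364_512_ok (bl c2))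
  (Ok.s1 288 (Ok.lf S401_430_364_512_ok (bl (br c0)))
  (Ok.lf S401_430_364_512_ok (br (br (br c1))))))
  (And.intro (Ok.s4 660 (Ok.s3 401 (Ok.lf S372_401_512_660_ok (br (br c2)))
  (Ok.s1 288 (Ok.lf S401_430_512_660_ok (bl (br (br c0))))
  (Ok.lf S401_430_512_660_ok (bl (br c1)))))
  (Ok.s3 401 (Ok.lf S372_401_660_808_ok (bl (br c2)))
  (Ok.s1 288 (Ok.lf S401_430_660_808_ok c3)
  (Ok.lf S401_430_660_808_ok (bl (br (br c1)))))))
  (And.intro (Ok.s4 364 (Ok.s0 320 (Ok.s1 288 (Ok.lf S430_488_216_364_ok (bl c4))
  (Ok.lf S430_488_216_364_ok (bl (br (br (br c5))))))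
  (Ok.lf S430_488_216_364_ok (bl c5)))
  (Ok.s0 320 (Ok.s1 288 (Ok.lf S430_488_364_512_ok (br (br c4)))
  (Ok.lf S430_488_364_512_ok (br (br (br (br c5))))))
  (Ok.lf S430_488_364_512_ok (bl (br c5)))))
  (Ok.s0 320 (Ok.s1 288 (Ok.lf S430_488_512_660_ok (bl (br c4)))
  (Ok.lf S430_488_512_660_ok c6))
  (Ok.lf S430_488_512_660_ok (bl (br (br c5)))))))))

end Vale.Agent.P098.Ck
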