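import Vale.Agent.P098.CkGd
import Vale.Agent.P098.CkOk
import Vale.Agent.P098.Sh.A0
import Vale.Agent.P098.Sh.A1
import Vale.Agent.P098.Sh.A17
import Vale.Agent.P098.Sh.A18
import Vale.Agent.P098.Sh.A3
import Vale.Agent.P098.Sh.A4
import Vale.Agent.P098.Sh.A59
import Vale.Agent.P098.Sh.A8
import Vale.Agent.P098.Sh.A9

namespace Vale.Agent.P098.Ck

theorem r554 :
    Ok Gd mult 256 384 256 320 128 256 430 488 660 808 ∧
    Ok Gd mult 256 384 256 320 256 384 24 140 216 808 ∧
    Ok Gd mult 256 384 256 320 256 384 140 198 216 364 ∧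
    Ok Gd mult 256 384 256 288 256 384 140 198 364 512 :=
  have c0 : (go 16 Gd mult S430_488_660_808 (Tr.lf 22550775876 99310155 0) 256 320 256 288 128 256) = true := by decide +kernel
  have c1 : (band (go 16 Gd mult S430_488_660_808 (Tr.lf 17717872772 107965129 0) 320 384 256 320 128 256)
  (go 16 Gd mult S430_488_660_808 (Tr.lf 18255792196 103771081 4053528273167851622789808128) 256 320 288 320 128 256)) = true := by decide +kernel
  have c2 : (band (go 16 Gd mult S169_198_216_364 (Tr.lf 9136521768 108236102 7830212533643953164571901952) 256 384 304 320 256 320)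
  (band (go 16 Gd mult S169_198_216_364 (Tr.lf 13439878180 103775049 1891968907696894658415165440) 256 384 256 288 256 384)
  (band (go 16 Gd mult S169_198_364_512 (Tr.lf 13439747108 99589064 255083347938686755863003136) 256 384 256 288 256 384)
  (band (go 16 Gd mult S140_169_216_364 (Tr.lf 4295115810 112303045 0) 256 384 256 288 256 384)
  (band (go 16 Gd mult S140_169_364_512 (Tr.lf 4295107618 108108996 0) 256 384 256 288 256 384)
  (go 16 Gd mult S140_169_216_364 (Tr.lf 9136391204 103914694 3472034953933214989756137472) 256 384 288 320 256 384)))))) = true := by decide +kernel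
  have c3 : (band (go 16 Gd mult S82_140_216_364 (Tr.lf 4295115844 108112964 1956041976136470004674592768) 256 384 256 320 256 384)
  (band (go 16 Gd mult S24_82_216_364 (Tr.lf 4295042082 108235844 1069899350358946819614965760) 256 384 256 320 256 384)
  (band (go 16 Gd mult S24_82_364_512 (Tr.lf 4295042082 104172612 1066272572900102932090847232) 256 384 256 320 256 384)
  (band (go 16 Gd mult S24_82_512_660 (Tr.lf 4295042082 103914564 1061436869621644415392022528) 256 384 256 320 256 384)
  (go 16 Gd mult S24_82_660_808 (Tr.lf 4295042082 103914564 1055392240523571269518491648) 256 384 256 320 256 384))))) = true := by decide +kernel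
  have c4 : (go 16 Gd mult S169_198_216_364 (Tr.lf 4295237956 99851588 10414895935980030340093706240) 256 384 288 320 320 352) = true := by decide +kernel
  have c5 : (band (go 16 Gd mult S82_140_364_512 (Tr.lf 4295050305 108108868 1224641855269619353977356288) 256 320 256 320 256 384)
  (band (go 16 Gd mult S82_140_512_660 (Tr.lf 4295050305 112303172 708430530294172696377819136) 256 320 256 320 256 384)
  (band (go 16 Gd mult S82_140_660_808 (Tr.lf 4295050273 108108868 504122066779300365852475392) 256 320 256 320 256 384)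
  (band (go 16 Gd mult S82_140_364_512 (Tr.lf 4295050273 103918660 0) 320 384 256 320 256 384)
  (band (go 16 Gd mult S82_140_512_660 (Tr.lf 4295050273 103918660 0) 320 384 256 320 256 384)
  (go 16 Gd mult S82_140_660_808 (Tr.lf 4295049761 112176196 0) 320 384 256 320 256 384)))))) = true := by decide +kernel
  have c6 : (band (go 16 Gd mult S169_198_216_364 (Tr.lf 4295106852 99986628 14032001988267000830814584832) 256 384 288 320 352 384)
  (go 16 Gd mult S169_198_216_364 (Tr.lf 9136382228 103910726 4028140830955944410120978432) 256 384 288 304 256 320)) = true := by decide +kernel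
  (And.intro (Ok.s0 320 (Ok.s1 288 (Ok.lf S430_488_660_808_ok c0)
  (Ok.lf S430_488_660_808_ok (br c1)))
  (Ok.lf S430_488_660_808_ok (bl c1)))
  (And.intro (Ok.s3 82 (Ok.s4 512 (Ok.s4 364 (Ok.lf S24_82_216_364_ok (bl (br c3)))
  (Ok.lf S24_82_364_512_ok (bl (br (br c3)))))
  (Ok.s4 660 (Ok.lf S24_82_512_660_ok (bl (br (br (br c3)))))
  (Ok.lf S24_82_660_808_ok (br (br (br (br c3)))))))
  (Ok.s4 512 (Ok.s4 364 (Ok.lf S82_140_216_364_ok (bl c3))
  (Ok.s0 320 (Ok.lf S82_140_364_512_ok (bl c5))
  (Ok.lf S82_140_364_512_ok (bl (br (br (br c5)))))))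
  (Ok.s4 660 (Ok.s0 320 (Ok.lf S82_140_512_660_ok (bl (br c5)))
  (Ok.lf S82_140_512_660_ok (bl (br (br (br (br c5)))))))
  (Ok.s0 320 (Ok.lf S82_140_660_808_ok (bl (br (br c5))))
  (Ok.lf S82_140_660_808_ok (br (br (br (br (br c5))))))))))
  (And.intro (Ok.s1 288 (Ok.s3 169 (Ok.lf S140_169_216_364_ok (bl (br (br (br c2)))))
  (Ok.lf S169_198_216_364_ok (bl (br c2))))
  (Ok.s3 169 (Ok.lf S140_169_216_364_ok (br (br (br (br (br c2))))))
  (Ok.s2 320 (Ok.s1 304 (Ok.lf S169_198_216_364_ok (br c6))
  (Ok.lf S169_198_216_364_ok (bl c2)))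
  (Ok.s2 352 (Ok.lf S169_198_216_364_ok c4)
  (Ok.lf S169_198_216_364_ok (bl c6))))))
  (Ok.s3 169 (Ok.lf S140_169_364_512_ok (bl (br (br (br (br c2))))))
  (Ok.lf S169_198_364_512_ok (bl (br (br c2))))))))

end Vale.Agent.P098.Ck
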