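import Vale.Agent.P098.CkGd
import Vale.Agent.P098.CkOk
import Vale.Agent.P098.Sh.A10
import Vale.Agent.P098.Sh.A18
import Vale.Agent.P098.Sh.A19
import Vale.Agent.P098.Sh.A25
import Vale.Agent.P098.Sh.A26
import Vale.Agent.P098.Sh.A28
import Vale.Agent.P098.Sh.A36
import Vale.Agent.P098.Sh.A37
import Vale.Agent.P098.Sh.A9

namespace Vale.Agent.P098.Ck

theorem r555 :
    Ok Gd mult 256 384 288 320 256 384 140 198 364 512 ∧
    Ok Gd mult 256 384 256 320 256 384 140 198 512 808 ∧
    Ok Gd mult 256 384 256 320 256 384 198 256 216 364 ∧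
    Ok Gd mult 256 384 256 288 256 384 198 256 364 512 :=
  have c0 : (band (go 16 Gd mult S227_256_216_364 (Tr.lf 18270947396 99314250 3117819688786128641567227904) 256 384 256 288 256 384)
  (go 16 Gd mult S198_227_364_512 (Tr.lf 13976750148 108100680 1287505997889580071062077440) 256 384 256 288 256 384)) = true := by decide +kernel
  have c1 : (band (go 16 Gd mult S198_227_216_364 (Tr.lf 13977028644 107973449 3177057053947245471127830528) 256 384 256 288 256 384)
  (go 16 Gd mult S227_256_364_512 (Tr.lf 13430458436 99711688 1279043517152277666839134208) 256 384 256 288 256 384)) = true := by decide +kernel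
  have c2 : (band (go 16 Gd mult S198_256_216_364 (Tr.lf 9135752228 104172614 16995079172142456938019422208) 320 384 304 320 320 384)
  (band (go 16 Gd mult S198_256_216_364 (Tr.lf 13430719012 99584712 10309719389673557601894268928) 256 320 304 320 256 320)
  (go 16 Gd mult S198_256_216_364 (Tr.lf 9202860580 107977798 11030239178163876590019149824) 256 320 288 304 320 384))) = true := by decide +kernel
  have c3 : (band (go 16 Gd mult S169_198_364_512 (Tr.lf 9136521800 104041798 4602380595272893268106412032) 256 384 288 320 256 320)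
  (band (go 16 Gd mult S140_169_364_512 (Tr.lf 4295041572 107982020 2961868258055841478030131200) 256 384 288 320 256 320)
  (band (go 16 Gd mult S140_169_364_512 (Tr.lf 4295041314 108108996 6425440731251754063563325440) 256 384 288 320 320 384)
  (go 16 Gd mult S169_198_364_512 (Tr.lf 4295106852 108236100 8780428227861051695890956288) 256 384 288 320 320 384)))) = true := by decide +kernel
  have c4 : (band (go 16 Gd mult S169_198_512_660 (Tr.lf 8590083140 99843014 2341689312593536711405862912) 256 384 256 320 256 384)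
  (band (go 16 Gd mult S140_169_512_660 (Tr.lf 4295107652 108240068 2113202332686371797386395648) 256 384 256 320 256 384)
  (band (go 16 Gd mult S169_198_660_808 (Tr.lf 8590074948 104041286 1979011566709147958994010112) 256 384 256 320 256 384)
  (go 16 Gd mult S140_169_660_808 (Tr.lf 4295107650 104045764 1806135174504255987011026944) 256 384 256 320 256 384)))) = true := by decide +kernel
  have c5 : (band (go 16 Gd mult S198_256_216_364 (Tr.lf 13430456850 103774920 5574356954243055124570177536) 256 320 288 304 256 320)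
  (go 16 Gd mult S198_256_216_364 (Tr.lf 13430456850 103779016 0) 320 384 288 320 256 320)) = true := by decide +kernel
  have c6 : (band (go 16 Gd mult S198_256_216_364 (Tr.lf 9202581794 103914566 15589110563468240165827227915) 256 320 304 320 320 352)
  (band (go 16 Gd mult S198_256_216_364 (Tr.lf 9135473170 104168518 0) 320 384 288 304 320 384)
  (go 16 Gd mult S198_256_216_364 (Tr.lf 9202581794 104049606 20063356606390520500197523456) 256 320 304 320 352 384))) = true := by decide +kernel
  (And.intro (Ok.s2 320 (Ok.s3 169 (Ok.lf S140_169_364_512_ok (bl (br c3)))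
  (Ok.lf S169_198_364_512_ok (bl c3)))
  (Ok.s3 169 (Ok.lf S140_169_364_512_ok (bl (br (br c3))))
  (Ok.lf S169_198_364_512_ok (br (br (br c3))))))
  (And.intro (Ok.s4 660 (Ok.s3 169 (Ok.lf S140_169_512_660_ok (bl (br c4)))
  (Ok.lf S169_198_512_660_ok (bl c4)))
  (Ok.s3 169 (Ok.lf S140_169_660_808_ok (br (br (br c4))))
  (Ok.lf S169_198_660_808_ok (bl (br (br c4))))))
  (And.intro (Ok.s1 288 (Ok.s3 227 (Ok.lf S198_227_216_364_ok (bl c1))
  (Ok.lf S227_256_216_364_ok (bl c0)))
  (Ok.s0 320 (Ok.s2 320 (Ok.s1 304 (Ok.lf S198_256_216_364_ok (bl c5))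
  (Ok.lf S198_256_216_364_ok (bl (br c2))))
  (Ok.s1 304 (Ok.lf S198_256_216_364_ok (br (br c2)))
  (Ok.s2 352 (Ok.lf S198_256_216_364_ok (bl c6))
  (Ok.lf S198_256_216_364_ok (br (br c6))))))
  (Ok.s2 320 (Ok.lf S198_256_216_364_ok (br c5))
  (Ok.s1 304 (Ok.lf S198_256_216_364_ok (bl (br c6)))
  (Ok.lf S198_256_216_364_ok (bl c2))))))
  (Ok.s3 227 (Ok.lf S198_227_364_512_ok (br c0))
  (Ok.lf S227_256_364_512_ok (br c1))))))

end Vale.Agent.P098.Ck
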