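import Vale.Agent.P098.CkGd
import Vale.Agent.P098.CkOk
import Vale.Agent.P098.Sh.A27
import Vale.Agent.P098.Sh.A28
import Vale.Agent.P098.Sh.A37
import Vale.Agent.P098.Sh.A38
import Vale.Agent.P098.Sh.A41
import Vale.Agent.P098.Sh.A43
import Vale.Agent.P098.Sh.A45

namespace Vale.Agent.P098.Ck

theorem r556 :
    Ok Gd mult 256 384 288 320 256 384 198 256 364 512 ∧
    Ok Gd mult 256 384 256 320 256 384 198 256 512 808 ∧
    Ok Gd mult 256 384 256 320 256 384 256 314 216 512 :=
  have c0 : (band (go 16 Gd mult S256_285_216_364 (Tr.lf 18270947396 103643594 1989891899085679621566365696) 256 384 256 288 256 384)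
  (go 16 Gd mult S285_314_216_364 (Tr.lf 13439879204 103910344 0) 256 384 256 288 256 384)) = true := by decide +kernel
  have c1 : (band (go 16 Gd mult S256_285_216_364 (Tr.lf 13430704168 99842760 5869334854229024643198484480) 256 384 288 304 256 384)
  (band (go 16 Gd mult S256_285_216_364 (Tr.lf 13430703144 99716039 7870107085691235927337205760) 256 384 304 320 256 320)
  (go 16 Gd mult S198_256_364_438 (Tr.lf 13430325796 99584712 7276524508260453002556473344) 256 384 304 320 256 320))) = true := by decide +kernel
  have c2 : (go 16 Gd mult S285_314_216_364 (Tr.lf 13430703176 99720007 4939670898945374807849435136) 256 384 288 320 256 384) = true := by decide +kernel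
  have c3 : (band (go 16 Gd mult S256_285_364_512 (Tr.lf 13430440520 108100551 3751296818264194329113264128) 256 384 288 320 256 320)
  (band (go 16 Gd mult S198_256_438_512 (Tr.lf 13497434660 99973832 3775475334656486912607387648) 256 384 288 320 256 320)
  (go 16 Gd mult S256_285_364_512 (Tr.lf 18337776164 99838665 0) 256 384 256 288 256 320))) = true := by decide +kernel
  have c4 : (go 16 Gd mult S256_314_364_512 (Tr.lf 13505954882 95783624 6222341193556496362212687872) 256 320 256 320 320 384) = true := by decide +kernel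
  have c5 : (band (go 16 Gd mult S198_227_512_660 (Tr.lf 8598602820 104037446 2230468137188990827332894720) 256 384 256 320 256 384)
  (band (go 16 Gd mult S198_227_660_808 (Tr.lf 8590206020 104041286 1885924278598821512541634560) 256 384 256 320 256 384)
  (go 16 Gd mult S227_256_660_808 (Tr.lf 8590206020 99847237 1162986638469273266067341312) 256 384 256 320 256 384))) = true := by decide +kernel
  have c6 : (band (go 16 Gd mult S198_256_364_512 (Tr.lf 9202598436 108108870 11356763519316712495828107359) 256 384 304 320 320 384)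
  (go 16 Gd mult S256_285_216_364 (Tr.lf 4295238184 112303173 13504988286882499033747620420) 256 384 304 320 320 384)) = true := by decide +kernel
  have c7 : (go 16 Gd mult S256_314_364_512 (Tr.lf 13497434690 103914056 5290259386633617268514226176) 320 384 256 320 320 384) = true := by decide +kernel
  have c8 : (band (go 16 Gd mult S227_256_512_660 (Tr.lf 8598594116 104037446 2128918368341361976657575936) 256 384 256 320 256 320)
  (band (go 16 Gd mult S285_314_364_512 (Tr.lf 8598594116 99843142 2300585834726639319465852928) 256 384 256 320 256 320)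
  (go 16 Gd mult S227_256_512_660 (Tr.lf 8598594116 103914438 4485114790770274238159912960) 256 384 256 320 320 384))) = true := by decide +kernel
  have c9 : (go 16 Gd mult S198_256_364_512 (Tr.lf 13497434644 95648456 7443356271367271828665925632) 256 384 288 304 320 384) = true := by decide +kernel
  have c10 : (go 16 Gd mult S198_256_364_438 (Tr.lf 13430243860 103774920 3501049173603966089949085696) 256 384 288 304 256 320) = true := by decide +kernel
  (And.intro (Ok.s2 320 (Ok.s4 438 (Ok.s1 304 (Ok.lf S198_256_364_438_ok c10)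
  (Ok.lf S198_256_364_438_ok (br (br c1))))
  (Ok.lf S198_256_438_512_ok (bl (br c3))))
  (Ok.s1 304 (Ok.lf S198_256_364_512_ok c9)
  (Ok.lf S198_256_364_512_ok (bl c6))))
  (And.intro (Ok.s4 660 (Ok.s3 227 (Ok.lf S198_227_512_660_ok (bl c5))
  (Ok.s2 320 (Ok.lf S227_256_512_660_ok (bl c8))
  (Ok.lf S227_256_512_660_ok (br (br c8)))))
  (Ok.s3 227 (Ok.lf S198_227_660_808_ok (bl (br c5)))
  (Ok.lf S227_256_660_808_ok (br (br c5)))))
  (Ok.s4 364 (Ok.s1 288 (Ok.s3 285 (Ok.lf S256_285_216_364_ok (bl c0))
  (Ok.lf S285_314_216_364_ok (br c0)))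
  (Ok.s3 285 (Ok.s1 304 (Ok.lf S256_285_216_364_ok (bl c1))
  (Ok.s2 320 (Ok.lf S256_285_216_364_ok (bl (br c1)))
  (Ok.lf S256_285_216_364_ok (br c6))))
  (Ok.lf S285_314_216_364_ok c2)))
  (Ok.s2 320 (Ok.s3 285 (Ok.s1 288 (Ok.lf S256_285_364_512_ok (br (br c3)))
  (Ok.lf S256_285_364_512_ok (bl c3)))
  (Ok.lf S285_314_364_512_ok (bl (br c8))))
  (Ok.s0 320 (Ok.lf S256_314_364_512_ok c4)
  (Ok.lf S256_314_364_512_ok c7))))))

end Vale.Agent.P098.Ck
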