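import Vale.Agent.P098.CkGd
import Vale.Agent.P098.CkOk
import Vale.Agent.P098.Sh.A42
import Vale.Agent.P098.Sh.A46
import Vale.Agent.P098.Sh.A47
import Vale.Agent.P098.Sh.A48
import Vale.Agent.P098.Sh.A49
import Vale.Agent.P098.Sh.A51
import Vale.Agent.P098.Sh.A52
import Vale.Agent.P098.Sh.A54
import Vale.Agent.P098.Sh.A56

namespace Vale.Agent.P098.Ck

theorem r557 :
    Ok Gd mult 256 384 256 320 256 384 256 314 512 808 ∧
    Ok Gd mult 256 384 256 320 256 384 314 372 216 808 ∧
    Ok Gd mult 256 384 256 320 256 384 372 430 216 364 ∧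
    Ok Gd mult 256 384 256 288 256 384 372 430 364 512 :=
  have c0 : (band (go 16 Gd mult S343_372_660_808 (Tr.lf 8590215236 99851078 2092650593752923101416390656) 256 384 256 320 256 384)
  (band (go 16 Gd mult S343_372_216_364 (Tr.lf 8591131780 104045638 2982419996989290174000136192) 256 384 256 320 256 384)
  (band (go 16 Gd mult S256_285_660_808 (Tr.lf 8598594628 104045382 1274207813873819150140309504) 256 384 256 320 256 384)
  (band (go 16 Gd mult S285_314_660_808 (Tr.lf 8598594628 99851078 1187165154861565849561464832) 256 384 256 320 256 384)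
  (go 16 Gd mult S314_343_216_364 (Tr.lf 8590206020 108108614 2664472506430642701052411904) 256 384 256 320 256 384))))) = true := by decide +kernel
  have c1 : (band (go 16 Gd mult S401_430_216_364 (Tr.lf 18264246340 103770954 2041875709329108676078731264) 256 384 256 288 256 384)
  (band (go 16 Gd mult S401_430_364_512 (Tr.lf 18264246340 103770954 1970549085971845554771066880) 256 384 256 288 256 384)
  (band (go 16 Gd mult S372_401_364_512 (Tr.lf 13969279012 107977800 0) 256 384 256 288 256 384)
  (go 16 Gd mult S372_401_216_364 (Tr.lf 13969279012 107977800 245411941381769722465353728) 256 384 256 288 256 384)))) = true := by decide +kernel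
  have c2 : (band (go 16 Gd mult S343_372_364_512 (Tr.lf 8591131716 104045638 2467417597833458145575305216) 256 384 256 320 256 384)
  (band (go 16 Gd mult S343_372_512_660 (Tr.lf 8591131716 104045638 2217169953173229906411126784) 256 384 256 320 256 384)
  (band (go 16 Gd mult S285_314_512_660 (Tr.lf 8590074948 104168262 1541380420008652197750374400) 256 384 256 320 256 384)
  (band (go 16 Gd mult S314_343_364_512 (Tr.lf 8590074948 104172358 2270362689236273590098198528) 256 384 256 320 256 384)
  (go 16 Gd mult S314_343_512_660 (Tr.lf 8590074948 104041286 1945161643759938342102237184) 256 384 256 320 256 384))))) = true := by decide +kernel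
  have c3 : (band (go 16 Gd mult S372_430_216_364 (Tr.lf 13431357764 103783495 7833839311102797052096020480) 256 384 288 320 288 320)
  (band (go 16 Gd mult S372_430_216_364 (Tr.lf 13422969124 107969607 5434121559167758140304261120) 256 384 288 320 256 288)
  (go 16 Gd mult S372_430_216_364 (Tr.lf 8590082340 99851078 10446328007290010698636066816) 256 384 288 320 320 352))) = true := by decide +kernel
  have c4 : (band (go 16 Gd mult S256_285_512_660 (Tr.lf 13497410626 99982023 2004399008921055171662839808) 256 320 256 320 256 384)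
  (band (go 16 Gd mult S314_343_660_808 (Tr.lf 8590074946 104045254 530725038753363494596050973) 256 320 256 320 256 384)
  (band (go 16 Gd mult S256_285_512_660 (Tr.lf 13497410625 104041032 0) 320 384 256 320 256 384)
  (go 16 Gd mult S314_343_660_808 (Tr.lf 9202443297 112303046 0) 320 384 256 320 256 384)))) = true := by decide +kernel
  have c5 : (go 16 Gd mult S372_430_216_364 (Tr.lf 4295049508 112307396 13981227103843186405476925440) 256 384 288 320 352 384) = true := by decide +kernel
  (And.intro (Ok.s4 660 (Ok.s3 285 (Ok.s0 320 (Ok.lf S256_285_512_660_ok (bl c4))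
  (Ok.lf S256_285_512_660_ok (bl (br (br c4)))))
  (Ok.lf S285_314_512_660_ok (bl (br (br c2)))))
  (Ok.s3 285 (Ok.lf S256_285_660_808_ok (bl (br (br c0))))
  (Ok.lf S285_314_660_808_ok (bl (br (br (br c0)))))))
  (And.intro (Ok.s4 512 (Ok.s4 364 (Ok.s3 343 (Ok.lf S314_343_216_364_ok (br (br (br (br c0)))))
  (Ok.lf S343_372_216_364_ok (bl (br c0))))
  (Ok.s3 343 (Ok.lf S314_343_364_512_ok (bl (br (br (br c2)))))
  (Ok.lf S343_372_364_512_ok (bl c2))))
  (Ok.s4 660 (Ok.s3 343 (Ok.lf S314_343_512_660_ok (br (br (br (br c2)))))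
  (Ok.lf S343_372_512_660_ok (bl (br c2))))
  (Ok.s3 343 (Ok.s0 320 (Ok.lf S314_343_660_808_ok (bl (br c4)))
  (Ok.lf S314_343_660_808_ok (br (br (br c4)))))
  (Ok.lf S343_372_660_808_ok (bl c0)))))
  (And.intro (Ok.s1 288 (Ok.s3 401 (Ok.lf S372_401_216_364_ok (br (br (br c1))))
  (Ok.lf S401_430_216_364_ok (bl c1)))
  (Ok.s2 320 (Ok.s2 288 (Ok.lf S372_430_216_364_ok (bl (br c3)))
  (Ok.lf S372_430_216_364_ok (bl c3)))
  (Ok.s2 352 (Ok.lf S372_430_216_364_ok (br (br c3)))
  (Ok.lf S372_430_216_364_ok c5))))
  (Ok.s3 401 (Ok.lf S372_401_364_512_ok (bl (br (br c1))))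
  (Ok.lf S401_430_364_512_ok (bl (br c1)))))))

end Vale.Agent.P098.Ck
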