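import Vale.Agent.P098.CkGd
import Vale.Agent.P098.CkOk
import Vale.Agent.P098.Sh.A54
import Vale.Agent.P098.Sh.A55
import Vale.Agent.P098.Sh.A57
import Vale.Agent.P098.Sh.A58

namespace Vale.Agent.P098.Ck

theorem r558 :
    Ok Gd mult 256 384 288 320 256 384 372 430 364 512 ∧
    Ok Gd mult 256 384 256 320 256 384 372 430 512 808 ∧
    Ok Gd mult 256 384 256 320 256 384 430 488 216 364 ∧
    Ok Gd mult 256 384 256 288 256 384 430 488 364 512 :=
  have c0 : (band (go 16 Gd mult S372_430_660_808 (Tr.lf 13423117384 103906375 6178819864050369711923265536) 256 384 304 320 256 320)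
  (band (go 16 Gd mult S372_430_512_660 (Tr.lf 13422986312 103906375 6483469170593256263949221888) 256 384 304 320 256 320)
  (band (go 16 Gd mult S430_488_216_364 (Tr.lf 13422903828 107969607 11436438253554391992720424960) 256 384 304 320 256 320)
  (go 16 Gd mult S372_430_512_660 (Tr.lf 13422986280 104033096 4755914174363951173294096384) 256 384 288 304 256 384)))) = true := by decide +kernel
  have c1 : (band (go 16 Gd mult S430_488_216_364 (Tr.lf 18255808584 107825994 3359604852709054476508463104) 256 384 256 288 256 384)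
  (band (go 16 Gd mult S430_488_364_512 (Tr.lf 18255808584 99568458 3346306668693293555586695168) 256 384 256 288 256 384)
  (band (go 16 Gd mult S401_430_512_660 (Tr.lf 18264246340 103770954 1862954688026143558222217216) 256 384 256 288 256 384)
  (go 16 Gd mult S372_401_512_660 (Tr.lf 13969279012 107977800 0) 256 384 256 288 256 384)))) = true := by decide +kernel
  have c2 : (go 16 Gd mult S372_430_660_808 (Tr.lf 13422986280 104033096 4489950494048732754858737664) 256 384 288 304 256 384) = true := by decide +kernel
  have c3 : (band (go 16 Gd mult S401_430_660_808 (Tr.lf 18264246340 103770954 1773494177374660999293960192) 256 384 256 288 256 384)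
  (go 16 Gd mult S372_401_660_808 (Tr.lf 9128003620 108239942 0) 256 384 256 288 256 384)) = true := by decide +kernel
  have c4 : (go 16 Gd mult S372_430_364_512 (Tr.lf 13431357768 107977799 7364776093092320932310024192) 256 384 288 320 288 320) = true := by decide +kernel
  have c5 : (band (go 16 Gd mult S372_430_512_660 (Tr.lf 4295049768 107978052 12606804069281729555369492575) 256 384 304 320 320 384)
  (band (go 16 Gd mult S372_430_660_808 (Tr.lf 4295115300 107978052 12396462210766319231860408367) 256 384 304 320 320 384)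
  (band (go 16 Gd mult S430_488_216_364 (Tr.lf 9136325156 112426310 18427679972552695393089814749) 256 384 304 320 320 384)
  (go 16 Gd mult S430_488_216_364 (Tr.lf 13431292452 108104520 10734052352358292442216136704) 256 384 288 304 320 384)))) = true := by decide +kernel
  have c6 : (band (go 16 Gd mult S372_430_364_512 (Tr.lf 13422903620 107969607 5002535041565335524934156288) 256 384 288 320 256 288)
  (band (go 16 Gd mult S372_430_364_512 (Tr.lf 8590016836 99851078 10217841027382845784616599552) 256 384 288 320 320 352)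
  (go 16 Gd mult S372_430_364_512 (Tr.lf 4295049508 112307396 13912318332125152542518673408) 256 384 288 320 352 384))) = true := by decide +kernel
  have c7 : (go 16 Gd mult S430_488_216_364 (Tr.lf 13422895636 108104647 6425440731251754063563325440) 256 384 288 304 256 320) = true := by decide +kernel
  (And.intro (Ok.s2 320 (Ok.s2 288 (Ok.lf S372_430_364_512_ok (bl c6))
  (Ok.lf S372_430_364_512_ok c4))
  (Ok.s2 352 (Ok.lf S372_430_364_512_ok (bl (br c6)))
  (Ok.lf S372_430_364_512_ok (br (br c6)))))
  (And.intro (Ok.s4 660 (Ok.s1 288 (Ok.s3 401 (Ok.lf S372_401_512_660_ok (br (br (br c1))))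
  (Ok.lf S401_430_512_660_ok (bl (br (br c1)))))
  (Ok.s1 304 (Ok.lf S372_430_512_660_ok (br (br (br c0))))
  (Ok.s2 320 (Ok.lf S372_430_512_660_ok (bl (br c0)))
  (Ok.lf S372_430_512_660_ok (bl c5)))))
  (Ok.s1 288 (Ok.s3 401 (Ok.lf S372_401_660_808_ok (br c3))
  (Ok.lf S401_430_660_808_ok (bl c3)))
  (Ok.s1 304 (Ok.lf S372_430_660_808_ok c2)
  (Ok.s2 320 (Ok.lf S372_430_660_808_ok (bl c0))
  (Ok.lf S372_430_660_808_ok (bl (br c5)))))))
  (And.intro (Ok.s1 288 (Ok.lf S430_488_216_364_ok (bl c1))
  (Ok.s1 304 (Ok.s2 320 (Ok.lf S430_488_216_364_ok c7)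
  (Ok.lf S430_488_216_364_ok (br (br (br c5)))))
  (Ok.s2 320 (Ok.lf S430_488_216_364_ok (bl (br (br c0))))
  (Ok.lf S430_488_216_364_ok (bl (br (br c5)))))))
  (Ok.lf S430_488_364_512_ok (bl (br c1))))))

end Vale.Agent.P098.Ck
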