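import Vale.Agent.P098.CkGd
import Vale.Agent.P098.CkOk
import Vale.Agent.P098.Sh.A58
import Vale.Agent.P098.Sh.A59

namespace Vale.Agent.P098.Ck

theorem r559 :
    Ok Gd mult 256 320 288 320 256 384 430 488 364 512 ∧
    Ok Gd mult 320 384 288 320 256 384 430 488 364 512 ∧
    Ok Gd mult 256 384 256 320 256 384 430 488 512 808 :=
  have c0 : (band (go 16 Gd mult S430_488_512_660 (Tr.lf 18255808584 99568458 3333008484677532634664927232) 256 384 256 288 256 384)
  (band (go 16 Gd mult S430_488_660_808 (Tr.lf 18255808584 107825994 3325754929759844859616690176) 256 384 256 288 256 384)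
  (band (go 16 Gd mult S430_488_660_808 (Tr.lf 13422921796 103906120 15928806599242354005928574976) 320 384 304 320 256 384)
  (go 16 Gd mult S430_488_512_660 (Tr.lf 13422921764 103906120 16006177851697690273109770240) 320 384 304 320 256 384)))) = true := by decide +kernel
  have c1 : (go 16 Gd mult S430_488_364_512 (Tr.lf 13422921764 103906120 16180263169722196874267459584) 320 384 304 320 256 384) = true := by decide +kernel
  have c2 : (band (go 16 Gd mult S430_488_364_512 (Tr.lf 13431292450 103779144 11024194549065803444145618944) 256 320 288 304 320 384)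
  (band (go 16 Gd mult S430_488_660_808 (Tr.lf 13431292450 103779144 11022985623246188814970912768) 256 320 288 304 320 384)
  (band (go 16 Gd mult S430_488_512_660 (Tr.lf 13431292450 103779144 11022985623246188814970912768) 256 320 288 304 320 384)
  (band (go 16 Gd mult S430_488_512_660 (Tr.lf 13422904337 104033096 0) 320 384 288 304 256 384)
  (band (go 16 Gd mult S430_488_660_808 (Tr.lf 13422904337 112290632 0) 320 384 288 304 256 384)
  (band (go 16 Gd mult S430_488_364_512 (Tr.lf 13422896146 108096328 0) 320 384 288 304 256 384)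
  (band (go 16 Gd mult S430_488_364_512 (Tr.lf 9127936290 108366918 18235448297134207360384892928) 256 320 304 320 320 384)
  (go 16 Gd mult S430_488_512_660 (Tr.lf 9136324898 108367046 18235451506894428480591298607) 256 320 304 320 320 384)))))))) = true := by decide +kernel
  have c3 : (band (go 16 Gd mult S430_488_660_808 (Tr.lf 13422903586 108096583 11322799226510616850298044416) 256 320 304 320 256 320)
  (band (go 16 Gd mult S430_488_512_660 (Tr.lf 13422903570 108104647 11342142039624450917093343232) 256 320 304 320 256 320)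
  (band (go 16 Gd mult S430_488_364_512 (Tr.lf 13422895394 103910343 11389290146589421454906884096) 256 320 304 320 256 320)
  (band (go 16 Gd mult S430_488_660_808 (Tr.lf 9136324898 108367046 18234244019929284086144368735) 256 320 304 320 320 384)
  (band (go 16 Gd mult S430_488_364_512 (Tr.lf 13422895378 104037319 6377083698467168896575078400) 256 320 288 304 256 320)
  (band (go 16 Gd mult S430_488_512_660 (Tr.lf 13422895634 107973575 6329935591502198358761537536) 256 320 288 304 256 320)
  (go 16 Gd mult S430_488_660_808 (Tr.lf 13422895634 107973575 6309383852568749662791532544) 256 320 288 304 256 320))))))) = true := by decide +kernel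
  (And.intro (Ok.s2 320 (Ok.s1 304 (Ok.lf S430_488_364_512_ok (bl (br (br (br (br c3))))))
  (Ok.lf S430_488_364_512_ok (bl (br (br c3)))))
  (Ok.s1 304 (Ok.lf S430_488_364_512_ok (bl c2))
  (Ok.lf S430_488_364_512_ok (bl (br (br (br (br (br (br c2))))))))))
  (And.intro (Ok.s1 304 (Ok.lf S430_488_364_512_ok (bl (br (br (br (br (br c2)))))))
  (Ok.lf S430_488_364_512_ok c1))
  (Ok.s4 660 (Ok.s1 288 (Ok.lf S430_488_512_660_ok (bl c0))
  (Ok.s0 320 (Ok.s2 320 (Ok.s1 304 (Ok.lf S430_488_512_660_ok (bl (br (br (br (br (br c3)))))))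
  (Ok.lf S430_488_512_660_ok (bl (br c3))))
  (Ok.s1 304 (Ok.lf S430_488_512_660_ok (bl (br (br c2))))
  (Ok.lf S430_488_512_660_ok (br (br (br (br (br (br (br c2))))))))))
  (Ok.s1 304 (Ok.lf S430_488_512_660_ok (bl (br (br (br c2)))))
  (Ok.lf S430_488_512_660_ok (br (br (br c0)))))))
  (Ok.s1 288 (Ok.lf S430_488_660_808_ok (bl (br c0)))
  (Ok.s0 320 (Ok.s2 320 (Ok.s1 304 (Ok.lf S430_488_660_808_ok (br (br (br (br (br (br c3)))))))
  (Ok.lf S430_488_660_808_ok (bl c3)))
  (Ok.s1 304 (Ok.lf S430_488_660_808_ok (bl (br c2)))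
  (Ok.lf S430_488_660_808_ok (bl (br (br (br c3)))))))
  (Ok.s1 304 (Ok.lf S430_488_660_808_ok (bl (br (br (br (br c2))))))
  (Ok.lf S430_488_660_808_ok (bl (br (br c0))))))))))

end Vale.Agent.P098.Ck
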