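import Vale.Agent.P098.CkGd
import Vale.Agent.P098.CkOk
import Vale.Agent.P098.Sh.A54
import Vale.Agent.P098.Sh.A55
import Vale.Agent.P098.Sh.A56
import Vale.Agent.P098.Sh.A57
import Vale.Agent.P098.Sh.A58

namespace Vale.Agent.P098.Ck

theorem r56 :
    Ok Gd mult 0 128 64 128 384 512 372 430 216 364 ∧
    Ok Gd mult 0 128 64 128 384 512 372 430 364 512 ∧
    Ok Gd mult 0 128 64 128 384 512 372 430 512 808 ∧
    Ok Gd mult 0 128 64 128 384 512 430 488 216 364 :=
  have c0 : (band (go 16 Gd mult S401_430_216_364 (Tr.lf 1085573252 95259719 845857002770205790699520) 0 128 64 128 448 512)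
  (go 16 Gd mult S372_401_216_364 (Tr.lf 547505284 103914693 901566169893918400839680) 0 128 64 128 448 512)) = true := by decide +kernel
  have c1 : (band (go 16 Gd mult S372_430_512_660 (Tr.lf 1085572232 99450055 0) 0 128 64 128 448 480)
  (band (go 16 Gd mult S401_430_660_808 (Tr.lf 1085424258 95259719 0) 0 128 64 128 448 480)
  (band (go 16 Gd mult S401_430_364_512 (Tr.lf 1085358722 95259719 0) 0 128 64 128 448 480)
  (go 16 Gd mult S430_488_216_364 (Tr.lf 1076986434 91184199 0) 0 128 64 128 448 480)))) = true := by decide +kernel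
  have c2 : (go 16 Gd mult S372_401_364_512 (Tr.lf 548685956 108108743 911711879100558477361152) 0 128 64 128 448 512) = true := by decide +kernel
  have c3 : (band (go 16 Gd mult S401_430_512_660 (Tr.lf 1152681092 91323463 1206472530453095302824360) 0 128 64 128 480 512)
  (band (go 16 Gd mult S430_488_216_364 (Tr.lf 1085441156 95259591 1206472508536560089956710) 0 128 64 128 480 512)
  (go 16 Gd mult S372_401_660_808 (Tr.lf 548684932 104041415 1201842441311201198670433) 0 128 64 128 480 512))) = true := by decide +kernel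
  have c4 : (band (go 16 Gd mult S372_430_660_808 (Tr.lf 547521668 112299078 0) 0 128 64 128 384 448)
  (band (go 16 Gd mult S372_430_364_512 (Tr.lf 547521666 112299078 0) 0 128 64 128 384 448)
  (band (go 16 Gd mult S372_430_512_660 (Tr.lf 547521666 112299078 0) 0 128 64 128 384 448)
  (band (go 16 Gd mult S372_430_216_364 (Tr.lf 547521602 108112838 0) 0 128 64 128 384 448)
  (go 16 Gd mult S430_488_216_364 (Tr.lf 539050562 99712197 0) 0 128 64 128 384 448))))) = true := by decide +kernel
  have c5 : (band (go 16 Gd mult S401_430_364_512 (Tr.lf 1152533636 91323463 1200071483227414829859174) 0 128 64 128 480 512)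
  (go 16 Gd mult S372_401_512_660 (Tr.lf 548553860 112298951 1206472579450516017513009) 0 128 64 128 480 512)) = true := by decide +kernel
  have c6 : (band (go 16 Gd mult S401_430_660_808 (Tr.lf 5381456964 103513160 1201289060944373108114095) 0 128 64 96 480 512)
  (go 16 Gd mult S401_430_660_808 (Tr.lf 1085441092 86867015 1200403502666771450036523) 0 128 96 128 480 512)) = true := by decide +kernel
  have c7 : (go 16 Gd mult S372_401_660_808 (Tr.lf 547504706 108108997 0) 0 128 64 128 448 480) = true := by decide +kernel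
  (And.intro (Ok.s2 448 (Ok.lf S372_430_216_364_ok (bl (br (br (br c4)))))
  (Ok.s3 401 (Ok.lf S372_401_216_364_ok (br c0))
  (Ok.lf S401_430_216_364_ok (bl c0))))
  (And.intro (Ok.s2 448 (Ok.lf S372_430_364_512_ok (bl (br c4)))
  (Ok.s3 401 (Ok.lf S372_401_364_512_ok c2)
  (Ok.s2 480 (Ok.lf S401_430_364_512_ok (bl (br (br c1))))
  (Ok.lf S401_430_364_512_ok (bl c5)))))
  (And.intro (Ok.s4 660 (Ok.s2 448 (Ok.lf S372_430_512_660_ok (bl (br (br c4))))
  (Ok.s2 480 (Ok.lf S372_430_512_660_ok (bl c1))
  (Ok.s3 401 (Ok.lf S372_401_512_660_ok (br c5))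
  (Ok.lf S401_430_512_660_ok (bl c3)))))
  (Ok.s2 448 (Ok.lf S372_430_660_808_ok (bl c4))
  (Ok.s2 480 (Ok.s3 401 (Ok.lf S372_401_660_808_ok c7)
  (Ok.lf S401_430_660_808_ok (bl (br c1))))
  (Ok.s3 401 (Ok.lf S372_401_660_808_ok (br (br c3)))
  (Ok.s1 96 (Ok.lf S401_430_660_808_ok (bl c6))
  (Ok.lf S401_430_660_808_ok (br c6)))))))
  (Ok.s2 448 (Ok.lf S430_488_216_364_ok (br (br (br (br c4)))))
  (Ok.s2 480 (Ok.lf S430_488_216_364_ok (br (br (br c1))))
  (Ok.lf S430_488_216_364_ok (bl (br c3))))))))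

end Vale.Agent.P098.Ck
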