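import Vale.Agent.P098.CkGd
import Vale.Agent.P098.CkOk
import Vale.Agent.P098.Sh.A0
import Vale.Agent.P098.Sh.A1
import Vale.Agent.P098.Sh.A17
import Vale.Agent.P098.Sh.A3
import Vale.Agent.P098.Sh.A4
import Vale.Agent.P098.Sh.A8

namespace Vale.Agent.P098.Ck

theorem r560 :
    Ok Gd mult 256 384 256 320 384 512 24 82 216 808 ∧
    Ok Gd mult 256 384 256 320 384 512 82 140 216 808 ∧
    Ok Gd mult 256 384 256 320 384 448 140 198 216 364 :=
  have c0 : (band (go 16 Gd mult S24_82_216_364 (Tr.lf 4296116292 103775174 3193497087435314176087556096) 256 384 256 320 384 512)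
  (band (go 16 Gd mult S24_82_512_660 (Tr.lf 4296099908 104033222 3161949576422875715910565917) 256 384 256 320 384 512)
  (go 16 Gd mult S24_82_660_808 (Tr.lf 4296099906 99838918 3141309200853753423506243584) 256 384 256 320 384 512))) = true := by decide +kernel
  have c1 : (band (go 16 Gd mult S82_140_216_364 (Tr.lf 164386 112426052 11481165730963376579656902825) 256 384 256 320 448 512)
  (band (go 16 Gd mult S82_140_364_512 (Tr.lf 1131042 112426053 10536994997836841482172983291) 256 384 256 320 448 512)
  (band (go 16 Gd mult S82_140_512_660 (Tr.lf 82466 112426052 8804604298157648859365008794) 256 384 256 320 448 512)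
  (band (go 16 Gd mult S82_140_660_808 (Tr.lf 82466 112426052 7814494051655997542976414269) 256 384 256 320 448 512)
  (band (go 16 Gd mult S24_82_364_512 (Tr.lf 74274 103910468 5243107415310622384648782657) 256 384 256 320 448 512)
  (band (go 16 Gd mult S82_140_364_512 (Tr.lf 4296098338 104172613 6151134658511315864410652672) 256 384 256 320 384 448)
  (band (go 16 Gd mult S24_82_364_512 (Tr.lf 4296089890 99974213 3186728460504162504525479936) 256 384 256 320 384 448)
  (go 16 Gd mult S82_140_216_364 (Tr.lf 4296163874 104172613 6541666785024658454632988672) 256 384 256 320 384 448)))))))) = true := by decide +kernel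
  have c2 : (band (go 16 Gd mult S169_198_216_364 (Tr.lf 1188386 108108742 17794864453910038529957691421) 256 320 288 320 384 448)
  (band (go 16 Gd mult S140_169_216_364 (Tr.lf 4295041553 95787845 13811669576058289285089787933) 256 320 288 320 384 448)
  (band (go 16 Gd mult S169_198_216_364 (Tr.lf 139810 107982020 17794301883556022609762058269) 320 384 288 320 384 448)
  (band (go 16 Gd mult S140_169_216_364 (Tr.lf 74001 107981892 13812242495022501232436576285) 320 384 288 320 384 448)
  (band (go 16 Gd mult S169_198_216_364 (Tr.lf 4295107089 99978181 8119145804531849537326678016) 256 320 256 288 384 448)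
  (go 16 Gd mult S169_198_216_364 (Tr.lf 4295106833 108108741 8094967288139556953832554496) 320 384 256 288 384 448)))))) = true := by decide +kernel
  have c3 : (band (go 16 Gd mult S82_140_512_660 (Tr.lf 4295049761 104168516 5956413355265013161436119040) 256 320 256 320 384 448)
  (go 16 Gd mult S82_140_660_808 (Tr.lf 4295049761 104168516 5217723837456739518031855616) 256 320 256 320 384 448)) = true := by decide +kernel
  have c4 : (go 16 Gd mult S140_169_216_364 (Tr.lf 1188370 108239941 6212763311992106905384255488) 256 384 256 288 384 448) = true := by decide +kernel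
  have c5 : (band (go 16 Gd mult S82_140_512_660 (Tr.lf 4295041569 104041285 5356761540779604642466103296) 320 384 256 320 384 448)
  (go 16 Gd mult S82_140_660_808 (Tr.lf 4295041313 99846981 4606010564026624806263521309) 320 384 256 320 384 448)) = true := by decide +kernel
  (And.intro (Ok.s4 512 (Ok.s4 364 (Ok.lf S24_82_216_364_ok (bl c0))
  (Ok.s2 448 (Ok.lf S24_82_364_512_ok (bl (br (br (br (br (br (br c1))))))))
  (Ok.lf S24_82_364_512_ok (bl (br (br (br (br c1))))))))
  (Ok.s4 660 (Ok.lf S24_82_512_660_ok (bl (br c0)))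
  (Ok.lf S24_82_660_808_ok (br (br c0)))))
  (And.intro (Ok.s4 512 (Ok.s4 364 (Ok.s2 448 (Ok.lf S82_140_216_364_ok (br (br (br (br (br (br (br c1))))))))
  (Ok.lf S82_140_216_364_ok (bl c1)))
  (Ok.s2 448 (Ok.lf S82_140_364_512_ok (bl (br (br (br (br (br c1)))))))
  (Ok.lf S82_140_364_512_ok (bl (br c1)))))
  (Ok.s4 660 (Ok.s2 448 (Ok.s0 320 (Ok.lf S82_140_512_660_ok (bl c3))
  (Ok.lf S82_140_512_660_ok (bl c5)))
  (Ok.lf S82_140_512_660_ok (bl (br (br c1)))))
  (Ok.s2 448 (Ok.s0 320 (Ok.lf S82_140_660_808_ok (br c3))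
  (Ok.lf S82_140_660_808_ok (br c5)))
  (Ok.lf S82_140_660_808_ok (bl (br (br (br c1))))))))
  (Ok.s1 288 (Ok.s3 169 (Ok.lf S140_169_216_364_ok c4)
  (Ok.s0 320 (Ok.lf S169_198_216_364_ok (bl (br (br (br (br c2))))))
  (Ok.lf S169_198_216_364_ok (br (br (br (br (br c2))))))))
  (Ok.s3 169 (Ok.s0 320 (Ok.lf S140_169_216_364_ok (bl (br c2)))
  (Ok.lf S140_169_216_364_ok (bl (br (br (br c2))))))
  (Ok.s0 320 (Ok.lf S169_198_216_364_ok (bl c2))
  (Ok.lf S169_198_216_364_ok (bl (br (br c2)))))))))

end Vale.Agent.P098.Ck
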