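import Vale.Agent.P098.CkGd
import Vale.Agent.P098.CkOk
import Vale.Agent.P098.Sh.A10
import Vale.Agent.P098.Sh.A11
import Vale.Agent.P098.Sh.A18
import Vale.Agent.P098.Sh.A19
import Vale.Agent.P098.Sh.A9

namespace Vale.Agent.P098.Ck

theorem r561 :
    Ok Gd mult 256 384 256 320 448 512 140 198 216 364 ∧
    Ok Gd mult 256 384 256 320 384 512 140 198 364 512 ∧
    Ok Gd mult 256 384 256 320 384 512 140 198 512 808 :=
  have c0 : (band (go 16 Gd mult S140_198_216_364 (Tr.lf 614761508 103914567 19053877064103985574732454836) 256 384 256 288 448 512)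
  (band (go 16 Gd mult S140_198_512_660 (Tr.lf 623019044 99847367 12756581378079045301536501226) 256 384 256 288 448 512)
  (go 16 Gd mult S140_198_364_512 (Tr.lf 614630436 99720263 17095417235051214726954174952) 256 384 256 288 448 512))) = true := by decide +kernel
  have c1 : (band (go 16 Gd mult S140_198_216_364 (Tr.lf 164370 112438340 79104849645656272424192966523) 256 384 288 320 448 512)
  (band (go 16 Gd mult S140_198_364_512 (Tr.lf 147986 108244036 79104849645656272424192966523) 256 384 288 320 448 512)
  (go 16 Gd mult S140_198_512_660 (Tr.lf 82450 104176708 79104849645656272424192966523) 256 384 288 320 448 512))) = true := by decide +kernel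
  have c2 : (band (go 16 Gd mult S140_198_660_808 (Tr.lf 4295115298 104045636 6652718785339304348408086528) 256 320 256 320 384 448)
  (band (go 16 Gd mult S140_169_364_512 (Tr.lf 4296090145 99982405 9457511597208216190670864384) 256 320 256 320 384 448)
  (band (go 16 Gd mult S140_198_660_808 (Tr.lf 4295115297 104049477 6662390191896221381805735936) 320 384 256 320 384 448)
  (band (go 16 Gd mult S140_169_364_512 (Tr.lf 4295041313 99855173 9465889167582546437949358080) 320 384 256 320 384 448)
  (band (go 16 Gd mult S169_198_364_512 (Tr.lf 4295107106 104176581 11568211167892386572763398144) 320 384 256 320 384 448)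
  (band (go 16 Gd mult S169_198_512_660 (Tr.lf 4295041569 104172485 9085077534403938247916912640) 320 384 256 320 384 448)
  (band (go 16 Gd mult S140_169_512_660 (Tr.lf 4295037217 108239685 8007924629127303653253709824) 320 384 256 320 384 448)
  (go 16 Gd mult S140_198_660_808 (Tr.lf 4295115041 103901894 11855932175205641348161474314) 256 320 256 320 448 480)))))))) = true := by decide +kernel
  have c3 : (band (go 16 Gd mult S140_198_512_660 (Tr.lf 4295115042 104045636 12389071799410719782388891648) 256 320 256 320 416 448)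
  (band (go 16 Gd mult S169_198_364_512 (Tr.lf 4295106849 99847109 16148831098412216515725099008) 256 320 256 320 416 448)
  (band (go 16 Gd mult S140_198_512_660 (Tr.lf 4295115041 108112964 9076615053666635843693969408) 256 320 256 320 384 416)
  (go 16 Gd mult S169_198_364_512 (Tr.lf 4295041313 104172740 11573046871170845089462222848) 256 320 256 320 384 416)))) = true := by decide +kernel
  have c4 : (go 16 Gd mult S140_198_660_808 (Tr.lf 4295049505 99846981 11865606919517585349741117440) 320 384 256 320 448 480) = true := by decide +kernel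
  have c5 : (go 16 Gd mult S140_198_660_808 (Tr.sp 1 288 (Tr.lf 74001 108370884 79104849645656272424192966523) Tr.skip) 256 384 256 320 480 512) = true := by decide +kernel
  (And.intro (Ok.s1 288 (Ok.lf S140_198_216_364_ok (bl c0))
  (Ok.lf S140_198_216_364_ok (bl c1)))
  (And.intro (Ok.s2 448 (Ok.s3 169 (Ok.s0 320 (Ok.lf S140_169_364_512_ok (bl (br c2)))
  (Ok.lf S140_169_364_512_ok (bl (br (br (br c2))))))
  (Ok.s0 320 (Ok.s2 416 (Ok.lf S169_198_364_512_ok (br (br (br c3))))
  (Ok.lf S169_198_364_512_ok (bl (br c3))))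
  (Ok.lf S169_198_364_512_ok (bl (br (br (br (br c2))))))))
  (Ok.s1 288 (Ok.lf S140_198_364_512_ok (br (br c0)))
  (Ok.lf S140_198_364_512_ok (bl (br c1)))))
  (Ok.s4 660 (Ok.s2 448 (Ok.s0 320 (Ok.s2 416 (Ok.lf S140_198_512_660_ok (bl (br (br c3))))
  (Ok.lf S140_198_512_660_ok (bl c3)))
  (Ok.s3 169 (Ok.lf S140_169_512_660_ok (bl (br (br (br (br (br (br c2))))))))
  (Ok.lf S169_198_512_660_ok (bl (br (br (br (br (br c2)))))))))
  (Ok.s1 288 (Ok.lf S140_198_512_660_ok (bl (br c0)))
  (Ok.lf S140_198_512_660_ok (br (br c1)))))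
  (Ok.s2 448 (Ok.s0 320 (Ok.lf S140_198_660_808_ok (bl c2))
  (Ok.lf S140_198_660_808_ok (bl (br (br c2)))))
  (Ok.s2 480 (Ok.s0 320 (Ok.lf S140_198_660_808_ok (br (br (br (br (br (br (br c2))))))))
  (Ok.lf S140_198_660_808_ok c4))
  (Ok.lf S140_198_660_808_ok c5))))))

end Vale.Agent.P098.Ck
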