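import Vale.Agent.P098.CkGd
import Vale.Agent.P098.CkOk
import Vale.Agent.P098.Sh.A25
import Vale.Agent.P098.Sh.A26
import Vale.Agent.P098.Sh.A28
import Vale.Agent.P098.Sh.A36
import Vale.Agent.P098.Sh.A37

namespace Vale.Agent.P098.Ck

theorem r562 :
    Ok Gd mult 256 384 256 320 384 448 198 256 216 364 ∧
    Ok Gd mult 256 384 256 320 448 512 198 256 216 364 ∧
    Ok Gd mult 256 384 256 320 384 512 198 256 364 512 :=
  have c0 : (band (go 16 Gd mult S198_256_216_364 (Tr.lf 4303651908 104168645 9641183411426667668281753600) 256 384 256 288 384 448)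
  (band (go 16 Gd mult S198_256_216_364 (Tr.lf 4295262760 104049605 16942021521599494555150795256) 256 384 288 304 384 448)
  (band (go 16 Gd mult S198_256_216_364 (Tr.lf 9202598418 103918279 23630933316860277508215406592) 256 320 304 320 384 448)
  (go 16 Gd mult S198_256_216_364 (Tr.lf 9202598418 99978055 23629664070187541848806916096) 320 384 304 320 384 448)))) = true := by decide +kernel
  have c1 : (band (go 16 Gd mult S198_256_364_512 (Tr.lf 4295262788 104049605 12835165426848517947855470592) 320 384 256 320 384 448)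
  (go 16 Gd mult S198_256_364_512 (Tr.lf 8598618434 99589062 12516009010470255845733040128) 256 320 256 320 384 416)) = true := by decide +kernel
  have c2 : (go 16 Gd mult S198_256_364_512 (Tr.lf 4303520322 104172613 17020466614354364150688251904) 256 320 256 320 416 448) = true := by decide +kernel
  have c3 : (band (go 16 Gd mult S198_227_216_364 (Tr.lf 139554 108240068 79104849645656272424192966523) 256 384 256 320 480 512)
  (band (go 16 Gd mult S227_256_216_364 (Tr.lf 139554 108240068 79104849645656272424192966523) 256 384 256 320 480 512)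
  (band (go 16 Gd mult S198_227_364_512 (Tr.lf 139538 112438340 79104849645656272424192966523) 256 384 256 320 480 512)
  (band (go 16 Gd mult S198_227_216_364 (Tr.lf 4295106834 103910341 20711084860249680194297659421) 256 384 256 288 448 480)
  (band (go 16 Gd mult S227_256_216_364 (Tr.lf 4295106834 103910341 20711736067195740964983406592) 256 384 256 288 448 480)
  (band (go 16 Gd mult S227_256_216_364 (Tr.lf 139538 108371140 79104849645656272424192966523) 256 384 288 320 448 480)
  (band (go 16 Gd mult S198_227_216_364 (Tr.lf 135442 112303300 79104849645656272424192966523) 256 384 288 320 448 480)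
  (go 16 Gd mult S198_227_364_512 (Tr.lf 139537 112303427 28666046582377264761627217578) 320 384 256 320 464 480)))))))) = true := by decide +kernel
  have c4 : (band (go 16 Gd mult S227_256_364_512 (Tr.sp 2 464 (Tr.lf 4303495457 95652933 23992995347329136882093981725) Tr.skip) 256 320 256 320 448 480)
  (go 16 Gd mult S227_256_364_512 (Tr.lf 4295106849 104041668 23714288877560565891036348416) 320 384 256 320 448 480)) = true := by decide +kernel
  have c5 : (band (go 16 Gd mult S198_227_364_512 (Tr.lf 4295041313 99716037 23996610337310354770334056854) 288 320 256 320 448 464)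
  (go 16 Gd mult S198_227_364_512 (Tr.lf 4295041313 99847109 23714288877560565891036348416) 320 384 256 320 448 464)) = true := by decide +kernel
  have c6 : (go 16 Gd mult S227_256_364_512 (Tr.sp 1 288 (Tr.lf 135442 112303427 79104849645656272424192966523) Tr.skip) 256 384 256 320 480 512) = true := by decide +kernel
  have c7 : (go 16 Gd mult S198_227_364_512 (Tr.sp 1 288 (Tr.lf 4295037201 99580997 79104849645656272424192966523) Tr.skip) 256 288 256 320 448 464) = true := by decide +kernel
  (And.intro (Ok.s1 288 (Ok.lf S198_256_216_364_ok (bl c0))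
  (Ok.s1 304 (Ok.lf S198_256_216_364_ok (bl (br c0)))
  (Ok.s0 320 (Ok.lf S198_256_216_364_ok (bl (br (br c0))))
  (Ok.lf S198_256_216_364_ok (br (br (br c0)))))))
  (And.intro (Ok.s3 227 (Ok.s2 480 (Ok.s1 288 (Ok.lf S198_227_216_364_ok (bl (br (br (br c3)))))
  (Ok.lf S198_227_216_364_ok (bl (br (br (br (br (br (br c3)))))))))
  (Ok.lf S198_227_216_364_ok (bl c3)))
  (Ok.s2 480 (Ok.s1 288 (Ok.lf S227_256_216_364_ok (bl (br (br (br (br c3))))))
  (Ok.lf S227_256_216_364_ok (bl (br (br (br (br (br c3))))))))
  (Ok.lf S227_256_216_364_ok (bl (br c3)))))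
  (Ok.s2 448 (Ok.s0 320 (Ok.s2 416 (Ok.lf S198_256_364_512_ok (br c1))
  (Ok.lf S198_256_364_512_ok c2))
  (Ok.lf S198_256_364_512_ok (bl c1)))
  (Ok.s3 227 (Ok.s2 480 (Ok.s0 320 (Ok.s2 464 (Ok.s0 288 (Ok.lf S198_227_364_512_ok c7)
  (Ok.lf S198_227_364_512_ok (bl c5)))
  (Ok.out rfl))
  (Ok.s2 464 (Ok.lf S198_227_364_512_ok (br c5))
  (Ok.lf S198_227_364_512_ok (br (br (br (br (br (br (br c3))))))))))
  (Ok.lf S198_227_364_512_ok (bl (br (br c3)))))
  (Ok.s2 480 (Ok.s0 320 (Ok.lf S227_256_364_512_ok (bl c4))
  (Ok.lf S227_256_364_512_ok (br c4)))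
  (Ok.lf S227_256_364_512_ok c6))))))

end Vale.Agent.P098.Ck
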