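import Vale.Agent.P098.CkGd
import Vale.Agent.P098.CkOk
import Vale.Agent.P098.Sh.A29
import Vale.Agent.P098.Sh.A41
import Vale.Agent.P098.Sh.A43
import Vale.Agent.P098.Sh.A45

namespace Vale.Agent.P098.Ck

theorem r563 :
    Ok Gd mult 256 384 256 320 384 512 198 256 512 660 ∧
    Ok Gd mult 256 384 256 320 384 512 198 256 660 808 ∧
    Ok Gd mult 256 384 256 320 384 512 256 314 216 364 :=
  have c0 : (go 16 Gd mult S198_256_660_808 (Tr.lf 8598618690 95652678 6587436791080114372973953024) 256 320 256 320 384 448) = true := by decide +kernel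
  have c1 : (band (go 16 Gd mult S256_314_216_364 (Tr.lf 4303651108 108231877 8192890279528341916983754752) 256 384 256 288 384 416)
  (go 16 Gd mult S256_314_216_364 (Tr.lf 4303651108 104172613 10455999413846927732033716224) 256 384 256 288 416 448)) = true := by decide +kernel
  have c2 : (band (go 16 Gd mult S198_256_512_660 (Tr.lf 8598487362 95398726 9080241831125479731218087936) 256 320 256 320 384 416)
  (band (go 16 Gd mult S198_256_512_660 (Tr.lf 8598487362 95394630 12395116428508792928262422528) 256 320 256 320 416 448)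
  (band (go 16 Gd mult S198_256_512_660 (Tr.lf 4295131682 108108996 9088704311862782135441031168) 320 384 256 320 384 448)
  (go 16 Gd mult S198_256_660_808 (Tr.lf 4295131682 108112964 5927401994839874389969731960) 320 384 256 320 384 448)))) = true := by decide +kernel
  have c3 : (go 16 Gd mult S198_256_660_808 (Tr.sp 2 480 (Tr.lf 4303634978 99712069 10947649526277528627781369723) Tr.skip) 256 320 256 320 448 512) = true := by decide +kernel
  have c4 : (go 16 Gd mult S256_314_216_364 (Tr.lf 4295246370 112307396 18081903483976008566080274432) 320 384 288 320 384 448) = true := by decide +kernel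
  have c5 : (band (go 16 Gd mult S256_285_216_364 (Tr.lf 4295238178 103918788 18117148589519745057489420288) 256 320 288 320 384 448)
  (band (go 16 Gd mult S285_314_216_364 (Tr.lf 4295107089 108235972 14810787883957630592068943901) 256 320 288 320 384 448)
  (go 16 Gd mult S285_314_216_364 (Tr.lf 4295106834 108366916 16024848981966312427711627264) 256 384 256 288 448 480))) = true := by decide +kernel
  have c6 : (band (go 16 Gd mult S198_256_512_660 (Tr.sp 2 480 (Tr.lf 4295115042 104172612 17038637450476963228540731392) Tr.skip) 320 384 256 320 448 512)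
  (band (go 16 Gd mult S198_256_660_808 (Tr.sp 2 480 (Tr.lf 4295115042 103910468 9931404135923700451772465152) Tr.skip) 320 384 256 320 448 512)
  (go 16 Gd mult S198_256_512_660 (Tr.sp 1 288 (Tr.sp 2 480 (Tr.lf 4303503634 99724101 12763402408874865978565797100) Tr.skip) Tr.skip) 256 320 256 320 448 512))) = true := by decide +kernel
  have c7 : (band (go 16 Gd mult S256_285_216_364 (Tr.lf 139554 112569412 79104849645656272424192966523) 256 384 256 320 480 512)
  (band (go 16 Gd mult S285_314_216_364 (Tr.lf 135458 108371267 79104849645656272424192966523) 256 384 256 320 480 512)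
  (band (go 16 Gd mult S256_285_216_364 (Tr.sp 2 464 (Tr.lf 4303495457 99847237 25419445910922554121119596717) Tr.skip) 256 320 256 320 448 480)
  (go 16 Gd mult S256_285_216_364 (Tr.lf 4295106833 104168644 19218293754413759990304079872) 320 384 256 288 448 480)))) = true := by decide +kernel
  have c8 : (go 16 Gd mult S285_314_216_364 (Tr.lf 4295037202 99712069 79104849645656272424192966523) 256 384 288 320 448 480) = true := by decide +kernel
  have c9 : (go 16 Gd mult S256_285_216_364 (Tr.lf 4295037201 103906373 79104849645656272424192966523) 320 384 288 320 448 480) = true := by decide +kernel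
  (And.intro (Ok.s0 320 (Ok.s2 448 (Ok.s2 416 (Ok.lf S198_256_512_660_ok (bl c2))
  (Ok.lf S198_256_512_660_ok (bl (br c2))))
  (Ok.lf S198_256_512_660_ok (br (br c6))))
  (Ok.s2 448 (Ok.lf S198_256_512_660_ok (bl (br (br c2))))
  (Ok.lf S198_256_512_660_ok (bl c6))))
  (And.intro (Ok.s0 320 (Ok.s2 448 (Ok.lf S198_256_660_808_ok c0)
  (Ok.lf S198_256_660_808_ok c3))
  (Ok.s2 448 (Ok.lf S198_256_660_808_ok (br (br (br c2))))
  (Ok.lf S198_256_660_808_ok (bl (br c6)))))
  (Ok.s2 448 (Ok.s1 288 (Ok.s2 416 (Ok.lf S256_314_216_364_ok (bl c1))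
  (Ok.lf S256_314_216_364_ok (br c1)))
  (Ok.s0 320 (Ok.s3 285 (Ok.lf S256_285_216_364_ok (bl c5))
  (Ok.lf S285_314_216_364_ok (bl (br c5))))
  (Ok.lf S256_314_216_364_ok c4)))
  (Ok.s3 285 (Ok.s2 480 (Ok.s0 320 (Ok.lf S256_285_216_364_ok (bl (br (br c7))))
  (Ok.s1 288 (Ok.lf S256_285_216_364_ok (br (br (br c7))))
  (Ok.lf S256_285_216_364_ok c9)))
  (Ok.lf S256_285_216_364_ok (bl c7)))
  (Ok.s2 480 (Ok.s1 288 (Ok.lf S285_314_216_364_ok (br (br c5)))
  (Ok.lf S285_314_216_364_ok c8))
  (Ok.lf S285_314_216_364_ok (bl (br c7))))))))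

end Vale.Agent.P098.Ck
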