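import Vale.Agent.P098.CkGd
import Vale.Agent.P098.CkOk
import Vale.Agent.P098.Sh.A42
import Vale.Agent.P098.Sh.A43
import Vale.Agent.P098.Sh.A44
import Vale.Agent.P098.Sh.A46

namespace Vale.Agent.P098.Ck

theorem r564 :
    Ok Gd mult 256 384 256 320 384 448 256 314 364 512 ∧
    Ok Gd mult 256 384 256 320 448 512 256 314 364 512 ∧
    Ok Gd mult 256 384 256 320 384 512 256 314 512 808 :=
  have c0 : (band (go 16 Gd mult S256_314_512_660 (Tr.lf 8598618690 99723974 9963994275379884222255726592) 256 320 256 320 416 448)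
  (band (go 16 Gd mult S256_314_512_660 (Tr.lf 295202 108371012 79104849645656272424192966523) 256 384 256 320 480 512)
  (band (go 16 Gd mult S256_314_364_512 (Tr.lf 148004 112565316 79104849645656272424192966523) 256 384 256 320 480 512)
  (band (go 16 Gd mult S256_314_364_512 (Tr.lf 4303503681 108104773 15485130823443785098811408384) 288 320 256 320 416 448)
  (band (go 16 Gd mult S256_314_364_512 (Tr.lf 4295115042 108240068 10974628590461603647982665728) 320 384 256 320 384 416)
  (band (go 16 Gd mult S256_314_364_512 (Tr.lf 4295115042 112430276 15492384378361472873859645440) 320 384 256 320 416 448)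
  (band (go 16 Gd mult S256_314_364_512 (Tr.sp 2 464 (Tr.lf 4295115026 108235844 16331998191266068098172583936) Tr.skip) 256 320 256 288 448 480)
  (go 16 Gd mult S256_314_364_512 (Tr.lf 4295115026 99843141 79104849645656272424192966523) 256 384 288 320 448 480)))))))) = true := by decide +kernel
  have c1 : (band (go 16 Gd mult S285_314_660_808 (Tr.lf 8598602308 103783238 3527698373110515035948449821) 256 384 256 320 384 448)
  (band (go 16 Gd mult S256_285_660_808 (Tr.lf 8598463044 95652678 3725915426597853520831907011) 256 384 256 320 384 448)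
  (band (go 16 Gd mult S256_285_660_808 (Tr.sp 2 480 (Tr.lf 4303495457 99851077 6095073232375718686608064667) Tr.skip) 256 320 256 320 448 512)
  (band (go 16 Gd mult S285_314_660_808 (Tr.sp 2 480 (Tr.lf 4303503650 103918405 6095193634274568692597522479) Tr.skip) 256 320 256 320 448 512)
  (band (go 16 Gd mult S256_285_660_808 (Tr.sp 2 480 (Tr.lf 4295106833 108231748 3333145341071815485828366336) Tr.skip) 320 384 256 320 448 512)
  (go 16 Gd mult S285_314_660_808 (Tr.sp 2 480 (Tr.lf 4295106849 104168516 2644015177933363250567577600) Tr.skip) 320 384 256 320 448 512)))))) = true := by decide +kernel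
  have c2 : (go 16 Gd mult S256_314_364_512 (Tr.lf 4303651393 104168517 15169601184524366884213096448) 256 288 256 320 416 448) = true := by decide +kernel
  have c3 : (band (go 16 Gd mult S256_314_512_660 (Tr.lf 8598487618 99847237 7523145375461837354196533248) 256 320 256 320 384 416)
  (band (go 16 Gd mult S256_314_364_512 (Tr.lf 8598487362 95529798 11120908614634973778122113024) 256 320 256 320 384 416)
  (go 16 Gd mult S256_314_512_660 (Tr.lf 4303520292 108235717 9787107874608017046813802496) 256 384 256 288 448 480))) = true := by decide +kernel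
  have c4 : (band (go 16 Gd mult S256_314_512_660 (Tr.lf 4295115330 112307268 7108491640766736248584733766) 320 384 256 320 384 448)
  (go 16 Gd mult S256_314_512_660 (Tr.lf 4295115026 99839045 79104849645656272424192966523) 256 384 288 320 448 480)) = true := by decide +kernel
  have c5 : (go 16 Gd mult S256_314_364_512 (Tr.lf 4295115025 104172612 16332587822993640150280437760) 320 384 256 288 448 480) = true := by decide +kernel
  (And.intro (Ok.s0 320 (Ok.s2 416 (Ok.lf S256_314_364_512_ok (bl (br c3)))
  (Ok.s0 288 (Ok.lf S256_314_364_512_ok c2)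
  (Ok.lf S256_314_364_512_ok (bl (br (br (br c0)))))))
  (Ok.s2 416 (Ok.lf S256_314_364_512_ok (bl (br (br (br (br c0))))))
  (Ok.lf S256_314_364_512_ok (bl (br (br (br (br (br c0)))))))))
  (And.intro (Ok.s2 480 (Ok.s1 288 (Ok.s0 320 (Ok.lf S256_314_364_512_ok (bl (br (br (br (br (br (br c0))))))))
  (Ok.lf S256_314_364_512_ok c5))
  (Ok.lf S256_314_364_512_ok (br (br (br (br (br (br (br c0)))))))))
  (Ok.lf S256_314_364_512_ok (bl (br (br c0)))))
  (Ok.s4 660 (Ok.s2 448 (Ok.s0 320 (Ok.s2 416 (Ok.lf S256_314_512_660_ok (bl c3))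
  (Ok.lf S256_314_512_660_ok (bl c0)))
  (Ok.lf S256_314_512_660_ok (bl c4)))
  (Ok.s2 480 (Ok.s1 288 (Ok.lf S256_314_512_660_ok (br (br c3)))
  (Ok.lf S256_314_512_660_ok (br c4)))
  (Ok.lf S256_314_512_660_ok (bl (br c0)))))
  (Ok.s3 285 (Ok.s2 448 (Ok.lf S256_285_660_808_ok (bl (br c1)))
  (Ok.s0 320 (Ok.lf S256_285_660_808_ok (bl (br (br c1))))
  (Ok.lf S256_285_660_808_ok (bl (br (br (br (br c1))))))))
  (Ok.s2 448 (Ok.lf S285_314_660_808_ok (bl c1))
  (Ok.s0 320 (Ok.lf S285_314_660_808_ok (bl (br (br (br c1)))))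
  (Ok.lf S285_314_660_808_ok (br (br (br (br (br c1))))))))))))

end Vale.Agent.P098.Ck
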