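import Vale.Agent.P098.CkGd
import Vale.Agent.P098.CkOk
import Vale.Agent.P098.Sh.A47
import Vale.Agent.P098.Sh.A48
import Vale.Agent.P098.Sh.A49
import Vale.Agent.P098.Sh.A50
import Vale.Agent.P098.Sh.A51
import Vale.Agent.P098.Sh.A52

namespace Vale.Agent.P098.Ck

theorem r565 :
    Ok Gd mult 256 384 256 320 384 512 314 343 216 364 ∧
    Ok Gd mult 256 384 256 320 384 512 343 372 216 364 ∧
    Ok Gd mult 256 384 256 320 384 512 314 372 364 512 ∧
    Ok Gd mult 256 384 256 320 384 512 314 372 512 660 :=
  have c0 : (band (go 16 Gd mult S314_372_364_512 (Tr.lf 4296311874 108235718 9679869037654335801872351232) 256 320 256 320 384 448)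
  (band (go 16 Gd mult S343_372_512_660 (Tr.lf 8591123522 99843142 8969028145099027773223075840) 256 320 256 320 384 448)
  (band (go 16 Gd mult S314_343_512_660 (Tr.lf 4304544834 103910470 7048085711248813522738479133) 256 320 256 320 384 448)
  (band (go 16 Gd mult S314_343_512_660 (Tr.sp 2 480 (Tr.sp 2 464 (Tr.lf 4304544033 104041669 12712803285047166650862600221) Tr.skip) Tr.skip) 256 320 256 320 448 512)
  (go 16 Gd mult S343_372_512_660 (Tr.sp 2 480 (Tr.sp 2 464 (Tr.lf 4296089890 103906501 17015191657206022462146347008) Tr.skip) Tr.skip) 256 320 256 320 448 512))))) = true := by decide +kernel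
  have c1 : (band (go 16 Gd mult S314_372_512_660 (Tr.sp 2 480 (Tr.lf 4296180290 104045637 16798024263545272382542315520) Tr.skip) 320 384 256 320 448 512)
  (band (go 16 Gd mult S314_343_364_512 (Tr.lf 4295106849 108108868 15858688901704705513795616768) 320 384 256 320 448 480)
  (band (go 16 Gd mult S343_372_364_512 (Tr.lf 4296155425 108239941 18434909823303480285094477824) 320 384 256 320 448 480)
  (band (go 16 Gd mult S314_343_216_364 (Tr.lf 4295102753 104172612 17886057501198438639777873920) 320 384 256 320 448 480)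
  (band (go 16 Gd mult S343_372_364_512 (Tr.lf 4296155426 99843269 18668955120802865914402832384) 256 320 256 320 448 480)
  (band (go 16 Gd mult S314_343_364_512 (Tr.lf 4296155425 103783493 16033623286465436818195087389) 256 320 256 320 448 480)
  (band (go 16 Gd mult S314_343_216_364 (Tr.lf 4295106849 99720005 18134639331090004906405265437) 256 320 256 320 448 480)
  (go 16 Gd mult S314_343_216_364 (Tr.lf 4295107140 108108996 9456217761025629404551708672) 256 384 256 320 384 448)))))))) = true := by decide +kernel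
  have c2 : (band (go 16 Gd mult S314_372_512_660 (Tr.lf 4295115842 108108996 8979900988097465509717475328) 320 384 256 320 384 448)
  (go 16 Gd mult S314_372_364_512 (Tr.lf 4295115330 108108996 9689540444211252835270000640) 320 384 256 320 384 448)) = true := by decide +kernel
  have c3 : (band (go 16 Gd mult S343_372_216_364 (Tr.lf 4296155716 108239814 10001443305671827162344194048) 256 384 256 320 384 448)
  (go 16 Gd mult S343_372_216_364 (Tr.lf 4296155458 104168645 19425694482539359174710525981) 256 384 256 320 448 480)) = true := by decide +kernel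
  have c4 : (band (go 16 Gd mult S314_343_216_364 (Tr.lf 135458 112307268 79104849645656272424192966523) 256 384 256 320 480 512)
  (band (go 16 Gd mult S343_372_216_364 (Tr.lf 74018 104180804 79104849645656272424192966523) 256 384 256 320 480 512)
  (band (go 16 Gd mult S314_343_364_512 (Tr.lf 74018 108371012 79104849645656272424192966523) 256 384 256 320 480 512)
  (go 16 Gd mult S343_372_364_512 (Tr.lf 74018 112438340 79104849645656272424192966523) 256 384 256 320 480 512)))) = true := by decide +kernel
  (And.intro (Ok.s2 448 (Ok.lf S314_343_216_364_ok (br (br (br (br (br (br (br c1))))))))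
  (Ok.s2 480 (Ok.s0 320 (Ok.lf S314_343_216_364_ok (bl (br (br (br (br (br (br c1))))))))
  (Ok.lf S314_343_216_364_ok (bl (br (br (br c1))))))
  (Ok.lf S314_343_216_364_ok (bl c4))))
  (And.intro (Ok.s2 448 (Ok.lf S343_372_216_364_ok (bl c3))
  (Ok.s2 480 (Ok.lf S343_372_216_364_ok (br c3))
  (Ok.lf S343_372_216_364_ok (bl (br c4)))))
  (And.intro (Ok.s2 448 (Ok.s0 320 (Ok.lf S314_372_364_512_ok (bl c0))
  (Ok.lf S314_372_364_512_ok (br c2)))
  (Ok.s3 343 (Ok.s2 480 (Ok.s0 320 (Ok.lf S314_343_364_512_ok (bl (br (br (br (br (br c1)))))))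
  (Ok.lf S314_343_364_512_ok (bl (br c1))))
  (Ok.lf S314_343_364_512_ok (bl (br (br c4)))))
  (Ok.s2 480 (Ok.s0 320 (Ok.lf S343_372_364_512_ok (bl (br (br (br (br c1))))))
  (Ok.lf S343_372_364_512_ok (bl (br (br c1)))))
  (Ok.lf S343_372_364_512_ok (br (br (br c4)))))))
  (Ok.s2 448 (Ok.s0 320 (Ok.s3 343 (Ok.lf S314_343_512_660_ok (bl (br (br c0))))
  (Ok.lf S343_372_512_660_ok (bl (br c0))))
  (Ok.lf S314_372_512_660_ok (bl c2)))
  (Ok.s0 320 (Ok.s3 343 (Ok.lf S314_343_512_660_ok (bl (br (br (br c0)))))
  (Ok.lf S343_372_512_660_ok (br (br (br (br c0))))))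
  (Ok.lf S314_372_512_660_ok (bl c1)))))))

end Vale.Agent.P098.Ck
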