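import Vale.Agent.P098.CkGd
import Vale.Agent.P098.CkOk
import Vale.Agent.P098.Sh.A49
import Vale.Agent.P098.Sh.A50
import Vale.Agent.P098.Sh.A52
import Vale.Agent.P098.Sh.A54
import Vale.Agent.P098.Sh.A55

namespace Vale.Agent.P098.Ck

theorem r566 :
    Ok Gd mult 256 384 256 320 384 448 314 372 660 808 ∧
    Ok Gd mult 256 384 256 320 448 512 314 372 660 808 ∧
    Ok Gd mult 256 384 256 320 384 512 372 430 216 512 ∧
    Ok Gd mult 256 384 256 320 384 512 372 430 512 660 :=
  have c0 : (go 16 Gd mult S314_343_660_808 (Tr.lf 4841555012 99851334 4962723629001755869998546991) 256 384 256 320 384 448) = true := by decide +kernel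
  have c1 : (band (go 16 Gd mult S314_372_660_808 (Tr.lf 164420 104049732 79104849645656272424192966523) 256 384 256 320 480 512)
  (go 16 Gd mult S314_372_660_808 (Tr.lf 4296180290 108108869 14394679734151389583226437632) 320 384 256 320 448 480)) = true := by decide +kernel
  have c2 : (band (go 16 Gd mult S372_430_512_660 (Tr.lf 9128018980 108104519 8021222813143064574175477760) 256 384 256 288 384 448)
  (band (go 16 Gd mult S372_430_364_512 (Tr.lf 9127953444 108104519 8078042326664952145386668032) 256 384 256 288 384 448)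
  (go 16 Gd mult S372_430_216_364 (Tr.lf 4833035300 99982278 8103429768876859358055497728) 256 384 256 288 384 448))) = true := by decide +kernel
  have c3 : (go 16 Gd mult S314_372_660_808 (Tr.sp 2 464 (Tr.lf 4296311106 99851333 15368660940607995318634545152) Tr.skip) 256 320 256 320 448 480) = true := by decide +kernel
  have c4 : (go 16 Gd mult S343_372_660_808 (Tr.lf 9128002626 108231750 8244925814442153653078851584) 256 320 256 320 384 448) = true := by decide +kernel
  have c5 : (band (go 16 Gd mult S372_430_216_364 (Tr.lf 4295049764 107982020 17714703002299861830053330991) 256 384 288 320 384 448)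
  (band (go 16 Gd mult S372_430_216_364 (Tr.lf 4296098338 104045637 19015758355045764474460962816) 256 384 256 288 448 480)
  (band (go 16 Gd mult S372_430_512_660 (Tr.lf 4296098340 104045637 18838131022364662541947043869) 256 384 256 288 448 480)
  (band (go 16 Gd mult S372_430_364_512 (Tr.lf 4296098338 104045637 18960167376240604660002455552) 256 384 256 288 448 480)
  (band (go 16 Gd mult S372_430_364_512 (Tr.lf 4295049508 112176324 17604730339409129677902381103) 256 384 288 320 384 416)
  (band (go 16 Gd mult S372_430_512_660 (Tr.lf 4295049508 112176324 17413753264049350945491714095) 256 384 288 320 384 416)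
  (band (go 16 Gd mult S372_430_364_512 (Tr.lf 4295049746 99839173 79104849645656272424192966523) 256 384 288 320 448 512)
  (go 16 Gd mult S372_430_512_660 (Tr.lf 4295049746 99839173 79104849645656272424192966523) 256 384 288 320 448 512)))))))) = true := by decide +kernel
  have c6 : (go 16 Gd mult S343_372_660_808 (Tr.lf 4296155713 108108742 8253336570509073375719063552) 320 384 256 320 384 448) = true := by decide +kernel
  have c7 : (band (go 16 Gd mult S372_430_512_660 (Tr.lf 82210 112565571 79104849645656272424192966523) 256 384 256 288 480 512)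
  (band (go 16 Gd mult S372_430_216_364 (Tr.sp 1 288 (Tr.lf 82194 112565571 79104849645656272424192966523) Tr.skip) 256 384 256 320 480 512)
  (band (go 16 Gd mult S372_430_364_512 (Tr.lf 82194 108371267 79104849645656272424192966523) 256 384 256 288 480 512)
  (band (go 16 Gd mult S372_430_512_660 (Tr.lf 4295049506 103914692 23117556463238964839188529152) 256 384 288 320 416 448)
  (go 16 Gd mult S372_430_364_512 (Tr.lf 4295049490 103914692 23256539601092818050542993408) 256 384 288 320 416 448))))) = true := by decide +kernel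
  have c8 : (go 16 Gd mult S372_430_216_364 (Tr.lf 4295041298 99847237 79104849645656272424192966523) 256 384 288 320 448 480) = true := by decide +kernel
  (And.intro (Ok.s3 343 (Ok.lf S314_343_660_808_ok c0)
  (Ok.s0 320 (Ok.lf S343_372_660_808_ok c4)
  (Ok.lf S343_372_660_808_ok c6)))
  (And.intro (Ok.s2 480 (Ok.s0 320 (Ok.lf S314_372_660_808_ok c3)
  (Ok.lf S314_372_660_808_ok (br c1)))
  (Ok.lf S314_372_660_808_ok (bl c1)))
  (And.intro (Ok.s4 364 (Ok.s2 448 (Ok.s1 288 (Ok.lf S372_430_216_364_ok (br (br c2)))
  (Ok.lf S372_430_216_364_ok (bl c5)))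
  (Ok.s2 480 (Ok.s1 288 (Ok.lf S372_430_216_364_ok (bl (br c5)))
  (Ok.lf S372_430_216_364_ok c8))
  (Ok.lf S372_430_216_364_ok (bl (br c7)))))
  (Ok.s1 288 (Ok.s2 448 (Ok.lf S372_430_364_512_ok (bl (br c2)))
  (Ok.s2 480 (Ok.lf S372_430_364_512_ok (bl (br (br (br c5)))))
  (Ok.lf S372_430_364_512_ok (bl (br (br c7))))))
  (Ok.s2 448 (Ok.s2 416 (Ok.lf S372_430_364_512_ok (bl (br (br (br (br c5))))))
  (Ok.lf S372_430_364_512_ok (br (br (br (br c7))))))
  (Ok.lf S372_430_364_512_ok (bl (br (br (br (br (br (br c5)))))))))))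
  (Ok.s1 288 (Ok.s2 448 (Ok.lf S372_430_512_660_ok (bl c2))
  (Ok.s2 480 (Ok.lf S372_430_512_660_ok (bl (br (br c5))))
  (Ok.lf S372_430_512_660_ok (bl c7))))
  (Ok.s2 448 (Ok.s2 416 (Ok.lf S372_430_512_660_ok (bl (br (br (br (br (br c5)))))))
  (Ok.lf S372_430_512_660_ok (bl (br (br (br c7))))))
  (Ok.lf S372_430_512_660_ok (br (br (br (br (br (br (br c5)))))))))))))

end Vale.Agent.P098.Ck
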