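import Vale.Agent.P098.CkGd
import Vale.Agent.P098.CkOk
import Vale.Agent.P098.Sh.A54
import Vale.Agent.P098.Sh.A57
import Vale.Agent.P098.Sh.A58

namespace Vale.Agent.P098.Ck

theorem r567 :
    Ok Gd mult 256 384 256 320 384 512 372 401 660 808 ∧
    Ok Gd mult 256 384 256 320 384 512 401 430 660 808 ∧
    Ok Gd mult 256 384 256 320 384 512 430 488 216 512 :=
  have c0 : (go 16 Gd mult S372_401_660_808 (Tr.lf 9136390724 108112966 14883106831484172068903190528) 256 384 256 320 416 448) = true := by decide +kernel
  have c1 : (go 16 Gd mult S372_401_660_808 (Tr.lf 9127993924 112430150 10608324067118371008046694400) 256 384 256 320 384 416) = true := by decide +kernel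
  have c2 : (band (go 16 Gd mult S430_488_216_364 (Tr.lf 4296098116 108235973 27330744626778705898934108160) 256 384 256 320 448 480)
  (band (go 16 Gd mult S430_488_364_512 (Tr.lf 4296098116 108235973 27330745493775677363283034112) 256 384 256 320 448 480)
  (band (go 16 Gd mult S430_488_216_364 (Tr.lf 4832969252 99982278 9636347708148209151582928896) 256 384 256 288 384 448)
  (band (go 16 Gd mult S430_488_364_512 (Tr.lf 4832969252 99982278 9636347708148209151582928896) 256 384 256 288 384 448)
  (band (go 16 Gd mult S401_430_660_808 (Tr.lf 9127928868 108104519 7964403299621177002964287488) 256 384 256 288 384 448)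
  (band (go 16 Gd mult S430_488_216_364 (Tr.lf 4295049748 108240068 16933638435635455871066046464) 256 384 288 304 384 448)
  (band (go 16 Gd mult S430_488_364_512 (Tr.lf 4295049748 108240068 16933641313327531369756098589) 256 384 288 304 384 448)
  (go 16 Gd mult S430_488_216_364 (Tr.lf 9136325140 104172742 23620084749777040773490933760) 256 384 304 320 384 448)))))))) = true := by decide +kernel
  have c3 : (band (go 16 Gd mult S430_488_364_512 (Tr.lf 9136325140 104172742 23620087959510509598952914944) 256 384 304 320 384 448)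
  (band (go 16 Gd mult S430_488_364_512 (Tr.lf 1130786 108370886 79104849645656272424192966523) 256 384 256 320 480 512)
  (go 16 Gd mult S430_488_216_364 (Tr.lf 1130786 108370886 79104849645656272424192966523) 256 384 256 320 480 512))) = true := by decide +kernel
  have c4 : (band (go 16 Gd mult S372_401_660_808 (Tr.lf 4296090148 112303173 15635725264362997561755172864) 256 384 256 288 448 480)
  (band (go 16 Gd mult S401_430_660_808 (Tr.lf 4296089890 104045637 18715962276201435787113267200) 256 384 256 288 448 480)
  (band (go 16 Gd mult S372_401_660_808 (Tr.lf 4295041554 103910469 79104849645656272424192966523) 256 384 288 320 448 512)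
  (band (go 16 Gd mult S372_401_660_808 (Tr.lf 4295041298 99580997 79104849645656272424192966523) 256 384 256 288 480 512)
  (go 16 Gd mult S401_430_660_808 (Tr.sp 1 288 (Tr.lf 4295041298 103906373 79104849645656272424192966523) Tr.skip) 256 384 256 320 480 512))))) = true := by decide +kernel
  have c5 : (band (go 16 Gd mult S401_430_660_808 (Tr.lf 4295037476 108240068 17220237898258285580513181696) 256 384 288 320 384 448)
  (go 16 Gd mult S401_430_660_808 (Tr.lf 4295037202 103783493 79104849645656272424192966523) 256 384 288 320 448 480)) = true := by decide +kernel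
  (And.intro (Ok.s2 448 (Ok.s2 416 (Ok.lf S372_401_660_808_ok c1)
  (Ok.lf S372_401_660_808_ok c0))
  (Ok.s1 288 (Ok.s2 480 (Ok.lf S372_401_660_808_ok (bl c4))
  (Ok.lf S372_401_660_808_ok (bl (br (br (br c4))))))
  (Ok.lf S372_401_660_808_ok (bl (br (br c4))))))
  (And.intro (Ok.s2 448 (Ok.s1 288 (Ok.lf S401_430_660_808_ok (bl (br (br (br (br c2))))))
  (Ok.lf S401_430_660_808_ok (bl c5)))
  (Ok.s2 480 (Ok.s1 288 (Ok.lf S401_430_660_808_ok (bl (br c4)))
  (Ok.lf S401_430_660_808_ok (br c5)))
  (Ok.lf S401_430_660_808_ok (br (br (br (br c4)))))))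
  (Ok.s4 364 (Ok.s2 448 (Ok.s1 288 (Ok.lf S430_488_216_364_ok (bl (br (br c2))))
  (Ok.s1 304 (Ok.lf S430_488_216_364_ok (bl (br (br (br (br (br c2)))))))
  (Ok.lf S430_488_216_364_ok (br (br (br (br (br (br (br c2))))))))))
  (Ok.s2 480 (Ok.lf S430_488_216_364_ok (bl c2))
  (Ok.lf S430_488_216_364_ok (br (br c3)))))
  (Ok.s2 448 (Ok.s1 288 (Ok.lf S430_488_364_512_ok (bl (br (br (br c2)))))
  (Ok.s1 304 (Ok.lf S430_488_364_512_ok (bl (br (br (br (br (br (br c2))))))))
  (Ok.lf S430_488_364_512_ok (bl c3))))
  (Ok.s2 480 (Ok.lf S430_488_364_512_ok (bl (br c2)))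
  (Ok.lf S430_488_364_512_ok (bl (br c3))))))))

end Vale.Agent.P098.Ck
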