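import Vale.Agent.P098.CkGd
import Vale.Agent.P098.CkOk
import Vale.Agent.P098.Sh.A0
import Vale.Agent.P098.Sh.A1
import Vale.Agent.P098.Sh.A59

namespace Vale.Agent.P098.Ck

theorem r568 :
    Ok Gd mult 256 384 256 320 384 512 430 488 512 660 ∧
    Ok Gd mult 256 384 256 320 384 512 430 488 660 808 ∧
    Ok Gd mult 256 384 320 384 0 128 24 82 216 512 ∧
    Ok Gd mult 256 384 320 384 0 128 24 82 512 660 :=
  have c0 : (go 16 Gd mult S24_82_216_364 (Tr.lf 17180035208 86727240 11787469463100403482624) 256 320 320 352 0 128) = true := by decide +kernel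
  have c1 : (band (go 16 Gd mult S24_82_364_512 (Tr.lf 17180035144 86727240 11787469463100403482624) 256 320 320 352 0 128)
  (go 16 Gd mult S24_82_512_660 (Tr.lf 17180035144 86727240 11787469463100403482624) 256 320 320 352 0 128)) = true := by decide +kernel
  have c2 : (band (go 16 Gd mult S24_82_216_364 (Tr.lf 17179969570 82537032 0) 320 384 320 352 0 128)
  (band (go 16 Gd mult S24_82_364_512 (Tr.lf 17179953186 82537032 0) 320 384 320 352 0 128)
  (band (go 16 Gd mult S24_82_512_660 (Tr.lf 17179953186 82537032 0) 320 384 320 352 0 128)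
  (band (go 16 Gd mult S24_82_364_512 (Tr.lf 17179953188 82532936 50563351846385406872530190336) 256 320 352 384 0 128)
  (band (go 16 Gd mult S24_82_512_660 (Tr.lf 17179953188 82532936 51037250767674341509015011328) 256 320 352 384 0 128)
  (band (go 16 Gd mult S24_82_216_364 (Tr.lf 17179953188 82532936 50355416605411690654480728064) 256 320 352 384 0 128)
  (go 16 Gd mult S24_82_216_364 (Tr.lf 17179953188 82664008 12538985537018705514843865088) 320 384 352 384 0 128))))))) = true := by decide +kernel
  have c3 : (band (go 16 Gd mult S24_82_364_512 (Tr.lf 17179953188 86858312 12604267531277895490277998592) 320 384 352 384 0 128)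
  (go 16 Gd mult S24_82_512_660 (Tr.lf 17179953188 86858312 12759010036188568024640389120) 320 384 352 384 0 128)) = true := by decide +kernel
  have c4 : (band (go 16 Gd mult S430_488_512_660 (Tr.lf 4832969764 103918534 9636347708148209151582928896) 256 384 256 288 384 448)
  (band (go 16 Gd mult S430_488_660_808 (Tr.lf 9127937060 112298823 9636347708148209151582928896) 256 384 256 288 384 448)
  (band (go 16 Gd mult S430_488_512_660 (Tr.sp 2 480 (Tr.lf 4296098116 108235973 27330746047186162348894191616) (Tr.sp 0 320 Tr.skip Tr.skip)) 256 384 256 320 448 512)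
  (band (go 16 Gd mult S430_488_660_808 (Tr.sp 2 480 (Tr.lf 4296098116 104041669 27329537693207451230390976512) (Tr.sp 0 320 Tr.skip Tr.skip)) 256 384 256 320 448 512)
  (band (go 16 Gd mult S430_488_512_660 (Tr.lf 4295049748 108240068 16933644504614256121508528128) 256 384 288 304 384 448)
  (band (go 16 Gd mult S430_488_660_808 (Tr.lf 4295049748 108240068 16932436796287913256044789789) 256 384 288 304 384 448)
  (band (go 16 Gd mult S430_488_512_660 (Tr.lf 9136325140 104172742 23618882778379941932817186816) 256 384 304 320 384 448)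
  (go 16 Gd mult S430_488_660_808 (Tr.lf 9136325140 104172742 23617675272959620979277955072) 256 384 304 320 384 448)))))))) = true := by decide +kernel
  (And.intro (Ok.s2 448 (Ok.s1 288 (Ok.lf S430_488_512_660_ok (bl c4))
  (Ok.s1 304 (Ok.lf S430_488_512_660_ok (bl (br (br (br (br c4))))))
  (Ok.lf S430_488_512_660_ok (bl (br (br (br (br (br (br c4))))))))))
  (Ok.lf S430_488_512_660_ok (bl (br (br c4)))))
  (And.intro (Ok.s2 448 (Ok.s1 288 (Ok.lf S430_488_660_808_ok (bl (br c4)))
  (Ok.s1 304 (Ok.lf S430_488_660_808_ok (bl (br (br (br (br (br c4)))))))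
  (Ok.lf S430_488_660_808_ok (br (br (br (br (br (br (br c4))))))))))
  (Ok.lf S430_488_660_808_ok (bl (br (br (br c4))))))
  (And.intro (Ok.s4 364 (Ok.s1 352 (Ok.s0 320 (Ok.lf S24_82_216_364_ok c0)
  (Ok.lf S24_82_216_364_ok (bl c2)))
  (Ok.s0 320 (Ok.lf S24_82_216_364_ok (bl (br (br (br (br (br c2)))))))
  (Ok.lf S24_82_216_364_ok (br (br (br (br (br (br c2)))))))))
  (Ok.s1 352 (Ok.s0 320 (Ok.lf S24_82_364_512_ok (bl c1))
  (Ok.lf S24_82_364_512_ok (bl (br c2))))
  (Ok.s0 320 (Ok.lf S24_82_364_512_ok (bl (br (br (br c2)))))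
  (Ok.lf S24_82_364_512_ok (bl c3)))))
  (Ok.s1 352 (Ok.s0 320 (Ok.lf S24_82_512_660_ok (br c1))
  (Ok.lf S24_82_512_660_ok (bl (br (br c2)))))
  (Ok.s0 320 (Ok.lf S24_82_512_660_ok (bl (br (br (br (br c2))))))
  (Ok.lf S24_82_512_660_ok (br c3)))))))

end Vale.Agent.P098.Ck
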