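import Vale.Agent.P098.CkGd
import Vale.Agent.P098.CkOk
import Vale.Agent.P098.Sh.A1
import Vale.Agent.P098.Sh.A17
import Vale.Agent.P098.Sh.A3
import Vale.Agent.P098.Sh.A4
import Vale.Agent.P098.Sh.A8

namespace Vale.Agent.P098.Ck

theorem r569 :
    Ok Gd mult 256 384 320 384 0 128 24 82 660 808 ∧
    Ok Gd mult 256 384 320 384 0 128 82 140 216 808 ∧
    Ok Gd mult 256 384 320 384 0 128 140 198 216 364 :=
  have c0 : (band (go 16 Gd mult S82_140_216_364 (Tr.lf 8590231624 99851460 2999350676954557832407023616) 256 384 320 352 0 128)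
  (go 16 Gd mult S169_198_216_364 (Tr.lf 17717019720 95517384 5021877854679169591729455104) 256 384 320 352 0 128)) = true := by decide +kernel
  have c1 : (band (go 16 Gd mult S82_140_216_364 (Tr.lf 8590231624 103914692 21632540217321484766077255680) 256 384 352 384 0 128)
  (band (go 16 Gd mult S82_140_364_512 (Tr.lf 8590099492 99851460 19985983251006359830127443968) 256 384 352 384 0 128)
  (go 16 Gd mult S82_140_512_660 (Tr.lf 8590099492 99851460 19040603260067719815507214336) 256 384 352 384 0 128))) = true := by decide +kernel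
  have c2 : (band (go 16 Gd mult S24_82_660_808 (Tr.lf 17180035144 86727240 11787469463100403482624) 256 320 320 352 0 128)
  (go 16 Gd mult S140_169_216_364 (Tr.lf 13423117380 104037574 3499840247784351460774379520) 256 320 320 352 0 128)) = true := by decide +kernel
  have c3 : (band (go 16 Gd mult S82_140_364_512 (Tr.lf 8590099524 99978436 2616121524178113710797160315) 256 384 320 352 0 128)
  (band (go 16 Gd mult S82_140_512_660 (Tr.lf 12885001252 91192262 2072105458753852793465864192) 256 384 320 352 0 128)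
  (band (go 16 Gd mult S82_140_660_808 (Tr.lf 12884984868 95513542 1483358916642921712155885568) 256 384 320 352 0 128)
  (go 16 Gd mult S82_140_660_808 (Tr.lf 8590017572 103914692 17398882329072446723028156416) 256 384 352 384 0 128)))) = true := by decide +kernel
  have c4 : (band (go 16 Gd mult S24_82_660_808 (Tr.lf 17179953188 82532936 51519612169700578549722775552) 256 320 352 384 0 128)
  (band (go 16 Gd mult S169_198_216_364 (Tr.lf 17716880418 95378248 39518576117382613091970187264) 256 320 352 384 0 128)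
  (band (go 16 Gd mult S140_169_216_364 (Tr.lf 13422961186 99843270 35282500045452952463799746560) 256 320 352 384 0 128)
  (band (go 16 Gd mult S24_82_660_808 (Tr.lf 17179953188 86858312 12924632873475772221575135232) 320 384 352 384 0 128)
  (band (go 16 Gd mult S169_198_216_364 (Tr.lf 17717011492 95517384 32012355703395380546219540480) 320 384 352 384 0 128)
  (band (go 16 Gd mult S140_169_216_364 (Tr.lf 13422969378 99974342 16176649065176531625205301248) 320 384 352 384 0 128)
  (band (go 16 Gd mult S24_82_660_808 (Tr.lf 17179953186 82537032 0) 320 384 320 352 0 128)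
  (go 16 Gd mult S140_169_216_364 (Tr.lf 13422969378 99974342 1187165154861565849561464832) 320 384 320 352 0 128)))))))) = true := by decide +kernel
  (And.intro (Ok.s1 352 (Ok.s0 320 (Ok.lf S24_82_660_808_ok (bl c2))
  (Ok.lf S24_82_660_808_ok (bl (br (br (br (br (br (br c4)))))))))
  (Ok.s0 320 (Ok.lf S24_82_660_808_ok (bl c4))
  (Ok.lf S24_82_660_808_ok (bl (br (br (br c4)))))))
  (And.intro (Ok.s4 512 (Ok.s4 364 (Ok.s1 352 (Ok.lf S82_140_216_364_ok (bl c0))
  (Ok.lf S82_140_216_364_ok (bl c1)))
  (Ok.s1 352 (Ok.lf S82_140_364_512_ok (bl c3))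
  (Ok.lf S82_140_364_512_ok (bl (br c1)))))
  (Ok.s4 660 (Ok.s1 352 (Ok.lf S82_140_512_660_ok (bl (br c3)))
  (Ok.lf S82_140_512_660_ok (br (br c1))))
  (Ok.s1 352 (Ok.lf S82_140_660_808_ok (bl (br (br c3))))
  (Ok.lf S82_140_660_808_ok (br (br (br c3)))))))
  (Ok.s1 352 (Ok.s3 169 (Ok.s0 320 (Ok.lf S140_169_216_364_ok (br c2))
  (Ok.lf S140_169_216_364_ok (br (br (br (br (br (br (br c4)))))))))
  (Ok.lf S169_198_216_364_ok (br c0)))
  (Ok.s0 320 (Ok.s3 169 (Ok.lf S140_169_216_364_ok (bl (br (br c4))))
  (Ok.lf S169_198_216_364_ok (bl (br c4))))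
  (Ok.s3 169 (Ok.lf S140_169_216_364_ok (bl (br (br (br (br (br c4)))))))
  (Ok.lf S169_198_216_364_ok (bl (br (br (br (br c4)))))))))))

end Vale.Agent.P098.Ck
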