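import Vale.Agent.P098.CkGd
import Vale.Agent.P098.CkOk
import Vale.Agent.P098.Sh.A0
import Vale.Agent.P098.Sh.A1
import Vale.Agent.P098.Sh.A2
import Vale.Agent.P098.Sh.A4
import Vale.Agent.P098.Sh.A5
import Vale.Agent.P098.Sh.A58
import Vale.Agent.P098.Sh.A59

namespace Vale.Agent.P098.Ck

theorem r57 :
    Ok Gd mult 0 128 64 128 384 512 430 488 364 512 ∧
    Ok Gd mult 0 128 64 128 384 512 430 488 512 808 ∧
    Ok Gd mult 0 128 128 192 0 128 24 140 216 808 :=
  have c0 : (go 16 Gd mult S430_459_660_808 (Tr.lf 540182664 103906119 1150449640900969896083456) 0 128 64 96 448 512) = true := by decide +kernel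
  have c1 : (go 16 Gd mult S430_488_364_512 (Tr.lf 1152550024 91458503 1200403524621613480149350) 0 128 64 128 480 512) = true := by decide +kernel
  have c2 : (go 16 Gd mult S430_459_660_808 (Tr.lf 5381458052 99580745 836596737230875584888832) 0 128 96 128 448 512) = true := by decide +kernel
  have c3 : (band (go 16 Gd mult S82_111_216_364 (Tr.lf 540312708 91327303 0) 0 128 128 192 0 128)
  (band (go 16 Gd mult S111_140_216_364 (Tr.lf 540312644 99716039 0) 0 128 128 192 0 128)
  (go 16 Gd mult S24_82_216_364 (Tr.lf 4834034820 91200581 0) 0 128 128 192 0 128))) = true := by decide +kernel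
  have c4 : (go 16 Gd mult S459_488_660_808 (Tr.lf 1152469124 87260231 868362030525803432771584) 0 128 64 128 448 512) = true := by decide +kernel
  have c5 : (band (go 16 Gd mult S24_82_364_512 (Tr.lf 4834034820 95394885 0) 0 128 128 192 0 128)
  (band (go 16 Gd mult S111_140_364_512 (Tr.lf 539132996 91458502 0) 0 128 128 192 0 128)
  (band (go 16 Gd mult S82_140_512_660 (Tr.lf 4834100292 99839046 0) 0 128 128 192 0 128)
  (band (go 16 Gd mult S82_140_660_808 (Tr.lf 9128019012 103631687 0) 0 128 128 192 0 128)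
  (go 16 Gd mult S24_82_512_660 (Tr.lf 9127937156 99314247 0) 0 128 128 192 0 128))))) = true := by decide +kernel
  have c6 : (go 16 Gd mult S430_488_512_660 (Tr.lf 1085440644 99581126 5615457978970567586187183037) 0 128 64 128 496 512) = true := by decide +kernel
  have c7 : (band (go 16 Gd mult S430_488_512_660 (Tr.lf 1085375108 95259591 1030010848906572784992256) 0 128 64 128 480 496)
  (band (go 16 Gd mult S430_488_512_660 (Tr.lf 1085375106 91192391 0) 0 128 64 128 448 480)
  (band (go 16 Gd mult S430_488_364_512 (Tr.lf 1085375042 91192391 0) 0 128 64 128 448 480)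
  (band (go 16 Gd mult S430_488_512_660 (Tr.lf 547455554 99720389 0) 0 128 64 128 384 448)
  (band (go 16 Gd mult S430_488_660_808 (Tr.lf 547455554 99720389 0) 0 128 64 128 384 448)
  (go 16 Gd mult S430_488_364_512 (Tr.lf 539050562 99712197 0) 0 128 64 128 384 448)))))) = true := by decide +kernel
  have c8 : (band (go 16 Gd mult S24_82_660_808 (Tr.lf 9127937156 99314247 0) 0 128 128 192 0 128)
  (go 16 Gd mult S82_111_364_512 (Tr.lf 539116612 87264325 0) 0 128 128 192 0 128)) = true := by decide +kernel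
  (And.intro (Ok.s2 448 (Ok.lf S430_488_364_512_ok (br (br (br (br (br c7))))))
  (Ok.s2 480 (Ok.lf S430_488_364_512_ok (bl (br (br c7))))
  (Ok.lf S430_488_364_512_ok c1)))
  (And.intro (Ok.s4 660 (Ok.s2 448 (Ok.lf S430_488_512_660_ok (bl (br (br (br c7)))))
  (Ok.s2 480 (Ok.lf S430_488_512_660_ok (bl (br c7)))
  (Ok.s2 496 (Ok.lf S430_488_512_660_ok (bl c7))
  (Ok.lf S430_488_512_660_ok c6))))
  (Ok.s2 448 (Ok.lf S430_488_660_808_ok (bl (br (br (br (br c7))))))
  (Ok.s3 459 (Ok.s1 96 (Ok.lf S430_459_660_808_ok c0)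
  (Ok.lf S430_459_660_808_ok c2))
  (Ok.lf S459_488_660_808_ok c4))))
  (Ok.s3 82 (Ok.s4 512 (Ok.s4 364 (Ok.lf S24_82_216_364_ok (br (br c3)))
  (Ok.lf S24_82_364_512_ok (bl c5)))
  (Ok.s4 660 (Ok.lf S24_82_512_660_ok (br (br (br (br c5)))))
  (Ok.lf S24_82_660_808_ok (bl c8))))
  (Ok.s4 512 (Ok.s4 364 (Ok.s3 111 (Ok.lf S82_111_216_364_ok (bl c3))
  (Ok.lf S111_140_216_364_ok (bl (br c3))))
  (Ok.s3 111 (Ok.lf S82_111_364_512_ok (br c8))
  (Ok.lf S111_140_364_512_ok (bl (br c5)))))
  (Ok.s4 660 (Ok.lf S82_140_512_660_ok (bl (br (br c5))))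
  (Ok.lf S82_140_660_808_ok (bl (br (br (br c5))))))))))

end Vale.Agent.P098.Ck
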