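import Vale.Agent.P098.CkGd
import Vale.Agent.P098.CkOk
import Vale.Agent.P098.Sh.A10
import Vale.Agent.P098.Sh.A11
import Vale.Agent.P098.Sh.A18
import Vale.Agent.P098.Sh.A19
import Vale.Agent.P098.Sh.A25
import Vale.Agent.P098.Sh.A9

namespace Vale.Agent.P098.Ck

theorem r570 :
    Ok Gd mult 256 384 320 384 0 128 140 198 364 512 ∧
    Ok Gd mult 256 384 320 384 0 128 140 198 512 808 ∧
    Ok Gd mult 256 384 320 384 0 128 198 227 216 364 :=
  have c0 : (band (go 16 Gd mult S140_169_364_512 (Tr.lf 13423118408 103910598 3384992294920961689177292800) 256 384 320 352 0 128)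
  (go 16 Gd mult S169_198_364_512 (Tr.lf 17717019720 99580616 4188927964964690090356899840) 256 384 320 352 0 128)) = true := by decide +kernel
  have c1 : (band (go 16 Gd mult S198_227_290_364 (Tr.lf 22011857032 90909386 11634702087971191177372237824) 256 320 320 384 0 128)
  (go 16 Gd mult S198_227_290_364 (Tr.lf 22011857028 91048522 6635793823864699539962200064) 320 384 320 384 0 128)) = true := by decide +kernel
  have c2 : (band (go 16 Gd mult S198_227_216_290 (Tr.lf 22011988040 95243081 55897107751654371651986915328) 320 384 352 384 0 128)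
  (go 16 Gd mult S198_227_216_290 (Tr.lf 22011987016 99310281 5366421713269338906520715264) 256 320 320 352 0 64)) = true := by decide +kernel
  have c3 : (band (go 16 Gd mult S140_169_512_660 (Tr.lf 13422052424 103910342 3206071273617996571320778752) 256 384 320 352 0 128)
  (band (go 16 Gd mult S140_198_660_808 (Tr.lf 8590230596 99851588 2531490666273033491834732544) 256 384 320 352 0 128)
  (band (go 16 Gd mult S140_198_660_808 (Tr.lf 13422068772 104041414 19515712324661377945997148160) 256 384 352 384 0 128)
  (go 16 Gd mult S140_198_512_660 (Tr.lf 13422068804 108100678 19377890151092547718983188480) 256 384 352 384 0 128)))) = true := by decide +kernel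
  have c4 : (go 16 Gd mult S169_198_512_660 (Tr.lf 13422314564 104041414 3464781399015527214707900416) 256 320 320 352 0 128) = true := by decide +kernel
  have c5 : (band (go 16 Gd mult S198_227_216_290 (Tr.lf 22011855944 95378376 0) 320 384 320 352 0 64)
  (band (go 16 Gd mult S198_227_216_290 (Tr.lf 17725277224 104037192 6956159166062576271259336704) 256 384 320 352 64 128)
  (go 16 Gd mult S198_227_216_290 (Tr.lf 17716888644 95505352 55897103121521609150889459712) 256 320 352 384 0 128))) = true := by decide +kernel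
  have c6 : (band (go 16 Gd mult S140_169_364_512 (Tr.lf 13421921316 99716038 20051261500576502842522599424) 256 384 352 384 0 128)
  (go 16 Gd mult S169_198_364_512 (Tr.lf 17716880420 95378248 30259432006846147131800027136) 256 384 352 384 0 128)) = true := by decide +kernel
  have c7 : (go 16 Gd mult S169_198_512_660 (Tr.lf 13421912610 99978182 1037258353229351831897899008) 320 384 320 352 0 128) = true := by decide +kernel
  (And.intro (Ok.s1 352 (Ok.s3 169 (Ok.lf S140_169_364_512_ok (bl c0))
  (Ok.lf S169_198_364_512_ok (br c0)))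
  (Ok.s3 169 (Ok.lf S140_169_364_512_ok (bl c6))
  (Ok.lf S169_198_364_512_ok (br c6))))
  (And.intro (Ok.s4 660 (Ok.s1 352 (Ok.s3 169 (Ok.lf S140_169_512_660_ok (bl c3))
  (Ok.s0 320 (Ok.lf S169_198_512_660_ok c4)
  (Ok.lf S169_198_512_660_ok c7)))
  (Ok.lf S140_198_512_660_ok (br (br (br c3)))))
  (Ok.s1 352 (Ok.lf S140_198_660_808_ok (bl (br c3)))
  (Ok.lf S140_198_660_808_ok (bl (br (br c3))))))
  (Ok.s4 290 (Ok.s1 352 (Ok.s2 64 (Ok.s0 320 (Ok.lf S198_227_216_290_ok (br c2))
  (Ok.lf S198_227_216_290_ok (bl c5)))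
  (Ok.lf S198_227_216_290_ok (bl (br c5))))
  (Ok.s0 320 (Ok.lf S198_227_216_290_ok (br (br c5)))
  (Ok.lf S198_227_216_290_ok (bl c2))))
  (Ok.s0 320 (Ok.lf S198_227_290_364_ok (bl c1))
  (Ok.lf S198_227_290_364_ok (br c1))))))

end Vale.Agent.P098.Ck
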