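import Vale.Agent.P098.CkGd
import Vale.Agent.P098.CkOk
import Vale.Agent.P098.Sh.A26
import Vale.Agent.P098.Sh.A27
import Vale.Agent.P098.Sh.A28
import Vale.Agent.P098.Sh.A29
import Vale.Agent.P098.Sh.A36
import Vale.Agent.P098.Sh.A37
import Vale.Agent.P098.Sh.A38

namespace Vale.Agent.P098.Ck

theorem r571 :
    Ok Gd mult 256 384 320 384 0 128 227 256 216 290 ∧
    Ok Gd mult 256 384 320 384 0 128 227 256 290 364 ∧
    Ok Gd mult 256 384 320 384 0 128 198 256 364 512 ∧
    Ok Gd mult 256 384 320 384 0 128 198 256 512 808 :=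
  have c0 : (band (go 16 Gd mult S227_256_216_290 (Tr.lf 22012004424 95243081 55498162231181544024333877248) 320 384 352 384 0 128)
  (go 16 Gd mult S198_256_364_512 (Tr.lf 17717036068 103906247 19432275930328558567921025024) 320 384 352 384 0 128)) = true := by decide +kernel
  have c1 : (band (go 16 Gd mult S227_256_290_364 (Tr.lf 22011857032 90909386 11239383344957207437243318272) 256 320 320 384 0 128)
  (go 16 Gd mult S227_256_290_364 (Tr.lf 22011857028 91048777 6607988530013563068943958016) 320 384 320 384 0 128)) = true := by decide +kernel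
  have c2 : (band (go 16 Gd mult S198_256_512_660 (Tr.lf 13422330920 104172486 2345316090052380598929981440) 256 384 320 336 0 128)
  (band (go 16 Gd mult S227_256_364_512 (Tr.lf 17717019684 99711943 2535117443731877379358851072) 256 384 320 336 0 128)
  (go 16 Gd mult S198_256_512_660 (Tr.lf 13422330920 108108742 4946924453863062582897672192) 256 384 336 352 0 128))) = true := by decide +kernel
  have c3 : (band (go 16 Gd mult S198_256_512_660 (Tr.lf 13422068808 104037446 19322279231348881450174775296) 256 384 352 384 0 128)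
  (go 16 Gd mult S198_256_660_808 (Tr.lf 13497566280 108108870 19522965547537672394273456128) 256 384 352 384 0 128)) = true := by decide +kernel
  have c4 : (go 16 Gd mult S227_256_216_290 (Tr.lf 22011987016 91052745 5334989641959358547978354688) 256 320 320 352 0 64) = true := by decide +kernel
  have c5 : (band (go 16 Gd mult S198_227_364_512 (Tr.lf 17717019720 103897928 4568530672323683651214639104) 256 384 320 352 0 128)
  (band (go 16 Gd mult S198_227_660_808 (Tr.lf 13497549892 104045638 2538744221190721266882969600) 256 384 320 352 0 128)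
  (go 16 Gd mult S227_256_660_808 (Tr.lf 12885173284 95521989 1679205784864207176516763648) 256 384 320 352 0 128))) = true := by decide +kernel
  have c6 : (band (go 16 Gd mult S227_256_216_290 (Tr.lf 22011855944 95378376 0) 320 384 320 352 0 64)
  (band (go 16 Gd mult S227_256_216_290 (Tr.lf 17725276744 104037192 6923518168932981283542269952) 256 384 320 352 64 128)
  (band (go 16 Gd mult S227_256_216_290 (Tr.lf 17716888612 95505352 55496948675229166894061715456) 256 320 352 384 0 128)
  (go 16 Gd mult S198_256_364_512 (Tr.lf 17716888612 95378248 35374378407743664281077415936) 256 320 352 384 0 128)))) = true := by decide +kernel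
  have c7 : (go 16 Gd mult S227_256_364_512 (Tr.lf 17717019684 99703624 5561058770227294203648409600) 256 384 336 352 0 128) = true := by decide +kernel
  (And.intro (Ok.s1 352 (Ok.s2 64 (Ok.s0 320 (Ok.lf S227_256_216_290_ok c4)
  (Ok.lf S227_256_216_290_ok (bl c6)))
  (Ok.lf S227_256_216_290_ok (bl (br c6))))
  (Ok.s0 320 (Ok.lf S227_256_216_290_ok (bl (br (br c6))))
  (Ok.lf S227_256_216_290_ok (bl c0))))
  (And.intro (Ok.s0 320 (Ok.lf S227_256_290_364_ok (bl c1))
  (Ok.lf S227_256_290_364_ok (br c1)))
  (And.intro (Ok.s1 352 (Ok.s3 227 (Ok.lf S198_227_364_512_ok (bl c5))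
  (Ok.s1 336 (Ok.lf S227_256_364_512_ok (bl (br c2)))
  (Ok.lf S227_256_364_512_ok c7)))
  (Ok.s0 320 (Ok.lf S198_256_364_512_ok (br (br (br c6))))
  (Ok.lf S198_256_364_512_ok (br c0))))
  (Ok.s4 660 (Ok.s1 352 (Ok.s1 336 (Ok.lf S198_256_512_660_ok (bl c2))
  (Ok.lf S198_256_512_660_ok (br (br c2))))
  (Ok.lf S198_256_512_660_ok (bl c3)))
  (Ok.s1 352 (Ok.s3 227 (Ok.lf S198_227_660_808_ok (bl (br c5)))
  (Ok.lf S227_256_660_808_ok (br (br c5))))
  (Ok.lf S198_256_660_808_ok (br c3)))))))

end Vale.Agent.P098.Ck
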