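import Vale.Agent.P098.CkGd
import Vale.Agent.P098.CkOk
import Vale.Agent.P098.Sh.A41
import Vale.Agent.P098.Sh.A42
import Vale.Agent.P098.Sh.A43
import Vale.Agent.P098.Sh.A44
import Vale.Agent.P098.Sh.A45
import Vale.Agent.P098.Sh.A46

namespace Vale.Agent.P098.Ck

theorem r572 :
    Ok Gd mult 256 384 320 352 0 128 256 314 216 364 ∧
    Ok Gd mult 256 384 352 384 0 128 256 314 216 364 ∧
    Ok Gd mult 256 384 320 384 0 128 256 314 364 512 ∧
    Ok Gd mult 256 384 320 384 0 128 256 314 512 660 ∧
    Ok Gd mult 256 384 320 384 0 128 256 285 660 808 :=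
  have c0 : (band (go 16 Gd mult S256_314_364_512 (Tr.lf 17717298216 103902151 2282451947432419881845260288) 256 384 320 336 0 128)
  (go 16 Gd mult S256_314_364_512 (Tr.lf 13422330920 108239814 4842956833376204473872941056) 256 384 336 352 0 128)) = true := by decide +kernel
  have c1 : (band (go 16 Gd mult S256_314_364_512 (Tr.lf 13422068808 108104774 19502409510512854523977924608) 256 384 352 384 0 128)
  (go 16 Gd mult S256_314_512_660 (Tr.lf 13497566280 107981894 19307774445803259187481804800) 256 384 352 384 0 128)) = true := by decide +kernel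
  have c2 : (band (go 16 Gd mult S256_285_512_660 (Tr.lf 8590476360 103918661 3035615592297665282667708416) 256 384 320 352 0 128)
  (go 16 Gd mult S285_314_512_660 (Tr.lf 8590214180 108109124 2184531815288966343674560512) 256 384 320 352 0 128)) = true := by decide +kernel
  have c3 : (go 16 Gd mult S256_285_660_808 (Tr.lf 22087763012 91187785 11787469463100403482624) 256 320 320 352 0 64) = true := by decide +kernel
  have c4 : (band (go 16 Gd mult S256_285_660_808 (Tr.lf 22087747620 90921418 42800839158639872941741834240) 256 320 352 384 0 128)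
  (band (go 16 Gd mult S256_314_216_364 (Tr.lf 17717019684 95251272 36297997733929240970552934400) 256 320 352 384 0 128)
  (band (go 16 Gd mult S256_285_660_808 (Tr.lf 22087746596 86989513 10955293266725863507265323008) 320 384 352 384 0 128)
  (band (go 16 Gd mult S256_285_216_364 (Tr.lf 17717011492 99584967 31711333174311337881717702656) 320 384 352 384 0 128)
  (band (go 16 Gd mult S285_314_216_364 (Tr.lf 17716879906 103644103 24205121135145914800103489536) 320 384 352 384 0 128)
  (go 16 Gd mult S256_285_216_364 (Tr.lf 17717011524 99572552 4991654709188803862361800704) 256 320 320 352 0 128)))))) = true := by decide +kernel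
  have c5 : (go 16 Gd mult S285_314_216_364 (Tr.lf 17717011524 95513288 4317074101843840782875754496) 256 320 320 352 0 128) = true := by decide +kernel
  have c6 : (go 16 Gd mult S256_285_660_808 (Tr.lf 22087746082 86989513 0) 320 384 320 352 0 64) = true := by decide +kernel
  have c7 : (band (go 16 Gd mult S256_285_216_364 (Tr.lf 17717011492 103906247 1723928218770461203131006976) 320 384 320 352 0 128)
  (go 16 Gd mult S285_314_216_364 (Tr.lf 17716879906 99707847 1677989037625105294492172288) 320 384 320 352 0 128)) = true := by decide +kernel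
  have c8 : (go 16 Gd mult S256_285_660_808 (Tr.lf 12885180964 95648965 525892545200210904478646272) 256 384 320 352 64 128) = true := by decide +kernel
  (And.intro (Ok.s0 320 (Ok.s3 285 (Ok.lf S256_285_216_364_ok (br (br (br (br (br c4))))))
  (Ok.lf S285_314_216_364_ok c5))
  (Ok.s3 285 (Ok.lf S256_285_216_364_ok (bl c7))
  (Ok.lf S285_314_216_364_ok (br c7))))
  (And.intro (Ok.s0 320 (Ok.lf S256_314_216_364_ok (bl (br c4)))
  (Ok.s3 285 (Ok.lf S256_285_216_364_ok (bl (br (br (br c4)))))
  (Ok.lf S285_314_216_364_ok (bl (br (br (br (br c4))))))))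
  (And.intro (Ok.s1 352 (Ok.s1 336 (Ok.lf S256_314_364_512_ok (bl c0))
  (Ok.lf S256_314_364_512_ok (br c0)))
  (Ok.lf S256_314_364_512_ok (bl c1)))
  (And.intro (Ok.s1 352 (Ok.s3 285 (Ok.lf S256_285_512_660_ok (bl c2))
  (Ok.lf S285_314_512_660_ok (br c2)))
  (Ok.lf S256_314_512_660_ok (br c1)))
  (Ok.s1 352 (Ok.s2 64 (Ok.s0 320 (Ok.lf S256_285_660_808_ok c3)
  (Ok.lf S256_285_660_808_ok c6))
  (Ok.lf S256_285_660_808_ok c8))
  (Ok.s0 320 (Ok.lf S256_285_660_808_ok (bl c4))
  (Ok.lf S256_285_660_808_ok (bl (br (br c4))))))))))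

end Vale.Agent.P098.Ck
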