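import Vale.Agent.P098.CkGd
import Vale.Agent.P098.CkOk
import Vale.Agent.P098.Sh.A46
import Vale.Agent.P098.Sh.A48
import Vale.Agent.P098.Sh.A49
import Vale.Agent.P098.Sh.A50
import Vale.Agent.P098.Sh.A51
import Vale.Agent.P098.Sh.A52

namespace Vale.Agent.P098.Ck

theorem r573 :
    Ok Gd mult 256 384 320 384 0 128 285 314 660 808 ∧
    Ok Gd mult 256 384 320 384 0 128 314 372 216 808 :=
  have c0 : (band (go 16 Gd mult S314_343_364_512 (Tr.lf 13422315592 108366790 3343888817054064297237282816) 256 384 320 352 0 128)
  (band (go 16 Gd mult S314_343_512_660 (Tr.lf 13497549892 107981894 2781738310933261730998910976) 256 384 320 352 0 128)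
  (go 16 Gd mult S314_343_660_808 (Tr.lf 17792516644 99716039 1651399605569355167440044032) 256 384 320 352 0 128))) = true := by decide +kernel
  have c1 : (go 16 Gd mult S343_372_364_512 (Tr.lf 13422069832 104045510 3695686230561921387076780032) 256 384 320 352 0 128) = true := by decide +kernel
  have c2 : (go 16 Gd mult S343_372_512_660 (Tr.lf 13422069832 104045510 3409170811313254272671416320) 256 384 320 352 0 128) = true := by decide +kernel
  have c3 : (go 16 Gd mult S285_314_660_808 (Tr.lf 22087763012 91187785 11787469463100403482624) 256 320 320 352 0 64) = true := by decide +kernel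
  have c4 : (go 16 Gd mult S343_372_660_808 (Tr.lf 13422068808 112303046 3320919226481386342917865472) 256 384 320 352 0 128) = true := by decide +kernel
  have c5 : (band (go 16 Gd mult S285_314_660_808 (Tr.lf 22087747620 90921418 44974488114348369524635467776) 256 320 352 384 0 128)
  (band (go 16 Gd mult S285_314_660_808 (Tr.lf 22087746596 91052745 11186198098272257679634202624) 320 384 352 384 0 128)
  (go 16 Gd mult S285_314_660_808 (Tr.lf 22087746082 91052745 0) 320 384 320 352 0 64))) = true := by decide +kernel
  have c6 : (band (go 16 Gd mult S314_372_660_808 (Tr.lf 13497566248 108104902 18032360011952834621860741120) 256 384 352 384 0 128)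
  (band (go 16 Gd mult S314_372_364_512 (Tr.lf 13422068804 112294982 19484275291177241759585402880) 256 384 352 384 0 128)
  (band (go 16 Gd mult S314_372_512_660 (Tr.lf 13422068804 112294982 19249744014213397026464333824) 256 384 352 384 0 128)
  (go 16 Gd mult S314_372_216_364 (Tr.lf 13422052388 112294982 33141509721961385334954524672) 256 384 352 384 0 128)))) = true := by decide +kernel
  have c7 : (go 16 Gd mult S314_372_216_364 (Tr.lf 13422052420 108235718 4320700879302684670399873024) 256 320 320 352 0 128) = true := by decide +kernel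
  have c8 : (go 16 Gd mult S285_314_660_808 (Tr.lf 12885180964 99712197 140245208743144197747376128) 256 384 320 352 64 128) = true := by decide +kernel
  have c9 : (go 16 Gd mult S314_372_216_364 (Tr.lf 13421920786 112430277 1675571185985876036142759936) 320 384 320 352 0 128) = true := by decide +kernel
  (And.intro (Ok.s1 352 (Ok.s2 64 (Ok.s0 320 (Ok.lf S285_314_660_808_ok c3)
  (Ok.lf S285_314_660_808_ok (br (br c5))))
  (Ok.lf S285_314_660_808_ok c8))
  (Ok.s0 320 (Ok.lf S285_314_660_808_ok (bl c5))
  (Ok.lf S285_314_660_808_ok (bl (br c5)))))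
  (Ok.s4 512 (Ok.s4 364 (Ok.s1 352 (Ok.s0 320 (Ok.lf S314_372_216_364_ok c7)
  (Ok.lf S314_372_216_364_ok c9))
  (Ok.lf S314_372_216_364_ok (br (br (br c6)))))
  (Ok.s1 352 (Ok.s3 343 (Ok.lf S314_343_364_512_ok (bl c0))
  (Ok.lf S343_372_364_512_ok c1))
  (Ok.lf S314_372_364_512_ok (bl (br c6)))))
  (Ok.s4 660 (Ok.s1 352 (Ok.s3 343 (Ok.lf S314_343_512_660_ok (bl (br c0)))
  (Ok.lf S343_372_512_660_ok c2))
  (Ok.lf S314_372_512_660_ok (bl (br (br c6)))))
  (Ok.s1 352 (Ok.s3 343 (Ok.lf S314_343_660_808_ok (br (br c0)))
  (Ok.lf S343_372_660_808_ok c4))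
  (Ok.lf S314_372_660_808_ok (bl c6))))))

end Vale.Agent.P098.Ck
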