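import Vale.Agent.P098.CkGd
import Vale.Agent.P098.CkOk
import Vale.Agent.P098.Sh.A54
import Vale.Agent.P098.Sh.A55
import Vale.Agent.P098.Sh.A58
import Vale.Agent.P098.Sh.A59

namespace Vale.Agent.P098.Ck

theorem r574 :
    Ok Gd mult 256 384 320 384 0 128 372 430 216 512 ∧
    Ok Gd mult 256 384 320 384 0 128 372 430 512 808 ∧
    Ok Gd mult 256 384 320 384 0 128 430 488 216 364 ∧
    Ok Gd mult 256 320 320 384 0 128 430 488 364 512 :=
  have c0 : (band (go 16 Gd mult S372_430_216_364 (Tr.lf 17717037128 99437257 40419252435736646452624362635) 256 384 352 384 0 128)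
  (go 16 Gd mult S372_430_364_512 (Tr.lf 17716905032 95242953 37905895656351942449665411152) 256 384 352 384 0 128)) = true := by decide +kernel
  have c1 : (band (go 16 Gd mult S372_430_660_808 (Tr.lf 17717037128 95242953 29692453085073595046529076972) 256 384 352 384 0 128)
  (go 16 Gd mult S372_430_512_660 (Tr.lf 17717953608 95243209 32101842795805073320611676160) 256 384 352 384 0 128)) = true := by decide +kernel
  have c2 : (go 16 Gd mult S430_488_216_364 (Tr.lf 22011872392 90786378 10812632530633243338572038144) 256 320 320 384 0 64) = true := by decide +kernel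
  have c3 : (band (go 16 Gd mult S372_430_660_808 (Tr.lf 17717036104 99580616 3997917685465578680753324032) 256 384 320 352 0 128)
  (band (go 16 Gd mult S372_430_364_512 (Tr.lf 17716905032 99580616 4650737628057478435094659072) 256 384 320 352 0 128)
  (go 16 Gd mult S372_430_512_660 (Tr.lf 17716905032 107838152 4277179549796558020110450688) 256 384 320 352 0 128))) = true := by decide +kernel
  have c4 : (band (go 16 Gd mult S430_488_216_364 (Tr.lf 22012855432 90786634 12737242435459732984704270336) 256 320 320 384 64 128)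
  (band (go 16 Gd mult S430_488_216_364 (Tr.lf 22011807816 91187785 545225544646197757792485376) 320 384 320 352 0 128)
  (go 16 Gd mult S430_488_216_364 (Tr.lf 22012855336 95382600 5847574189475961318053773312) 320 384 352 368 0 64))) = true := by decide +kernel
  have c5 : (band (go 16 Gd mult S459_488_216_364 (Tr.lf 22012856392 91188296 64800854789269040051586142745) 320 384 352 368 64 128)
  (go 16 Gd mult S430_459_216_364 (Tr.lf 22012830760 91188041 57894262134053291475960332868) 320 384 352 368 64 128)) = true := by decide +kernel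
  have c6 : (go 16 Gd mult S430_488_364_512 (Tr.lf 22011807816 90790346 7063753564008278267808186368) 256 320 320 352 0 128) = true := by decide +kernel
  have c7 : (go 16 Gd mult S372_430_216_364 (Tr.lf 17716888648 103901896 5189918543605603047013613568) 256 384 320 352 0 128) = true := by decide +kernel
  have c8 : (go 16 Gd mult S430_488_364_512 (Tr.lf 17716823076 95251272 57318799885388413060343922688) 256 320 352 384 0 128) = true := by decide +kernel
  have c9 : (go 16 Gd mult S430_488_216_364 (Tr.lf 17716814868 95115977 79104030333555393878328082432) 320 384 368 384 0 128) = true := by decide +kernel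
  (And.intro (Ok.s4 364 (Ok.s1 352 (Ok.lf S372_430_216_364_ok c7)
  (Ok.lf S372_430_216_364_ok (bl c0)))
  (Ok.s1 352 (Ok.lf S372_430_364_512_ok (bl (br c3)))
  (Ok.lf S372_430_364_512_ok (br c0))))
  (And.intro (Ok.s4 660 (Ok.s1 352 (Ok.lf S372_430_512_660_ok (br (br c3)))
  (Ok.lf S372_430_512_660_ok (br c1)))
  (Ok.s1 352 (Ok.lf S372_430_660_808_ok (bl c3))
  (Ok.lf S372_430_660_808_ok (bl c1))))
  (And.intro (Ok.s0 320 (Ok.s2 64 (Ok.lf S430_488_216_364_ok c2)
  (Ok.lf S430_488_216_364_ok (bl c4)))
  (Ok.s1 352 (Ok.lf S430_488_216_364_ok (bl (br c4)))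
  (Ok.s1 368 (Ok.s2 64 (Ok.lf S430_488_216_364_ok (br (br c4)))
  (Ok.s3 459 (Ok.lf S430_459_216_364_ok (br c5))
  (Ok.lf S459_488_216_364_ok (bl c5))))
  (Ok.lf S430_488_216_364_ok c9))))
  (Ok.s1 352 (Ok.lf S430_488_364_512_ok c6)
  (Ok.lf S430_488_364_512_ok c8)))))

end Vale.Agent.P098.Ck
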