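import Vale.Agent.P098.CkGd
import Vale.Agent.P098.CkOk
import Vale.Agent.P098.Sh.A58
import Vale.Agent.P098.Sh.A59

namespace Vale.Agent.P098.Ck

theorem r575 :
    Ok Gd mult 320 384 320 384 0 128 430 488 364 512 ∧
    Ok Gd mult 256 384 320 384 0 128 430 488 512 808 :=
  have c0 : (go 16 Gd mult S430_488_512_660 (Tr.lf 22011873416 90790346 7020232234502151617518764032) 256 320 320 352 0 128) = true := by decide +kernel
  have c1 : (band (go 16 Gd mult S430_488_660_808 (Tr.lf 22011807880 90790346 7000889421388317550723465216) 256 320 320 352 0 128)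
  (band (go 16 Gd mult S430_488_660_808 (Tr.lf 22011807816 91187785 658864571689972900214865920) 320 384 320 352 0 128)
  (go 16 Gd mult S430_488_660_808 (Tr.lf 22012855336 95382600 5865708076770180755674365952) 320 384 352 368 0 64))) = true := by decide +kernel
  have c2 : (band (go 16 Gd mult S430_488_364_512 (Tr.lf 22011807816 91187785 592373651611168295606026240) 320 384 320 352 0 128)
  (band (go 16 Gd mult S430_488_512_660 (Tr.lf 22011807816 91187785 638312832756524204244860928) 320 384 320 352 0 128)
  (band (go 16 Gd mult S430_488_364_512 (Tr.lf 22012855336 95382600 5856036670213263722276716544) 320 384 352 368 0 64)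
  (go 16 Gd mult S430_488_512_660 (Tr.lf 22012855336 95382600 5863290225130951497324953600) 320 384 352 368 0 64)))) = true := by decide +kernel
  have c3 : (band (go 16 Gd mult S459_488_364_512 (Tr.lf 22012856392 91188296 64741617424072457503810982455) 320 384 352 368 64 128)
  (band (go 16 Gd mult S459_488_512_660 (Tr.lf 22012856392 91188296 64683588984725888753844294199) 320 384 352 368 64 128)
  (go 16 Gd mult S459_488_660_808 (Tr.lf 22012856392 91188296 64656992616734899179796107801) 320 384 352 368 64 128))) = true := by decide +kernel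
  have c4 : (band (go 16 Gd mult S430_459_364_512 (Tr.lf 22012830760 90929993 57334529479955843000684709783) 320 384 352 368 64 128)
  (band (go 16 Gd mult S430_459_512_660 (Tr.lf 22012830760 90921929 56805019971806049576122585936) 320 384 352 368 64 128)
  (go 16 Gd mult S430_459_660_808 (Tr.lf 22549701672 99310537 56566861915986401216969048064) 320 384 352 368 64 128))) = true := by decide +kernel
  have c5 : (band (go 16 Gd mult S430_488_512_660 (Tr.lf 17716823076 95251272 56768738637463756785852612608) 256 320 352 384 0 128)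
  (band (go 16 Gd mult S430_488_660_808 (Tr.lf 17716823076 95251272 56520908844442757805037846528) 256 320 352 384 0 128)
  (band (go 16 Gd mult S430_488_660_808 (Tr.lf 17716823060 86858441 79104030333555393878328082432) 320 384 368 384 0 128)
  (band (go 16 Gd mult S430_488_364_512 (Tr.lf 17716814868 95115977 79104030333555393878328082432) 320 384 368 384 0 128)
  (go 16 Gd mult S430_488_512_660 (Tr.lf 17716814868 90921673 79104030333555393878328082432) 320 384 368 384 0 128))))) = true := by decide +kernel
  (And.intro (Ok.s1 352 (Ok.lf S430_488_364_512_ok (bl c2))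
  (Ok.s1 368 (Ok.s2 64 (Ok.lf S430_488_364_512_ok (bl (br (br c2))))
  (Ok.s3 459 (Ok.lf S430_459_364_512_ok (bl c4))
  (Ok.lf S459_488_364_512_ok (bl c3))))
  (Ok.lf S430_488_364_512_ok (bl (br (br (br c5)))))))
  (Ok.s4 660 (Ok.s0 320 (Ok.s1 352 (Ok.lf S430_488_512_660_ok c0)
  (Ok.lf S430_488_512_660_ok (bl c5)))
  (Ok.s1 352 (Ok.lf S430_488_512_660_ok (bl (br c2)))
  (Ok.s1 368 (Ok.s2 64 (Ok.lf S430_488_512_660_ok (br (br (br c2))))
  (Ok.s3 459 (Ok.lf S430_459_512_660_ok (bl (br c4)))
  (Ok.lf S459_488_512_660_ok (bl (br c3)))))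
  (Ok.lf S430_488_512_660_ok (br (br (br (br c5))))))))
  (Ok.s0 320 (Ok.s1 352 (Ok.lf S430_488_660_808_ok (bl c1))
  (Ok.lf S430_488_660_808_ok (bl (br c5))))
  (Ok.s1 352 (Ok.lf S430_488_660_808_ok (bl (br c1)))
  (Ok.s1 368 (Ok.s2 64 (Ok.lf S430_488_660_808_ok (br (br c1)))
  (Ok.s3 459 (Ok.lf S430_459_660_808_ok (br (br c4)))
  (Ok.lf S459_488_660_808_ok (br (br c3)))))
  (Ok.lf S430_488_660_808_ok (bl (br (br c5)))))))))

end Vale.Agent.P098.Ck
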