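import Vale.Agent.P098.CkGd
import Vale.Agent.P098.CkOk
import Vale.Agent.P098.Sh.A0
import Vale.Agent.P098.Sh.A1
import Vale.Agent.P098.Sh.A2
import Vale.Agent.P098.Sh.A3
import Vale.Agent.P098.Sh.A5

namespace Vale.Agent.P098.Ck

theorem r576 :
    Ok Gd mult 256 384 320 384 128 256 24 82 216 808 ∧
    Ok Gd mult 256 384 320 384 128 256 82 140 216 364 ∧
    Ok Gd mult 256 384 320 352 128 256 82 111 364 512 ∧
    Ok Gd mult 256 384 320 336 128 256 111 140 364 512 :=
  have c0 : (band (go 16 Gd mult S111_140_216_364 (Tr.lf 9128151080 108240069 9853975957314378419539609303) 256 384 344 352 128 256)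
  (band (go 16 Gd mult S111_140_216_364 (Tr.lf 9128151064 108108997 5489771401541419936266584064) 256 320 336 340 192 256)
  (go 16 Gd mult S111_140_216_364 (Tr.lf 9128150040 112426309 7039575047615985684314062848) 320 384 340 344 192 256))) = true := by decide +kernel
  have c1 : (band (go 16 Gd mult S111_140_216_364 (Tr.lf 9128151064 108108997 7039605042021849536044990464) 256 320 340 344 192 256)
  (go 16 Gd mult S111_140_216_364 (Tr.lf 9128150036 104168773 4173211929309699911085719552) 320 384 336 340 192 256)) = true := by decide +kernel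
  have c2 : (go 16 Gd mult S82_140_216_364 (Tr.lf 13422986312 103644103 19815622662673402418134057037) 256 384 352 384 128 256) = true := by decide +kernel
  have c3 : (go 16 Gd mult S111_140_364_512 (Tr.lf 4295133252 108112964 3469618854799979704431083771) 256 320 320 336 128 256) = true := by decide +kernel
  have c4 : (band (go 16 Gd mult S111_140_216_364 (Tr.lf 4295133220 103918660 4167169274013242652134211584) 256 320 328 336 128 256)
  (go 16 Gd mult S111_140_216_364 (Tr.lf 9195127316 103910470 5480092487159664903081426944) 256 320 336 344 128 192)) = true := by decide +kernel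
  have c5 : (go 16 Gd mult S82_111_364_512 (Tr.lf 8590017608 99720133 3771874788467715840065667072) 256 384 320 352 128 256) = true := by decide +kernel
  have c6 : (band (go 16 Gd mult S24_82_216_364 (Tr.lf 8590017604 95652805 5529680950791634624897351680) 256 384 320 384 128 256)
  (band (go 16 Gd mult S24_82_364_512 (Tr.lf 8590017092 103910341 5494622102022810378830872576) 256 384 320 384 128 256)
  (band (go 16 Gd mult S24_82_512_660 (Tr.lf 8590009412 99716037 5417250849567474111649677312) 256 384 320 384 128 256)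
  (go 16 Gd mult S24_82_660_808 (Tr.lf 8590009412 99716037 5339879597112137844468482048) 256 384 320 384 128 256)))) = true := by decide +kernel
  have c7 : (band (go 16 Gd mult S111_140_216_364 (Tr.lf 9128002594 108232005 0) 320 384 320 336 128 256)
  (band (go 16 Gd mult S111_140_364_512 (Tr.lf 9128002594 112168261 0) 320 384 320 336 128 256)
  (go 16 Gd mult S111_140_216_364 (Tr.lf 9128002068 108240069 0) 320 384 336 344 128 192))) = true := by decide +kernel
  have c8 : (band (go 16 Gd mult S82_111_216_364 (Tr.lf 8590009364 99847109 5584076008739914549739651072) 256 384 336 352 128 256)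
  (go 16 Gd mult S82_111_216_364 (Tr.lf 8590008850 95652805 1985074937699199993771982848) 256 384 320 336 128 256)) = true := by decide +kernel
  have c9 : (go 16 Gd mult S111_140_216_364 (Tr.lf 4295042066 103787588 1734808551146992865703362560) 256 320 320 328 128 256) = true := by decide +kernel
  (And.intro (Ok.s4 512 (Ok.s4 364 (Ok.lf S24_82_216_364_ok (bl c6))
  (Ok.lf S24_82_364_512_ok (bl (br c6))))
  (Ok.s4 660 (Ok.lf S24_82_512_660_ok (bl (br (br c6))))
  (Ok.lf S24_82_660_808_ok (br (br (br c6))))))
  (And.intro (Ok.s1 352 (Ok.s1 336 (Ok.s3 111 (Ok.lf S82_111_216_364_ok (br c8))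
  (Ok.s0 320 (Ok.s1 328 (Ok.lf S111_140_216_364_ok c9)
  (Ok.lf S111_140_216_364_ok (bl c4)))
  (Ok.lf S111_140_216_364_ok (bl c7))))
  (Ok.s3 111 (Ok.lf S82_111_216_364_ok (bl c8))
  (Ok.s1 344 (Ok.s0 320 (Ok.s2 192 (Ok.lf S111_140_216_364_ok (br c4))
  (Ok.s1 340 (Ok.lf S111_140_216_364_ok (bl (br c0)))
  (Ok.lf S111_140_216_364_ok (bl c1))))
  (Ok.s2 192 (Ok.lf S111_140_216_364_ok (br (br c7)))
  (Ok.s1 340 (Ok.lf S111_140_216_364_ok (br c1))
  (Ok.lf S111_140_216_364_ok (br (br c0))))))
  (Ok.lf S111_140_216_364_ok (bl c0)))))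
  (Ok.lf S82_140_216_364_ok c2))
  (And.intro (Ok.lf S82_111_364_512_ok c5)
  (Ok.s0 320 (Ok.lf S111_140_364_512_ok c3)
  (Ok.lf S111_140_364_512_ok (bl (br c7)))))))

end Vale.Agent.P098.Ck
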