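import Vale.Agent.P098.CkGd
import Vale.Agent.P098.CkOk
import Vale.Agent.P098.Sh.A12
import Vale.Agent.P098.Sh.A17
import Vale.Agent.P098.Sh.A3
import Vale.Agent.P098.Sh.A4
import Vale.Agent.P098.Sh.A5
import Vale.Agent.P098.Sh.A6
import Vale.Agent.P098.Sh.A7
import Vale.Agent.P098.Sh.A8

namespace Vale.Agent.P098.Ck

theorem r577 :
    Ok Gd mult 256 384 336 344 128 256 111 140 364 512 ∧
    Ok Gd mult 256 384 344 352 128 256 111 140 364 512 ∧
    Ok Gd mult 256 384 352 384 128 256 82 140 364 512 ∧
    Ok Gd mult 256 384 320 384 128 256 82 140 512 808 ∧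
    Ok Gd mult 256 320 320 336 128 256 140 198 216 364 :=
  have c0 : (go 16 Gd mult S125_140_364_512 (Tr.lf 4295264296 103914692 6962220563430875053828604532) 256 384 340 344 128 256) = true := by decide +kernel
  have c1 : (band (go 16 Gd mult S111_140_364_512 (Tr.lf 9128151080 104176837 9462300206006196025935331375) 256 384 344 352 128 256)
  (go 16 Gd mult S111_140_512_660 (Tr.lf 9128003608 104176837 8470981919594764018148574093) 256 384 344 352 128 256)) = true := by decide +kernel
  have c2 : (band (go 16 Gd mult S111_140_512_660 (Tr.lf 4295264296 112307268 5522408653981967960944672768) 256 320 336 344 128 256)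
  (go 16 Gd mult S111_140_512_660 (Tr.lf 9128151080 108105029 5524790995638855328407224320) 320 384 336 344 128 256)) = true := by decide +kernel
  have c3 : (go 16 Gd mult S82_140_660_808 (Tr.lf 8590231592 104037445 6197001934240109678892679168) 256 384 336 352 128 256) = true := by decide +kernel
  have c4 : (band (go 16 Gd mult S111_140_512_660 (Tr.lf 4295133224 108108996 2348947497801915761151967793) 256 384 320 336 128 256)
  (go 16 Gd mult S82_140_660_808 (Tr.lf 8590099492 104037445 1991120784282382004475920384) 256 384 320 336 128 256)) = true := by decide +kernel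
  have c5 : (band (go 16 Gd mult S82_140_364_512 (Tr.lf 13422986308 95386567 18383040032385170829320650752) 256 384 352 384 128 256)
  (band (go 16 Gd mult S82_140_512_660 (Tr.lf 13422986308 99580871 17473922097544306839980605440) 256 384 352 384 128 256)
  (go 16 Gd mult S82_140_660_808 (Tr.lf 8590083140 99851205 15980899245526334498686436440) 256 384 352 384 128 256))) = true := by decide +kernel
  have c6 : (band (go 16 Gd mult S140_154_216_364 (Tr.lf 9128134692 112426309 4612052001829810301504061440) 256 320 328 336 128 256)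
  (band (go 16 Gd mult S154_169_216_364 (Tr.lf 13422961684 99576903 6068807614465438457025003520) 256 320 328 336 128 256)
  (band (go 16 Gd mult S169_198_216_364 (Tr.lf 13422044178 103898055 8634148203687681565751508992) 256 320 328 336 128 256)
  (band (go 16 Gd mult S169_198_216_364 (Tr.lf 13430432786 99711943 5587655138258816045491945472) 256 320 320 328 128 256)
  (go 16 Gd mult S140_169_216_364 (Tr.lf 13423100946 99576903 3243547974026050075736670208) 256 320 320 328 128 256))))) = true := by decide +kernel
  have c7 : (band (go 16 Gd mult S125_140_364_512 (Tr.lf 9195243540 108104774 5536884884487655717688641383) 288 320 336 340 128 256)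
  (go 16 Gd mult S125_140_364_512 (Tr.lf 9128134676 103910725 5217723837456739518031855616) 320 384 336 340 128 256)) = true := by decide +kernel
  have c8 : (go 16 Gd mult S111_125_364_512 (Tr.lf 9127995416 104045765 4969929001015760216817401856) 256 384 336 344 128 256) = true := by decide +kernel
  have c9 : (go 16 Gd mult S82_111_512_660 (Tr.lf 8590009380 95525829 3600207672657834471960936477) 256 384 320 352 128 256) = true := by decide +kernel
  have c10 : (go 16 Gd mult S125_140_364_512 (Tr.lf 9195037714 107973702 10827164451339398028015435776) 256 288 336 340 128 256) = true := by decide +kernel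
  (And.intro (Ok.s3 125 (Ok.lf S111_125_364_512_ok c8)
  (Ok.s1 340 (Ok.s0 320 (Ok.s0 288 (Ok.lf S125_140_364_512_ok c10)
  (Ok.lf S125_140_364_512_ok (bl c7)))
  (Ok.lf S125_140_364_512_ok (br c7)))
  (Ok.lf S125_140_364_512_ok c0)))
  (And.intro (Ok.lf S111_140_364_512_ok (bl c1))
  (And.intro (Ok.lf S82_140_364_512_ok (bl c5))
  (And.intro (Ok.s4 660 (Ok.s1 352 (Ok.s3 111 (Ok.lf S82_111_512_660_ok c9)
  (Ok.s1 336 (Ok.lf S111_140_512_660_ok (bl c4))
  (Ok.s1 344 (Ok.s0 320 (Ok.lf S111_140_512_660_ok (bl c2))
  (Ok.lf S111_140_512_660_ok (br c2)))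
  (Ok.lf S111_140_512_660_ok (br c1)))))
  (Ok.lf S82_140_512_660_ok (bl (br c5))))
  (Ok.s1 352 (Ok.s1 336 (Ok.lf S82_140_660_808_ok (br c4))
  (Ok.lf S82_140_660_808_ok c3))
  (Ok.lf S82_140_660_808_ok (br (br c5)))))
  (Ok.s1 328 (Ok.s3 169 (Ok.lf S140_169_216_364_ok (br (br (br (br c6)))))
  (Ok.lf S169_198_216_364_ok (bl (br (br (br c6))))))
  (Ok.s3 169 (Ok.s3 154 (Ok.lf S140_154_216_364_ok (bl c6))
  (Ok.lf S154_169_216_364_ok (bl (br c6))))
  (Ok.lf S169_198_216_364_ok (bl (br (br c6))))))))))

end Vale.Agent.P098.Ck
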