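import Vale.Agent.P098.CkGd
import Vale.Agent.P098.CkOk
import Vale.Agent.P098.Sh.A11
import Vale.Agent.P098.Sh.A12
import Vale.Agent.P098.Sh.A17
import Vale.Agent.P098.Sh.A18
import Vale.Agent.P098.Sh.A7
import Vale.Agent.P098.Sh.A8
import Vale.Agent.P098.Sh.A9

namespace Vale.Agent.P098.Ck

theorem r578 :
    Ok Gd mult 256 288 336 352 128 256 140 198 216 364 ∧
    Ok Gd mult 288 320 336 352 128 256 140 198 216 364 ∧
    Ok Gd mult 320 384 320 352 128 256 140 198 216 364 ∧
    Ok Gd mult 256 384 352 384 128 256 140 198 216 364 ∧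
    Ok Gd mult 256 320 320 336 128 256 140 198 364 512 :=
  have c0 : (go 16 Gd mult S140_198_216_364 (Tr.lf 13422331972 103640007 11180145979796090607682715648) 256 288 336 352 128 256) = true := by decide +kernel
  have c1 : (band (go 16 Gd mult S140_154_216_364 (Tr.lf 9128413220 108105029 6525781574279768285063938048) 320 352 336 344 128 256)
  (band (go 16 Gd mult S154_169_216_364 (Tr.lf 13423092242 95513671 8914618993838275534283341824) 320 352 336 344 128 256)
  (band (go 16 Gd mult S169_198_216_364 (Tr.lf 13421912593 95382471 10729216649079833925517312000) 320 352 336 344 128 256)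
  (band (go 16 Gd mult S169_198_216_364 (Tr.lf 13421912612 99707847 41588282263739058262081405837) 256 384 352 384 128 256)
  (go 16 Gd mult S140_169_216_364 (Tr.lf 13421921352 103643975 21074030397504557664364920832) 256 384 352 384 128 256))))) = true := by decide +kernel
  have c2 : (band (go 16 Gd mult S140_169_216_364 (Tr.lf 13423380500 95513671 6084523650120428636296183808) 288 320 336 340 128 256)
  (go 16 Gd mult S140_169_216_364 (Tr.lf 13423380500 95513671 7453027677924188862063575040) 288 320 340 344 128 256)) = true := by decide +kernel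
  have c3 : (band (go 16 Gd mult S140_169_216_364 (Tr.lf 13423118370 95513671 9982100492557993095548895232) 288 320 344 352 128 256)
  (band (go 16 Gd mult S169_198_216_364 (Tr.lf 13421912593 103640007 19904963619954869361537187840) 288 320 344 352 128 256)
  (band (go 16 Gd mult S140_169_216_364 (Tr.lf 13423118354 99449927 9858790058957300919728865280) 320 352 344 352 128 256)
  (band (go 16 Gd mult S169_198_216_364 (Tr.lf 13421912593 99576775 19906172545774483990711894016) 320 352 344 352 128 256)
  (band (go 16 Gd mult S169_198_216_364 (Tr.lf 13421912593 103771079 9128598863910064898206334976) 352 384 336 352 128 256)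
  (band (go 16 Gd mult S140_169_216_364 (Tr.lf 13422052370 95386439 6719209705418108953016926208) 352 384 336 352 128 256)
  (go 16 Gd mult S140_169_216_364 (Tr.lf 13423100964 95386695 0) 320 384 320 336 128 256))))))) = true := by decide +kernel
  have c4 : (go 16 Gd mult S140_169_364_512 (Tr.lf 13423118370 99576903 4329163360039987074622816256) 288 320 328 336 128 256) = true := by decide +kernel
  have c5 : (band (go 16 Gd mult S169_198_364_512 (Tr.lf 13422052372 99703751 6360158736992564088129191936) 256 320 328 336 128 256)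
  (band (go 16 Gd mult S169_198_364_512 (Tr.lf 13422052370 99703751 3982201649810588501482143744) 256 320 320 328 128 256)
  (go 16 Gd mult S140_169_364_512 (Tr.lf 13422969874 95382599 2947361148220465927933657088) 256 320 320 328 128 256))) = true := by decide +kernel
  have c6 : (go 16 Gd mult S140_169_364_512 (Tr.lf 13423100946 103640135 5117382994428725296531243008) 256 288 328 336 128 256) = true := by decide +kernel
  have c7 : (band (go 16 Gd mult S169_198_216_364 (Tr.lf 13430432786 103779271 0) 320 384 320 336 128 256)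
  (go 16 Gd mult S169_198_216_364 (Tr.lf 13422043665 103640007 12876268904715415339795480576) 288 320 336 344 128 256)) = true := by decide +kernel
  (And.intro (Ok.lf S140_198_216_364_ok c0)
  (And.intro (Ok.s1 344 (Ok.s3 169 (Ok.s1 340 (Ok.lf S140_169_216_364_ok (bl c2))
  (Ok.lf S140_169_216_364_ok (br c2)))
  (Ok.lf S169_198_216_364_ok (br c7)))
  (Ok.s3 169 (Ok.lf S140_169_216_364_ok (bl c3))
  (Ok.lf S169_198_216_364_ok (bl (br c3)))))
  (And.intro (Ok.s1 336 (Ok.s3 169 (Ok.lf S140_169_216_364_ok (br (br (br (br (br (br c3)))))))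
  (Ok.lf S169_198_216_364_ok (bl c7)))
  (Ok.s0 352 (Ok.s1 344 (Ok.s3 169 (Ok.s3 154 (Ok.lf S140_154_216_364_ok (bl c1))
  (Ok.lf S154_169_216_364_ok (bl (br c1))))
  (Ok.lf S169_198_216_364_ok (bl (br (br c1)))))
  (Ok.s3 169 (Ok.lf S140_169_216_364_ok (bl (br (br c3))))
  (Ok.lf S169_198_216_364_ok (bl (br (br (br c3)))))))
  (Ok.s3 169 (Ok.lf S140_169_216_364_ok (bl (br (br (br (br (br c3)))))))
  (Ok.lf S169_198_216_364_ok (bl (br (br (br (br c3)))))))))
  (And.intro (Ok.s3 169 (Ok.lf S140_169_216_364_ok (br (br (br (br c1)))))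
  (Ok.lf S169_198_216_364_ok (bl (br (br (br c1))))))
  (Ok.s1 328 (Ok.s3 169 (Ok.lf S140_169_364_512_ok (br (br c5)))
  (Ok.lf S169_198_364_512_ok (bl (br c5))))
  (Ok.s3 169 (Ok.s0 288 (Ok.lf S140_169_364_512_ok c6)
  (Ok.lf S140_169_364_512_ok c4))
  (Ok.lf S169_198_364_512_ok (bl c5))))))))

end Vale.Agent.P098.Ck
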