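import Vale.Agent.P098.CkGd
import Vale.Agent.P098.CkOk
import Vale.Agent.P098.Sh.A11
import Vale.Agent.P098.Sh.A18
import Vale.Agent.P098.Sh.A9

namespace Vale.Agent.P098.Ck

theorem r579 :
    Ok Gd mult 256 288 336 352 128 256 140 198 364 512 ∧
    Ok Gd mult 288 320 336 352 128 256 140 198 364 512 ∧
    Ok Gd mult 320 384 320 352 128 256 140 198 364 512 ∧
    Ok Gd mult 256 384 352 384 128 256 140 198 364 512 :=
  have c0 : (band (go 16 Gd mult S140_169_364_512 (Tr.lf 13422069800 99580743 9737897476995838002258247680) 320 384 344 352 128 256)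
  (band (go 16 Gd mult S169_198_364_512 (Tr.lf 13422052370 99707847 12343132618265363873750056960) 320 384 344 352 128 256)
  (band (go 16 Gd mult S140_169_364_512 (Tr.lf 13422069780 99449671 5240693428029417472351272960) 320 352 336 340 128 256)
  (go 16 Gd mult S140_169_364_512 (Tr.lf 9128150036 112430150 7141124816463614534989381632) 288 320 340 344 192 256)))) = true := by decide +kernel
  have c1 : (band (go 16 Gd mult S140_169_364_512 (Tr.lf 9128413204 112430150 6045838023892760502705586176) 288 320 336 340 192 256)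
  (go 16 Gd mult S140_169_364_512 (Tr.lf 13422331924 99449671 7034739344337527167615238144) 320 352 340 344 128 256)) = true := by decide +kernel
  have c2 : (go 16 Gd mult S140_198_364_512 (Tr.lf 13422069794 107961287 10796916494978253159300857856) 256 288 336 352 128 256) = true := by decide +kernel
  have c3 : (band (go 16 Gd mult S140_169_364_512 (Tr.lf 13421921352 95386439 19145796574464555555689070592) 256 384 352 384 128 256)
  (band (go 16 Gd mult S169_198_364_512 (Tr.lf 13421913128 99707847 27721902227051518533247696896) 256 384 352 384 128 256)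
  (band (go 16 Gd mult S140_169_364_512 (Tr.lf 13422969892 103644231 0) 320 384 320 336 128 256)
  (band (go 16 Gd mult S169_198_364_512 (Tr.lf 13422052370 103771079 0) 320 384 320 336 128 256)
  (band (go 16 Gd mult S169_198_364_512 (Tr.lf 13422052372 99707847 8643819610244598599149158400) 320 384 336 344 128 256)
  (band (go 16 Gd mult S169_198_364_512 (Tr.lf 9127084562 112299205 8667998126636891182643281920) 288 320 336 344 192 256)
  (band (go 16 Gd mult S169_198_364_512 (Tr.lf 13421913106 103640007 12340714766626134615400644608) 288 320 344 352 128 256)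
  (go 16 Gd mult S140_169_364_512 (Tr.lf 13421920785 99449671 0) 352 384 336 344 128 256)))))))) = true := by decide +kernel
  have c4 : (band (go 16 Gd mult S140_169_364_512 (Tr.lf 13423101970 103771207 9872088242973061840650633216) 288 320 344 352 128 256)
  (band (go 16 Gd mult S140_169_364_512 (Tr.lf 13423100450 103779526 5326527161222056143755411456) 288 320 336 344 128 192)
  (go 16 Gd mult S169_198_364_512 (Tr.lf 13422043666 103906374 6780864922218455040926941184) 288 320 336 344 128 192))) = true := by decide +kernel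
  (And.intro (Ok.lf S140_198_364_512_ok c2)
  (And.intro (Ok.s1 344 (Ok.s2 192 (Ok.s3 169 (Ok.lf S140_169_364_512_ok (bl (br c4)))
  (Ok.lf S169_198_364_512_ok (br (br c4))))
  (Ok.s3 169 (Ok.s1 340 (Ok.lf S140_169_364_512_ok (bl c1))
  (Ok.lf S140_169_364_512_ok (br (br (br c0)))))
  (Ok.lf S169_198_364_512_ok (bl (br (br (br (br (br c3)))))))))
  (Ok.s3 169 (Ok.lf S140_169_364_512_ok (bl c4))
  (Ok.lf S169_198_364_512_ok (bl (br (br (br (br (br (br c3))))))))))
  (And.intro (Ok.s1 336 (Ok.s3 169 (Ok.lf S140_169_364_512_ok (bl (br (br c3))))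
  (Ok.lf S169_198_364_512_ok (bl (br (br (br c3))))))
  (Ok.s1 344 (Ok.s3 169 (Ok.s0 352 (Ok.s1 340 (Ok.lf S140_169_364_512_ok (bl (br (br c0))))
  (Ok.lf S140_169_364_512_ok (br c1)))
  (Ok.lf S140_169_364_512_ok (br (br (br (br (br (br (br c3)))))))))
  (Ok.lf S169_198_364_512_ok (bl (br (br (br (br c3)))))))
  (Ok.s3 169 (Ok.lf S140_169_364_512_ok (bl c0))
  (Ok.lf S169_198_364_512_ok (bl (br c0))))))
  (Ok.s3 169 (Ok.lf S140_169_364_512_ok (bl c3))
  (Ok.lf S169_198_364_512_ok (bl (br c3)))))))

end Vale.Agent.P098.Ck
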