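import Vale.Agent.P098.CkGd
import Vale.Agent.P098.CkOk
import Vale.Agent.P098.Sh.A10
import Vale.Agent.P098.Sh.A11
import Vale.Agent.P098.Sh.A12
import Vale.Agent.P098.Sh.A17
import Vale.Agent.P098.Sh.A18
import Vale.Agent.P098.Sh.A19
import Vale.Agent.P098.Sh.A28
import Vale.Agent.P098.Sh.A29
import Vale.Agent.P098.Sh.A7

namespace Vale.Agent.P098.Ck

theorem r58 :
    Ok Gd mult 0 128 128 192 0 128 140 169 216 364 ∧
    Ok Gd mult 0 128 128 192 0 128 169 198 216 364 ∧
    Ok Gd mult 0 128 128 192 0 128 140 198 364 512 ∧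
    Ok Gd mult 0 128 128 192 0 128 140 198 512 808 ∧
    Ok Gd mult 0 128 128 192 0 128 198 256 216 808 :=
  have c0 : (band (go 16 Gd mult S198_256_660_808 (Tr.lf 8590230596 99568327 0) 0 128 128 192 0 128)
  (band (go 16 Gd mult S198_256_364_512 (Tr.lf 4295246916 104033349 0) 0 128 128 192 0 128)
  (band (go 16 Gd mult S198_256_216_364 (Tr.lf 9202582594 99711815 0) 0 128 128 192 0 128)
  (band (go 16 Gd mult S169_198_216_364 (Tr.lf 4295115842 108096581 0) 0 128 128 192 0 128)
  (band (go 16 Gd mult S169_198_364_512 (Tr.lf 4295107650 103902277 0) 0 128 128 192 0 128)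
  (go 16 Gd mult S169_198_512_660 (Tr.lf 4295107650 104037317 0) 0 128 128 192 0 128)))))) = true := by decide +kernel
  have c1 : (band (go 16 Gd mult S140_169_660_808 (Tr.lf 4296156226 107965637 0) 0 128 128 192 0 128)
  (band (go 16 Gd mult S169_198_660_808 (Tr.lf 4295107650 107969477 0) 0 128 128 192 0 128)
  (go 16 Gd mult S154_169_364_512 (Tr.lf 4296152130 103902405 0) 0 128 128 192 0 128))) = true := by decide +kernel
  have c2 : (band (go 16 Gd mult S198_256_512_660 (Tr.lf 4295115810 99843013 0) 0 128 128 160 0 128)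
  (band (go 16 Gd mult S147_154_216_364 (Tr.lf 4297200162 99839046 0) 0 128 128 160 0 128)
  (band (go 16 Gd mult S140_169_512_660 (Tr.lf 4296155666 104037445 0) 0 128 128 160 0 128)
  (band (go 16 Gd mult S140_147_216_364 (Tr.lf 4297200146 99843269 0) 0 128 128 160 0 128)
  (band (go 16 Gd mult S140_154_364_512 (Tr.lf 4297138706 95644742 0) 0 128 128 160 0 128)
  (band (go 16 Gd mult S198_256_512_660 (Tr.lf 8590083106 91184070 0) 0 128 160 192 0 128)
  (band (go 16 Gd mult S140_169_512_660 (Tr.lf 4296155682 103910469 0) 0 128 160 192 0 128)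
  (go 16 Gd mult S140_154_216_364 (Tr.lf 4296155682 108235972 0) 0 128 160 192 0 128)))))))) = true := by decide +kernel
  have c3 : (band (go 16 Gd mult S154_169_216_364 (Tr.lf 4296152129 104037445 0) 64 128 128 192 0 128)
  (go 16 Gd mult S154_169_216_364 (Tr.lf 1184321 104045764 0) 0 64 128 192 0 128)) = true := by decide +kernel
  have c4 : (go 16 Gd mult S140_154_364_512 (Tr.lf 4296151586 108235972 0) 0 128 160 192 0 128) = true := by decide +kernel
  (And.intro (Ok.s3 154 (Ok.s1 160 (Ok.s3 147 (Ok.lf S140_147_216_364_ok (bl (br (br (br c2)))))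
  (Ok.lf S147_154_216_364_ok (bl (br c2))))
  (Ok.lf S140_154_216_364_ok (br (br (br (br (br (br (br c2)))))))))
  (Ok.s0 64 (Ok.lf S154_169_216_364_ok (br c3))
  (Ok.lf S154_169_216_364_ok (bl c3))))
  (And.intro (Ok.lf S169_198_216_364_ok (bl (br (br (br c0)))))
  (And.intro (Ok.s3 169 (Ok.s3 154 (Ok.s1 160 (Ok.lf S140_154_364_512_ok (bl (br (br (br (br c2))))))
  (Ok.lf S140_154_364_512_ok c4))
  (Ok.lf S154_169_364_512_ok (br (br c1))))
  (Ok.lf S169_198_364_512_ok (bl (br (br (br (br c0)))))))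
  (And.intro (Ok.s4 660 (Ok.s3 169 (Ok.s1 160 (Ok.lf S140_169_512_660_ok (bl (br (br c2))))
  (Ok.lf S140_169_512_660_ok (bl (br (br (br (br (br (br c2)))))))))
  (Ok.lf S169_198_512_660_ok (br (br (br (br (br c0)))))))
  (Ok.s3 169 (Ok.lf S140_169_660_808_ok (bl c1))
  (Ok.lf S169_198_660_808_ok (bl (br c1)))))
  (Ok.s4 512 (Ok.s4 364 (Ok.lf S198_256_216_364_ok (bl (br (br c0))))
  (Ok.lf S198_256_364_512_ok (bl (br c0))))
  (Ok.s4 660 (Ok.s1 160 (Ok.lf S198_256_512_660_ok (bl c2))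
  (Ok.lf S198_256_512_660_ok (bl (br (br (br (br (br c2))))))))
  (Ok.lf S198_256_660_808_ok (bl c0))))))))

end Vale.Agent.P098.Ck
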