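import Vale.Agent.P098.CkGd
import Vale.Agent.P098.CkOk
import Vale.Agent.P098.Sh.A10
import Vale.Agent.P098.Sh.A11
import Vale.Agent.P098.Sh.A18
import Vale.Agent.P098.Sh.A19

namespace Vale.Agent.P098.Ck

theorem r580 :
    Ok Gd mult 256 320 320 336 128 256 140 198 512 660 ∧
    Ok Gd mult 256 320 336 352 128 256 140 198 512 660 ∧
    Ok Gd mult 320 384 320 352 128 256 140 198 512 660 :=
  have c0 : (band (go 16 Gd mult S140_169_512_660 (Tr.lf 9127364648 108235845 7328508318503882057068838912) 288 320 340 344 128 256)
  (go 16 Gd mult S169_198_512_660 (Tr.lf 13422331924 103775047 7362358241453091673960611840) 288 320 340 344 128 256)) = true := by decide +kernel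
  have c1 : (band (go 16 Gd mult S140_169_512_660 (Tr.lf 9127364632 112303173 7057708934910205121934655488) 320 384 340 344 128 256)
  (go 16 Gd mult S169_198_586_660 (Tr.lf 13422069784 99711815 7048037528353288088537006080) 320 384 340 344 128 256)) = true := by decide +kernel
  have c2 : (go 16 Gd mult S140_198_512_660 (Tr.lf 13422331940 99707719 5066608110004910871193583616) 256 288 328 336 128 256) = true := by decide +kernel
  have c3 : (band (go 16 Gd mult S169_198_512_660 (Tr.lf 13422331940 99584839 9751195661011598923180015616) 320 384 344 352 128 256)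
  (band (go 16 Gd mult S140_169_512_660 (Tr.lf 13422069796 103643975 9737897476995838002258247680) 320 384 344 352 128 256)
  (go 16 Gd mult S169_198_512_660 (Tr.lf 13422331924 103775047 5926154367750912214409674752) 288 320 336 340 128 256))) = true := by decide +kernel
  have c4 : (go 16 Gd mult S140_169_512_660 (Tr.lf 9127364628 108235845 5863290225130951497324953600) 288 320 336 340 128 256) = true := by decide +kernel
  have c5 : (band (go 16 Gd mult S140_169_512_660 (Tr.lf 9127102488 112303173 5226186318194041922254798848) 320 384 336 340 128 256)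
  (go 16 Gd mult S169_198_586_660 (Tr.lf 13422069780 99711815 5299930793190534301911875584) 320 384 336 340 128 256)) = true := by decide +kernel
  have c6 : (band (go 16 Gd mult S140_198_512_660 (Tr.lf 13422069796 99711815 0) 320 384 320 336 128 256)
  (go 16 Gd mult S140_198_512_660 (Tr.lf 13422068770 103902023 11041119510540408252591505408) 256 288 336 352 128 256)) = true := by decide +kernel
  have c7 : (go 16 Gd mult S169_198_512_586 (Tr.lf 13422069796 99576775 7107274893514404918097608704) 320 384 336 344 128 256) = true := by decide +kernel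
  have c8 : (band (go 16 Gd mult S169_198_512_660 (Tr.lf 13422315554 99580743 4401698909216864825105186816) 288 320 328 336 128 256)
  (band (go 16 Gd mult S140_169_512_660 (Tr.lf 9128134674 108235846 4323118730941913928749285376) 288 320 328 336 128 256)
  (band (go 16 Gd mult S140_169_512_660 (Tr.lf 9127086114 108235845 9852745429859227773855334400) 288 320 344 352 128 256)
  (go 16 Gd mult S169_198_512_660 (Tr.lf 13422053412 103775047 9852745429859227773855334400) 288 320 344 352 128 256)))) = true := by decide +kernel
  have c9 : (band (go 16 Gd mult S140_198_512_660 (Tr.lf 13422052370 99576647 2955823628957768332156600320) 256 288 320 328 128 256)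
  (go 16 Gd mult S140_198_512_660 (Tr.lf 13422052369 107965255 1443457428619867234599174144) 288 320 320 328 128 256)) = true := by decide +kernel
  (And.intro (Ok.s0 288 (Ok.s1 328 (Ok.lf S140_198_512_660_ok (bl c9))
  (Ok.lf S140_198_512_660_ok c2))
  (Ok.s1 328 (Ok.lf S140_198_512_660_ok (br c9))
  (Ok.s3 169 (Ok.lf S140_169_512_660_ok (bl (br c8)))
  (Ok.lf S169_198_512_660_ok (bl c8)))))
  (And.intro (Ok.s0 288 (Ok.lf S140_198_512_660_ok (br c6))
  (Ok.s1 344 (Ok.s1 340 (Ok.s3 169 (Ok.lf S140_169_512_660_ok c4)
  (Ok.lf S169_198_512_660_ok (br (br c3))))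
  (Ok.s3 169 (Ok.lf S140_169_512_660_ok (bl c0))
  (Ok.lf S169_198_512_660_ok (br c0))))
  (Ok.s3 169 (Ok.lf S140_169_512_660_ok (bl (br (br c8))))
  (Ok.lf S169_198_512_660_ok (br (br (br c8)))))))
  (Ok.s1 336 (Ok.lf S140_198_512_660_ok (bl c6))
  (Ok.s1 344 (Ok.s3 169 (Ok.s1 340 (Ok.lf S140_169_512_660_ok (bl c5))
  (Ok.lf S140_169_512_660_ok (bl c1)))
  (Ok.s4 586 (Ok.lf S169_198_512_586_ok c7)
  (Ok.s1 340 (Ok.lf S169_198_586_660_ok (br c5))
  (Ok.lf S169_198_586_660_ok (br c1)))))
  (Ok.s3 169 (Ok.lf S140_169_512_660_ok (bl (br c3)))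
  (Ok.lf S169_198_512_660_ok (bl c3)))))))

end Vale.Agent.P098.Ck
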