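import Vale.Agent.P098.CkGd
import Vale.Agent.P098.CkOk
import Vale.Agent.P098.Sh.A10
import Vale.Agent.P098.Sh.A11
import Vale.Agent.P098.Sh.A13
import Vale.Agent.P098.Sh.A19
import Vale.Agent.P098.Sh.A8

namespace Vale.Agent.P098.Ck

theorem r581 :
    Ok Gd mult 256 384 352 384 128 256 140 198 512 660 ∧
    Ok Gd mult 256 384 320 384 128 256 140 198 660 808 :=
  have c0 : (band (go 16 Gd mult S169_198_660_808 (Tr.lf 13497829416 99978055 6942861849259118328716133009) 256 320 340 344 128 256)
  (go 16 Gd mult S169_198_660_808 (Tr.lf 13430720532 99715911 5494567850148489599039569920) 288 320 336 340 128 256)) = true := by decide +kernel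
  have c1 : (go 16 Gd mult S169_198_660_808 (Tr.lf 13422331928 103775047 6945278833686044608686981120) 320 384 340 344 128 256) = true := by decide +kernel
  have c2 : (band (go 16 Gd mult S169_198_660_808 (Tr.lf 13422315560 103775047 9405442876601814979214049280) 256 384 344 352 128 256)
  (band (go 16 Gd mult S140_169_660_808 (Tr.lf 9127086104 108366917 9110464976615845460585742336) 256 384 344 352 128 256)
  (go 16 Gd mult S169_198_660_808 (Tr.lf 13422315544 103775047 5208052430899822484634206208) 320 384 336 340 128 256))) = true := by decide +kernel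
  have c3 : (band (go 16 Gd mult S140_198_512_660 (Tr.lf 13422068808 108100423 18919719403737652755976160326) 256 384 352 384 128 256)
  (band (go 16 Gd mult S140_198_660_808 (Tr.lf 13422068804 104033095 17985230997702659897545983064) 256 384 352 384 128 256)
  (band (go 16 Gd mult S140_198_660_808 (Tr.lf 13430457364 107846471 0) 320 384 328 336 128 256)
  (go 16 Gd mult S140_198_660_808 (Tr.lf 13497566228 103914311 2173648623667103256121704448) 256 384 320 328 128 256)))) = true := by decide +kernel
  have c4 : (band (go 16 Gd mult S140_154_660_808 (Tr.lf 9128134696 108235846 5436554408009919324519137280) 256 384 336 344 128 256)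
  (go 16 Gd mult S154_169_734_808 (Tr.lf 9127077928 108366917 5466769492273124842812735488) 256 384 336 344 128 256)) = true := by decide +kernel
  have c5 : (band (go 16 Gd mult S154_169_660_734 (Tr.lf 9127086104 104041541 5055731522317426171660206080) 256 320 336 340 128 256)
  (go 16 Gd mult S154_169_660_734 (Tr.lf 9127086104 108108869 6699866892304274886221627392) 256 384 340 344 128 256)) = true := by decide +kernel
  have c6 : (band (go 16 Gd mult S140_169_660_808 (Tr.lf 4295247908 112303300 3785146741213403946005037056) 256 320 328 336 128 256)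
  (go 16 Gd mult S169_198_660_808 (Tr.lf 13497550868 108235591 3884278658421803538330943488) 256 320 328 336 128 256)) = true := by decide +kernel
  have c7 : (go 16 Gd mult S154_169_660_734 (Tr.lf 9126946836 108366917 5059354555087223096145346560) 320 384 336 340 128 256) = true := by decide +kernel
  have c8 : (go 16 Gd mult S169_198_660_808 (Tr.lf 13430432786 107842375 10807807526466347573413150720) 256 288 336 340 128 256) = true := by decide +kernel
  (And.intro (Ok.lf S140_198_512_660_ok (bl c3))
  (Ok.s1 352 (Ok.s1 336 (Ok.s1 328 (Ok.lf S140_198_660_808_ok (br (br (br c3))))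
  (Ok.s0 320 (Ok.s3 169 (Ok.lf S140_169_660_808_ok (bl c6))
  (Ok.lf S169_198_660_808_ok (br c6)))
  (Ok.lf S140_198_660_808_ok (bl (br (br c3))))))
  (Ok.s1 344 (Ok.s3 169 (Ok.s3 154 (Ok.lf S140_154_660_808_ok (bl c4))
  (Ok.s4 734 (Ok.s1 340 (Ok.s0 320 (Ok.lf S154_169_660_734_ok (bl c5))
  (Ok.lf S154_169_660_734_ok c7))
  (Ok.lf S154_169_660_734_ok (br c5)))
  (Ok.lf S154_169_734_808_ok (br c4))))
  (Ok.s1 340 (Ok.s0 320 (Ok.s0 288 (Ok.lf S169_198_660_808_ok c8)
  (Ok.lf S169_198_660_808_ok (br c0)))
  (Ok.lf S169_198_660_808_ok (br (br c2))))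
  (Ok.s0 320 (Ok.lf S169_198_660_808_ok (bl c0))
  (Ok.lf S169_198_660_808_ok c1))))
  (Ok.s3 169 (Ok.lf S140_169_660_808_ok (bl (br c2)))
  (Ok.lf S169_198_660_808_ok (bl c2)))))
  (Ok.lf S140_198_660_808_ok (bl (br c3)))))

end Vale.Agent.P098.Ck
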