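import Vale.Agent.P098.CkGd
import Vale.Agent.P098.CkOk
import Vale.Agent.P098.Sh.A25
import Vale.Agent.P098.Sh.A26
import Vale.Agent.P098.Sh.A28
import Vale.Agent.P098.Sh.A36
import Vale.Agent.P098.Sh.A37

namespace Vale.Agent.P098.Ck

theorem r582 :
    Ok Gd mult 256 384 320 384 128 256 198 256 216 364 ∧
    Ok Gd mult 256 384 320 384 128 256 198 256 364 512 :=
  have c0 : (band (go 16 Gd mult S227_256_364_512 (Tr.lf 13422331944 99707847 8443137924188570156147933184) 256 320 336 344 128 256)
  (band (go 16 Gd mult S198_227_364_512 (Tr.lf 13422051858 103771079 11136624650289963957393293312) 256 320 336 344 128 256)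
  (band (go 16 Gd mult S198_227_364_512 (Tr.lf 13422051860 99576775 7382909980386540369930616832) 256 320 328 336 128 256)
  (go 16 Gd mult S227_256_364_438 (Tr.lf 13421847058 103906119 8509628844267374760756772864) 256 320 328 336 128 256)))) = true := by decide +kernel
  have c1 : (go 16 Gd mult S198_256_216_364 (Tr.lf 13422069832 103906247 60789641796897395747686976603) 256 384 352 384 128 256) = true := by decide +kernel
  have c2 : (go 16 Gd mult S198_256_364_512 (Tr.lf 13430720548 103906247 3621941755565429007419703296) 256 320 320 328 128 256) = true := by decide +kernel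
  have c3 : (band (go 16 Gd mult S227_256_364_512 (Tr.lf 13422331940 104033223 7687559286929426921956573184) 320 384 336 344 128 256)
  (band (go 16 Gd mult S198_227_364_512 (Tr.lf 13422052370 99838919 10309719389673557601894268928) 320 384 336 344 128 256)
  (band (go 16 Gd mult S198_227_364_512 (Tr.lf 13430440978 108104647 0) 320 384 320 336 128 256)
  (band (go 16 Gd mult S227_256_364_512 (Tr.lf 13430703140 108104647 0) 320 384 320 336 128 256)
  (go 16 Gd mult S227_256_364_512 (Tr.lf 13422314516 104033223 11062880175293471577736216576) 320 384 344 352 128 256))))) = true := by decide +kernel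
  have c4 : (band (go 16 Gd mult S227_256_216_364 (Tr.lf 17725670472 91060937 12335879063347676098701819904) 256 384 320 352 128 256)
  (go 16 Gd mult S198_227_216_364 (Tr.lf 13430441032 99720135 12854508239962352014650769408) 256 384 320 352 128 256)) = true := by decide +kernel
  have c5 : (go 16 Gd mult S198_256_364_512 (Tr.lf 13422068808 104033223 24867619993075472988312440179) 256 384 352 384 128 256) = true := by decide +kernel
  have c6 : (go 16 Gd mult S227_256_438_512 (Tr.lf 13422053416 108100423 5788336824314844488493170688) 256 320 328 336 128 256) = true := by decide +kernel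
  have c7 : (band (go 16 Gd mult S227_256_364_512 (Tr.lf 13422052372 99707847 11097939024062295823802695680) 256 320 344 352 128 256)
  (go 16 Gd mult S198_227_364_512 (Tr.lf 13421912594 99576775 16256425496357918512273948672) 256 320 344 352 128 256)) = true := by decide +kernel
  have c8 : (go 16 Gd mult S198_227_364_512 (Tr.lf 13422043666 103902151 16258843347997147770623361024) 320 384 344 352 128 256) = true := by decide +kernel
  (And.intro (Ok.s1 352 (Ok.s3 227 (Ok.lf S198_227_216_364_ok (br c4))
  (Ok.lf S227_256_216_364_ok (bl c4)))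
  (Ok.lf S198_256_216_364_ok c1))
  (Ok.s1 352 (Ok.s0 320 (Ok.s1 336 (Ok.s1 328 (Ok.lf S198_256_364_512_ok c2)
  (Ok.s3 227 (Ok.lf S198_227_364_512_ok (bl (br (br c0))))
  (Ok.s4 438 (Ok.lf S227_256_364_438_ok (br (br (br c0))))
  (Ok.lf S227_256_438_512_ok c6))))
  (Ok.s1 344 (Ok.s3 227 (Ok.lf S198_227_364_512_ok (bl (br c0)))
  (Ok.lf S227_256_364_512_ok (bl c0)))
  (Ok.s3 227 (Ok.lf S198_227_364_512_ok (br c7))
  (Ok.lf S227_256_364_512_ok (bl c7)))))
  (Ok.s1 336 (Ok.s3 227 (Ok.lf S198_227_364_512_ok (bl (br (br c3))))
  (Ok.lf S227_256_364_512_ok (bl (br (br (br c3))))))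
  (Ok.s1 344 (Ok.s3 227 (Ok.lf S198_227_364_512_ok (bl (br c3)))
  (Ok.lf S227_256_364_512_ok (bl c3)))
  (Ok.s3 227 (Ok.lf S198_227_364_512_ok c8)
  (Ok.lf S227_256_364_512_ok (br (br (br (br c3)))))))))
  (Ok.lf S198_256_364_512_ok c5)))

end Vale.Agent.P098.Ck
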