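import Vale.Agent.P098.CkGd
import Vale.Agent.P098.CkOk
import Vale.Agent.P098.Sh.A27
import Vale.Agent.P098.Sh.A29
import Vale.Agent.P098.Sh.A37

namespace Vale.Agent.P098.Ck

theorem r583 :
    Ok Gd mult 256 320 320 336 128 256 198 256 512 660 ∧
    Ok Gd mult 256 320 336 352 128 256 198 256 512 660 ∧
    Ok Gd mult 320 384 320 336 128 256 198 256 512 660 ∧
    Ok Gd mult 320 352 336 344 128 256 198 227 512 660 :=
  have c0 : (band (go 16 Gd mult S227_256_512_660 (Tr.lf 9202862120 112172102 6024098757468658886816303794) 288 320 336 340 192 256)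
  (go 16 Gd mult S227_256_512_660 (Tr.lf 9202862100 108108870 7152021031486793661485678592) 288 320 340 344 192 256)) = true := by decide +kernel
  have c1 : (band (go 16 Gd mult S198_256_512_660 (Tr.lf 13497829396 108108615 2886914857239734469198348288) 256 320 320 328 128 256)
  (go 16 Gd mult S198_256_512_660 (Tr.lf 13497829410 108108615 10955307710526473221844238336) 256 288 336 352 128 256)) = true := by decide +kernel
  have c2 : (band (go 16 Gd mult S198_227_512_660 (Tr.lf 13422331924 103906119 5179038211229071384441257984) 320 352 336 340 128 256)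
  (go 16 Gd mult S198_227_512_660 (Tr.lf 9127363604 108371013 7160467629577448601784680448) 288 320 340 344 192 256)) = true := by decide +kernel
  have c3 : (band (go 16 Gd mult S227_256_512_660 (Tr.lf 13422331938 103775302 4381147170283416129135181824) 288 320 328 336 128 256)
  (band (go 16 Gd mult S198_227_512_660 (Tr.lf 13422315554 103775047 4319491953483070041225166848) 288 320 328 336 128 256)
  (band (go 16 Gd mult S198_227_512_660 (Tr.lf 13430703140 108108615 0) 320 384 320 336 128 256)
  (band (go 16 Gd mult S227_256_512_660 (Tr.lf 13430703138 108108870 0) 320 384 320 336 128 256)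
  (go 16 Gd mult S198_227_512_660 (Tr.lf 13422315538 99711815 9808015174533486494391205888) 288 320 344 352 128 256))))) = true := by decide +kernel
  have c4 : (band (go 16 Gd mult S227_256_512_660 (Tr.lf 13497813028 99724103 9875721957270975318587280271) 288 320 344 352 128 256)
  (band (go 16 Gd mult S227_256_512_660 (Tr.lf 13497811986 108108615 5041220667793003658524753920) 256 288 328 336 128 256)
  (band (go 16 Gd mult S198_227_512_660 (Tr.lf 13430703122 107846471 5056936703447993837795934208) 256 288 328 336 128 256)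
  (band (go 16 Gd mult S227_256_512_660 (Tr.lf 13422314002 107969606 4742615990348190252372328448) 288 320 336 340 128 192)
  (band (go 16 Gd mult S198_227_512_660 (Tr.lf 13422314002 107969606 6067598688645823827850297344) 288 320 340 344 128 192)
  (go 16 Gd mult S227_256_512_660 (Tr.lf 13422314002 107969606 5874170557507483159897309184) 288 320 340 344 128 192)))))) = true := by decide +kernel
  have c5 : (band (go 16 Gd mult S198_227_586_660 (Tr.lf 13430458388 107846471 5784710046856000600969052160) 288 320 336 340 128 256)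
  (band (go 16 Gd mult S198_227_512_586 (Tr.lf 13422053396 107969351 6267071448882237641676816384) 288 320 336 340 128 256)
  (band (go 16 Gd mult S198_227_586_660 (Tr.lf 13422069780 107969351 7011769753764849213295820800) 320 352 340 344 128 256)
  (go 16 Gd mult S198_227_512_586 (Tr.lf 13422069778 103906119 7838675014381255568794845184) 320 352 340 344 128 256)))) = true := by decide +kernel
  (And.intro (Ok.s1 328 (Ok.lf S198_256_512_660_ok (bl c1))
  (Ok.s3 227 (Ok.s0 288 (Ok.lf S198_227_512_660_ok (bl (br (br c4))))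
  (Ok.lf S198_227_512_660_ok (bl (br c3))))
  (Ok.s0 288 (Ok.lf S227_256_512_660_ok (bl (br c4)))
  (Ok.lf S227_256_512_660_ok (bl c3)))))
  (And.intro (Ok.s0 288 (Ok.lf S198_256_512_660_ok (br c1))
  (Ok.s1 344 (Ok.s1 340 (Ok.s3 227 (Ok.s4 586 (Ok.lf S198_227_512_586_ok (bl (br c5)))
  (Ok.lf S198_227_586_660_ok (bl c5)))
  (Ok.s2 192 (Ok.lf S227_256_512_660_ok (bl (br (br (br c4)))))
  (Ok.lf S227_256_512_660_ok (bl c0))))
  (Ok.s3 227 (Ok.s2 192 (Ok.lf S198_227_512_660_ok (bl (br (br (br (br c4))))))
  (Ok.lf S198_227_512_660_ok (br c2)))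
  (Ok.s2 192 (Ok.lf S227_256_512_660_ok (br (br (br (br (br c4))))))
  (Ok.lf S227_256_512_660_ok (br c0)))))
  (Ok.s3 227 (Ok.lf S198_227_512_660_ok (br (br (br (br c3)))))
  (Ok.lf S227_256_512_660_ok (bl c4)))))
  (And.intro (Ok.s3 227 (Ok.lf S198_227_512_660_ok (bl (br (br c3))))
  (Ok.lf S227_256_512_660_ok (bl (br (br (br c3))))))
  (Ok.s1 340 (Ok.lf S198_227_512_660_ok (bl c2))
  (Ok.s4 586 (Ok.lf S198_227_512_586_ok (br (br (br c5))))
  (Ok.lf S198_227_586_660_ok (bl (br (br c5)))))))))

end Vale.Agent.P098.Ck
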