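import Vale.Agent.P098.CkGd
import Vale.Agent.P098.CkOk
import Vale.Agent.P098.Sh.A27
import Vale.Agent.P098.Sh.A29
import Vale.Agent.P098.Sh.A37
import Vale.Agent.P098.Sh.A38

namespace Vale.Agent.P098.Ck

theorem r584 :
    Ok Gd mult 320 352 336 344 128 256 227 256 512 660 ∧
    Ok Gd mult 352 384 336 344 128 256 198 256 512 660 ∧
    Ok Gd mult 320 384 344 352 128 256 198 256 512 660 ∧
    Ok Gd mult 256 384 352 384 128 256 198 256 512 660 ∧
    Ok Gd mult 256 384 320 336 128 256 198 256 660 808 ∧
    Ok Gd mult 256 384 336 344 128 256 198 227 660 808 :=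
  have c0 : (go 16 Gd mult S198_227_512_660 (Tr.lf 13422331944 103779143 9781418806501964652547670016) 320 384 344 352 128 256) = true := by decide +kernel
  have c1 : (band (go 16 Gd mult S227_256_512_660 (Tr.lf 13422331944 103779398 9772956325764662248324726784) 320 384 344 352 128 256)
  (go 16 Gd mult S227_256_512_660 (Tr.lf 9135753249 108362822 5908020480456692776789082112) 328 336 336 344 192 256)) = true := by decide +kernel
  have c2 : (band (go 16 Gd mult S227_256_512_660 (Tr.lf 9202862148 108108870 6707120447221962661269864448) 320 328 340 344 192 256)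
  (go 16 Gd mult S227_256_512_660 (Tr.lf 9202862097 108108870 3837130551456833000517402624) 320 328 336 340 192 256)) = true := by decide +kernel
  have c3 : (band (go 16 Gd mult S198_227_660_734 (Tr.lf 13430458408 99715911 6850995624710675498293788672) 256 320 340 344 128 256)
  (band (go 16 Gd mult S198_227_660_734 (Tr.lf 13430458392 103783239 6854609397214947420584017920) 320 384 340 344 128 256)
  (go 16 Gd mult S198_227_660_734 (Tr.lf 13497567252 99978055 5417196597693153331858374656) 288 320 336 340 128 256))) = true := by decide +kernel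
  have c4 : (go 16 Gd mult S198_227_660_808 (Tr.lf 13497813060 108235591 3403126182215181126797885440) 256 320 320 336 128 256) = true := by decide +kernel
  have c5 : (go 16 Gd mult S227_256_660_808 (Tr.lf 8590476328 108109124 2073307780639089034621091840) 256 384 320 336 128 256) = true := by decide +kernel
  have c6 : (band (go 16 Gd mult S198_227_512_660 (Tr.lf 13422052424 107973447 18926966889355091287260266496) 256 384 352 384 128 256)
  (go 16 Gd mult S227_256_512_660 (Tr.lf 13422052424 107973447 18855640265997828165952602112) 256 384 352 384 128 256)) = true := by decide +kernel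
  have c7 : (go 16 Gd mult S198_227_660_734 (Tr.lf 13430458388 103783239 5156068620656393430121840640) 320 384 336 340 128 256) = true := by decide +kernel
  have c8 : (band (go 16 Gd mult S198_227_734_808 (Tr.lf 13497550872 108108615 4389631049371635625809543604) 256 384 336 340 128 256)
  (go 16 Gd mult S198_227_734_808 (Tr.lf 13497550872 99851079 5899574768201854000087237672) 256 384 340 344 128 256)) = true := by decide +kernel
  have c9 : (go 16 Gd mult S198_227_660_808 (Tr.lf 13430440996 99588935 0) 320 384 320 336 128 256) = true := by decide +kernel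
  have c10 : (go 16 Gd mult S198_256_512_660 (Tr.lf 13422068754 103906119 0) 352 384 336 344 128 256) = true := by decide +kernel
  have c11 : (band (go 16 Gd mult S227_256_512_660 (Tr.lf 13422314002 103906374 0) 320 352 336 344 128 192)
  (go 16 Gd mult S227_256_512_660 (Tr.lf 9127346705 112307269 5211679208358666372158324736) 336 352 336 344 192 256)) = true := by decide +kernel
  have c12 : (go 16 Gd mult S198_227_660_734 (Tr.lf 13497410578 108104519 10788473641576645182040834048) 256 288 336 340 128 256) = true := by decide +kernel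
  (And.intro (Ok.s2 192 (Ok.lf S227_256_512_660_ok (bl c11))
  (Ok.s0 336 (Ok.s0 328 (Ok.s1 340 (Ok.lf S227_256_512_660_ok (br c2))
  (Ok.lf S227_256_512_660_ok (bl c2)))
  (Ok.lf S227_256_512_660_ok (br c1)))
  (Ok.lf S227_256_512_660_ok (br c11))))
  (And.intro (Ok.lf S198_256_512_660_ok c10)
  (And.intro (Ok.s3 227 (Ok.lf S198_227_512_660_ok c0)
  (Ok.lf S227_256_512_660_ok (bl c1)))
  (And.intro (Ok.s3 227 (Ok.lf S198_227_512_660_ok (bl c6))
  (Ok.lf S227_256_512_660_ok (br c6)))
  (And.intro (Ok.s3 227 (Ok.s0 320 (Ok.lf S198_227_660_808_ok c4)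
  (Ok.lf S198_227_660_808_ok c9))
  (Ok.lf S227_256_660_808_ok c5))
  (Ok.s1 340 (Ok.s4 734 (Ok.s0 320 (Ok.s0 288 (Ok.lf S198_227_660_734_ok c12)
  (Ok.lf S198_227_660_734_ok (br (br c3))))
  (Ok.lf S198_227_660_734_ok c7))
  (Ok.lf S198_227_734_808_ok (bl c8)))
  (Ok.s4 734 (Ok.s0 320 (Ok.lf S198_227_660_734_ok (bl c3))
  (Ok.lf S198_227_660_734_ok (bl (br c3))))
  (Ok.lf S198_227_734_808_ok (br c8)))))))))

end Vale.Agent.P098.Ck
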