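import Vale.Agent.P098.CkGd
import Vale.Agent.P098.CkOk
import Vale.Agent.P098.Sh.A27
import Vale.Agent.P098.Sh.A38
import Vale.Agent.P098.Sh.A41
import Vale.Agent.P098.Sh.A43
import Vale.Agent.P098.Sh.A45

namespace Vale.Agent.P098.Ck

theorem r585 :
    Ok Gd mult 256 384 336 344 128 256 227 256 660 808 ∧
    Ok Gd mult 256 384 344 352 128 256 198 256 660 808 ∧
    Ok Gd mult 256 384 352 384 128 256 198 256 660 808 ∧
    Ok Gd mult 256 384 320 384 128 256 256 314 216 364 ∧
    Ok Gd mult 256 320 320 336 128 256 256 314 364 512 :=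
  have c0 : (go 16 Gd mult S227_256_660_808 (Tr.lf 8590493736 108109124 5071468956366962730503047326) 256 384 336 344 128 256) = true := by decide +kernel
  have c1 : (go 16 Gd mult S198_227_660_808 (Tr.lf 13497829416 104045383 9349844961940512265011069101) 256 384 344 352 128 256) = true := by decide +kernel
  have c2 : (go 16 Gd mult S227_256_660_808 (Tr.lf 13497829400 99851334 7916066447574608474225508352) 256 384 344 352 128 256) = true := by decide +kernel
  have c3 : (band (go 16 Gd mult S256_314_216_364 (Tr.lf 17725686820 103775048 0) 320 384 320 336 128 256)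
  (band (go 16 Gd mult S256_314_216_364 (Tr.lf 13422330914 108100423 6791745254594986703499296768) 256 288 328 336 128 256)
  (band (go 16 Gd mult S256_285_364_512 (Tr.lf 13422315556 103906119 5733935162432186175631392768) 256 288 328 336 128 256)
  (go 16 Gd mult S285_314_364_512 (Tr.lf 13422314514 103902278 5193545321064446934537732096) 256 288 328 336 128 256)))) = true := by decide +kernel
  have c4 : (band (go 16 Gd mult S256_314_216_364 (Tr.lf 13422068776 104033223 30671672501878805416851932218) 256 384 352 384 128 256)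
  (band (go 16 Gd mult S198_227_660_808 (Tr.lf 13430441028 107977543 17889723865370064707999760384) 256 384 352 384 128 256)
  (band (go 16 Gd mult S227_256_660_808 (Tr.lf 13430441028 104041287 16642137783800868750336458752) 256 384 352 384 128 256)
  (go 16 Gd mult S256_314_216_364 (Tr.lf 13430457362 107977543 4240911775208119144869265408) 256 288 320 328 128 256)))) = true := by decide +kernel
  have c5 : (band (go 16 Gd mult S256_285_364_512 (Tr.lf 13422315556 108100678 4317074101843840782875754496) 288 320 328 336 128 256)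
  (band (go 16 Gd mult S285_314_364_512 (Tr.lf 13422315554 104033350 4325536582581143187098697728) 288 320 328 336 128 256)
  (band (go 16 Gd mult S256_285_364_512 (Tr.lf 13430703124 103914566 3114192911327284754043109376) 256 320 320 328 128 256)
  (go 16 Gd mult S285_314_364_512 (Tr.lf 13422052370 108096582 2934062964204705007011889152) 256 320 320 328 128 256)))) = true := by decide +kernel
  have c6 : (band (go 16 Gd mult S285_314_216_364 (Tr.lf 13422314532 108231750 10449954784748854586160185344) 320 384 336 352 128 256)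
  (band (go 16 Gd mult S256_285_216_364 (Tr.lf 13422052370 104033478 12045736866640165096772337664) 320 384 336 352 128 256)
  (band (go 16 Gd mult S285_314_216_364 (Tr.lf 13422314530 107969606 5297512941551305043562463232) 288 320 320 336 128 256)
  (band (go 16 Gd mult S256_285_216_364 (Tr.lf 17725400098 95386185 6865489729591479083156373504) 288 320 320 336 128 256)
  (band (go 16 Gd mult S256_285_216_364 (Tr.lf 13422044178 99707847 13166411101422926341724962816) 256 320 336 352 128 256)
  (go 16 Gd mult S285_314_216_364 (Tr.lf 13422052388 103906119 10521281408106117707467849728) 256 320 336 352 128 256)))))) = true := by decide +kernel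
  (And.intro (Ok.lf S227_256_660_808_ok c0)
  (And.intro (Ok.s3 227 (Ok.lf S198_227_660_808_ok c1)
  (Ok.lf S227_256_660_808_ok c2))
  (And.intro (Ok.s3 227 (Ok.lf S198_227_660_808_ok (bl (br c4)))
  (Ok.lf S227_256_660_808_ok (bl (br (br c4)))))
  (And.intro (Ok.s1 352 (Ok.s0 320 (Ok.s1 336 (Ok.s0 288 (Ok.s1 328 (Ok.lf S256_314_216_364_ok (br (br (br c4))))
  (Ok.lf S256_314_216_364_ok (bl (br c3))))
  (Ok.s3 285 (Ok.lf S256_285_216_364_ok (bl (br (br (br c6)))))
  (Ok.lf S285_314_216_364_ok (bl (br (br c6))))))
  (Ok.s3 285 (Ok.lf S256_285_216_364_ok (bl (br (br (br (br c6))))))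
  (Ok.lf S285_314_216_364_ok (br (br (br (br (br c6))))))))
  (Ok.s1 336 (Ok.lf S256_314_216_364_ok (bl c3))
  (Ok.s3 285 (Ok.lf S256_285_216_364_ok (bl (br c6)))
  (Ok.lf S285_314_216_364_ok (bl c6)))))
  (Ok.lf S256_314_216_364_ok (bl c4)))
  (Ok.s1 328 (Ok.s3 285 (Ok.lf S256_285_364_512_ok (bl (br (br c5))))
  (Ok.lf S285_314_364_512_ok (br (br (br c5)))))
  (Ok.s0 288 (Ok.s3 285 (Ok.lf S256_285_364_512_ok (bl (br (br c3))))
  (Ok.lf S285_314_364_512_ok (br (br (br c3)))))
  (Ok.s3 285 (Ok.lf S256_285_364_512_ok (bl c5))
  (Ok.lf S285_314_364_512_ok (bl (br c5))))))))))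

end Vale.Agent.P098.Ck
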