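import Vale.Agent.P098.CkGd
import Vale.Agent.P098.CkOk
import Vale.Agent.P098.Sh.A41
import Vale.Agent.P098.Sh.A43
import Vale.Agent.P098.Sh.A45
import Vale.Agent.P098.Sh.A46

namespace Vale.Agent.P098.Ck

theorem r586 :
    Ok Gd mult 256 288 336 352 128 256 256 314 364 512 ∧
    Ok Gd mult 288 320 336 352 128 256 256 314 364 512 ∧
    Ok Gd mult 320 384 320 336 128 256 256 314 364 512 ∧
    Ok Gd mult 320 384 336 344 128 256 256 314 364 512 :=
  have c0 : (go 16 Gd mult S256_314_364_512 (Tr.lf 13422331972 103906119 11083431914226920273706221568) 256 288 336 352 128 256) = true := by decide +kernel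
  have c1 : (band (go 16 Gd mult S285_314_364_512 (Tr.lf 13422331928 108100678 5113756216969881409007124480) 320 384 336 340 128 256)
  (band (go 16 Gd mult S256_285_438_512 (Tr.lf 13422069784 104037446 5193545321064446934537732096) 320 384 336 340 128 256)
  (go 16 Gd mult S256_285_364_438 (Tr.lf 13422052372 103910470 7993417519291928103157235712) 320 384 336 340 128 256))) = true := by decide +kernel
  have c2 : (band (go 16 Gd mult S256_285_438_512 (Tr.lf 13422331928 104037446 7025067937780610134217588736) 320 384 340 344 128 256)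
  (go 16 Gd mult S285_314_438_512 (Tr.lf 13422331928 107969606 7029903641059068650916413440) 320 384 340 344 128 256)) = true := by decide +kernel
  have c3 : (band (go 16 Gd mult S256_285_438_512 (Tr.lf 13422331924 99712070 7340597576700028348815900672) 288 320 340 344 128 256)
  (band (go 16 Gd mult S256_285_364_438 (Tr.lf 13421912594 108100678 10042546783538724554284204032) 288 320 340 344 128 256)
  (band (go 16 Gd mult S256_285_364_438 (Tr.lf 13421913106 108100678 7827794682004723906222489600) 288 320 336 340 128 256)
  (band (go 16 Gd mult S256_285_438_512 (Tr.lf 13422069780 107969606 5891095518982087968343195648) 288 320 336 340 128 256)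
  (go 16 Gd mult S285_314_438_512 (Tr.lf 13422069780 103902278 5828231376362127251258474496) 288 320 336 340 128 256))))) = true := by decide +kernel
  have c4 : (go 16 Gd mult S285_314_364_512 (Tr.lf 13422330900 103775302 7199153255805116735375278080) 288 320 340 344 192 256) = true := by decide +kernel
  have c5 : (band (go 16 Gd mult S285_314_364_438 (Tr.lf 13422069780 108100678 8146951098382986008344920064) 320 384 340 344 128 256)
  (go 16 Gd mult S256_285_364_438 (Tr.lf 13421921300 103910470 9837029394204237594584154112) 320 384 340 344 128 256)) = true := by decide +kernel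
  have c6 : (band (go 16 Gd mult S256_285_364_512 (Tr.lf 13422315554 103779143 9856372207318071661379452928) 288 320 344 352 128 256)
  (band (go 16 Gd mult S285_314_364_512 (Tr.lf 13422315538 107969606 9902311388463427570018287616) 288 320 344 352 128 256)
  (band (go 16 Gd mult S256_285_364_512 (Tr.lf 13430703140 107973830 0) 320 384 320 336 128 256)
  (band (go 16 Gd mult S285_314_364_512 (Tr.lf 13422052388 103906374 0) 320 384 320 336 128 256)
  (go 16 Gd mult S285_314_364_512 (Tr.lf 13422314002 104041414 5661399613255308425149022208) 288 320 340 344 128 192))))) = true := by decide +kernel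
  have c7 : (go 16 Gd mult S285_314_364_438 (Tr.lf 13422053394 104033350 6454454950922505163756273664) 288 320 336 340 128 256) = true := by decide +kernel
  (And.intro (Ok.lf S256_314_364_512_ok c0)
  (And.intro (Ok.s1 344 (Ok.s1 340 (Ok.s3 285 (Ok.s4 438 (Ok.lf S256_285_364_438_ok (bl (br (br c3))))
  (Ok.lf S256_285_438_512_ok (bl (br (br (br c3))))))
  (Ok.s4 438 (Ok.lf S285_314_364_438_ok c7)
  (Ok.lf S285_314_438_512_ok (br (br (br (br c3)))))))
  (Ok.s3 285 (Ok.s4 438 (Ok.lf S256_285_364_438_ok (bl (br c3)))
  (Ok.lf S256_285_438_512_ok (bl c3)))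
  (Ok.s2 192 (Ok.lf S285_314_364_512_ok (br (br (br (br c6)))))
  (Ok.lf S285_314_364_512_ok c4))))
  (Ok.s3 285 (Ok.lf S256_285_364_512_ok (bl c6))
  (Ok.lf S285_314_364_512_ok (bl (br c6)))))
  (And.intro (Ok.s3 285 (Ok.lf S256_285_364_512_ok (bl (br (br c6))))
  (Ok.lf S285_314_364_512_ok (bl (br (br (br c6))))))
  (Ok.s1 340 (Ok.s3 285 (Ok.s4 438 (Ok.lf S256_285_364_438_ok (br (br c1)))
  (Ok.lf S256_285_438_512_ok (bl (br c1))))
  (Ok.lf S285_314_364_512_ok (bl c1)))
  (Ok.s3 285 (Ok.s4 438 (Ok.lf S256_285_364_438_ok (br c5))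
  (Ok.lf S256_285_438_512_ok (bl c2)))
  (Ok.s4 438 (Ok.lf S285_314_364_438_ok (bl c5))
  (Ok.lf S285_314_438_512_ok (br c2))))))))

end Vale.Agent.P098.Ck
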