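import Vale.Agent.P098.CkGd
import Vale.Agent.P098.CkOk
import Vale.Agent.P098.Sh.A41
import Vale.Agent.P098.Sh.A42
import Vale.Agent.P098.Sh.A45
import Vale.Agent.P098.Sh.A46

namespace Vale.Agent.P098.Ck

theorem r587 :
    Ok Gd mult 320 384 344 352 128 256 256 314 364 512 ∧
    Ok Gd mult 256 384 352 384 128 256 256 314 364 512 ∧
    Ok Gd mult 256 384 320 336 128 256 256 314 512 660 ∧
    Ok Gd mult 256 384 336 344 128 256 256 314 512 660 :=
  have c0 : (go 16 Gd mult S256_285_364_512 (Tr.lf 13422331944 108104774 9799552693796184090168262656) 320 384 344 352 128 256) = true := by decide +kernel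
  have c1 : (go 16 Gd mult S285_314_364_512 (Tr.lf 13422331944 108100678 9826149061827705932011798528) 320 384 344 352 128 256) = true := by decide +kernel
  have c2 : (band (go 16 Gd mult S256_285_512_586 (Tr.lf 13422331928 99712070 6950114536964503125385805824) 320 384 340 344 128 256)
  (go 16 Gd mult S256_285_512_586 (Tr.lf 9202861080 112299078 5546571287727613080514854912) 256 320 336 340 192 256)) = true := by decide +kernel
  have c3 : (band (go 16 Gd mult S285_314_512_586 (Tr.lf 13497829400 108108870 4760766295244635291493859328) 256 384 336 340 128 256)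
  (go 16 Gd mult S285_314_512_586 (Tr.lf 13430720536 108104774 6310604012455505181083172864) 256 384 340 344 128 256)) = true := by decide +kernel
  have c4 : (band (go 16 Gd mult S256_285_512_586 (Tr.lf 9135752216 108362822 3864935845307969471535644672) 320 384 336 340 192 256)
  (go 16 Gd mult S256_285_512_586 (Tr.lf 13497829396 108108870 7322468854578311645962634202) 288 320 340 344 128 256)) = true := by decide +kernel
  have c5 : (band (go 16 Gd mult S256_285_512_586 (Tr.lf 13497567268 103914566 4253001033404265436616327168) 256 320 328 336 128 256)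
  (go 16 Gd mult S256_285_512_586 (Tr.lf 13497566232 108239942 3966493657671238317369461426) 256 384 336 340 128 192)) = true := by decide +kernel
  have c6 : (band (go 16 Gd mult S285_314_512_660 (Tr.lf 8590477348 99855556 3125073243703816416615464960) 256 320 320 336 128 256)
  (band (go 16 Gd mult S285_314_512_660 (Tr.lf 13497812002 103914566 0) 320 384 320 336 128 256)
  (go 16 Gd mult S256_285_512_586 (Tr.lf 13430440994 107977798 0) 320 384 320 336 128 256))) = true := by decide +kernel
  have c7 : (band (go 16 Gd mult S256_285_364_512 (Tr.lf 13422052424 104033223 19236442639439247946852665472) 256 384 352 384 128 256)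
  (go 16 Gd mult S285_314_364_512 (Tr.lf 13422052424 104037191 19056317876698161082338120642) 256 384 352 384 128 256)) = true := by decide +kernel
  have c8 : (band (go 16 Gd mult S256_285_586_660 (Tr.lf 8590215192 103914820 5092018924938220671429446059) 256 384 336 344 128 256)
  (band (go 16 Gd mult S285_314_586_660 (Tr.lf 8590074900 104049860 4544375528612265338847561982) 256 384 336 344 128 256)
  (go 16 Gd mult S256_285_586_660 (Tr.lf 8590214180 103914820 2086605964654849955542859776) 256 384 320 336 128 256))) = true := by decide +kernel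
  have c9 : (go 16 Gd mult S256_285_512_586 (Tr.lf 13497410578 108235846 1954833050316855375499886592) 256 320 320 328 128 256) = true := by decide +kernel
  have c10 : (go 16 Gd mult S256_285_512_586 (Tr.lf 13497340434 95382344 79104849645656272424192966523) 256 288 340 344 128 256) = true := by decide +kernel
  (And.intro (Ok.s3 285 (Ok.lf S256_285_364_512_ok c0)
  (Ok.lf S285_314_364_512_ok c1))
  (And.intro (Ok.s3 285 (Ok.lf S256_285_364_512_ok (bl c7))
  (Ok.lf S285_314_364_512_ok (br c7)))
  (And.intro (Ok.s3 285 (Ok.s4 586 (Ok.s0 320 (Ok.s1 328 (Ok.lf S256_285_512_586_ok c9)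
  (Ok.lf S256_285_512_586_ok (bl c5)))
  (Ok.lf S256_285_512_586_ok (br (br c6))))
  (Ok.lf S256_285_586_660_ok (br (br c8))))
  (Ok.s0 320 (Ok.lf S285_314_512_660_ok (bl c6))
  (Ok.lf S285_314_512_660_ok (bl (br c6)))))
  (Ok.s4 586 (Ok.s3 285 (Ok.s1 340 (Ok.s2 192 (Ok.lf S256_285_512_586_ok (br c5))
  (Ok.s0 320 (Ok.lf S256_285_512_586_ok (br c2))
  (Ok.lf S256_285_512_586_ok (bl c4))))
  (Ok.s0 320 (Ok.s0 288 (Ok.lf S256_285_512_586_ok c10)
  (Ok.lf S256_285_512_586_ok (br c4)))
  (Ok.lf S256_285_512_586_ok (bl c2))))
  (Ok.s1 340 (Ok.lf S285_314_512_586_ok (bl c3))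
  (Ok.lf S285_314_512_586_ok (br c3))))
  (Ok.s3 285 (Ok.lf S256_285_586_660_ok (bl c8))
  (Ok.lf S285_314_586_660_ok (bl (br c8))))))))

end Vale.Agent.P098.Ck
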