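import Vale.Agent.P098.CkGd
import Vale.Agent.P098.CkOk
import Vale.Agent.P098.Sh.A42
import Vale.Agent.P098.Sh.A44
import Vale.Agent.P098.Sh.A46
import Vale.Agent.P098.Sh.A48
import Vale.Agent.P098.Sh.A49
import Vale.Agent.P098.Sh.A51

namespace Vale.Agent.P098.Ck

theorem r588 :
    Ok Gd mult 256 384 344 352 128 256 256 314 512 660 ∧
    Ok Gd mult 256 384 352 384 128 256 256 314 512 660 ∧
    Ok Gd mult 256 384 320 384 128 256 256 314 660 808 ∧
    Ok Gd mult 256 384 320 384 128 256 314 372 216 364 ∧
    Ok Gd mult 256 320 320 336 128 256 314 372 364 512 ∧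
    Ok Gd mult 256 288 336 352 128 256 314 372 364 512 :=
  have c0 : (band (go 16 Gd mult S256_285_512_586 (Tr.lf 13422331944 103906374 9788672361419652427595907072) 256 384 344 352 128 256)
  (band (go 16 Gd mult S256_285_586_660 (Tr.lf 13497549848 108108870 7940241551319247421452582912) 256 384 344 352 128 256)
  (go 16 Gd mult S314_372_216_364 (Tr.lf 13422052372 112421958 14017494878431625280718110720) 256 384 344 352 128 256))) = true := by decide +kernel
  have c1 : (go 16 Gd mult S285_314_512_660 (Tr.lf 13497829416 108108870 8668014894727254184625700864) 256 384 344 352 128 256) = true := by decide +kernel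
  have c2 : (band (go 16 Gd mult S314_343_364_512 (Tr.lf 13422315560 108096582 4330372285859601703797522432) 256 320 328 336 128 256)
  (band (go 16 Gd mult S343_372_364_512 (Tr.lf 13422069800 107969606 5117382994428725296531243008) 256 320 328 336 128 256)
  (go 16 Gd mult S314_372_216_364 (Tr.lf 13422052372 112298950 6452037099283275905406861312) 256 320 328 336 128 256))) = true := by decide +kernel
  have c3 : (band (go 16 Gd mult S256_285_512_660 (Tr.lf 13497549896 103918407 17992483113540399978420502934) 256 384 352 384 128 256)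
  (band (go 16 Gd mult S256_314_660_808 (Tr.lf 13497566244 108239559 14550707702132543664263141413) 256 384 352 384 128 256)
  (band (go 16 Gd mult S285_314_512_660 (Tr.lf 13497549892 108108615 17951376426411230061917112418) 256 384 352 384 128 256)
  (go 16 Gd mult S314_372_216_364 (Tr.lf 13421920804 107969351 30848184950881101731894660246) 256 384 352 384 128 256)))) = true := by decide +kernel
  have c4 : (band (go 16 Gd mult S314_372_216_364 (Tr.lf 13422068760 108100678 9517872977825975492461723648) 256 384 336 344 128 256)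
  (go 16 Gd mult S314_372_216_364 (Tr.lf 13422068754 103906374 0) 320 384 320 336 128 256)) = true := by decide +kernel
  have c5 : (band (go 16 Gd mult S314_372_364_512 (Tr.lf 13422068756 108104646 2984837848628519432349548544) 256 320 320 328 128 256)
  (band (go 16 Gd mult S314_372_216_364 (Tr.lf 13422052370 108104646 4352132950612665028942233600) 256 320 320 328 128 256)
  (go 16 Gd mult S314_372_364_512 (Tr.lf 13422068770 104033350 10943196519151623289440305152) 256 288 336 352 128 256))) = true := by decide +kernel
  have c6 : (band (go 16 Gd mult S256_285_660_808 (Tr.lf 8590214180 99847492 3532481244913946448491446272) 256 384 320 352 128 256)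
  (go 16 Gd mult S285_314_660_808 (Tr.lf 8590213668 108113092 3299158561728323017773154304) 256 384 320 352 128 256)) = true := by decide +kernel
  (And.intro (Ok.s3 285 (Ok.s4 586 (Ok.lf S256_285_512_586_ok (bl c0))
  (Ok.lf S256_285_586_660_ok (bl (br c0))))
  (Ok.lf S285_314_512_660_ok c1))
  (And.intro (Ok.s3 285 (Ok.lf S256_285_512_660_ok (bl c3))
  (Ok.lf S285_314_512_660_ok (bl (br (br c3)))))
  (And.intro (Ok.s1 352 (Ok.s3 285 (Ok.lf S256_285_660_808_ok (bl c6))
  (Ok.lf S285_314_660_808_ok (br c6)))
  (Ok.lf S256_314_660_808_ok (bl (br c3))))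
  (And.intro (Ok.s1 352 (Ok.s1 336 (Ok.s0 320 (Ok.s1 328 (Ok.lf S314_372_216_364_ok (bl (br c5)))
  (Ok.lf S314_372_216_364_ok (br (br c2))))
  (Ok.lf S314_372_216_364_ok (br c4)))
  (Ok.s1 344 (Ok.lf S314_372_216_364_ok (bl c4))
  (Ok.lf S314_372_216_364_ok (br (br c0)))))
  (Ok.lf S314_372_216_364_ok (br (br (br c3)))))
  (And.intro (Ok.s1 328 (Ok.lf S314_372_364_512_ok (bl c5))
  (Ok.s3 343 (Ok.lf S314_343_364_512_ok (bl c2))
  (Ok.lf S343_372_364_512_ok (bl (br c2)))))
  (Ok.lf S314_372_364_512_ok (br (br c5))))))))

end Vale.Agent.P098.Ck
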