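import Vale.Agent.P098.CkGd
import Vale.Agent.P098.CkOk
import Vale.Agent.P098.Sh.A48
import Vale.Agent.P098.Sh.A49
import Vale.Agent.P098.Sh.A50
import Vale.Agent.P098.Sh.A51
import Vale.Agent.P098.Sh.A52

namespace Vale.Agent.P098.Ck

theorem r589 :
    Ok Gd mult 288 320 336 352 128 256 314 372 364 512 ∧
    Ok Gd mult 320 384 320 352 128 256 314 372 364 512 ∧
    Ok Gd mult 256 384 352 384 128 256 314 372 364 512 ∧
    Ok Gd mult 256 320 320 336 128 256 314 372 512 660 ∧
    Ok Gd mult 256 288 336 352 128 256 314 372 512 660 :=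
  have c0 : (band (go 16 Gd mult S314_343_364_512 (Tr.lf 13422331940 99839046 5901975851358619630915551232) 288 320 336 340 128 256)
  (band (go 16 Gd mult S343_372_364_512 (Tr.lf 13422053396 107969606 6216296564458423216339156992) 288 320 336 340 128 256)
  (go 16 Gd mult S314_343_364_512 (Tr.lf 13422331940 103906374 9777792029043120765023551488) 320 384 344 352 128 256))) = true := by decide +kernel
  have c1 : (go 16 Gd mult S314_372_364_512 (Tr.lf 13422331940 107969606 10008696860589514937392431104) 288 320 344 352 128 256) = true := by decide +kernel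
  have c2 : (band (go 16 Gd mult S343_372_438_512 (Tr.lf 13422069800 112294982 6860654026313020566457548800) 320 384 336 344 128 256)
  (band (go 16 Gd mult S314_343_364_438 (Tr.lf 13422053412 103906374 7199153255805116735375278080) 320 384 336 344 128 256)
  (go 16 Gd mult S343_372_364_438 (Tr.lf 13421855764 108100678 8333125674603638901249671168) 320 384 336 344 128 256))) = true := by decide +kernel
  have c3 : (band (go 16 Gd mult S314_372_364_512 (Tr.lf 13422068808 112286663 19081710833419743051055236154) 256 384 352 384 128 256)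
  (go 16 Gd mult S314_372_364_512 (Tr.lf 13422069796 103906374 0) 320 384 320 336 128 256)) = true := by decide +kernel
  have c4 : (band (go 16 Gd mult S314_343_364_512 (Tr.lf 13422331924 104033350 7326090466864652798719426560) 288 320 340 344 128 256)
  (band (go 16 Gd mult S343_372_364_512 (Tr.lf 13422053396 107969606 7820541127087036131174252544) 288 320 340 344 128 256)
  (go 16 Gd mult S343_372_364_512 (Tr.lf 13422053412 104037446 10080023483946778058700095488) 320 384 344 352 128 256))) = true := by decide +kernel
  have c5 : (band (go 16 Gd mult S314_343_438_512 (Tr.lf 13422069784 103906374 7010560827945234584121114624) 320 384 340 344 128 256)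
  (go 16 Gd mult S314_343_438_512 (Tr.lf 13422069780 99712070 5229813095652885809778917376) 320 384 336 340 128 256)) = true := by decide +kernel
  have c6 : (band (go 16 Gd mult S314_372_512_660 (Tr.lf 13497567298 99851334 10943218120346073148164866251) 256 288 336 352 128 256)
  (band (go 16 Gd mult S314_372_512_660 (Tr.lf 13422068754 108104646 1317729143379945800429731840) 288 320 320 328 128 256)
  (go 16 Gd mult S314_372_512_660 (Tr.lf 13422068753 107973574 2936480815843934265361301504) 256 288 320 328 128 256))) = true := by decide +kernel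
  have c7 : (band (go 16 Gd mult S314_343_512_660 (Tr.lf 13497813026 103914566 4071662160462071060410400768) 288 320 328 336 128 256)
  (band (go 16 Gd mult S343_372_512_660 (Tr.lf 13422053410 104033350 4342461544055747995544584192) 288 320 328 336 128 256)
  (band (go 16 Gd mult S343_372_512_660 (Tr.lf 13422052370 108096582 5037593890334159771000635392) 256 288 328 336 128 256)
  (go 16 Gd mult S314_343_512_660 (Tr.lf 13497550866 104049606 4609634150190581043154649088) 256 288 328 336 128 256)))) = true := by decide +kernel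
  (And.intro (Ok.s1 344 (Ok.s1 340 (Ok.s3 343 (Ok.lf S314_343_364_512_ok (bl c0))
  (Ok.lf S343_372_364_512_ok (bl (br c0))))
  (Ok.s3 343 (Ok.lf S314_343_364_512_ok (bl c4))
  (Ok.lf S343_372_364_512_ok (bl (br c4)))))
  (Ok.lf S314_372_364_512_ok c1))
  (And.intro (Ok.s1 336 (Ok.lf S314_372_364_512_ok (br c3))
  (Ok.s1 344 (Ok.s4 438 (Ok.s3 343 (Ok.lf S314_343_364_438_ok (bl (br c2)))
  (Ok.lf S343_372_364_438_ok (br (br c2))))
  (Ok.s3 343 (Ok.s1 340 (Ok.lf S314_343_438_512_ok (br c5))
  (Ok.lf S314_343_438_512_ok (bl c5)))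
  (Ok.lf S343_372_438_512_ok (bl c2))))
  (Ok.s3 343 (Ok.lf S314_343_364_512_ok (br (br c0)))
  (Ok.lf S343_372_364_512_ok (br (br c4))))))
  (And.intro (Ok.lf S314_372_364_512_ok (bl c3))
  (And.intro (Ok.s0 288 (Ok.s1 328 (Ok.lf S314_372_512_660_ok (br (br c6)))
  (Ok.s3 343 (Ok.lf S314_343_512_660_ok (br (br (br c7))))
  (Ok.lf S343_372_512_660_ok (bl (br (br c7))))))
  (Ok.s1 328 (Ok.lf S314_372_512_660_ok (bl (br c6)))
  (Ok.s3 343 (Ok.lf S314_343_512_660_ok (bl c7))
  (Ok.lf S343_372_512_660_ok (bl (br c7))))))
  (Ok.lf S314_372_512_660_ok (bl c6))))))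

end Vale.Agent.P098.Ck
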