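import Vale.Agent.P098.CkGd
import Vale.Agent.P098.CkOk
import Vale.Agent.P098.Sh.A0
import Vale.Agent.P098.Sh.A1
import Vale.Agent.P098.Sh.A43
import Vale.Agent.P098.Sh.A44
import Vale.Agent.P098.Sh.A49
import Vale.Agent.P098.Sh.A50
import Vale.Agent.P098.Sh.A54
import Vale.Agent.P098.Sh.A55
import Vale.Agent.P098.Sh.A58
import Vale.Agent.P098.Sh.A59

namespace Vale.Agent.P098.Ck

theorem r59 :
    Ok Gd mult 0 128 128 192 0 128 256 314 216 808 ∧
    Ok Gd mult 0 128 128 192 0 128 314 372 216 808 ∧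
    Ok Gd mult 0 128 128 192 0 128 372 488 216 808 ∧
    Ok Gd mult 0 128 128 192 128 256 24 82 216 808 :=
  have c0 : (go 16 Gd mult S24_82_216_364 (Tr.lf 9129068680 99179463 0) 0 128 128 192 128 256) = true := by decide +kernel
  have c1 : (go 16 Gd mult S24_82_660_808 (Tr.lf 9129068680 99179463 0) 0 128 128 192 128 256) = true := by decide +kernel
  have c2 : (band (go 16 Gd mult S24_82_364_512 (Tr.lf 9129003144 94985159 0) 0 128 128 192 128 256)
  (go 16 Gd mult S24_82_512_660 (Tr.lf 9129003144 99179463 0) 0 128 128 192 128 256)) = true := by decide +kernel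
  have c3 : (band (go 16 Gd mult S256_314_660_808 (Tr.lf 8590230660 95369927 0) 0 128 128 192 0 128)
  (band (go 16 Gd mult S314_372_660_808 (Tr.lf 8590099524 91052743 0) 0 128 128 192 0 128)
  (band (go 16 Gd mult S256_314_512_660 (Tr.lf 8590214212 95247047 0) 0 128 128 192 0 128)
  (go 16 Gd mult S256_314_216_364 (Tr.lf 4295115844 108227653 0) 0 128 128 192 0 128)))) = true := by decide +kernel
  have c4 : (band (go 16 Gd mult S256_314_364_512 (Tr.lf 4295115844 99839045 0) 0 128 128 192 0 128)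
  (band (go 16 Gd mult S314_372_512_660 (Tr.lf 8590083140 99310279 0) 0 128 128 192 0 128)
  (band (go 16 Gd mult S372_430_660_808 (Tr.lf 4296164420 99843269 0) 0 128 128 192 0 128)
  (band (go 16 Gd mult S372_430_364_512 (Tr.lf 9137374276 99581127 0) 0 128 128 192 0 128)
  (band (go 16 Gd mult S372_430_512_660 (Tr.lf 4296098884 108100805 0) 0 128 128 192 0 128)
  (band (go 16 Gd mult S314_372_216_364 (Tr.lf 4295115842 108100549 0) 0 128 128 192 0 128)
  (go 16 Gd mult S314_372_364_512 (Tr.lf 4295115842 103906245 0) 0 128 128 192 0 128))))))) = true := by decide +kernel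
  have c5 : (band (go 16 Gd mult S372_430_216_364 (Tr.lf 9137439810 103775431 0) 0 128 128 192 0 128)
  (band (go 16 Gd mult S430_488_216_364 (Tr.lf 9128985666 103767239 0) 0 128 128 192 0 128)
  (band (go 16 Gd mult S430_488_364_512 (Tr.lf 9128985666 103767239 0) 0 128 128 192 0 128)
  (band (go 16 Gd mult S430_488_512_660 (Tr.lf 9128985666 103767239 0) 0 128 128 192 0 128)
  (go 16 Gd mult S430_488_660_808 (Tr.lf 9128985666 103767239 0) 0 128 128 192 0 128))))) = true := by decide +kernel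
  (And.intro (Ok.s4 512 (Ok.s4 364 (Ok.lf S256_314_216_364_ok (br (br (br c3))))
  (Ok.lf S256_314_364_512_ok (bl c4)))
  (Ok.s4 660 (Ok.lf S256_314_512_660_ok (bl (br (br c3))))
  (Ok.lf S256_314_660_808_ok (bl c3))))
  (And.intro (Ok.s4 512 (Ok.s4 364 (Ok.lf S314_372_216_364_ok (bl (br (br (br (br (br c4)))))))
  (Ok.lf S314_372_364_512_ok (br (br (br (br (br (br c4))))))))
  (Ok.s4 660 (Ok.lf S314_372_512_660_ok (bl (br c4)))
  (Ok.lf S314_372_660_808_ok (bl (br c3)))))
  (And.intro (Ok.s3 430 (Ok.s4 512 (Ok.s4 364 (Ok.lf S372_430_216_364_ok (bl c5))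
  (Ok.lf S372_430_364_512_ok (bl (br (br (br c4))))))
  (Ok.s4 660 (Ok.lf S372_430_512_660_ok (bl (br (br (br (br c4))))))
  (Ok.lf S372_430_660_808_ok (bl (br (br c4))))))
  (Ok.s4 512 (Ok.s4 364 (Ok.lf S430_488_216_364_ok (bl (br c5)))
  (Ok.lf S430_488_364_512_ok (bl (br (br c5)))))
  (Ok.s4 660 (Ok.lf S430_488_512_660_ok (bl (br (br (br c5)))))
  (Ok.lf S430_488_660_808_ok (br (br (br (br c5))))))))
  (Ok.s4 512 (Ok.s4 364 (Ok.lf S24_82_216_364_ok c0)
  (Ok.lf S24_82_364_512_ok (bl c2)))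
  (Ok.s4 660 (Ok.lf S24_82_512_660_ok (br c2))
  (Ok.lf S24_82_660_808_ok c1))))))

end Vale.Agent.P098.Ck
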