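import Vale.Agent.P098.CkGd
import Vale.Agent.P098.CkOk
import Vale.Agent.P098.Sh.A48
import Vale.Agent.P098.Sh.A50
import Vale.Agent.P098.Sh.A52

namespace Vale.Agent.P098.Ck

theorem r590 :
    Ok Gd mult 288 320 336 344 128 192 314 372 512 660 ∧
    Ok Gd mult 288 320 336 344 192 256 314 372 512 660 ∧
    Ok Gd mult 288 320 344 352 128 256 314 372 512 660 ∧
    Ok Gd mult 320 384 320 336 128 256 314 372 512 660 ∧
    Ok Gd mult 320 384 336 344 128 256 314 372 512 660 :=
  have c0 : (go 16 Gd mult S314_372_512_660 (Tr.lf 13422331940 103906374 0) 320 384 320 336 128 256) = true := by decide +kernel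
  have c1 : (band (go 16 Gd mult S314_343_512_660 (Tr.lf 13497829412 99851334 6668434820994294527679266816) 320 352 340 344 192 256)
  (band (go 16 Gd mult S314_343_512_660 (Tr.lf 13497829410 99978310 6964645572390198635154571437) 288 304 336 344 192 256)
  (band (go 16 Gd mult S343_372_512_660 (Tr.lf 13422068770 103775302 7168930110314751006007623680) 288 304 336 344 192 256)
  (go 16 Gd mult S314_343_512_660 (Tr.lf 13497827858 99978310 5843947412017117430529654784) 304 320 336 340 192 224)))) = true := by decide +kernel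
  have c2 : (go 16 Gd mult S343_372_512_660 (Tr.lf 13422331924 103906374 7016605457043307729994645504) 320 352 340 344 128 256) = true := by decide +kernel
  have c3 : (band (go 16 Gd mult S314_343_512_660 (Tr.lf 13497828372 99851334 3918128581371013155222716416) 320 352 336 340 192 256)
  (band (go 16 Gd mult S314_343_512_660 (Tr.lf 13497827858 104172614 6991233547588900962119452752) 304 320 340 344 192 224)
  (band (go 16 Gd mult S343_372_512_660 (Tr.lf 13422068242 103775302 7085514228761341592952897536) 304 320 340 344 192 224)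
  (band (go 16 Gd mult S343_372_512_660 (Tr.lf 13422069780 103906374 5210470282539051742983618560) 320 352 336 340 128 256)
  (band (go 16 Gd mult S343_372_512_660 (Tr.lf 13422068242 103775302 5857245596032878351451422720) 304 320 336 340 192 224)
  (go 16 Gd mult S343_372_512_660 (Tr.lf 13422068242 103775302 6161894902575764903477379072) 304 320 336 340 224 256)))))) = true := by decide +kernel
  have c4 : (band (go 16 Gd mult S314_343_512_660 (Tr.lf 13497813026 108108870 9662952451001540457562898432) 288 320 344 352 128 256)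
  (band (go 16 Gd mult S343_372_512_660 (Tr.lf 13422053394 107969606 9897475685184969053319462912) 288 320 344 352 128 256)
  (band (go 16 Gd mult S314_343_512_660 (Tr.lf 9202844178 108112838 6056718356269292165277941760) 304 320 336 340 224 256)
  (band (go 16 Gd mult S314_343_512_660 (Tr.lf 9202844178 108104774 7223357800596930179281649789) 304 320 340 344 224 256)
  (band (go 16 Gd mult S343_372_512_660 (Tr.lf 9127100946 112434500 7280151285719296890080591872) 304 320 340 344 224 256)
  (band (go 16 Gd mult S343_372_512_660 (Tr.lf 13422051874 108235718 5318064680484753739532468224) 288 320 336 344 128 192)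
  (go 16 Gd mult S314_343_512_660 (Tr.lf 13497549842 103914566 5268498721880553943369515008) 288 320 336 344 128 192))))))) = true := by decide +kernel
  have c5 : (go 16 Gd mult S314_372_512_660 (Tr.lf 13422068753 103906374 0) 352 384 336 344 128 256) = true := by decide +kernel
  have c6 : (go 16 Gd mult S314_343_512_660 (Tr.lf 13497549329 99851334 0) 320 352 336 344 128 192) = true := by decide +kernel
  (And.intro (Ok.s3 343 (Ok.lf S314_343_512_660_ok (br (br (br (br (br (br c4)))))))
  (Ok.lf S343_372_512_660_ok (bl (br (br (br (br (br c4))))))))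
  (And.intro (Ok.s0 304 (Ok.s3 343 (Ok.lf S314_343_512_660_ok (bl (br c1)))
  (Ok.lf S343_372_512_660_ok (bl (br (br c1)))))
  (Ok.s2 224 (Ok.s1 340 (Ok.s3 343 (Ok.lf S314_343_512_660_ok (br (br (br c1))))
  (Ok.lf S343_372_512_660_ok (bl (br (br (br (br c3)))))))
  (Ok.s3 343 (Ok.lf S314_343_512_660_ok (bl (br c3)))
  (Ok.lf S343_372_512_660_ok (bl (br (br c3))))))
  (Ok.s1 340 (Ok.s3 343 (Ok.lf S314_343_512_660_ok (bl (br (br c4))))
  (Ok.lf S343_372_512_660_ok (br (br (br (br (br c3)))))))
  (Ok.s3 343 (Ok.lf S314_343_512_660_ok (bl (br (br (br c4)))))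
  (Ok.lf S343_372_512_660_ok (bl (br (br (br (br c4))))))))))
  (And.intro (Ok.s3 343 (Ok.lf S314_343_512_660_ok (bl c4))
  (Ok.lf S343_372_512_660_ok (bl (br c4))))
  (And.intro (Ok.lf S314_372_512_660_ok c0)
  (Ok.s0 352 (Ok.s3 343 (Ok.s2 192 (Ok.lf S314_343_512_660_ok c6)
  (Ok.s1 340 (Ok.lf S314_343_512_660_ok (bl c3))
  (Ok.lf S314_343_512_660_ok (bl c1))))
  (Ok.s1 340 (Ok.lf S343_372_512_660_ok (bl (br (br (br c3)))))
  (Ok.lf S343_372_512_660_ok c2)))
  (Ok.lf S314_372_512_660_ok c5))))))

end Vale.Agent.P098.Ck
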