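import Vale.Agent.P098.CkGd
import Vale.Agent.P098.CkOk
import Vale.Agent.P098.Sh.A48
import Vale.Agent.P098.Sh.A49
import Vale.Agent.P098.Sh.A50
import Vale.Agent.P098.Sh.A52

namespace Vale.Agent.P098.Ck

theorem r591 :
    Ok Gd mult 320 384 344 352 128 256 314 372 512 660 ∧
    Ok Gd mult 256 384 352 384 128 256 314 372 512 660 ∧
    Ok Gd mult 256 384 320 336 128 256 314 372 660 808 ∧
    Ok Gd mult 256 384 336 344 128 256 314 372 660 808 :=
  have c0 : (band (go 16 Gd mult S314_343_512_660 (Tr.lf 13422331940 107969606 9664153001999345622601170944) 320 384 344 352 128 256)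
  (go 16 Gd mult S343_372_512_660 (Tr.lf 13422069800 104037446 9803179471255027977692381184) 320 384 344 352 128 256)) = true := by decide +kernel
  have c1 : (go 16 Gd mult S314_343_660_808 (Tr.lf 8590231592 108109124 2058800670803713484524617728) 256 384 320 336 128 256) = true := by decide +kernel
  have c2 : (go 16 Gd mult S314_372_512_660 (Tr.lf 13422068808 108100423 18895538028778113597329968596) 256 384 352 384 128 256) = true := by decide +kernel
  have c3 : (band (go 16 Gd mult S343_372_660_734 (Tr.lf 13422069784 104033350 5941870403405902393680855040) 256 320 336 340 128 256)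
  (band (go 16 Gd mult S343_372_734_808 (Tr.lf 13430458392 104041542 5860872373491722238975541248) 256 320 336 340 128 256)
  (go 16 Gd mult S343_372_734_808 (Tr.lf 13430458392 103783494 7144751593922458422513500160) 256 320 340 344 128 256))) = true := by decide +kernel
  have c4 : (band (go 16 Gd mult S343_372_660_734 (Tr.lf 13430327336 103783494 7056500009090590492759949312) 256 320 340 344 192 256)
  (band (go 16 Gd mult S343_372_660_734 (Tr.lf 13421938712 108100678 5320482532123982997881880576) 320 384 336 340 128 256)
  (go 16 Gd mult S343_372_734_808 (Tr.lf 13421938712 108100678 5105293736232579004784181248) 320 384 336 340 128 256))) = true := by decide +kernel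
  have c5 : (go 16 Gd mult S343_372_660_808 (Tr.lf 13430458388 104041542 4378729318644186870785769472) 256 320 328 336 128 256) = true := by decide +kernel
  have c6 : (band (go 16 Gd mult S343_372_660_734 (Tr.lf 13422068760 108100678 4862299646490038540668239872) 256 384 340 344 128 192)
  (band (go 16 Gd mult S343_372_660_734 (Tr.lf 13422068760 103906374 6826804103363810949565775872) 320 384 340 344 192 256)
  (go 16 Gd mult S343_372_734_808 (Tr.lf 13422068760 103906374 6813505919348050028644007936) 320 384 340 344 192 256))) = true := by decide +kernel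
  have c7 : (band (go 16 Gd mult S314_343_660_734 (Tr.lf 13497419800 108108870 4133339328887864862686838784) 256 384 336 340 128 256)
  (go 16 Gd mult S314_343_660_734 (Tr.lf 13497419800 108108870 5613060769017525132792103115) 256 384 340 344 128 256)) = true := by decide +kernel
  have c8 : (band (go 16 Gd mult S343_372_660_808 (Tr.lf 13430440984 103914566 2649965396595267150955937792) 256 384 320 328 128 256)
  (go 16 Gd mult S343_372_660_808 (Tr.lf 13422052370 103906374 0) 320 384 328 336 128 256)) = true := by decide +kernel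
  have c9 : (go 16 Gd mult S314_343_734_808 (Tr.lf 8590083092 103914820 4716040689040248184942954403) 256 384 336 344 128 256) = true := by decide +kernel
  have c10 : (go 16 Gd mult S343_372_734_808 (Tr.lf 13421920786 108100678 0) 320 384 340 344 128 192) = true := by decide +kernel
  (And.intro (Ok.s3 343 (Ok.lf S314_343_512_660_ok (bl c0))
  (Ok.lf S343_372_512_660_ok (br c0)))
  (And.intro (Ok.lf S314_372_512_660_ok c2)
  (And.intro (Ok.s3 343 (Ok.lf S314_343_660_808_ok c1)
  (Ok.s1 328 (Ok.lf S343_372_660_808_ok (bl c8))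
  (Ok.s0 320 (Ok.lf S343_372_660_808_ok c5)
  (Ok.lf S343_372_660_808_ok (br c8)))))
  (Ok.s4 734 (Ok.s1 340 (Ok.s3 343 (Ok.lf S314_343_660_734_ok (bl c7))
  (Ok.s0 320 (Ok.lf S343_372_660_734_ok (bl c3))
  (Ok.lf S343_372_660_734_ok (bl (br c4)))))
  (Ok.s3 343 (Ok.lf S314_343_660_734_ok (br c7))
  (Ok.s2 192 (Ok.lf S343_372_660_734_ok (bl c6))
  (Ok.s0 320 (Ok.lf S343_372_660_734_ok (bl c4))
  (Ok.lf S343_372_660_734_ok (bl (br c6)))))))
  (Ok.s3 343 (Ok.lf S314_343_734_808_ok c9)
  (Ok.s1 340 (Ok.s0 320 (Ok.lf S343_372_734_808_ok (bl (br c3)))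
  (Ok.lf S343_372_734_808_ok (br (br c4))))
  (Ok.s0 320 (Ok.lf S343_372_734_808_ok (br (br c3)))
  (Ok.s2 192 (Ok.lf S343_372_734_808_ok c10)
  (Ok.lf S343_372_734_808_ok (br (br c6)))))))))))

end Vale.Agent.P098.Ck
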