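import Vale.Agent.P098.CkGd
import Vale.Agent.P098.CkOk
import Vale.Agent.P098.Sh.A49
import Vale.Agent.P098.Sh.A50
import Vale.Agent.P098.Sh.A52
import Vale.Agent.P098.Sh.A54
import Vale.Agent.P098.Sh.A55
import Vale.Agent.P098.Sh.A57

namespace Vale.Agent.P098.Ck

theorem r592 :
    Ok Gd mult 256 384 344 352 128 256 314 372 660 808 ∧
    Ok Gd mult 256 384 352 384 128 256 314 372 660 808 ∧
    Ok Gd mult 256 384 320 384 128 256 372 430 216 808 :=
  have c0 : (band (go 16 Gd mult S343_372_660_808 (Tr.lf 13422331944 108100678 9613378117575531197263511552) 256 384 344 352 128 256)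
  (go 16 Gd mult S314_343_660_808 (Tr.lf 13497550872 99851334 7878584563631470257425612800) 256 384 344 352 128 256)) = true := by decide +kernel
  have c1 : (go 16 Gd mult S314_372_660_808 (Tr.lf 13422069832 108100423 18589682323431241933807291231) 256 384 352 384 128 256) = true := by decide +kernel
  have c2 : (go 16 Gd mult S372_430_364_512 (Tr.lf 17718085704 103635785 6798998809512674478547533824) 256 384 320 336 128 256) = true := by decide +kernel
  have c3 : (band (go 16 Gd mult S372_430_512_660 (Tr.lf 17717037128 103635529 11036283807261949735892680704) 256 384 336 352 128 256)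
  (go 16 Gd mult S372_430_364_512 (Tr.lf 17716888616 99441225 12156958042044710980845305856) 256 384 336 352 128 256)) = true := by decide +kernel
  have c4 : (band (go 16 Gd mult S372_430_216_364 (Tr.lf 17716906056 95242953 44111311888199922774404433091) 256 384 352 384 128 256)
  (go 16 Gd mult S372_430_364_512 (Tr.lf 17716906056 95242953 36441886488371338695346552957) 256 384 352 384 128 256)) = true := by decide +kernel
  have c5 : (band (go 16 Gd mult S372_430_512_660 (Tr.lf 17716906056 95242953 29658603162349841032032228098) 256 384 352 384 128 256)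
  (go 16 Gd mult S372_430_660_808 (Tr.lf 17716906056 95242953 27202065896051576038021531602) 256 384 352 384 128 256)) = true := by decide +kernel
  have c6 : (band (go 16 Gd mult S372_430_512_660 (Tr.lf 17717954600 99441481 7009351902125619954946408448) 256 384 328 336 128 256)
  (band (go 16 Gd mult S372_401_660_808 (Tr.lf 13422068776 112294982 6281578558717613191773290496) 256 384 328 336 128 256)
  (go 16 Gd mult S372_401_660_808 (Tr.lf 13422068776 112294982 8458853959843560335419113472) 256 384 336 344 128 256))) = true := by decide +kernel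
  have c7 : (band (go 16 Gd mult S372_430_512_660 (Tr.lf 17717954584 99441736 4396863205938406308406362112) 256 384 320 328 128 256)
  (band (go 16 Gd mult S372_401_660_808 (Tr.lf 13421921304 108100678 4211897555537368044676317184) 256 384 320 328 128 256)
  (go 16 Gd mult S372_401_660_808 (Tr.lf 13421921300 112294727 11993753056396736042259972096) 256 384 344 352 128 256))) = true := by decide +kernel
  have c8 : (go 16 Gd mult S401_430_660_808 (Tr.lf 17716888648 103635529 11333679558887148512870400000) 256 384 320 352 128 256) = true := by decide +kernel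
  have c9 : (band (go 16 Gd mult S372_430_216_364 (Tr.lf 17716888644 99449544 8959349249164016813747470336) 320 384 320 352 128 256)
  (go 16 Gd mult S372_430_216_364 (Tr.lf 17717937186 95374153 7494131155791086254003585024) 256 320 320 336 128 256)) = true := by decide +kernel
  have c10 : (go 16 Gd mult S372_430_216_364 (Tr.lf 17717871634 99310409 13860334521881723488006307840) 256 320 336 352 128 256) = true := by decide +kernel
  (And.intro (Ok.s3 343 (Ok.lf S314_343_660_808_ok (br c0))
  (Ok.lf S343_372_660_808_ok (bl c0)))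
  (And.intro (Ok.lf S314_372_660_808_ok c1)
  (Ok.s4 512 (Ok.s4 364 (Ok.s1 352 (Ok.s0 320 (Ok.s1 336 (Ok.lf S372_430_216_364_ok (br c9))
  (Ok.lf S372_430_216_364_ok c10))
  (Ok.lf S372_430_216_364_ok (bl c9)))
  (Ok.lf S372_430_216_364_ok (bl c4)))
  (Ok.s1 352 (Ok.s1 336 (Ok.lf S372_430_364_512_ok c2)
  (Ok.lf S372_430_364_512_ok (br c3)))
  (Ok.lf S372_430_364_512_ok (br c4))))
  (Ok.s4 660 (Ok.s1 352 (Ok.s1 336 (Ok.s1 328 (Ok.lf S372_430_512_660_ok (bl c7))
  (Ok.lf S372_430_512_660_ok (bl c6)))
  (Ok.lf S372_430_512_660_ok (bl c3)))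
  (Ok.lf S372_430_512_660_ok (bl c5)))
  (Ok.s1 352 (Ok.s3 401 (Ok.s1 336 (Ok.s1 328 (Ok.lf S372_401_660_808_ok (bl (br c7)))
  (Ok.lf S372_401_660_808_ok (bl (br c6))))
  (Ok.s1 344 (Ok.lf S372_401_660_808_ok (br (br c6)))
  (Ok.lf S372_401_660_808_ok (br (br c7)))))
  (Ok.lf S401_430_660_808_ok c8))
  (Ok.lf S372_430_660_808_ok (br c5)))))))

end Vale.Agent.P098.Ck
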