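import Vale.Agent.P098.CkGd
import Vale.Agent.P098.CkOk
import Vale.Agent.P098.Sh.A58
import Vale.Agent.P098.Sh.A59

namespace Vale.Agent.P098.Ck

theorem r593 :
    Ok Gd mult 256 384 320 352 128 256 430 488 216 364 ∧
    Ok Gd mult 256 384 352 384 128 256 430 488 216 364 ∧
    Ok Gd mult 256 384 320 384 128 256 430 488 364 512 ∧
    Ok Gd mult 256 384 320 384 128 256 430 488 512 660 :=
  have c0 : (band (go 16 Gd mult S430_488_216_364 (Tr.lf 22012856388 90790602 10729216649079833925517312000) 320 384 320 352 128 256)
  (band (go 16 Gd mult S430_488_364_512 (Tr.lf 22012856388 90790602 10717127390883687633770250240) 320 384 320 352 128 256)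
  (go 16 Gd mult S430_488_512_660 (Tr.lf 22012856388 90790602 10705038132687541342023188480) 320 384 320 352 128 256))) = true := by decide +kernel
  have c1 : (band (go 16 Gd mult S459_488_216_364 (Tr.lf 22012840068 95124552 12079607302368784678685507584) 352 384 352 384 128 192)
  (band (go 16 Gd mult S459_488_364_512 (Tr.lf 22012840068 95124552 12083234079827628566209626112) 352 384 352 384 128 192)
  (band (go 16 Gd mult S459_488_512_660 (Tr.lf 22012840068 95124297 12085651931466857824559038464) 352 384 352 384 128 192)
  (band (go 16 Gd mult S430_459_216_364 (Tr.lf 22549701700 103504841 12370958092854516983017766912) 352 384 352 384 128 192)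
  (band (go 16 Gd mult S430_459_364_512 (Tr.lf 22549701700 103504841 12389091980148736420638359552) 352 384 352 384 128 192)
  (go 16 Gd mult S430_459_512_660 (Tr.lf 22549701700 103504841 12406016941623341229084246016) 352 384 352 384 128 192)))))) = true := by decide +kernel
  have c2 : (band (go 16 Gd mult S430_488_216_364 (Tr.lf 17717871684 95247177 14363247662841409224684077056) 256 320 320 352 128 256)
  (band (go 16 Gd mult S430_488_364_512 (Tr.lf 17717871684 95247177 14253235413256477969785815040) 256 320 320 352 128 256)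
  (band (go 16 Gd mult S430_488_512_660 (Tr.lf 17717871684 95247177 14145641015310775973236965376) 256 320 320 352 128 256)
  (band (go 16 Gd mult S430_488_216_364 (Tr.lf 17717871172 95251528 67124430726016652226641002496) 320 384 352 384 192 256)
  (band (go 16 Gd mult S430_488_512_660 (Tr.lf 17717871172 95251528 65266311741268967185117609984) 320 384 352 384 192 256)
  (band (go 16 Gd mult S430_488_364_512 (Tr.lf 17717871140 95251528 66189931067454543874593128448) 320 384 352 384 192 256)
  (band (go 16 Gd mult S430_488_216_364 (Tr.lf 22012838466 86858697 62812158809717288030208786432) 320 352 352 384 128 192)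
  (go 16 Gd mult S430_488_364_512 (Tr.lf 22012838466 86858697 62101310427783886075481554944) 320 352 352 384 128 192)))))))) = true := by decide +kernel
  have c3 : (go 16 Gd mult S430_488_512_660 (Tr.lf 22012838466 86858697 61400133452407401154151972864) 320 352 352 384 128 192) = true := by decide +kernel
  have c4 : (band (go 16 Gd mult S430_488_216_364 (Tr.lf 13421847058 95112009 79104849645656272424192966523) 256 320 352 384 128 256)
  (band (go 16 Gd mult S430_488_512_660 (Tr.lf 13421847058 95112009 79104849645656272424192966523) 256 320 352 384 128 256)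
  (go 16 Gd mult S430_488_364_512 (Tr.lf 13421847058 95112009 79104849645656272424192966523) 256 320 352 384 128 256))) = true := by decide +kernel
  (And.intro (Ok.s0 320 (Ok.lf S430_488_216_364_ok (bl c2))
  (Ok.lf S430_488_216_364_ok (bl c0)))
  (And.intro (Ok.s0 320 (Ok.lf S430_488_216_364_ok (bl c4))
  (Ok.s2 192 (Ok.s0 352 (Ok.lf S430_488_216_364_ok (bl (br (br (br (br (br (br c2))))))))
  (Ok.s3 459 (Ok.lf S430_459_216_364_ok (bl (br (br (br c1)))))
  (Ok.lf S459_488_216_364_ok (bl c1))))
  (Ok.lf S430_488_216_364_ok (bl (br (br (br c2)))))))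
  (And.intro (Ok.s1 352 (Ok.s0 320 (Ok.lf S430_488_364_512_ok (bl (br c2)))
  (Ok.lf S430_488_364_512_ok (bl (br c0))))
  (Ok.s0 320 (Ok.lf S430_488_364_512_ok (br (br c4)))
  (Ok.s2 192 (Ok.s0 352 (Ok.lf S430_488_364_512_ok (br (br (br (br (br (br (br c2))))))))
  (Ok.s3 459 (Ok.lf S430_459_364_512_ok (bl (br (br (br (br c1))))))
  (Ok.lf S459_488_364_512_ok (bl (br c1)))))
  (Ok.lf S430_488_364_512_ok (bl (br (br (br (br (br c2))))))))))
  (Ok.s1 352 (Ok.s0 320 (Ok.lf S430_488_512_660_ok (bl (br (br c2))))
  (Ok.lf S430_488_512_660_ok (br (br c0))))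
  (Ok.s0 320 (Ok.lf S430_488_512_660_ok (bl (br c4)))
  (Ok.s2 192 (Ok.s0 352 (Ok.lf S430_488_512_660_ok c3)
  (Ok.s3 459 (Ok.lf S430_459_512_660_ok (br (br (br (br (br c1))))))
  (Ok.lf S459_488_512_660_ok (bl (br (br c1))))))
  (Ok.lf S430_488_512_660_ok (bl (br (br (br (br c2))))))))))))

end Vale.Agent.P098.Ck
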