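import Vale.Agent.P098.CkGd
import Vale.Agent.P098.CkOk
import Vale.Agent.P098.Sh.A0
import Vale.Agent.P098.Sh.A1
import Vale.Agent.P098.Sh.A2
import Vale.Agent.P098.Sh.A3
import Vale.Agent.P098.Sh.A4
import Vale.Agent.P098.Sh.A5
import Vale.Agent.P098.Sh.A58
import Vale.Agent.P098.Sh.A59

namespace Vale.Agent.P098.Ck

theorem r594 :
    Ok Gd mult 256 384 320 352 128 256 430 488 660 808 ∧
    Ok Gd mult 256 384 352 384 128 256 430 488 660 808 ∧
    Ok Gd mult 256 384 320 384 256 384 24 82 216 808 ∧
    Ok Gd mult 256 384 320 384 256 384 82 140 216 512 :=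
  have c0 : (band (go 16 Gd mult S111_140_216_364 (Tr.lf 9128151112 107973702 9966475104203381125014355968) 256 384 336 352 256 384)
  (go 16 Gd mult S82_111_216_364 (Tr.lf 9195037716 104037446 7107396420664362516623654912) 256 384 336 352 256 384)) = true := by decide +kernel
  have c1 : (go 16 Gd mult S430_488_660_808 (Tr.lf 22012921928 94984906 10698993503589468196149657600) 320 384 320 352 128 256) = true := by decide +kernel
  have c2 : (band (go 16 Gd mult S82_140_364_512 (Tr.lf 4295133208 108235972 8711646166828060143842754560) 256 384 336 344 256 384)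
  (band (go 16 Gd mult S82_140_364_512 (Tr.lf 9195128856 108235846 15641207526013076823913529344) 256 384 344 352 256 384)
  (band (go 16 Gd mult S82_140_364_512 (Tr.lf 9195127844 104041542 18259949041251979502326644736) 256 384 352 384 256 384)
  (go 16 Gd mult S82_140_216_364 (Tr.lf 9195111460 103910470 19916199937598535471036628992) 256 384 352 384 256 384)))) = true := by decide +kernel
  have c3 : (band (go 16 Gd mult S459_488_660_808 (Tr.lf 22012840068 95124297 12086860857286472453733744640) 352 384 352 384 128 192)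
  (go 16 Gd mult S430_459_660_808 (Tr.lf 22012830788 95116233 12413270496603325043756040365) 352 384 352 384 128 192)) = true := by decide +kernel
  have c4 : (band (go 16 Gd mult S82_140_216_364 (Tr.lf 4295133218 108239940 5183972401682302335316721819) 256 320 320 336 256 384)
  (band (go 16 Gd mult S82_140_364_512 (Tr.lf 4295067682 108239940 4762056073151687888513859709) 256 320 320 336 256 384)
  (band (go 16 Gd mult S82_140_216_364 (Tr.lf 4295133218 104049732 0) 320 384 320 336 256 384)
  (go 16 Gd mult S82_140_364_512 (Tr.lf 4295067682 108244036 0) 320 384 320 336 256 384)))) = true := by decide +kernel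
  have c5 : (band (go 16 Gd mult S430_488_660_808 (Tr.lf 17717871684 95247177 14098492908345805435423424512) 256 320 320 352 128 256)
  (band (go 16 Gd mult S430_488_660_808 (Tr.lf 22012838978 86858697 61088230590946826827077779456) 320 352 352 384 128 192)
  (go 16 Gd mult S430_488_660_808 (Tr.lf 17717871172 95251528 64855276962599993265717510144) 320 384 352 384 192 256))) = true := by decide +kernel
  have c6 : (band (go 16 Gd mult S24_82_512_660 (Tr.lf 4295050308 108108868 6328962562645798327332896768) 256 384 320 384 256 384)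
  (band (go 16 Gd mult S24_82_364_512 (Tr.lf 4295042116 108235844 6414796295838436998737035264) 256 384 320 384 256 384)
  (band (go 16 Gd mult S24_82_660_808 (Tr.lf 4295042116 107977796 6243128829453159655928758272) 256 384 320 384 256 384)
  (go 16 Gd mult S24_82_216_364 (Tr.lf 4295042116 108235844 6454690847885719761502339072) 256 384 320 384 256 384)))) = true := by decide +kernel
  have c7 : (go 16 Gd mult S430_488_660_808 (Tr.lf 13421847058 95112009 79104849645656272424192966523) 256 320 352 384 128 256) = true := by decide +kernel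
  (And.intro (Ok.s0 320 (Ok.lf S430_488_660_808_ok (bl c5))
  (Ok.lf S430_488_660_808_ok c1))
  (And.intro (Ok.s0 320 (Ok.lf S430_488_660_808_ok c7)
  (Ok.s2 192 (Ok.s0 352 (Ok.lf S430_488_660_808_ok (bl (br c5)))
  (Ok.s3 459 (Ok.lf S430_459_660_808_ok (br c3))
  (Ok.lf S459_488_660_808_ok (bl c3))))
  (Ok.lf S430_488_660_808_ok (br (br c5)))))
  (And.intro (Ok.s4 512 (Ok.s4 364 (Ok.lf S24_82_216_364_ok (br (br (br c6))))
  (Ok.lf S24_82_364_512_ok (bl (br c6))))
  (Ok.s4 660 (Ok.lf S24_82_512_660_ok (bl c6))
  (Ok.lf S24_82_660_808_ok (bl (br (br c6))))))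
  (Ok.s4 364 (Ok.s1 352 (Ok.s1 336 (Ok.s0 320 (Ok.lf S82_140_216_364_ok (bl c4))
  (Ok.lf S82_140_216_364_ok (bl (br (br c4)))))
  (Ok.s3 111 (Ok.lf S82_111_216_364_ok (br c0))
  (Ok.lf S111_140_216_364_ok (bl c0))))
  (Ok.lf S82_140_216_364_ok (br (br (br c2)))))
  (Ok.s1 352 (Ok.s1 336 (Ok.s0 320 (Ok.lf S82_140_364_512_ok (bl (br c4)))
  (Ok.lf S82_140_364_512_ok (br (br (br c4)))))
  (Ok.s1 344 (Ok.lf S82_140_364_512_ok (bl c2))
  (Ok.lf S82_140_364_512_ok (bl (br c2)))))
  (Ok.lf S82_140_364_512_ok (bl (br (br c2)))))))))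

end Vale.Agent.P098.Ck
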