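import Vale.Agent.P098.CkGd
import Vale.Agent.P098.CkOk
import Vale.Agent.P098.Sh.A11
import Vale.Agent.P098.Sh.A17
import Vale.Agent.P098.Sh.A4
import Vale.Agent.P098.Sh.A8

namespace Vale.Agent.P098.Ck

theorem r595 :
    Ok Gd mult 256 384 320 384 256 384 82 140 512 660 ∧
    Ok Gd mult 256 384 320 384 256 384 82 140 660 808 ∧
    Ok Gd mult 256 384 320 384 256 384 140 198 216 364 :=
  have c0 : (band (go 16 Gd mult S140_169_216_364 (Tr.lf 9136538696 107977926 7028730225229958811509129293) 256 320 320 336 256 320)
  (band (go 16 Gd mult S169_198_216_364 (Tr.lf 9135473224 104041542 12005842314592882334007033856) 256 320 320 336 256 320)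
  (band (go 16 Gd mult S140_169_216_364 (Tr.lf 9127100996 104037573 10191244659351323942773063680) 320 384 336 352 256 288)
  (band (go 16 Gd mult S169_198_216_364 (Tr.lf 9126945042 108367045 14035628765725844718338703360) 320 384 336 352 256 288)
  (go 16 Gd mult S169_198_216_364 (Tr.lf 9135333924 103910470 25709048780173577094726418432) 256 320 320 352 320 384))))) = true := by decide +kernel
  have c1 : (band (go 16 Gd mult S140_198_216_364 (Tr.sp 0 288 Tr.skip (Tr.lf 9127363652 108235718 16660206720109204656625811456)) 256 320 336 352 256 320)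
  (go 16 Gd mult S140_198_216_364 (Tr.lf 9135752260 104172614 2452910487998082595478831104) 320 384 320 336 256 320)) = true := by decide +kernel
  have c2 : (band (go 16 Gd mult S82_140_512_660 (Tr.lf 4295133224 108235972 2350268469237620007741751469) 256 384 320 336 256 384)
  (band (go 16 Gd mult S82_140_660_808 (Tr.lf 4295116836 108244036 1987585207526238536974991360) 256 384 320 336 256 384)
  (band (go 16 Gd mult S82_140_512_660 (Tr.lf 9195128872 108227782 8959477730736490200774475776) 256 384 336 352 256 384)
  (go 16 Gd mult S82_140_660_808 (Tr.lf 9195112484 104041542 8132573890519377520910925824) 256 384 336 352 256 384)))) = true := by decide +kernel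
  have c3 : (band (go 16 Gd mult S140_198_216_364 (Tr.lf 9135489572 104041542 18962001480655458605266370560) 320 384 320 336 320 384)
  (go 16 Gd mult S140_198_216_364 (Tr.lf 9127100706 104172486 15106790740384567634513690653) 320 384 336 352 288 320)) = true := by decide +kernel
  have c4 : (band (go 16 Gd mult S82_140_512_660 (Tr.lf 9195045924 103910470 17086056927494002107568095232) 256 384 352 384 256 384)
  (go 16 Gd mult S82_140_660_808 (Tr.lf 9195045924 103910470 15438284431424884154424098816) 256 384 352 384 256 384)) = true := by decide +kernel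
  have c5 : (band (go 16 Gd mult S140_169_216_364 (Tr.lf 9126945826 108108614 28418354327187939784864563200) 320 384 352 384 256 384)
  (band (go 16 Gd mult S169_198_216_364 (Tr.lf 9126945298 103914438 48550536565820953939071205376) 320 384 352 384 256 384)
  (go 16 Gd mult S140_169_216_364 (Tr.lf 4295106850 108108996 17003811288937884754758336512) 256 320 320 352 320 384))) = true := by decide +kernel
  have c6 : (band (go 16 Gd mult S140_169_216_364 (Tr.lf 9127923986 108104774 23719356382625054641960779776) 320 384 336 352 320 384)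
  (go 16 Gd mult S169_198_216_364 (Tr.lf 9126875410 108231622 37413923168044874944504397824) 320 384 336 352 320 384)) = true := by decide +kernel
  (And.intro (Ok.s1 352 (Ok.s1 336 (Ok.lf S82_140_512_660_ok (bl c2))
  (Ok.lf S82_140_512_660_ok (bl (br (br c2)))))
  (Ok.lf S82_140_512_660_ok (bl c4)))
  (And.intro (Ok.s1 352 (Ok.s1 336 (Ok.lf S82_140_660_808_ok (bl (br c2)))
  (Ok.lf S82_140_660_808_ok (br (br (br c2)))))
  (Ok.lf S82_140_660_808_ok (br c4)))
  (Ok.s1 352 (Ok.s0 320 (Ok.s2 320 (Ok.s1 336 (Ok.s3 169 (Ok.lf S140_169_216_364_ok (bl c0))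
  (Ok.lf S169_198_216_364_ok (bl (br c0))))
  (Ok.lf S140_198_216_364_ok (bl c1)))
  (Ok.s3 169 (Ok.lf S140_169_216_364_ok (br (br c5)))
  (Ok.lf S169_198_216_364_ok (br (br (br (br c0)))))))
  (Ok.s1 336 (Ok.s2 320 (Ok.lf S140_198_216_364_ok (br c1))
  (Ok.lf S140_198_216_364_ok (bl c3)))
  (Ok.s2 320 (Ok.s2 288 (Ok.s3 169 (Ok.lf S140_169_216_364_ok (bl (br (br c0))))
  (Ok.lf S169_198_216_364_ok (bl (br (br (br c0))))))
  (Ok.lf S140_198_216_364_ok (br c3)))
  (Ok.s3 169 (Ok.lf S140_169_216_364_ok (bl c6))
  (Ok.lf S169_198_216_364_ok (br c6))))))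
  (Ok.s0 320 (Ok.out rfl)
  (Ok.s3 169 (Ok.lf S140_169_216_364_ok (bl c5))
  (Ok.lf S169_198_216_364_ok (bl (br c5))))))))

end Vale.Agent.P098.Ck
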