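import Vale.Agent.P098.CkGd
import Vale.Agent.P098.CkOk
import Vale.Agent.P098.Sh.A10
import Vale.Agent.P098.Sh.A11
import Vale.Agent.P098.Sh.A18
import Vale.Agent.P098.Sh.A19
import Vale.Agent.P098.Sh.A9

namespace Vale.Agent.P098.Ck

theorem r596 :
    Ok Gd mult 256 384 320 336 256 320 140 198 364 512 ∧
    Ok Gd mult 256 384 336 352 256 320 140 198 364 512 ∧
    Ok Gd mult 256 384 320 352 320 384 140 198 364 512 ∧
    Ok Gd mult 256 384 352 384 256 384 140 198 364 512 ∧
    Ok Gd mult 256 384 320 384 256 384 140 198 512 660 :=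
  have c0 : (band (go 16 Gd mult S140_169_364_512 (Tr.lf 9127101512 104037318 10848900305221682213813223424) 320 384 336 352 256 320)
  (band (go 16 Gd mult S169_198_364_512 (Tr.lf 9127084580 104172486 13712845571888738728692154368) 320 384 336 352 256 320)
  (band (go 16 Gd mult S169_198_364_512 (Tr.lf 9135473224 108235846 20334162280323926570288807936) 256 384 320 352 320 384)
  (band (go 16 Gd mult S140_169_364_512 (Tr.lf 9136316964 99720390 14857888010941265411338731549) 256 384 320 352 320 384)
  (go 16 Gd mult S169_198_364_512 (Tr.lf 9135473170 108104774 9828566913466935190361210880) 288 320 328 336 256 320))))) = true := by decide +kernel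
  have c1 : (go 16 Gd mult S140_169_512_660 (Tr.lf 9127086152 108100550 10040128931899495295934791680) 256 384 336 352 256 384) = true := by decide +kernel
  have c2 : (band (go 16 Gd mult S140_198_512_660 (Tr.lf 9202599972 108112838 5846397563984032872355332395) 256 320 320 336 256 384)
  (go 16 Gd mult S140_198_512_660 (Tr.lf 9135491108 104168518 2734590203968291193185370112) 320 384 320 336 256 384)) = true := by decide +kernel
  have c3 : (band (go 16 Gd mult S169_198_512_660 (Tr.lf 9127086104 108104646 8800979966794500391860961280) 256 384 336 344 256 384)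
  (go 16 Gd mult S169_198_512_660 (Tr.lf 9127086104 112298950 16581626541834253760269910016) 256 384 344 352 256 384)) = true := by decide +kernel
  have c4 : (band (go 16 Gd mult S140_198_364_512 (Tr.lf 9135490084 108235846 2558087034304555333678268416) 320 384 320 336 256 320)
  (go 16 Gd mult S140_198_364_512 (Tr.lf 9135489554 112426054 5933407922668599989457911808) 288 320 320 328 256 320)) = true := by decide +kernel
  have c5 : (band (go 16 Gd mult S140_169_364_512 (Tr.lf 9128133700 108235846 11570629019531615831112810496) 256 320 336 352 256 320)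
  (go 16 Gd mult S169_198_364_512 (Tr.lf 9126953508 112298950 15408968496808063460804919296) 256 320 336 352 256 320)) = true := by decide +kernel
  have c6 : (go 16 Gd mult S140_198_364_512 (Tr.lf 9135358498 104045510 10286752990436299694863614203) 256 288 320 336 256 320) = true := by decide +kernel
  have c7 : (band (go 16 Gd mult S169_198_512_660 (Tr.lf 9126945826 112298950 26920459726703072346516750336) 320 384 352 384 256 384)
  (band (go 16 Gd mult S140_169_512_660 (Tr.lf 9126880290 108235590 25117989163929755425320206336) 320 384 352 384 256 384)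
  (band (go 16 Gd mult S140_169_364_512 (Tr.lf 9126880290 104172358 25385157471973219298604744704) 320 384 352 384 256 384)
  (go 16 Gd mult S169_198_364_512 (Tr.lf 9126945314 104172486 35878583300403855602816647168) 320 384 352 384 256 384)))) = true := by decide +kernel
  have c8 : (go 16 Gd mult S140_169_364_512 (Tr.lf 9136382482 104041670 6433910148013531827530432667) 288 320 328 336 256 320) = true := by decide +kernel
  (And.intro (Ok.s0 320 (Ok.s0 288 (Ok.lf S140_198_364_512_ok c6)
  (Ok.s1 328 (Ok.lf S140_198_364_512_ok (br c4))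
  (Ok.s3 169 (Ok.lf S140_169_364_512_ok c8)
  (Ok.lf S169_198_364_512_ok (br (br (br (br c0))))))))
  (Ok.lf S140_198_364_512_ok (bl c4)))
  (And.intro (Ok.s3 169 (Ok.s0 320 (Ok.lf S140_169_364_512_ok (bl c5))
  (Ok.lf S140_169_364_512_ok (bl c0)))
  (Ok.s0 320 (Ok.lf S169_198_364_512_ok (br c5))
  (Ok.lf S169_198_364_512_ok (bl (br c0)))))
  (And.intro (Ok.s3 169 (Ok.lf S140_169_364_512_ok (bl (br (br (br c0)))))
  (Ok.lf S169_198_364_512_ok (bl (br (br c0)))))
  (And.intro (Ok.s0 320 (Ok.out rfl)
  (Ok.s3 169 (Ok.lf S140_169_364_512_ok (bl (br (br c7))))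
  (Ok.lf S169_198_364_512_ok (br (br (br c7))))))
  (Ok.s1 352 (Ok.s1 336 (Ok.s0 320 (Ok.lf S140_198_512_660_ok (bl c2))
  (Ok.lf S140_198_512_660_ok (br c2)))
  (Ok.s3 169 (Ok.lf S140_169_512_660_ok c1)
  (Ok.s1 344 (Ok.lf S169_198_512_660_ok (bl c3))
  (Ok.lf S169_198_512_660_ok (br c3)))))
  (Ok.s0 320 (Ok.out rfl)
  (Ok.s3 169 (Ok.lf S140_169_512_660_ok (bl (br c7)))
  (Ok.lf S169_198_512_660_ok (bl c7)))))))))

end Vale.Agent.P098.Ck
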