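import Vale.Agent.P098.CkGd
import Vale.Agent.P098.CkOk
import Vale.Agent.P098.Sh.A10
import Vale.Agent.P098.Sh.A11
import Vale.Agent.P098.Sh.A19
import Vale.Agent.P098.Sh.A26
import Vale.Agent.P098.Sh.A28
import Vale.Agent.P098.Sh.A37

namespace Vale.Agent.P098.Ck

theorem r597 :
    Ok Gd mult 256 384 320 384 256 320 140 198 660 808 ∧
    Ok Gd mult 256 384 320 384 320 384 140 198 660 808 ∧
    Ok Gd mult 256 384 320 384 256 384 198 256 216 512 :=
  have c0 : (go 16 Gd mult S198_256_216_364 (Tr.lf 9135751752 104045638 29722650201045272889326043136) 256 384 320 352 320 384) = true := by decide +kernel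
  have c1 : (band (go 16 Gd mult S198_256_364_512 (Tr.lf 9135490120 112430150 16036400997188056002477424640) 256 320 336 352 256 320)
  (go 16 Gd mult S198_256_364_512 (Tr.lf 9202598434 107981894 17637018782357825029788401664) 320 384 320 336 320 384)) = true := by decide +kernel
  have c2 : (band (go 16 Gd mult S198_256_364_512 (Tr.lf 9135752260 108366918 3220578383453372121417252864) 320 384 320 336 256 320)
  (band (go 16 Gd mult S140_198_660_808 (Tr.lf 9202598434 108112838 0) 320 384 320 336 256 320)
  (band (go 16 Gd mult S140_198_660_808 (Tr.lf 9202598472 103918534 16219058185142222105499140096) 256 384 320 384 320 384)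
  (go 16 Gd mult S140_198_660_808 (Tr.lf 4295263268 108240068 4529887510531271923274154091) 256 320 320 336 256 320)))) = true := by decide +kernel
  have c3 : (band (go 16 Gd mult S227_256_364_512 (Tr.lf 9127363652 108240069 13266751944450940563225575424) 320 384 336 352 256 320)
  (go 16 Gd mult S198_227_364_512 (Tr.lf 9127084562 108239814 15126079855018240233923674112) 320 384 336 352 256 320)) = true := by decide +kernel
  have c4 : (band (go 16 Gd mult S169_198_660_808 (Tr.lf 9135473736 108239814 9666570853638574880950583296) 256 384 336 352 256 320)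
  (band (go 16 Gd mult S140_169_660_808 (Tr.lf 9127076904 104172613 9422367838076419787659935744) 256 384 336 352 256 320)
  (band (go 16 Gd mult S198_256_216_364 (Tr.lf 9127100948 108239814 22221265490336498860274221056) 256 384 336 352 256 320)
  (go 16 Gd mult S198_256_216_364 (Tr.lf 9135489572 112295110 15839346088590871447000317952) 256 384 320 336 256 320)))) = true := by decide +kernel
  have c5 : (go 16 Gd mult S198_256_364_438 (Tr.lf 9135358532 108235846 11348186668722524062966874112) 256 320 320 336 256 320) = true := by decide +kernel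
  have c6 : (go 16 Gd mult S140_198_660_808 (Tr.lf 9135473220 112561094 18069923061569897160687747072) 256 384 352 384 256 320) = true := by decide +kernel
  have c7 : (go 16 Gd mult S198_256_438_512 (Tr.lf 9135358500 108362822 7168930110314751006007623680) 256 320 320 336 256 288) = true := by decide +kernel
  have c8 : (go 16 Gd mult S198_256_364_512 (Tr.lf 9202467364 108108870 23704670284031931888084975616) 256 320 320 352 320 384) = true := by decide +kernel
  have c9 : (band (go 16 Gd mult S198_256_364_512 (Tr.sp 0 320 Tr.skip (Tr.lf 9127085090 112303046 35643994008429899053155745792)) 256 384 352 384 256 384)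
  (go 16 Gd mult S198_256_216_364 (Tr.sp 0 320 Tr.skip (Tr.lf 9126954002 104045510 66602162855346460806797590528)) 256 384 352 384 256 384)) = true := by decide +kernel
  have c10 : (go 16 Gd mult S198_256_438_512 (Tr.lf 9202385186 107977798 9878161427630961088910065664) 256 320 320 336 288 320) = true := by decide +kernel
  have c11 : (go 16 Gd mult S198_256_364_512 (Tr.lf 9135341842 104041542 26508187798696051022327971840) 320 384 336 352 320 384) = true := by decide +kernel
  (And.intro (Ok.s1 352 (Ok.s1 336 (Ok.s0 320 (Ok.lf S140_198_660_808_ok (br (br (br c2))))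
  (Ok.lf S140_198_660_808_ok (bl (br c2))))
  (Ok.s3 169 (Ok.lf S140_169_660_808_ok (bl (br c4)))
  (Ok.lf S169_198_660_808_ok (bl c4))))
  (Ok.lf S140_198_660_808_ok c6))
  (And.intro (Ok.lf S140_198_660_808_ok (bl (br (br c2))))
  (Ok.s4 364 (Ok.s1 352 (Ok.s2 320 (Ok.s1 336 (Ok.lf S198_256_216_364_ok (br (br (br c4))))
  (Ok.lf S198_256_216_364_ok (bl (br (br c4)))))
  (Ok.lf S198_256_216_364_ok c0))
  (Ok.lf S198_256_216_364_ok (br c9)))
  (Ok.s1 352 (Ok.s0 320 (Ok.s2 320 (Ok.s1 336 (Ok.s4 438 (Ok.lf S198_256_364_438_ok c5)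
  (Ok.s2 288 (Ok.lf S198_256_438_512_ok c7)
  (Ok.lf S198_256_438_512_ok c10)))
  (Ok.lf S198_256_364_512_ok (bl c1)))
  (Ok.lf S198_256_364_512_ok c8))
  (Ok.s2 320 (Ok.s1 336 (Ok.lf S198_256_364_512_ok (bl c2))
  (Ok.s3 227 (Ok.lf S198_227_364_512_ok (br c3))
  (Ok.lf S227_256_364_512_ok (bl c3))))
  (Ok.s1 336 (Ok.lf S198_256_364_512_ok (br c1))
  (Ok.lf S198_256_364_512_ok c11))))
  (Ok.lf S198_256_364_512_ok (bl c9))))))

end Vale.Agent.P098.Ck
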