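import Vale.Agent.P098.CkGd
import Vale.Agent.P098.CkOk
import Vale.Agent.P098.Sh.A27
import Vale.Agent.P098.Sh.A29
import Vale.Agent.P098.Sh.A37
import Vale.Agent.P098.Sh.A38
import Vale.Agent.P098.Sh.A41
import Vale.Agent.P098.Sh.A43
import Vale.Agent.P098.Sh.A45

namespace Vale.Agent.P098.Ck

theorem r598 :
    Ok Gd mult 256 384 320 336 256 320 198 256 512 660 ∧
    Ok Gd mult 256 384 336 352 256 320 198 256 512 660 ∧
    Ok Gd mult 256 384 320 352 320 384 198 256 512 660 ∧
    Ok Gd mult 256 384 352 384 256 384 198 256 512 660 ∧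
    Ok Gd mult 256 384 320 384 256 384 198 256 660 808 ∧
    Ok Gd mult 256 384 320 352 256 320 256 314 216 364 :=
  have c0 : (band (go 16 Gd mult S256_285_216_364 (Tr.lf 13430719560 103910343 12082004641228603972013522944) 256 384 320 336 256 320)
  (go 16 Gd mult S198_227_512_660 (Tr.lf 9202844712 112303174 5521205243844668118267330984) 256 384 320 336 256 320)) = true := by decide +kernel
  have c1 : (band (go 16 Gd mult S198_227_660_808 (Tr.lf 9202844744 104041542 2908738167179301399100588139) 256 384 320 336 256 320)
  (band (go 16 Gd mult S227_256_512_660 (Tr.lf 4295509032 108108869 5186364760133457097960398840) 256 384 320 336 256 320)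
  (band (go 16 Gd mult S227_256_660_808 (Tr.lf 8590214180 99978309 2070964140542317799470013846) 256 384 320 336 256 320)
  (go 16 Gd mult S227_256_660_808 (Tr.lf 9202582056 108104774 8439545217866030410165649408) 256 384 336 352 256 320)))) = true := by decide +kernel
  have c2 : (go 16 Gd mult S198_227_660_808 (Tr.lf 9202844744 107977798 9588011188143033949616078848) 256 384 336 352 256 320) = true := by decide +kernel
  have c3 : (band (go 16 Gd mult S198_227_512_660 (Tr.lf 9127347240 104041669 8833620963924095379578028032) 256 384 336 344 256 320)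
  (go 16 Gd mult S227_256_512_660 (Tr.lf 9202844696 112045126 8977511692018062353753964544) 256 384 336 344 256 320)) = true := by decide +kernel
  have c4 : (go 16 Gd mult S256_314_216_364 (Tr.lf 13422330404 103902151 14370501217759096999732314112) 320 384 336 352 256 320) = true := by decide +kernel
  have c5 : (band (go 16 Gd mult S198_256_512_660 (Tr.sp 0 320 Tr.skip (Tr.lf 9127101474 104041414 24965596700427097192995487744)) 256 384 352 384 256 384)
  (go 16 Gd mult S198_256_660_808 (Tr.sp 0 320 Tr.skip (Tr.lf 9202598946 112299078 25368206814184119812753457152)) 256 384 352 384 256 384)) = true := by decide +kernel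
  have c6 : (go 16 Gd mult S256_314_216_364 (Tr.lf 9127100964 112430277 17554811826624030245908381696) 256 320 336 352 256 320) = true := by decide +kernel
  have c7 : (band (go 16 Gd mult S198_227_512_660 (Tr.lf 9127084568 108235973 15471832639428024177889640448) 256 384 344 352 256 320)
  (go 16 Gd mult S227_256_512_660 (Tr.lf 9127084568 104041669 15479101726504222016380338176) 256 384 344 352 256 320)) = true := by decide +kernel
  have c8 : (go 16 Gd mult S285_314_216_364 (Tr.lf 13430440484 103783239 8839665593022168525451558912) 256 320 320 336 256 320) = true := by decide +kernel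
  have c9 : (band (go 16 Gd mult S198_256_512_660 (Tr.lf 9202450978 112299078 14372923349042951358697701376) 320 384 320 352 320 384)
  (band (go 16 Gd mult S198_256_660_808 (Tr.lf 4295115298 104045764 11274463794863341997194739712) 320 384 320 352 320 384)
  (band (go 16 Gd mult S198_256_660_808 (Tr.lf 4295115042 104041668 12189741411145066858881744896) 256 320 320 352 320 384)
  (go 16 Gd mult S198_256_512_660 (Tr.sp 0 288 Tr.skip (Tr.lf 4295115041 108113092 15300305774232050569287630715)) 256 320 320 352 320 384)))) = true := by decide +kernel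
  have c10 : (go 16 Gd mult S285_314_216_364 (Tr.lf 13430432290 103914311 5218932763276354147206561792) 320 384 320 336 256 320) = true := by decide +kernel
  (And.intro (Ok.s3 227 (Ok.lf S198_227_512_660_ok (br c0))
  (Ok.lf S227_256_512_660_ok (bl (br c1))))
  (And.intro (Ok.s3 227 (Ok.s1 344 (Ok.lf S198_227_512_660_ok (bl c3))
  (Ok.lf S198_227_512_660_ok (bl c7)))
  (Ok.s1 344 (Ok.lf S227_256_512_660_ok (br c3))
  (Ok.lf S227_256_512_660_ok (br c7))))
  (And.intro (Ok.s0 320 (Ok.lf S198_256_512_660_ok (br (br (br c9))))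
  (Ok.lf S198_256_512_660_ok (bl c9)))
  (And.intro (Ok.lf S198_256_512_660_ok (bl c5))
  (And.intro (Ok.s1 352 (Ok.s2 320 (Ok.s1 336 (Ok.s3 227 (Ok.lf S198_227_660_808_ok (bl c1))
  (Ok.lf S227_256_660_808_ok (bl (br (br c1)))))
  (Ok.s3 227 (Ok.lf S198_227_660_808_ok c2)
  (Ok.lf S227_256_660_808_ok (br (br (br c1))))))
  (Ok.s0 320 (Ok.lf S198_256_660_808_ok (bl (br (br c9))))
  (Ok.lf S198_256_660_808_ok (bl (br c9)))))
  (Ok.lf S198_256_660_808_ok (br c5)))
  (Ok.s1 336 (Ok.s3 285 (Ok.lf S256_285_216_364_ok (bl c0))
  (Ok.s0 320 (Ok.lf S285_314_216_364_ok c8)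
  (Ok.lf S285_314_216_364_ok c10)))
  (Ok.s0 320 (Ok.lf S256_314_216_364_ok c6)
  (Ok.lf S256_314_216_364_ok c4))))))))

end Vale.Agent.P098.Ck
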