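import Vale.Agent.P098.CkGd
import Vale.Agent.P098.CkOk
import Vale.Agent.P098.Sh.A41
import Vale.Agent.P098.Sh.A42
import Vale.Agent.P098.Sh.A43
import Vale.Agent.P098.Sh.A44
import Vale.Agent.P098.Sh.A45
import Vale.Agent.P098.Sh.A46

namespace Vale.Agent.P098.Ck

theorem r599 :
    Ok Gd mult 256 384 320 352 320 384 256 314 216 364 ∧
    Ok Gd mult 256 384 352 384 256 384 256 314 216 364 ∧
    Ok Gd mult 256 384 320 384 256 384 256 314 364 512 ∧
    Ok Gd mult 256 384 320 352 256 384 256 314 512 660 :=
  have c0 : (go 16 Gd mult S285_314_512_660 (Tr.lf 9202862120 108104774 9112932449996632997629001728) 256 384 336 352 256 384) = true := by decide +kernel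
  have c1 : (band (go 16 Gd mult S256_285_216_364 (Tr.lf 9135735944 112561222 25216994370453112706736062464) 256 384 320 352 320 384)
  (band (go 16 Gd mult S285_314_216_364 (Tr.lf 4295238216 108109124 19087783464411007972371398859) 256 384 320 352 320 384)
  (go 16 Gd mult S256_285_364_512 (Tr.lf 9202573896 107981894 18375771498711295202116501504) 256 384 320 352 320 384))) = true := by decide +kernel
  have c2 : (go 16 Gd mult S256_314_512_660 (Tr.lf 8590493764 99847237 5852479474009303372303434308) 256 320 320 336 256 384) = true := by decide +kernel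
  have c3 : (go 16 Gd mult S256_314_512_660 (Tr.lf 9202862116 112041030 0) 320 384 320 336 256 384) = true := by decide +kernel
  have c4 : (band (go 16 Gd mult S256_285_512_660 (Tr.lf 9202845720 112172102 8699474636153345107495485440) 256 384 336 344 256 384)
  (go 16 Gd mult S256_285_512_660 (Tr.lf 9202845720 112172102 15410258588442909163952275910) 256 384 344 352 256 384)) = true := by decide +kernel
  have c5 : (go 16 Gd mult S256_285_364_512 (Tr.lf 9127363112 104172741 7664589696356748967637155840) 256 384 328 336 256 288) = true := by decide +kernel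
  have c6 : (go 16 Gd mult S256_314_364_512 (Tr.sp 0 320 Tr.skip (Tr.lf 9127101508 112303301 30228021887161614487624089600)) 256 384 352 384 256 384) = true := by decide +kernel
  have c7 : (go 16 Gd mult S256_314_364_512 (Tr.lf 9135752212 112426054 6412143082191571280218554368) 256 320 320 328 256 320) = true := by decide +kernel
  have c8 : (band (go 16 Gd mult S285_314_364_512 (Tr.lf 9127347224 108371013 6042211246433916615181467648) 256 384 328 336 256 320)
  (go 16 Gd mult S285_314_364_512 (Tr.lf 9127347224 108371013 9100793570058928427188092928) 256 384 336 344 256 320)) = true := by decide +kernel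
  have c9 : (go 16 Gd mult S256_285_364_512 (Tr.lf 9127346756 108108997 9920445275757647007638880256) 320 384 336 352 256 288) = true := by decide +kernel
  have c10 : (go 16 Gd mult S285_314_364_512 (Tr.lf 9127085080 112307269 15572173482456038399390253056) 256 384 344 352 256 320) = true := by decide +kernel
  have c11 : (go 16 Gd mult S256_285_364_512 (Tr.lf 9135473188 108235846 12177509780978159676815310848) 256 320 336 352 256 288) = true := by decide +kernel
  have c12 : (band (go 16 Gd mult S256_285_364_512 (Tr.lf 9127076136 112430277 15589136813242478873199444877) 256 384 336 352 288 320)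
  (go 16 Gd mult S256_285_364_512 (Tr.lf 4295237912 107981893 10292819239091406708599095343) 256 384 328 336 288 320)) = true := by decide +kernel
  have c13 : (go 16 Gd mult S256_314_216_364 (Tr.sp 0 320 Tr.skip (Tr.sp 0 352 Tr.skip (Tr.lf 13421921313 103902151 46370797103961872894649171968))) 256 384 352 384 256 384) = true := by decide +kernel
  have c14 : (go 16 Gd mult S256_314_364_512 (Tr.lf 9135473170 112299078 0) 320 384 320 328 256 320) = true := by decide +kernel
  have c15 : (go 16 Gd mult S285_314_364_512 (Tr.lf 9202442788 107977798 14827586005619984573639098397) 256 384 320 352 320 384) = true := by decide +kernel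
  (And.intro (Ok.s3 285 (Ok.lf S256_285_216_364_ok (bl c1))
  (Ok.lf S285_314_216_364_ok (bl (br c1))))
  (And.intro (Ok.lf S256_314_216_364_ok c13)
  (And.intro (Ok.s1 352 (Ok.s2 320 (Ok.s1 336 (Ok.s1 328 (Ok.s0 320 (Ok.lf S256_314_364_512_ok c7)
  (Ok.lf S256_314_364_512_ok c14))
  (Ok.s3 285 (Ok.s2 288 (Ok.lf S256_285_364_512_ok c5)
  (Ok.lf S256_285_364_512_ok (br c12)))
  (Ok.lf S285_314_364_512_ok (bl c8))))
  (Ok.s3 285 (Ok.s2 288 (Ok.s0 320 (Ok.lf S256_285_364_512_ok c11)
  (Ok.lf S256_285_364_512_ok c9))
  (Ok.lf S256_285_364_512_ok (bl c12)))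
  (Ok.s1 344 (Ok.lf S285_314_364_512_ok (br c8))
  (Ok.lf S285_314_364_512_ok c10))))
  (Ok.s3 285 (Ok.lf S256_285_364_512_ok (br (br c1)))
  (Ok.lf S285_314_364_512_ok c15)))
  (Ok.lf S256_314_364_512_ok c6))
  (Ok.s1 336 (Ok.s0 320 (Ok.lf S256_314_512_660_ok c2)
  (Ok.lf S256_314_512_660_ok c3))
  (Ok.s3 285 (Ok.s1 344 (Ok.lf S256_285_512_660_ok (bl c4))
  (Ok.lf S256_285_512_660_ok (br c4)))
  (Ok.lf S285_314_512_660_ok c0))))))

end Vale.Agent.P098.Ck
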