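import Vale.Agent.P098.CkGd
import Vale.Agent.P098.CkOk
import Vale.Agent.P098.Sh.A43
import Vale.Agent.P098.Sh.A44
import Vale.Agent.P098.Sh.A47
import Vale.Agent.P098.Sh.A48
import Vale.Agent.P098.Sh.A49
import Vale.Agent.P098.Sh.A51
import Vale.Agent.P098.Sh.A52
import Vale.Agent.P098.Sh.A54
import Vale.Agent.P098.Sh.A55

namespace Vale.Agent.P098.Ck

theorem r6 :
    Ok Gd mult 0 128 0 64 128 256 256 314 216 512 ∧
    Ok Gd mult 0 128 0 64 128 256 256 314 512 808 ∧
    Ok Gd mult 0 128 0 64 128 256 314 372 216 808 ∧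
    Ok Gd mult 0 128 0 64 128 256 372 430 216 512 :=
  have c0 : (band (go 16 Gd mult S256_314_660_808 (Tr.lf 9996418 103779652 0) 0 128 0 64 128 256)
  (go 16 Gd mult S343_372_660_808 (Tr.lf 547652738 104041542 0) 0 128 0 64 128 256)) = true := by decide +kernel
  have c1 : (band (go 16 Gd mult S256_314_364_512 (Tr.lf 77104258 104041669 0) 0 128 0 64 128 256)
  (band (go 16 Gd mult S256_314_512_660 (Tr.lf 76843138 108109124 0) 0 128 0 64 128 256)
  (go 16 Gd mult S343_372_364_512 (Tr.lf 614614146 108239942 0) 0 128 0 64 128 256))) = true := by decide +kernel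
  have c2 : (band (go 16 Gd mult S256_314_216_364 (Tr.lf 76842050 104045637 0) 0 128 0 32 128 256)
  (band (go 16 Gd mult S372_430_216_364 (Tr.lf 614630465 104176582 0) 0 128 0 32 128 256)
  (band (go 16 Gd mult S372_430_216_364 (Tr.lf 1160938530 99589192 0) 0 128 32 64 128 256)
  (band (go 16 Gd mult S256_314_216_364 (Tr.lf 9732641 112434245 0) 0 128 32 64 128 256)
  (band (go 16 Gd mult S372_430_364_512 (Tr.lf 1160938530 95394888 0) 0 128 32 64 128 256)
  (go 16 Gd mult S372_430_364_512 (Tr.lf 614630433 108367045 0) 0 128 0 16 128 256)))))) = true := by decide +kernel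
  have c3 : (band (go 16 Gd mult S314_343_512_660 (Tr.lf 77874306 104172614 0) 0 128 0 64 128 256)
  (band (go 16 Gd mult S314_343_660_808 (Tr.lf 10765442 104045510 0) 0 128 0 64 128 256)
  (band (go 16 Gd mult S343_372_512_660 (Tr.lf 614614146 104045638 0) 0 128 0 64 128 256)
  (band (go 16 Gd mult S314_343_216_364 (Tr.lf 76817474 104045892 0) 0 128 0 64 128 256)
  (band (go 16 Gd mult S343_372_216_364 (Tr.lf 614614082 108239942 0) 0 128 0 64 128 256)
  (go 16 Gd mult S314_343_364_512 (Tr.lf 76694594 108109124 0) 0 128 0 64 128 256)))))) = true := by decide +kernel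
  have c4 : (go 16 Gd mult S372_430_364_512 (Tr.lf 547439633 107977670 0) 0 128 16 32 128 256) = true := by decide +kernel
  (And.intro (Ok.s4 364 (Ok.s1 32 (Ok.lf S256_314_216_364_ok (bl c2))
  (Ok.lf S256_314_216_364_ok (bl (br (br (br c2))))))
  (Ok.lf S256_314_364_512_ok (bl c1)))
  (And.intro (Ok.s4 660 (Ok.lf S256_314_512_660_ok (bl (br c1)))
  (Ok.lf S256_314_660_808_ok (bl c0)))
  (And.intro (Ok.s4 512 (Ok.s4 364 (Ok.s3 343 (Ok.lf S314_343_216_364_ok (bl (br (br (br c3)))))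
  (Ok.lf S343_372_216_364_ok (bl (br (br (br (br c3)))))))
  (Ok.s3 343 (Ok.lf S314_343_364_512_ok (br (br (br (br (br c3))))))
  (Ok.lf S343_372_364_512_ok (br (br c1)))))
  (Ok.s4 660 (Ok.s3 343 (Ok.lf S314_343_512_660_ok (bl c3))
  (Ok.lf S343_372_512_660_ok (bl (br (br c3)))))
  (Ok.s3 343 (Ok.lf S314_343_660_808_ok (bl (br c3)))
  (Ok.lf S343_372_660_808_ok (br c0)))))
  (Ok.s4 364 (Ok.s1 32 (Ok.lf S372_430_216_364_ok (bl (br c2)))
  (Ok.lf S372_430_216_364_ok (bl (br (br c2)))))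
  (Ok.s1 32 (Ok.s1 16 (Ok.lf S372_430_364_512_ok (br (br (br (br (br c2))))))
  (Ok.lf S372_430_364_512_ok c4))
  (Ok.lf S372_430_364_512_ok (bl (br (br (br (br c2)))))))))))

end Vale.Agent.P098.Ck
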