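import Vale.Agent.P098.CkGd
import Vale.Agent.P098.CkOk
import Vale.Agent.P098.Sh.A10
import Vale.Agent.P098.Sh.A12
import Vale.Agent.P098.Sh.A17
import Vale.Agent.P098.Sh.A18
import Vale.Agent.P098.Sh.A19
import Vale.Agent.P098.Sh.A2
import Vale.Agent.P098.Sh.A3
import Vale.Agent.P098.Sh.A5
import Vale.Agent.P098.Sh.A6
import Vale.Agent.P098.Sh.A7
import Vale.Agent.P098.Sh.A9

namespace Vale.Agent.P098.Ck

theorem r60 :
    Ok Gd mult 0 128 128 192 128 256 82 140 216 512 ∧
    Ok Gd mult 0 128 128 192 128 256 82 140 512 808 ∧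
    Ok Gd mult 0 128 128 192 128 256 140 198 216 808 :=
  have c0 : (band (go 16 Gd mult S111_140_216_364 (Tr.lf 9137571972 103640135 0) 0 128 128 192 128 256)
  (band (go 16 Gd mult S82_111_216_364 (Tr.lf 9129052292 95116231 0) 0 128 128 192 128 256)
  (go 16 Gd mult S82_111_364_512 (Tr.lf 9129052292 99310535 0) 0 128 128 192 128 256))) = true := by decide +kernel
  have c1 : (band (go 16 Gd mult S111_140_364_512 (Tr.lf 9137440900 103382087 0) 0 128 128 192 128 256)
  (band (go 16 Gd mult S82_111_512_660 (Tr.lf 9129052292 103496775 0) 0 128 128 192 128 256)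
  (band (go 16 Gd mult S82_111_660_808 (Tr.lf 9129052292 95239239 0) 0 128 128 192 128 256)
  (go 16 Gd mult S140_154_216_364 (Tr.lf 9136514116 103635656 0) 0 128 128 192 128 256)))) = true := by decide +kernel
  have c2 : (band (go 16 Gd mult S111_140_512_660 (Tr.lf 9137439876 103382087 0) 0 128 128 192 128 256)
  (band (go 16 Gd mult S111_140_660_808 (Tr.lf 9137439876 107576391 0) 0 128 128 192 128 256)
  (band (go 16 Gd mult S140_169_512_660 (Tr.lf 9136391300 103639752 0) 0 128 128 192 128 256)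
  (band (go 16 Gd mult S169_198_216_364 (Tr.lf 4304684100 99847238 0) 0 128 128 192 128 256)
  (go 16 Gd mult S169_198_364_512 (Tr.lf 4304684100 103910470 0) 0 128 128 192 128 256))))) = true := by decide +kernel
  have c3 : (band (go 16 Gd mult S154_169_216_364 (Tr.lf 4841546820 99720134 0) 0 128 128 192 128 256)
  (band (go 16 Gd mult S169_198_512_660 (Tr.lf 4304553028 103779398 0) 0 128 128 192 128 256)
  (band (go 16 Gd mult S140_169_660_808 (Tr.lf 9136391236 99445703 0) 0 128 128 192 128 256)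
  (go 16 Gd mult S169_198_660_808 (Tr.lf 4304675908 99712325 0) 0 128 128 192 128 256)))) = true := by decide +kernel
  have c4 : (band (go 16 Gd mult S140_169_364_512 (Tr.lf 9136391234 107961287 0) 64 128 128 192 128 256)
  (go 16 Gd mult S140_169_364_512 (Tr.lf 4833035329 104033222 0) 0 64 128 192 128 256)) = true := by decide +kernel
  (And.intro (Ok.s4 364 (Ok.s3 111 (Ok.lf S82_111_216_364_ok (bl (br c0)))
  (Ok.lf S111_140_216_364_ok (bl c0)))
  (Ok.s3 111 (Ok.lf S82_111_364_512_ok (br (br c0)))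
  (Ok.lf S111_140_364_512_ok (bl c1))))
  (And.intro (Ok.s4 660 (Ok.s3 111 (Ok.lf S82_111_512_660_ok (bl (br c1)))
  (Ok.lf S111_140_512_660_ok (bl c2)))
  (Ok.s3 111 (Ok.lf S82_111_660_808_ok (bl (br (br c1))))
  (Ok.lf S111_140_660_808_ok (bl (br c2)))))
  (Ok.s4 512 (Ok.s4 364 (Ok.s3 169 (Ok.s3 154 (Ok.lf S140_154_216_364_ok (br (br (br c1))))
  (Ok.lf S154_169_216_364_ok (bl c3)))
  (Ok.lf S169_198_216_364_ok (bl (br (br (br c2))))))
  (Ok.s3 169 (Ok.s0 64 (Ok.lf S140_169_364_512_ok (br c4))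
  (Ok.lf S140_169_364_512_ok (bl c4)))
  (Ok.lf S169_198_364_512_ok (br (br (br (br c2)))))))
  (Ok.s4 660 (Ok.s3 169 (Ok.lf S140_169_512_660_ok (bl (br (br c2))))
  (Ok.lf S169_198_512_660_ok (bl (br c3))))
  (Ok.s3 169 (Ok.lf S140_169_660_808_ok (bl (br (br c3))))
  (Ok.lf S169_198_660_808_ok (br (br (br c3)))))))))

end Vale.Agent.P098.Ck
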