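import Vale.Agent.P098.CkGd
import Vale.Agent.P098.CkOk
import Vale.Agent.P098.Sh.A44
import Vale.Agent.P098.Sh.A48
import Vale.Agent.P098.Sh.A49
import Vale.Agent.P098.Sh.A50
import Vale.Agent.P098.Sh.A51
import Vale.Agent.P098.Sh.A52

namespace Vale.Agent.P098.Ck

theorem r600 :
    Ok Gd mult 256 384 352 384 256 384 256 314 512 660 ∧
    Ok Gd mult 256 384 320 384 256 384 256 314 660 808 ∧
    Ok Gd mult 256 384 320 384 256 384 314 372 216 512 ∧
    Ok Gd mult 256 384 320 384 256 384 314 372 512 660 :=
  have c0 : (band (go 16 Gd mult S314_372_364_512 (Tr.lf 9136539720 108240070 6657556462476519709915939067) 256 320 320 336 256 384)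
  (go 16 Gd mult S314_372_512_660 (Tr.lf 8590231588 104172613 5898410612316819297665876093) 256 320 320 336 256 384)) = true := by decide +kernel
  have c1 : (band (go 16 Gd mult S314_372_364_512 (Tr.lf 13422069784 99711815 15636246550895613745649680384) 256 384 344 352 256 384)
  (band (go 16 Gd mult S314_343_512_660 (Tr.lf 9127085080 108239941 15492434000103031152553492480) 256 384 344 352 256 384)
  (band (go 16 Gd mult S343_372_512_660 (Tr.lf 9126954008 112307269 15482712971804555840461996032) 256 384 344 352 256 384)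
  (go 16 Gd mult S314_372_364_512 (Tr.lf 9127102500 108371013 5292677238272846526863638528) 320 384 320 336 256 384)))) = true := by decide +kernel
  have c2 : (band (go 16 Gd mult S314_372_216_364 (Tr.lf 13422068776 99711815 14478095615704798996281163776) 256 384 336 352 256 384)
  (go 16 Gd mult S314_372_216_364 (Tr.lf 9127100968 108371013 7578755963164110296233017344) 256 384 320 336 256 320)) = true := by decide +kernel
  have c3 : (go 16 Gd mult S314_372_512_660 (Tr.lf 9135491108 104168518 2305421538005097836164677632) 320 384 320 336 256 384) = true := by decide +kernel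
  have c4 : (band (go 16 Gd mult S314_343_364_512 (Tr.lf 9127086104 112434245 8930335029493265713554522112) 256 384 336 344 256 384)
  (band (go 16 Gd mult S314_343_512_660 (Tr.lf 9202583576 107977798 8931604276166001372963012608) 256 384 336 344 256 384)
  (go 16 Gd mult S343_372_512_660 (Tr.lf 9127086104 112307269 8837252906471279905776599040) 256 384 336 344 256 384))) = true := by decide +kernel
  have c5 : (go 16 Gd mult S256_314_660_808 (Tr.lf 8590230564 99851205 5208122897510879685660836013) 256 384 320 352 256 384) = true := by decide +kernel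
  have c6 : (band (go 16 Gd mult S343_372_364_512 (Tr.lf 9127086100 112434245 9724599292980077081336479744) 256 320 336 344 256 384)
  (go 16 Gd mult S343_372_364_512 (Tr.lf 9127085076 112307269 9251909297510757074026364928) 320 384 336 344 256 384)) = true := by decide +kernel
  have c7 : (band (go 16 Gd mult S256_314_512_660 (Tr.sp 0 320 Tr.skip (Tr.lf 9202598946 107977798 25006710877405557336475435008)) 256 384 352 384 256 384)
  (band (go 16 Gd mult S314_372_512_660 (Tr.sp 0 320 Tr.skip (Tr.lf 9126970402 112307269 25128797922939281094832291840)) 256 384 352 384 256 384)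
  (band (go 16 Gd mult S256_314_660_808 (Tr.sp 0 320 Tr.skip (Tr.lf 9202451490 108104646 20404379885427478273353318400)) 256 384 352 384 256 384)
  (go 16 Gd mult S314_372_364_512 (Tr.sp 0 320 Tr.skip (Tr.lf 13421921314 99711815 25117912074986271393104003072)) 256 384 352 384 256 384)))) = true := by decide +kernel
  have c8 : (go 16 Gd mult S314_372_216_364 (Tr.lf 13421921316 99703751 28979219169033781090193506304) 256 384 352 384 256 384) = true := by decide +kernel
  have c9 : (go 16 Gd mult S314_372_216_364 (Tr.lf 9135333652 112430022 13187026020454827492909252608) 256 384 320 336 320 384) = true := by decide +kernel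
  (And.intro (Ok.lf S256_314_512_660_ok (bl c7))
  (And.intro (Ok.s1 352 (Ok.lf S256_314_660_808_ok c5)
  (Ok.lf S256_314_660_808_ok (bl (br (br c7)))))
  (And.intro (Ok.s4 364 (Ok.s1 352 (Ok.s1 336 (Ok.s2 320 (Ok.lf S314_372_216_364_ok (br c2))
  (Ok.lf S314_372_216_364_ok c9))
  (Ok.lf S314_372_216_364_ok (bl c2)))
  (Ok.lf S314_372_216_364_ok c8))
  (Ok.s1 352 (Ok.s1 336 (Ok.s0 320 (Ok.lf S314_372_364_512_ok (bl c0))
  (Ok.lf S314_372_364_512_ok (br (br (br c1)))))
  (Ok.s1 344 (Ok.s3 343 (Ok.lf S314_343_364_512_ok (bl c4))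
  (Ok.s0 320 (Ok.lf S343_372_364_512_ok (bl c6))
  (Ok.lf S343_372_364_512_ok (br c6))))
  (Ok.lf S314_372_364_512_ok (bl c1))))
  (Ok.lf S314_372_364_512_ok (br (br (br c7))))))
  (Ok.s1 352 (Ok.s1 336 (Ok.s0 320 (Ok.lf S314_372_512_660_ok (br c0))
  (Ok.lf S314_372_512_660_ok c3))
  (Ok.s3 343 (Ok.s1 344 (Ok.lf S314_343_512_660_ok (bl (br c4)))
  (Ok.lf S314_343_512_660_ok (bl (br c1))))
  (Ok.s1 344 (Ok.lf S343_372_512_660_ok (br (br c4)))
  (Ok.lf S343_372_512_660_ok (bl (br (br c1)))))))
  (Ok.lf S314_372_512_660_ok (bl (br c7)))))))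

end Vale.Agent.P098.Ck
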