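import Vale.Agent.P098.CkGd
import Vale.Agent.P098.CkOk
import Vale.Agent.P098.Sh.A49
import Vale.Agent.P098.Sh.A50
import Vale.Agent.P098.Sh.A52
import Vale.Agent.P098.Sh.A54
import Vale.Agent.P098.Sh.A55
import Vale.Agent.P098.Sh.A56
import Vale.Agent.P098.Sh.A57

namespace Vale.Agent.P098.Ck

theorem r601 :
    Ok Gd mult 256 384 320 352 256 384 314 372 660 808 ∧
    Ok Gd mult 256 384 352 384 256 384 314 372 660 808 ∧
    Ok Gd mult 256 384 320 384 256 384 372 430 216 512 ∧
    Ok Gd mult 256 384 320 352 256 384 372 430 512 660 :=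
  have c0 : (band (go 16 Gd mult S372_401_512_660 (Tr.lf 13422069832 108100423 8613596464754232869781504000) 256 384 320 336 256 320)
  (band (go 16 Gd mult S372_430_216_364 (Tr.lf 13422068264 103906119 12275432772366944639966511104) 256 384 320 336 256 320)
  (go 16 Gd mult S372_401_364_512 (Tr.lf 13421920808 103906119 9635138782328594522408222720) 256 384 320 336 256 320))) = true := by decide +kernel
  have c1 : (band (go 16 Gd mult S343_372_660_808 (Tr.lf 9135491112 108362822 4618164441159098403689332736) 256 384 320 336 256 384)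
  (band (go 16 Gd mult S314_343_660_808 (Tr.lf 8590215204 99978309 2056472581099961092941545771) 256 384 320 336 256 384)
  (band (go 16 Gd mult S401_430_364_512 (Tr.lf 13421847592 103906119 18472386523711533789510369280) 256 384 320 336 256 384)
  (go 16 Gd mult S314_343_660_808 (Tr.lf 9202583588 112299078 8399683316555758113306705920) 256 384 336 352 256 384)))) = true := by decide +kernel
  have c2 : (band (go 16 Gd mult S343_372_660_808 (Tr.lf 9127086104 108371013 8781678732641808466395004928) 256 384 336 344 256 384)
  (band (go 16 Gd mult S372_430_364_512 (Tr.lf 13421921304 103906119 22488438096471331907884285952) 256 384 336 344 256 384)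
  (band (go 16 Gd mult S343_372_660_808 (Tr.lf 9127086104 108371013 15442840352935976718353563648) 256 384 344 352 256 384)
  (band (go 16 Gd mult S372_430_364_512 (Tr.lf 13421855252 104033095 29006966115833412417899986944) 256 384 344 352 256 384)
  (band (go 16 Gd mult S372_430_364_512 (Tr.lf 13421855268 103639752 40043296685591589007506014208) 256 384 352 384 256 384)
  (go 16 Gd mult S372_430_216_364 (Tr.lf 13421855780 99576520 42225407789995994667850661888) 256 384 352 384 256 384)))))) = true := by decide +kernel
  have c3 : (band (go 16 Gd mult S372_430_512_660 (Tr.lf 9126887976 112433990 19838529276040138824123154432) 256 384 320 336 320 384)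
  (band (go 16 Gd mult S372_430_216_364 (Tr.lf 9126953492 104176709 21580534805940745397679947776) 256 384 320 336 320 384)
  (band (go 16 Gd mult S372_401_364_512 (Tr.lf 9127923988 108239942 16182747743234740740065067008) 256 384 320 336 320 384)
  (band (go 16 Gd mult S372_430_216_364 (Tr.lf 13421921300 103906119 26209511769245160507629895680) 256 384 336 352 256 384)
  (go 16 Gd mult S372_430_512_660 (Tr.lf 13421855268 99711815 17161910935249275764128874496) 256 320 336 352 256 320))))) = true := by decide +kernel
  have c4 : (go 16 Gd mult S372_430_512_660 (Tr.lf 13421920804 103906119 14241146155060331678038753280) 320 384 336 352 256 320) = true := by decide +kernel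
  have c5 : (go 16 Gd mult S314_372_660_808 (Tr.sp 0 320 Tr.skip (Tr.sp 1 368 (Tr.lf 9126954002 108239941 23173970941601225969774886912) Tr.skip)) 256 384 352 384 256 384) = true := by decide +kernel
  have c6 : (go 16 Gd mult S401_430_512_660 (Tr.lf 13421846820 107969351 13631847541974558573986840576) 256 384 320 336 256 320) = true := by decide +kernel
  have c7 : (go 16 Gd mult S372_430_512_660 (Tr.lf 9126879508 104045382 28616565348576455939070099456) 256 384 336 352 320 384) = true := by decide +kernel
  (And.intro (Ok.s1 336 (Ok.s3 343 (Ok.lf S314_343_660_808_ok (bl (br c1)))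
  (Ok.lf S343_372_660_808_ok (bl c1)))
  (Ok.s3 343 (Ok.lf S314_343_660_808_ok (br (br (br c1))))
  (Ok.s1 344 (Ok.lf S343_372_660_808_ok (bl c2))
  (Ok.lf S343_372_660_808_ok (bl (br (br c2)))))))
  (And.intro (Ok.lf S314_372_660_808_ok c5)
  (And.intro (Ok.s4 364 (Ok.s1 352 (Ok.s1 336 (Ok.s2 320 (Ok.lf S372_430_216_364_ok (bl (br c0)))
  (Ok.lf S372_430_216_364_ok (bl (br c3))))
  (Ok.lf S372_430_216_364_ok (bl (br (br (br c3))))))
  (Ok.lf S372_430_216_364_ok (br (br (br (br (br c2)))))))
  (Ok.s1 352 (Ok.s1 336 (Ok.s3 401 (Ok.s2 320 (Ok.lf S372_401_364_512_ok (br (br c0)))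
  (Ok.lf S372_401_364_512_ok (bl (br (br c3)))))
  (Ok.lf S401_430_364_512_ok (bl (br (br c1)))))
  (Ok.s1 344 (Ok.lf S372_430_364_512_ok (bl (br c2)))
  (Ok.lf S372_430_364_512_ok (bl (br (br (br c2)))))))
  (Ok.lf S372_430_364_512_ok (bl (br (br (br (br c2))))))))
  (Ok.s2 320 (Ok.s1 336 (Ok.s3 401 (Ok.lf S372_401_512_660_ok (bl c0))
  (Ok.lf S401_430_512_660_ok c6))
  (Ok.s0 320 (Ok.lf S372_430_512_660_ok (br (br (br (br c3)))))
  (Ok.lf S372_430_512_660_ok c4)))
  (Ok.s1 336 (Ok.lf S372_430_512_660_ok (bl c3))
  (Ok.lf S372_430_512_660_ok c7))))))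

end Vale.Agent.P098.Ck
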