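import Vale.Agent.P098.CkGd
import Vale.Agent.P098.CkOk
import Vale.Agent.P098.Sh.A0
import Vale.Agent.P098.Sh.A1
import Vale.Agent.P098.Sh.A54
import Vale.Agent.P098.Sh.A55
import Vale.Agent.P098.Sh.A57
import Vale.Agent.P098.Sh.A58
import Vale.Agent.P098.Sh.A59

namespace Vale.Agent.P098.Ck

theorem r602 :
    Ok Gd mult 256 384 352 384 256 384 372 430 512 660 ∧
    Ok Gd mult 256 384 320 384 256 384 372 430 660 808 ∧
    Ok Gd mult 256 384 320 384 256 384 430 488 216 808 ∧
    Ok Gd mult 256 384 320 384 384 512 24 82 216 808 :=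
  have c0 : (band (go 16 Gd mult S430_488_660_808 (Tr.lf 13421873288 108092104 27929813210556777823236784128) 256 384 320 352 256 384)
  (go 16 Gd mult S430_488_512_660 (Tr.lf 13421873224 108092104 28003557685553270202893860864) 256 384 320 352 256 384)) = true := by decide +kernel
  have c1 : (band (go 16 Gd mult S430_488_216_364 (Tr.lf 13421872200 108092104 28332385508488449338413940736) 256 384 320 352 256 384)
  (go 16 Gd mult S430_488_364_512 (Tr.lf 13421872200 108092104 28166762671201245141479194624) 256 384 320 352 256 384)) = true := by decide +kernel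
  have c2 : (go 16 Gd mult S372_430_660_808 (Tr.lf 13422068772 108100423 13853080966964035712958070784) 320 384 336 352 256 320) = true := by decide +kernel
  have c3 : (go 16 Gd mult S372_430_660_808 (Tr.lf 13421937188 103906119 16798024263545272382542315520) 256 320 336 352 256 320) = true := by decide +kernel
  have c4 : (go 16 Gd mult S372_401_660_808 (Tr.lf 13421920552 103906119 7506220413987232545750646784) 256 384 320 336 256 288) = true := by decide +kernel
  have c5 : (band (go 16 Gd mult S24_82_216_364 (Tr.lf 621889570 104037319 12235530587168992797491672227) 256 384 320 384 384 512)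
  (band (go 16 Gd mult S24_82_364_512 (Tr.lf 613500962 104045765 12179913948825164801744057052) 256 384 320 384 384 512)
  (band (go 16 Gd mult S24_82_512_660 (Tr.lf 613500962 104045765 12057812975708609048237715202) 256 384 320 384 384 512)
  (go 16 Gd mult S24_82_660_808 (Tr.lf 82978 104037444 12062649564114677895098215053) 256 384 320 384 384 512)))) = true := by decide +kernel
  have c6 : (band (go 16 Gd mult S372_430_512_660 (Tr.lf 13421855780 99576520 38142865832112970082444902400) 256 384 352 384 256 384)
  (band (go 16 Gd mult S372_430_660_808 (Tr.lf 13421855780 103639752 37274857093629666335005868032) 256 384 352 384 256 384)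
  (band (go 16 Gd mult S430_488_512_660 (Tr.lf 13421855780 99707592 69761111183358403380133232640) 256 384 352 384 256 384)
  (band (go 16 Gd mult S430_488_660_808 (Tr.lf 13421855780 99707592 69205005306335673959768391680) 256 384 352 384 256 384)
  (band (go 16 Gd mult S430_488_216_364 (Tr.lf 13421847588 103770824 72261169778321456513425604608) 256 384 352 384 256 384)
  (go 16 Gd mult S430_488_364_512 (Tr.lf 13421847588 103770824 71005095851741856800905887744) 256 384 352 384 256 384)))))) = true := by decide +kernel
  have c7 : (go 16 Gd mult S372_430_660_808 (Tr.lf 4295115300 103914820 19288480147639568425276866715) 256 384 320 336 320 384) = true := by decide +kernel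
  have c8 : (go 16 Gd mult S372_401_660_808 (Tr.lf 9127993636 108371014 9405469993315603332254924800) 256 384 320 336 288 320) = true := by decide +kernel
  have c9 : (go 16 Gd mult S401_430_660_808 (Tr.lf 13421846804 107969351 13327198235431672021960884224) 256 384 320 336 256 320) = true := by decide +kernel
  have c10 : (go 16 Gd mult S372_430_660_808 (Tr.lf 9126879508 108108614 28059250545734111889530552320) 256 384 336 352 320 384) = true := by decide +kernel
  (And.intro (Ok.lf S372_430_512_660_ok (bl c6))
  (And.intro (Ok.s1 352 (Ok.s2 320 (Ok.s1 336 (Ok.s3 401 (Ok.s2 288 (Ok.lf S372_401_660_808_ok c4)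
  (Ok.lf S372_401_660_808_ok c8))
  (Ok.lf S401_430_660_808_ok c9))
  (Ok.s0 320 (Ok.lf S372_430_660_808_ok c3)
  (Ok.lf S372_430_660_808_ok c2)))
  (Ok.s1 336 (Ok.lf S372_430_660_808_ok c7)
  (Ok.lf S372_430_660_808_ok c10)))
  (Ok.lf S372_430_660_808_ok (bl (br c6))))
  (And.intro (Ok.s4 512 (Ok.s4 364 (Ok.s1 352 (Ok.lf S430_488_216_364_ok (bl c1))
  (Ok.lf S430_488_216_364_ok (bl (br (br (br (br c6)))))))
  (Ok.s1 352 (Ok.lf S430_488_364_512_ok (br c1))
  (Ok.lf S430_488_364_512_ok (br (br (br (br (br c6))))))))
  (Ok.s4 660 (Ok.s1 352 (Ok.lf S430_488_512_660_ok (br c0))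
  (Ok.lf S430_488_512_660_ok (bl (br (br c6)))))
  (Ok.s1 352 (Ok.lf S430_488_660_808_ok (bl c0))
  (Ok.lf S430_488_660_808_ok (bl (br (br (br c6))))))))
  (Ok.s4 512 (Ok.s4 364 (Ok.lf S24_82_216_364_ok (bl c5))
  (Ok.lf S24_82_364_512_ok (bl (br c5))))
  (Ok.s4 660 (Ok.lf S24_82_512_660_ok (bl (br (br c5))))
  (Ok.lf S24_82_660_808_ok (br (br (br c5)))))))))

end Vale.Agent.P098.Ck
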