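import Vale.Agent.P098.CkGd
import Vale.Agent.P098.CkOk
import Vale.Agent.P098.Sh.A11
import Vale.Agent.P098.Sh.A17
import Vale.Agent.P098.Sh.A18
import Vale.Agent.P098.Sh.A28
import Vale.Agent.P098.Sh.A29
import Vale.Agent.P098.Sh.A3
import Vale.Agent.P098.Sh.A4
import Vale.Agent.P098.Sh.A43
import Vale.Agent.P098.Sh.A44
import Vale.Agent.P098.Sh.A8
import Vale.Agent.P098.Sh.A9

namespace Vale.Agent.P098.Ck

theorem r603 :
    Ok Gd mult 256 384 320 384 384 512 82 140 216 808 ∧
    Ok Gd mult 256 384 320 384 384 512 140 256 216 808 ∧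
    Ok Gd mult 256 384 320 384 384 512 256 314 216 808 :=
  have c0 : (band (go 16 Gd mult S82_140_216_364 (Tr.lf 613582884 103914566 22207962553077667835076957010) 256 384 320 384 384 512)
  (band (go 16 Gd mult S82_140_364_512 (Tr.lf 680675396 103643976 21327865091019398558636592782) 256 384 320 384 384 512)
  (band (go 16 Gd mult S82_140_512_660 (Tr.lf 689064004 103652168 19462492016120627438721190598) 256 384 320 384 384 512)
  (go 16 Gd mult S82_140_660_808 (Tr.lf 689064004 103652168 17704714759545178078475798107) 256 384 320 384 384 512)))) = true := by decide +kernel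
  have c1 : (go 16 Gd mult S256_314_660_808 (Tr.sp 2 448 (Tr.sp 0 320 Tr.skip (Tr.lf 4295115297 99978308 15306812014547850302976950272)) Tr.skip) 256 384 320 384 384 512) = true := by decide +kernel
  have c2 : (band (go 16 Gd mult S140_198_512_660 (Tr.sp 0 320 Tr.skip (Tr.sp 2 448 (Tr.sp 0 352 Tr.skip (Tr.sp 2 416 (Tr.lf 9202450721 104176582 34024376372012116776509767787) Tr.skip)) Tr.skip)) 256 384 320 384 384 512)
  (go 16 Gd mult S256_314_216_364 (Tr.sp 2 448 (Tr.sp 0 320 Tr.skip (Tr.sp 0 352 Tr.skip (Tr.sp 2 416 (Tr.lf 9135341857 104041542 58581189294617483094964109389) Tr.skip))) Tr.skip) 256 384 320 384 384 512)) = true := by decide +kernel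
  have c3 : (band (go 16 Gd mult S140_198_660_808 (Tr.sp 2 448 (Tr.sp 0 320 Tr.skip (Tr.sp 0 352 Tr.skip (Tr.lf 4295049761 103914692 23584103360903856466693128239))) Tr.skip) 256 384 320 384 384 512)
  (band (go 16 Gd mult S198_256_660_808 (Tr.sp 0 320 Tr.skip (Tr.sp 0 352 Tr.skip (Tr.sp 2 448 (Tr.lf 4295115041 99847364 23505785052602428622357987357) Tr.skip))) 256 384 320 384 384 512)
  (band (go 16 Gd mult S169_198_216_364 (Tr.lf 4841415201 112426310 57922740623211242419958841344) 352 384 320 384 384 448)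
  (go 16 Gd mult S140_169_216_364 (Tr.lf 74273 104041668 40185863988925475837320364032) 352 384 320 384 384 448)))) = true := by decide +kernel
  have c4 : (band (go 16 Gd mult S198_256_216_364 (Tr.sp 0 320 Tr.skip (Tr.sp 2 448 (Tr.sp 1 352 (Tr.sp 2 416 (Tr.lf 9135341842 103918534 56205478246092271337022160896) Tr.skip) Tr.skip) Tr.skip)) 256 384 320 384 384 512)
  (go 16 Gd mult S198_256_364_512 (Tr.sp 2 448 (Tr.sp 0 320 Tr.skip (Tr.sp 2 416 (Tr.sp 1 352 (Tr.lf 9202385170 108112838 45428111536696359265685733376) Tr.skip) Tr.skip)) Tr.skip) 256 384 320 384 384 512)) = true := by decide +kernel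
  have c5 : (band (go 16 Gd mult S256_314_512_660 (Tr.sp 2 448 (Tr.sp 0 320 Tr.skip (Tr.sp 2 416 (Tr.lf 9202450721 99720134 23703924187021126631560314880) Tr.skip)) Tr.skip) 256 384 320 384 384 512)
  (band (go 16 Gd mult S198_256_512_586 (Tr.lf 9202385185 99982278 28601166560026045416667611136) 320 384 320 384 384 416)
  (band (go 16 Gd mult S198_256_586_660 (Tr.lf 9202385185 99851206 24542879672523219309395181568) 320 384 320 384 384 416)
  (band (go 16 Gd mult S256_314_364_438 (Tr.lf 9202385185 99720262 39013573071008003404232196143) 320 384 320 384 384 416)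
  (go 16 Gd mult S256_314_438_512 (Tr.lf 9202385185 108112838 30038610018044652909548601373) 320 384 320 384 384 416))))) = true := by decide +kernel
  have c6 : (band (go 16 Gd mult S169_198_364_512 (Tr.lf 9135268129 108108487 49389845472492754818205483037) 352 384 320 352 384 448)
  (go 16 Gd mult S140_169_364_512 (Tr.lf 69905 112176196 36217680388871380698302251055) 352 384 320 352 384 448)) = true := by decide +kernel
  (And.intro (Ok.s4 512 (Ok.s4 364 (Ok.lf S82_140_216_364_ok (bl c0))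
  (Ok.lf S82_140_364_512_ok (bl (br c0))))
  (Ok.s4 660 (Ok.lf S82_140_512_660_ok (bl (br (br c0))))
  (Ok.lf S82_140_660_808_ok (br (br (br c0))))))
  (And.intro (Ok.s3 198 (Ok.s4 512 (Ok.s4 364 (Ok.s2 448 (Ok.s0 320 (Ok.out rfl)
  (Ok.s0 352 (Ok.out rfl)
  (Ok.s3 169 (Ok.lf S140_169_216_364_ok (br (br (br c3))))
  (Ok.lf S169_198_216_364_ok (bl (br (br c3)))))))
  (Ok.out rfl))
  (Ok.s2 448 (Ok.s0 320 (Ok.out rfl)
  (Ok.s0 352 (Ok.out rfl)
  (Ok.s1 352 (Ok.s3 169 (Ok.lf S140_169_364_512_ok (br c6))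
  (Ok.lf S169_198_364_512_ok (bl c6)))
  (Ok.out rfl))))
  (Ok.out rfl)))
  (Ok.s4 660 (Ok.lf S140_198_512_660_ok (bl c2))
  (Ok.lf S140_198_660_808_ok (bl c3))))
  (Ok.s4 512 (Ok.s4 364 (Ok.lf S198_256_216_364_ok (bl c4))
  (Ok.lf S198_256_364_512_ok (br c4)))
  (Ok.s4 660 (Ok.s2 448 (Ok.s0 320 (Ok.out rfl)
  (Ok.s2 416 (Ok.s4 586 (Ok.lf S198_256_512_586_ok (bl (br c5)))
  (Ok.lf S198_256_586_660_ok (bl (br (br c5)))))
  (Ok.out rfl)))
  (Ok.out rfl))
  (Ok.lf S198_256_660_808_ok (bl (br c3))))))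
  (Ok.s4 512 (Ok.s4 364 (Ok.lf S256_314_216_364_ok (br c2))
  (Ok.s2 448 (Ok.s0 320 (Ok.out rfl)
  (Ok.s2 416 (Ok.s4 438 (Ok.lf S256_314_364_438_ok (bl (br (br (br c5)))))
  (Ok.lf S256_314_438_512_ok (br (br (br (br c5))))))
  (Ok.out rfl)))
  (Ok.out rfl)))
  (Ok.s4 660 (Ok.lf S256_314_512_660_ok (bl c5))
  (Ok.lf S256_314_660_808_ok c1)))))

end Vale.Agent.P098.Ck
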