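import Vale.Agent.P098.CkGd
import Vale.Agent.P098.CkOk
import Vale.Agent.P098.Sh.A0
import Vale.Agent.P098.Sh.A1
import Vale.Agent.P098.Sh.A28
import Vale.Agent.P098.Sh.A29
import Vale.Agent.P098.Sh.A44
import Vale.Agent.P098.Sh.A49
import Vale.Agent.P098.Sh.A50
import Vale.Agent.P098.Sh.A54
import Vale.Agent.P098.Sh.A55
import Vale.Agent.P098.Sh.A58
import Vale.Agent.P098.Sh.A59

namespace Vale.Agent.P098.Ck

theorem r604 :
    Ok Gd mult 256 384 320 384 384 512 314 372 216 808 ∧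
    Ok Gd mult 256 384 320 384 384 512 372 488 216 808 ∧
    Ok Gd mult 256 384 384 448 0 128 24 256 216 808 ∧
    Ok Gd mult 256 384 384 448 0 128 256 372 216 808 :=
  have c0 : (band (go 16 Gd mult S24_82_216_364 (Tr.lf 4834018372 103771336 79104849645656272424192966523) 256 384 384 448 0 128)
  (band (go 16 Gd mult S24_82_364_512 (Tr.lf 4834017860 103771336 79104849645656272424192966523) 256 384 384 448 0 128)
  (band (go 16 Gd mult S24_82_512_660 (Tr.lf 4834017828 99577032 79104849645656272424192966523) 256 384 384 448 0 128)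
  (band (go 16 Gd mult S198_256_216_364 (Tr.lf 9126953252 108100424 79104849645656272424192966523) 256 384 384 448 0 128)
  (band (go 16 Gd mult S198_256_660_808 (Tr.lf 9135342114 107715272 79104849645656272424192966523) 256 384 384 448 0 128)
  (band (go 16 Gd mult S256_314_512_660 (Tr.lf 9135342114 99580744 79104849645656272424192966523) 256 384 384 448 0 128)
  (band (go 16 Gd mult S256_314_660_808 (Tr.lf 9135342114 107711176 79104849645656272424192966523) 256 384 384 448 0 128)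
  (go 16 Gd mult S314_372_216_364 (Tr.lf 9126879780 103770952 79104849645656272424192966523) 256 384 384 448 0 128)))))))) = true := by decide +kernel
  have c1 : (band (go 16 Gd mult S430_488_216_364 (Tr.sp 2 448 (Tr.lf 9127936580 103775558 47750302105848406843456487424) Tr.skip) 256 384 320 384 384 512)
  (band (go 16 Gd mult S430_488_364_512 (Tr.sp 2 448 (Tr.lf 9127936580 103775558 47750301017490506494592942080) Tr.skip) 256 384 320 384 384 512)
  (band (go 16 Gd mult S430_488_512_660 (Tr.sp 2 448 (Tr.lf 9127936580 103775558 47749091759629498538646306816) Tr.skip) 256 384 320 384 384 512)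
  (go 16 Gd mult S430_488_660_808 (Tr.sp 2 448 (Tr.lf 9127928388 108096838 47747882280407561698185052160) Tr.skip) 256 384 320 384 384 512)))) = true := by decide +kernel
  have c2 : (band (go 16 Gd mult S314_372_216_364 (Tr.sp 2 448 (Tr.sp 0 320 Tr.skip (Tr.sp 2 416 (Tr.lf 9135268130 104041414 33199814179934462451361251328) Tr.skip)) Tr.skip) 256 384 320 384 384 512)
  (go 16 Gd mult S314_372_364_512 (Tr.sp 2 448 (Tr.sp 0 320 Tr.skip (Tr.sp 2 416 (Tr.lf 4295041314 99724484 31488132256500609928271953949) Tr.skip)) Tr.skip) 256 384 320 384 384 512)) = true := by decide +kernel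
  have c3 : (band (go 16 Gd mult S372_430_660_808 (Tr.sp 2 448 (Tr.sp 1 352 (Tr.sp 0 320 Tr.skip (Tr.lf 4295041554 103918788 47844859876162569046815932416)) Tr.skip) Tr.skip) 256 384 320 384 384 512)
  (band (go 16 Gd mult S372_430_216_364 (Tr.sp 2 448 (Tr.sp 1 352 (Tr.sp 0 320 Tr.skip (Tr.lf 9136316690 103914694 49021001588828753299027853389)) Tr.skip) Tr.skip) 256 384 320 384 384 512)
  (band (go 16 Gd mult S372_430_364_512 (Tr.sp 2 448 (Tr.sp 1 352 (Tr.sp 0 320 Tr.skip (Tr.lf 9127928081 104041542 48802252386842008721448501248)) Tr.skip) Tr.skip) 256 384 320 384 384 512)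
  (go 16 Gd mult S372_430_512_660 (Tr.sp 2 448 (Tr.sp 1 352 (Tr.sp 0 320 Tr.skip (Tr.lf 9136316689 104041670 48321157040201782588396797952)) Tr.skip) Tr.skip) 256 384 320 384 384 512)))) = true := by decide +kernel
  have c4 : (go 16 Gd mult S314_372_512_660 (Tr.sp 0 320 Tr.skip (Tr.sp 0 352 Tr.skip (Tr.sp 2 448 (Tr.sp 2 416 (Tr.lf 4295041313 95788228 33445597952380155301688180861) Tr.skip) Tr.skip))) 256 384 320 384 384 512) = true := by decide +kernel
  have c5 : (go 16 Gd mult S314_372_660_808 (Tr.sp 0 320 Tr.skip (Tr.sp 0 352 Tr.skip (Tr.sp 1 352 (Tr.sp 1 336 (Tr.sp 2 448 (Tr.sp 1 328 (Tr.lf 4295041297 107981892 29807981721630504818187436032) Tr.skip) Tr.skip) Tr.skip) Tr.skip))) 256 384 320 384 384 512) = true := by decide +kernel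
  (And.intro (Ok.s4 512 (Ok.s4 364 (Ok.lf S314_372_216_364_ok (bl c2))
  (Ok.lf S314_372_364_512_ok (br c2)))
  (Ok.s4 660 (Ok.lf S314_372_512_660_ok c4)
  (Ok.lf S314_372_660_808_ok c5)))
  (And.intro (Ok.s3 430 (Ok.s4 512 (Ok.s4 364 (Ok.lf S372_430_216_364_ok (bl (br c3)))
  (Ok.lf S372_430_364_512_ok (bl (br (br c3)))))
  (Ok.s4 660 (Ok.lf S372_430_512_660_ok (br (br (br c3))))
  (Ok.lf S372_430_660_808_ok (bl c3))))
  (Ok.s4 512 (Ok.s4 364 (Ok.lf S430_488_216_364_ok (bl c1))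
  (Ok.lf S430_488_364_512_ok (bl (br c1))))
  (Ok.s4 660 (Ok.lf S430_488_512_660_ok (bl (br (br c1))))
  (Ok.lf S430_488_660_808_ok (br (br (br c1)))))))
  (And.intro (Ok.s3 140 (Ok.s3 82 (Ok.s4 512 (Ok.s4 364 (Ok.lf S24_82_216_364_ok (bl c0))
  (Ok.lf S24_82_364_512_ok (bl (br c0))))
  (Ok.s4 660 (Ok.lf S24_82_512_660_ok (bl (br (br c0))))
  (Ok.s0 320 (Ok.out rfl)
  (Ok.out rfl))))
  (Ok.s4 512 (Ok.s4 364 (Ok.s0 320 (Ok.out rfl)
  (Ok.out rfl))
  (Ok.s0 320 (Ok.out rfl)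
  (Ok.out rfl)))
  (Ok.s4 660 (Ok.s0 320 (Ok.out rfl)
  (Ok.out rfl))
  (Ok.s0 320 (Ok.out rfl)
  (Ok.out rfl)))))
  (Ok.s3 198 (Ok.s4 512 (Ok.s4 364 (Ok.s0 320 (Ok.out rfl)
  (Ok.out rfl))
  (Ok.s0 320 (Ok.out rfl)
  (Ok.out rfl)))
  (Ok.s4 660 (Ok.s0 320 (Ok.out rfl)
  (Ok.out rfl))
  (Ok.s0 320 (Ok.out rfl)
  (Ok.out rfl))))
  (Ok.s4 512 (Ok.s4 364 (Ok.lf S198_256_216_364_ok (bl (br (br (br c0)))))
  (Ok.s0 320 (Ok.out rfl)
  (Ok.out rfl)))
  (Ok.s4 660 (Ok.s0 320 (Ok.out rfl)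
  (Ok.out rfl))
  (Ok.lf S198_256_660_808_ok (bl (br (br (br (br c0))))))))))
  (Ok.s3 314 (Ok.s4 512 (Ok.s4 364 (Ok.s0 320 (Ok.out rfl)
  (Ok.out rfl))
  (Ok.s0 320 (Ok.out rfl)
  (Ok.out rfl)))
  (Ok.s4 660 (Ok.lf S256_314_512_660_ok (bl (br (br (br (br (br c0)))))))
  (Ok.lf S256_314_660_808_ok (bl (br (br (br (br (br (br c0))))))))))
  (Ok.s4 512 (Ok.s4 364 (Ok.lf S314_372_216_364_ok (br (br (br (br (br (br (br c0))))))))
  (Ok.s0 320 (Ok.out rfl)
  (Ok.out rfl)))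
  (Ok.s4 660 (Ok.s0 320 (Ok.out rfl)
  (Ok.out rfl))
  (Ok.s0 320 (Ok.out rfl)
  (Ok.out rfl))))))))

end Vale.Agent.P098.Ck
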