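import Vale.Agent.P098.CkGd
import Vale.Agent.P098.CkOk
import Vale.Agent.P098.Sh.A0
import Vale.Agent.P098.Sh.A1
import Vale.Agent.P098.Sh.A28
import Vale.Agent.P098.Sh.A44
import Vale.Agent.P098.Sh.A49
import Vale.Agent.P098.Sh.A54
import Vale.Agent.P098.Sh.A55
import Vale.Agent.P098.Sh.A58
import Vale.Agent.P098.Sh.A59

namespace Vale.Agent.P098.Ck

theorem r605 :
    Ok Gd mult 256 384 384 448 0 128 372 488 216 808 ∧
    Ok Gd mult 256 384 384 448 128 256 24 488 216 808 ∧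
    Ok Gd mult 384 512 0 64 0 128 24 82 216 364 :=
  have c0 : (band (go 16 Gd mult S24_82_216_364 (Tr.lf 4834035780 107838661 0) 384 512 0 32 0 64)
  (go 16 Gd mult S24_82_216_364 (Tr.lf 5371954306 107830343 0) 384 512 32 64 0 128)) = true := by decide +kernel
  have c1 : (band (go 16 Gd mult S198_256_216_364 (Tr.lf 9126953508 108100424 79104849645656272424192966523) 256 384 384 448 128 256)
  (band (go 16 Gd mult S24_82_216_364 (Tr.lf 4834017828 107834568 79104849645656272424192966523) 256 384 384 448 128 256)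
  (band (go 16 Gd mult S24_82_364_512 (Tr.lf 4834017828 107834568 79104849645656272424192966523) 256 384 384 448 128 256)
  (band (go 16 Gd mult S256_314_660_808 (Tr.lf 9135342114 107711176 79104849645656272424192966523) 256 384 384 448 128 256)
  (band (go 16 Gd mult S24_82_512_660 (Tr.lf 4834009636 103640264 79104849645656272424192966523) 256 384 384 448 128 256)
  (band (go 16 Gd mult S314_372_216_364 (Tr.lf 9126879780 103770952 79104849645656272424192966523) 256 384 384 448 128 256)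
  (band (go 16 Gd mult S372_430_660_808 (Tr.lf 9126879780 107961288 79104849645656272424192966523) 256 384 384 448 128 256)
  (go 16 Gd mult S372_430_216_364 (Tr.lf 9126879524 107703240 79104849645656272424192966523) 256 384 384 448 128 256)))))))) = true := by decide +kernel
  have c2 : (go 16 Gd mult S24_82_216_364 (Tr.lf 4834017857 95120454 0) 384 512 0 32 64 128) = true := by decide +kernel
  have c3 : (band (go 16 Gd mult S372_430_216_364 (Tr.lf 9126879524 103640008 79104849645656272424192966523) 256 384 384 448 0 128)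
  (band (go 16 Gd mult S372_430_364_512 (Tr.lf 9126879524 103640008 79104849645656272424192966523) 256 384 384 448 0 128)
  (band (go 16 Gd mult S372_430_512_660 (Tr.lf 9126879524 107961288 79104849645656272424192966523) 256 384 384 448 0 128)
  (band (go 16 Gd mult S372_430_660_808 (Tr.lf 9126879524 103766984 79104849645656272424192966523) 256 384 384 448 0 128)
  (band (go 16 Gd mult S430_488_216_364 (Tr.lf 9126879522 112028616 79104849645656272424192966523) 256 384 384 448 0 128)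
  (band (go 16 Gd mult S430_488_216_364 (Tr.lf 9126879524 103771080 79104849645656272424192966523) 256 384 384 448 128 256)
  (band (go 16 Gd mult S372_430_364_512 (Tr.lf 9126879778 107703240 79104849645656272424192966523) 256 384 384 448 128 256)
  (go 16 Gd mult S430_488_364_512 (Tr.lf 9126879524 103771080 79104849645656272424192966523) 256 384 384 448 128 256)))))))) = true := by decide +kernel
  have c4 : (band (go 16 Gd mult S430_488_512_660 (Tr.lf 9126879524 103771080 79104849645656272424192966523) 256 384 384 448 128 256)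
  (go 16 Gd mult S430_488_660_808 (Tr.lf 9126879524 103771080 79104849645656272424192966523) 256 384 384 448 128 256)) = true := by decide +kernel
  (And.intro (Ok.s3 430 (Ok.s4 512 (Ok.s4 364 (Ok.lf S372_430_216_364_ok (bl c3))
  (Ok.lf S372_430_364_512_ok (bl (br c3))))
  (Ok.s4 660 (Ok.lf S372_430_512_660_ok (bl (br (br c3))))
  (Ok.lf S372_430_660_808_ok (bl (br (br (br c3)))))))
  (Ok.s4 512 (Ok.s4 364 (Ok.lf S430_488_216_364_ok (bl (br (br (br (br c3))))))
  (Ok.s0 320 (Ok.out rfl)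
  (Ok.out rfl)))
  (Ok.s4 660 (Ok.s0 320 (Ok.out rfl)
  (Ok.out rfl))
  (Ok.s0 320 (Ok.out rfl)
  (Ok.out rfl)))))
  (And.intro (Ok.s3 256 (Ok.s3 140 (Ok.s3 82 (Ok.s4 512 (Ok.s4 364 (Ok.lf S24_82_216_364_ok (bl (br c1)))
  (Ok.lf S24_82_364_512_ok (bl (br (br c1)))))
  (Ok.s4 660 (Ok.lf S24_82_512_660_ok (bl (br (br (br (br c1))))))
  (Ok.s0 320 (Ok.out rfl)
  (Ok.out rfl))))
  (Ok.s4 512 (Ok.s4 364 (Ok.s0 320 (Ok.out rfl)
  (Ok.out rfl))
  (Ok.s0 320 (Ok.out rfl)
  (Ok.out rfl)))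
  (Ok.s4 660 (Ok.s0 320 (Ok.out rfl)
  (Ok.out rfl))
  (Ok.s0 320 (Ok.out rfl)
  (Ok.out rfl)))))
  (Ok.s3 198 (Ok.s4 512 (Ok.s4 364 (Ok.s0 320 (Ok.out rfl)
  (Ok.out rfl))
  (Ok.s0 320 (Ok.out rfl)
  (Ok.out rfl)))
  (Ok.s4 660 (Ok.s0 320 (Ok.out rfl)
  (Ok.out rfl))
  (Ok.s0 320 (Ok.out rfl)
  (Ok.out rfl))))
  (Ok.s4 512 (Ok.s4 364 (Ok.lf S198_256_216_364_ok (bl c1))
  (Ok.s0 320 (Ok.out rfl)
  (Ok.out rfl)))
  (Ok.s4 660 (Ok.s0 320 (Ok.out rfl)
  (Ok.out rfl))
  (Ok.s0 320 (Ok.out rfl)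
  (Ok.out rfl))))))
  (Ok.s3 372 (Ok.s3 314 (Ok.s4 512 (Ok.s4 364 (Ok.s0 320 (Ok.out rfl)
  (Ok.out rfl))
  (Ok.s0 320 (Ok.out rfl)
  (Ok.out rfl)))
  (Ok.s4 660 (Ok.s0 320 (Ok.out rfl)
  (Ok.out rfl))
  (Ok.lf S256_314_660_808_ok (bl (br (br (br c1)))))))
  (Ok.s4 512 (Ok.s4 364 (Ok.lf S314_372_216_364_ok (bl (br (br (br (br (br c1)))))))
  (Ok.s0 320 (Ok.out rfl)
  (Ok.out rfl)))
  (Ok.s4 660 (Ok.s0 320 (Ok.out rfl)
  (Ok.out rfl))
  (Ok.s0 320 (Ok.out rfl)
  (Ok.out rfl)))))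
  (Ok.s3 430 (Ok.s4 512 (Ok.s4 364 (Ok.lf S372_430_216_364_ok (br (br (br (br (br (br (br c1))))))))
  (Ok.lf S372_430_364_512_ok (bl (br (br (br (br (br (br c3)))))))))
  (Ok.s4 660 (Ok.s0 320 (Ok.out rfl)
  (Ok.out rfl))
  (Ok.lf S372_430_660_808_ok (bl (br (br (br (br (br (br c1))))))))))
  (Ok.s4 512 (Ok.s4 364 (Ok.lf S430_488_216_364_ok (bl (br (br (br (br (br c3)))))))
  (Ok.lf S430_488_364_512_ok (br (br (br (br (br (br (br c3)))))))))
  (Ok.s4 660 (Ok.lf S430_488_512_660_ok (bl c4))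
  (Ok.lf S430_488_660_808_ok (br c4)))))))
  (Ok.s1 32 (Ok.s2 64 (Ok.lf S24_82_216_364_ok (bl c0))
  (Ok.lf S24_82_216_364_ok c2))
  (Ok.lf S24_82_216_364_ok (br c0)))))

end Vale.Agent.P098.Ck
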