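import Vale.Agent.P098.CkGd
import Vale.Agent.P098.CkOk
import Vale.Agent.P098.Sh.A0
import Vale.Agent.P098.Sh.A1
import Vale.Agent.P098.Sh.A11
import Vale.Agent.P098.Sh.A17
import Vale.Agent.P098.Sh.A2
import Vale.Agent.P098.Sh.A4
import Vale.Agent.P098.Sh.A5
import Vale.Agent.P098.Sh.A8

namespace Vale.Agent.P098.Ck

theorem r606 :
    Ok Gd mult 384 512 0 64 0 128 24 82 364 512 ∧
    Ok Gd mult 384 512 0 64 0 128 24 82 512 808 ∧
    Ok Gd mult 384 512 0 64 0 128 82 140 216 808 ∧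
    Ok Gd mult 384 512 0 64 0 128 140 198 216 808 :=
  have c0 : (band (go 16 Gd mult S82_140_512_660 (Tr.lf 4842621058 103513286 0) 384 512 0 64 0 128)
  (band (go 16 Gd mult S140_198_364_512 (Tr.lf 547652738 99589190 0) 384 512 0 64 0 128)
  (go 16 Gd mult S140_198_512_660 (Tr.lf 547652738 99716166 0) 384 512 0 64 0 128))) = true := by decide +kernel
  have c1 : (band (go 16 Gd mult S140_198_660_808 (Tr.lf 547652737 107973702 0) 384 512 0 64 0 128)
  (band (go 16 Gd mult S82_111_216_364 (Tr.lf 4842473602 99445958 0) 384 512 0 64 0 128)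
  (band (go 16 Gd mult S82_111_364_512 (Tr.lf 4842473602 99445958 0) 384 512 0 64 0 128)
  (band (go 16 Gd mult S111_140_216_364 (Tr.lf 547505281 112171974 0) 384 512 0 64 0 128)
  (band (go 16 Gd mult S111_140_364_512 (Tr.lf 547505281 103914438 0) 384 512 0 64 0 128)
  (go 16 Gd mult S140_169_216_364 (Tr.lf 547505217 108108742 0) 384 512 0 64 0 128)))))) = true := by decide +kernel
  have c2 : (band (go 16 Gd mult S24_82_364_512 (Tr.lf 5371954306 107830343 0) 384 512 32 64 0 128)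
  (band (go 16 Gd mult S24_82_660_808 (Tr.lf 5371954306 107830343 0) 384 512 32 64 0 128)
  (band (go 16 Gd mult S24_82_512_660 (Tr.lf 5371954306 107830343 0) 384 512 32 64 0 128)
  (band (go 16 Gd mult S24_82_364_512 (Tr.lf 9129002052 99179718 0) 384 512 0 32 0 64)
  (band (go 16 Gd mult S24_82_512_660 (Tr.lf 9129002052 99179718 0) 384 512 0 32 0 64)
  (go 16 Gd mult S24_82_660_808 (Tr.lf 9129002052 95243462 0) 384 512 0 32 0 64)))))) = true := by decide +kernel
  have c3 : (band (go 16 Gd mult S82_140_660_808 (Tr.lf 4842488450 103779398 0) 384 512 0 64 0 64)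
  (go 16 Gd mult S82_140_660_808 (Tr.lf 547521154 107977670 0) 384 512 0 64 64 128)) = true := by decide +kernel
  have c4 : (go 16 Gd mult S169_198_216_364 (Tr.lf 1160004673 91331655 0) 384 512 0 64 0 128) = true := by decide +kernel
  have c5 : (band (go 16 Gd mult S24_82_364_512 (Tr.lf 4834017857 95120454 0) 384 512 0 32 64 128)
  (band (go 16 Gd mult S24_82_512_660 (Tr.lf 4834017857 95120454 0) 384 512 0 32 64 128)
  (go 16 Gd mult S24_82_660_808 (Tr.lf 4834017857 95120454 0) 384 512 0 32 64 128))) = true := by decide +kernel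
  (And.intro (Ok.s1 32 (Ok.s2 64 (Ok.lf S24_82_364_512_ok (bl (br (br (br c2)))))
  (Ok.lf S24_82_364_512_ok (bl c5)))
  (Ok.lf S24_82_364_512_ok (bl c2)))
  (And.intro (Ok.s4 660 (Ok.s1 32 (Ok.s2 64 (Ok.lf S24_82_512_660_ok (bl (br (br (br (br c2))))))
  (Ok.lf S24_82_512_660_ok (bl (br c5))))
  (Ok.lf S24_82_512_660_ok (bl (br (br c2)))))
  (Ok.s1 32 (Ok.s2 64 (Ok.lf S24_82_660_808_ok (br (br (br (br (br c2))))))
  (Ok.lf S24_82_660_808_ok (br (br c5))))
  (Ok.lf S24_82_660_808_ok (bl (br c2)))))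
  (And.intro (Ok.s4 512 (Ok.s4 364 (Ok.s3 111 (Ok.lf S82_111_216_364_ok (bl (br c1)))
  (Ok.lf S111_140_216_364_ok (bl (br (br (br c1))))))
  (Ok.s3 111 (Ok.lf S82_111_364_512_ok (bl (br (br c1))))
  (Ok.lf S111_140_364_512_ok (bl (br (br (br (br c1))))))))
  (Ok.s4 660 (Ok.lf S82_140_512_660_ok (bl c0))
  (Ok.s2 64 (Ok.lf S82_140_660_808_ok (bl c3))
  (Ok.lf S82_140_660_808_ok (br c3)))))
  (Ok.s4 512 (Ok.s4 364 (Ok.s3 169 (Ok.lf S140_169_216_364_ok (br (br (br (br (br c1))))))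
  (Ok.lf S169_198_216_364_ok c4))
  (Ok.lf S140_198_364_512_ok (bl (br c0))))
  (Ok.s4 660 (Ok.lf S140_198_512_660_ok (br (br c0)))
  (Ok.lf S140_198_660_808_ok (bl c1)))))))

end Vale.Agent.P098.Ck
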