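import Vale.Agent.P098.CkGd
import Vale.Agent.P098.CkOk
import Vale.Agent.P098.Sh.A27
import Vale.Agent.P098.Sh.A28
import Vale.Agent.P098.Sh.A29
import Vale.Agent.P098.Sh.A38
import Vale.Agent.P098.Sh.A42
import Vale.Agent.P098.Sh.A43
import Vale.Agent.P098.Sh.A46
import Vale.Agent.P098.Sh.A49
import Vale.Agent.P098.Sh.A50
import Vale.Agent.P098.Sh.A52

namespace Vale.Agent.P098.Ck

theorem r607 :
    Ok Gd mult 384 512 0 64 0 128 198 256 216 808 ∧
    Ok Gd mult 384 512 0 64 0 128 256 372 216 808 :=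
  have c0 : (go 16 Gd mult S256_285_660_808 (Tr.lf 8598881412 95115975 0) 384 512 0 64 0 64) = true := by decide +kernel
  have c1 : (go 16 Gd mult S285_314_660_808 (Tr.lf 8598881412 90929990 0) 384 512 0 64 0 64) = true := by decide +kernel
  have c2 : (band (go 16 Gd mult S198_256_512_660 (Tr.lf 9734274 104045764 0) 384 512 0 64 0 128)
  (band (go 16 Gd mult S314_372_512_660 (Tr.lf 546605186 99716165 0) 384 512 0 64 0 128)
  (go 16 Gd mult S256_314_364_512 (Tr.lf 9733185 108104773 0) 384 512 0 64 0 128))) = true := by decide +kernel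
  have c3 : (band (go 16 Gd mult S198_256_216_364 (Tr.lf 9733250 99851333 0) 384 512 0 64 0 128)
  (band (go 16 Gd mult S198_256_364_512 (Tr.lf 9733186 108235845 0) 384 512 0 64 0 128)
  (band (go 16 Gd mult S256_314_216_364 (Tr.lf 9733186 104172613 0) 384 512 0 64 0 128)
  (band (go 16 Gd mult S227_256_660_808 (Tr.lf 8598602820 86727112 0) 384 512 0 64 0 128)
  (go 16 Gd mult S256_285_512_660 (Tr.lf 4303635522 99322566 0) 384 512 0 64 0 128))))) = true := by decide +kernel
  have c4 : (go 16 Gd mult S314_343_660_808 (Tr.lf 547652674 95521862 0) 384 512 32 64 0 128) = true := by decide +kernel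
  have c5 : (band (go 16 Gd mult S285_314_512_660 (Tr.lf 9716802 107982020 0) 384 512 0 64 0 128)
  (band (go 16 Gd mult S314_372_364_512 (Tr.lf 546473025 99585093 0) 384 512 0 64 0 128)
  (band (go 16 Gd mult S343_372_660_808 (Tr.lf 547505281 95648838 0) 384 512 0 64 0 128)
  (band (go 16 Gd mult S198_227_660_808 (Tr.lf 9708610 104045764 0) 384 512 0 64 0 128)
  (go 16 Gd mult S314_372_216_364 (Tr.lf 546456641 99585093 0) 384 512 0 64 0 128))))) = true := by decide +kernel
  have c6 : (go 16 Gd mult S314_343_660_808 (Tr.lf 4303635522 99449542 0) 384 512 0 32 0 128) = true := by decide +kernel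
  have c7 : (band (go 16 Gd mult S256_285_660_808 (Tr.lf 4303635010 99580869 0) 384 512 0 64 64 128)
  (go 16 Gd mult S285_314_660_808 (Tr.lf 4303635010 103644101 0) 384 512 0 64 64 128)) = true := by decide +kernel
  (And.intro (Ok.s4 512 (Ok.s4 364 (Ok.lf S198_256_216_364_ok (bl c3))
  (Ok.lf S198_256_364_512_ok (bl (br c3))))
  (Ok.s4 660 (Ok.lf S198_256_512_660_ok (bl c2))
  (Ok.s3 227 (Ok.lf S198_227_660_808_ok (bl (br (br (br c5)))))
  (Ok.lf S227_256_660_808_ok (bl (br (br (br c3))))))))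
  (Ok.s3 314 (Ok.s4 512 (Ok.s4 364 (Ok.lf S256_314_216_364_ok (bl (br (br c3))))
  (Ok.lf S256_314_364_512_ok (br (br c2))))
  (Ok.s4 660 (Ok.s3 285 (Ok.lf S256_285_512_660_ok (br (br (br (br c3)))))
  (Ok.lf S285_314_512_660_ok (bl c5)))
  (Ok.s3 285 (Ok.s2 64 (Ok.lf S256_285_660_808_ok c0)
  (Ok.lf S256_285_660_808_ok (bl c7)))
  (Ok.s2 64 (Ok.lf S285_314_660_808_ok c1)
  (Ok.lf S285_314_660_808_ok (br c7))))))
  (Ok.s4 512 (Ok.s4 364 (Ok.lf S314_372_216_364_ok (br (br (br (br c5)))))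
  (Ok.lf S314_372_364_512_ok (bl (br c5))))
  (Ok.s4 660 (Ok.lf S314_372_512_660_ok (bl (br c2)))
  (Ok.s3 343 (Ok.s1 32 (Ok.lf S314_343_660_808_ok c6)
  (Ok.lf S314_343_660_808_ok c4))
  (Ok.lf S343_372_660_808_ok (bl (br (br c5)))))))))

end Vale.Agent.P098.Ck
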