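import Vale.Agent.P098.CkGd
import Vale.Agent.P098.CkOk
import Vale.Agent.P098.Sh.A0
import Vale.Agent.P098.Sh.A1
import Vale.Agent.P098.Sh.A54
import Vale.Agent.P098.Sh.A55
import Vale.Agent.P098.Sh.A58
import Vale.Agent.P098.Sh.A59

namespace Vale.Agent.P098.Ck

theorem r608 :
    Ok Gd mult 384 512 0 64 0 128 372 430 216 512 ∧
    Ok Gd mult 384 512 0 64 0 128 372 430 512 808 ∧
    Ok Gd mult 384 512 0 64 0 128 430 488 216 808 ∧
    Ok Gd mult 384 512 0 64 128 256 24 82 216 808 :=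
  have c0 : (band (go 16 Gd mult S24_82_216_364 (Tr.lf 1077053576 107830343 0) 384 512 0 64 128 256)
  (go 16 Gd mult S24_82_364_512 (Tr.lf 1076988034 103636039 0) 384 512 0 64 128 256)) = true := by decide +kernel
  have c1 : (band (go 16 Gd mult S24_82_512_660 (Tr.lf 1076988034 103636039 0) 384 512 0 64 128 256)
  (go 16 Gd mult S24_82_660_808 (Tr.lf 1076988034 103636039 0) 384 512 0 64 128 256)) = true := by decide +kernel
  have c2 : (band (go 16 Gd mult S372_430_660_808 (Tr.lf 547521569 108235718 0) 384 512 0 32 0 128)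
  (band (go 16 Gd mult S372_430_512_660 (Tr.lf 547456033 107977670 0) 384 512 0 32 0 128)
  (band (go 16 Gd mult S372_430_364_512 (Tr.lf 547439681 107977670 0) 384 512 0 32 0 128)
  (band (go 16 Gd mult S372_430_216_364 (Tr.lf 547505185 107977670 0) 384 512 0 32 0 128)
  (band (go 16 Gd mult S430_488_216_364 (Tr.lf 614548033 108240069 0) 384 512 0 32 0 128)
  (band (go 16 Gd mult S430_488_364_512 (Tr.lf 614548033 108240069 0) 384 512 0 32 0 128)
  (band (go 16 Gd mult S430_488_512_660 (Tr.lf 614548033 108240069 0) 384 512 0 32 0 128)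
  (go 16 Gd mult S430_488_660_808 (Tr.lf 614548033 108240069 0) 384 512 0 32 0 128)))))))) = true := by decide +kernel
  have c3 : (band (go 16 Gd mult S372_430_660_808 (Tr.lf 547521057 108104774 0) 384 512 32 64 0 128)
  (band (go 16 Gd mult S372_430_512_660 (Tr.lf 546406945 108104773 0) 384 512 32 64 0 128)
  (band (go 16 Gd mult S372_430_216_364 (Tr.lf 546390561 108112837 0) 384 512 32 64 0 128)
  (band (go 16 Gd mult S372_430_364_512 (Tr.lf 546390561 108112837 0) 384 512 32 64 0 128)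
  (band (go 16 Gd mult S430_488_660_808 (Tr.lf 546390561 104041541 0) 384 512 32 64 0 128)
  (band (go 16 Gd mult S430_488_216_364 (Tr.lf 546382369 108104773 0) 384 512 32 64 0 128)
  (band (go 16 Gd mult S430_488_364_512 (Tr.lf 546382369 108104773 0) 384 512 32 64 0 128)
  (go 16 Gd mult S430_488_512_660 (Tr.lf 546382369 108104773 0) 384 512 32 64 0 128)))))))) = true := by decide +kernel
  (And.intro (Ok.s4 364 (Ok.s1 32 (Ok.lf S372_430_216_364_ok (bl (br (br (br c2)))))
  (Ok.lf S372_430_216_364_ok (bl (br (br c3)))))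
  (Ok.s1 32 (Ok.lf S372_430_364_512_ok (bl (br (br c2))))
  (Ok.lf S372_430_364_512_ok (bl (br (br (br c3)))))))
  (And.intro (Ok.s4 660 (Ok.s1 32 (Ok.lf S372_430_512_660_ok (bl (br c2)))
  (Ok.lf S372_430_512_660_ok (bl (br c3))))
  (Ok.s1 32 (Ok.lf S372_430_660_808_ok (bl c2))
  (Ok.lf S372_430_660_808_ok (bl c3))))
  (And.intro (Ok.s4 512 (Ok.s4 364 (Ok.s1 32 (Ok.lf S430_488_216_364_ok (bl (br (br (br (br c2))))))
  (Ok.lf S430_488_216_364_ok (bl (br (br (br (br (br c3))))))))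
  (Ok.s1 32 (Ok.lf S430_488_364_512_ok (bl (br (br (br (br (br c2)))))))
  (Ok.lf S430_488_364_512_ok (bl (br (br (br (br (br (br c3))))))))))
  (Ok.s4 660 (Ok.s1 32 (Ok.lf S430_488_512_660_ok (bl (br (br (br (br (br (br c2))))))))
  (Ok.lf S430_488_512_660_ok (br (br (br (br (br (br (br c3)))))))))
  (Ok.s1 32 (Ok.lf S430_488_660_808_ok (br (br (br (br (br (br (br c2))))))))
  (Ok.lf S430_488_660_808_ok (bl (br (br (br (br c3)))))))))
  (Ok.s4 512 (Ok.s4 364 (Ok.lf S24_82_216_364_ok (bl c0))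
  (Ok.lf S24_82_364_512_ok (br c0)))
  (Ok.s4 660 (Ok.lf S24_82_512_660_ok (bl c1))
  (Ok.lf S24_82_660_808_ok (br c1)))))))

end Vale.Agent.P098.Ck
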