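import Vale.Agent.P098.CkGd
import Vale.Agent.P098.CkOk
import Vale.Agent.P098.Sh.A11
import Vale.Agent.P098.Sh.A17
import Vale.Agent.P098.Sh.A18
import Vale.Agent.P098.Sh.A2
import Vale.Agent.P098.Sh.A25
import Vale.Agent.P098.Sh.A26
import Vale.Agent.P098.Sh.A27
import Vale.Agent.P098.Sh.A36
import Vale.Agent.P098.Sh.A37
import Vale.Agent.P098.Sh.A38
import Vale.Agent.P098.Sh.A4
import Vale.Agent.P098.Sh.A5
import Vale.Agent.P098.Sh.A8
import Vale.Agent.P098.Sh.A9

namespace Vale.Agent.P098.Ck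

theorem r609 :
    Ok Gd mult 384 512 0 64 128 256 82 140 216 512 ∧
    Ok Gd mult 384 512 0 64 128 256 82 140 512 808 ∧
    Ok Gd mult 384 512 0 64 128 256 140 256 216 808 :=
  have c0 : (band (go 16 Gd mult S82_140_364_512 (Tr.lf 547653764 107969606 0) 384 512 0 64 128 256)
  (go 16 Gd mult S82_140_512_660 (Tr.lf 547522690 103775557 0) 384 512 0 64 128 256)) = true := by decide +kernel
  have c1 : (band (go 16 Gd mult S82_140_660_808 (Tr.lf 547653764 107969861 0) 384 512 0 64 128 256)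
  (go 16 Gd mult S140_198_660_808 (Tr.lf 547652738 108100678 0) 384 512 0 64 128 256)) = true := by decide +kernel
  have c2 : (band (go 16 Gd mult S140_198_512_660 (Tr.lf 547652737 95390790 0) 384 512 0 64 128 256)
  (band (go 16 Gd mult S169_198_216_364 (Tr.lf 1161053313 91200584 0) 384 512 0 64 128 256)
  (band (go 16 Gd mult S82_111_216_364 (Tr.lf 547439746 103644485 0) 384 512 0 64 128 256)
  (band (go 16 Gd mult S111_140_216_364 (Tr.lf 547505281 107969606 0) 384 512 0 64 128 256)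
  (band (go 16 Gd mult S140_169_216_364 (Tr.lf 1160922241 99589064 0) 384 512 0 64 128 256)
  (go 16 Gd mult S198_227_216_364 (Tr.lf 1227113537 87395527 0) 384 512 0 64 128 256)))))) = true := by decide +kernel
  have c3 : (band (go 16 Gd mult S227_256_216_364 (Tr.lf 689194049 95521990 0) 384 512 0 64 128 256)
  (band (go 16 Gd mult S227_256_364_512 (Tr.lf 689194049 95657030 0) 384 512 0 64 128 256)
  (band (go 16 Gd mult S198_227_512_660 (Tr.lf 690242625 99716422 0) 384 512 0 64 128 256)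
  (band (go 16 Gd mult S227_256_512_660 (Tr.lf 75777089 112298821 0) 384 512 0 64 128 256)
  (band (go 16 Gd mult S227_256_660_808 (Tr.lf 75777089 99846981 0) 384 512 0 64 128 256)
  (band (go 16 Gd mult S140_169_364_512 (Tr.lf 547505217 107969606 0) 384 512 0 64 128 256)
  (band (go 16 Gd mult S169_198_364_512 (Tr.lf 1160922177 91327560 0) 384 512 0 64 128 256)
  (go 16 Gd mult S198_227_364_512 (Tr.lf 690242113 99720263 0) 384 512 0 64 128 256)))))))) = true := by decide +kernel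
  have c4 : (go 16 Gd mult S198_227_660_808 (Tr.lf 9708609 103906373 0) 384 512 0 64 128 256) = true := by decide +kernel
  (And.intro (Ok.s4 364 (Ok.s3 111 (Ok.lf S82_111_216_364_ok (bl (br (br c2))))
  (Ok.lf S111_140_216_364_ok (bl (br (br (br c2))))))
  (Ok.lf S82_140_364_512_ok (bl c0)))
  (And.intro (Ok.s4 660 (Ok.lf S82_140_512_660_ok (br c0))
  (Ok.lf S82_140_660_808_ok (bl c1)))
  (Ok.s3 198 (Ok.s4 512 (Ok.s4 364 (Ok.s3 169 (Ok.lf S140_169_216_364_ok (bl (br (br (br (br c2))))))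
  (Ok.lf S169_198_216_364_ok (bl (br c2))))
  (Ok.s3 169 (Ok.lf S140_169_364_512_ok (bl (br (br (br (br (br c3)))))))
  (Ok.lf S169_198_364_512_ok (bl (br (br (br (br (br (br c3))))))))))
  (Ok.s4 660 (Ok.lf S140_198_512_660_ok (bl c2))
  (Ok.lf S140_198_660_808_ok (br c1))))
  (Ok.s4 512 (Ok.s4 364 (Ok.s3 227 (Ok.lf S198_227_216_364_ok (br (br (br (br (br c2))))))
  (Ok.lf S227_256_216_364_ok (bl c3)))
  (Ok.s3 227 (Ok.lf S198_227_364_512_ok (br (br (br (br (br (br (br c3))))))))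
  (Ok.lf S227_256_364_512_ok (bl (br c3)))))
  (Ok.s4 660 (Ok.s3 227 (Ok.lf S198_227_512_660_ok (bl (br (br c3))))
  (Ok.lf S227_256_512_660_ok (bl (br (br (br c3))))))
  (Ok.s3 227 (Ok.lf S198_227_660_808_ok c4)
  (Ok.lf S227_256_660_808_ok (bl (br (br (br (br c3))))))))))))

end Vale.Agent.P098.Ck
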