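import Vale.Agent.P098.CkGd
import Vale.Agent.P098.CkOk
import Vale.Agent.P098.Sh.A28
import Vale.Agent.P098.Sh.A29
import Vale.Agent.P098.Sh.A43
import Vale.Agent.P098.Sh.A44
import Vale.Agent.P098.Sh.A49
import Vale.Agent.P098.Sh.A50
import Vale.Agent.P098.Sh.A54
import Vale.Agent.P098.Sh.A55
import Vale.Agent.P098.Sh.A58
import Vale.Agent.P098.Sh.A59

namespace Vale.Agent.P098.Ck

theorem r61 :
    Ok Gd mult 0 128 128 192 128 256 198 256 216 808 ∧
    Ok Gd mult 0 128 128 192 128 256 256 488 216 808 :=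
  have c0 : (band (go 16 Gd mult S198_256_216_364 (Tr.lf 4303652996 103914310 0) 0 128 128 192 128 256)
  (go 16 Gd mult S372_430_216_364 (Tr.lf 4833051780 99707974 0) 0 128 128 192 128 256)) = true := by decide +kernel
  have c1 : (band (go 16 Gd mult S198_256_364_512 (Tr.lf 4303652996 99720006 0) 0 128 128 192 128 256)
  (go 16 Gd mult S372_430_364_512 (Tr.lf 4833051780 99707974 0) 0 128 128 192 128 256)) = true := by decide +kernel
  have c2 : (band (go 16 Gd mult S198_256_660_808 (Tr.lf 4303652996 107977669 0) 0 128 128 192 128 256)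
  (go 16 Gd mult S372_430_512_660 (Tr.lf 4833051780 99707974 0) 0 128 128 192 128 256)) = true := by decide +kernel
  have c3 : (band (go 16 Gd mult S372_430_660_808 (Tr.lf 4833052804 99707974 0) 0 128 128 192 128 256)
  (band (go 16 Gd mult S198_256_512_660 (Tr.lf 4303651972 107973446 0) 0 128 128 192 128 256)
  (go 16 Gd mult S256_314_216_364 (Tr.lf 4295246916 103775046 0) 0 128 128 192 128 256))) = true := by decide +kernel
  have c4 : (band (go 16 Gd mult S256_314_660_808 (Tr.lf 8598619268 95120071 0) 0 128 128 192 128 256)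
  (band (go 16 Gd mult S256_314_512_660 (Tr.lf 4295263300 108092230 0) 0 128 128 192 128 256)
  (go 16 Gd mult S314_372_660_808 (Tr.lf 4303651908 99719878 0) 0 128 128 192 128 256))) = true := by decide +kernel
  have c5 : (band (go 16 Gd mult S430_488_216_364 (Tr.lf 4834034820 95521735 0) 0 128 128 192 128 256)
  (band (go 16 Gd mult S430_488_364_512 (Tr.lf 4834034820 99716039 0) 0 128 128 192 128 256)
  (band (go 16 Gd mult S430_488_512_660 (Tr.lf 4834034820 99716039 0) 0 128 128 192 128 256)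
  (band (go 16 Gd mult S430_488_660_808 (Tr.lf 4834034820 95521735 0) 0 128 128 192 128 256)
  (go 16 Gd mult S314_372_216_364 (Tr.lf 4295115844 103897926 0) 0 128 128 192 128 256))))) = true := by decide +kernel
  have c6 : (band (go 16 Gd mult S314_372_512_660 (Tr.lf 4295132228 99703622 0) 0 128 128 192 128 256)
  (band (go 16 Gd mult S256_314_364_512 (Tr.lf 4295246916 103902022 0) 0 128 128 192 128 256)
  (go 16 Gd mult S314_372_364_512 (Tr.lf 4295115844 99703622 0) 0 128 128 192 128 256))) = true := by decide +kernel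
  (And.intro (Ok.s4 512 (Ok.s4 364 (Ok.lf S198_256_216_364_ok (bl c0))
  (Ok.lf S198_256_364_512_ok (bl c1)))
  (Ok.s4 660 (Ok.lf S198_256_512_660_ok (bl (br c3)))
  (Ok.lf S198_256_660_808_ok (bl c2))))
  (Ok.s3 372 (Ok.s3 314 (Ok.s4 512 (Ok.s4 364 (Ok.lf S256_314_216_364_ok (br (br c3)))
  (Ok.lf S256_314_364_512_ok (bl (br c6))))
  (Ok.s4 660 (Ok.lf S256_314_512_660_ok (bl (br c4)))
  (Ok.lf S256_314_660_808_ok (bl c4))))
  (Ok.s4 512 (Ok.s4 364 (Ok.lf S314_372_216_364_ok (br (br (br (br c5)))))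
  (Ok.lf S314_372_364_512_ok (br (br c6))))
  (Ok.s4 660 (Ok.lf S314_372_512_660_ok (bl c6))
  (Ok.lf S314_372_660_808_ok (br (br c4))))))
  (Ok.s3 430 (Ok.s4 512 (Ok.s4 364 (Ok.lf S372_430_216_364_ok (br c0))
  (Ok.lf S372_430_364_512_ok (br c1)))
  (Ok.s4 660 (Ok.lf S372_430_512_660_ok (br c2))
  (Ok.lf S372_430_660_808_ok (bl c3))))
  (Ok.s4 512 (Ok.s4 364 (Ok.lf S430_488_216_364_ok (bl c5))
  (Ok.lf S430_488_364_512_ok (bl (br c5))))
  (Ok.s4 660 (Ok.lf S430_488_512_660_ok (bl (br (br c5))))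
  (Ok.lf S430_488_660_808_ok (bl (br (br (br c5))))))))))

end Vale.Agent.P098.Ck
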