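import Vale.Agent.P098.CkGd
import Vale.Agent.P098.CkOk
import Vale.Agent.P098.Sh.A41
import Vale.Agent.P098.Sh.A42
import Vale.Agent.P098.Sh.A43
import Vale.Agent.P098.Sh.A45
import Vale.Agent.P098.Sh.A46
import Vale.Agent.P098.Sh.A48
import Vale.Agent.P098.Sh.A49
import Vale.Agent.P098.Sh.A51
import Vale.Agent.P098.Sh.A52
import Vale.Agent.P098.Sh.A54
import Vale.Agent.P098.Sh.A56

namespace Vale.Agent.P098.Ck

theorem r610 :
    Ok Gd mult 384 512 0 64 128 256 256 314 216 512 ∧
    Ok Gd mult 384 512 0 64 128 256 256 314 512 808 ∧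
    Ok Gd mult 384 512 0 64 128 256 314 372 216 808 ∧
    Ok Gd mult 384 512 0 64 128 256 372 430 216 364 :=
  have c0 : (band (go 16 Gd mult S314_372_216_364 (Tr.lf 615024770 99847238 0) 384 512 0 64 128 256)
  (band (go 16 Gd mult S314_343_660_734 (Tr.lf 555910274 103779526 0) 384 512 0 64 128 256)
  (go 16 Gd mult S314_343_364_512 (Tr.lf 613557313 104168517 0) 384 512 0 64 128 256))) = true := by decide +kernel
  have c1 : (band (go 16 Gd mult S256_314_216_364 (Tr.lf 690521218 95398983 0) 384 512 0 64 128 256)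
  (band (go 16 Gd mult S343_372_512_660 (Tr.lf 1160022146 87260231 0) 384 512 0 64 128 256)
  (go 16 Gd mult S343_372_364_512 (Tr.lf 614614146 99847238 0) 384 512 0 64 128 256))) = true := by decide +kernel
  have c2 : (band (go 16 Gd mult S314_343_734_808 (Tr.lf 1093961858 99322952 0) 384 512 0 64 128 256)
  (band (go 16 Gd mult S256_285_660_808 (Tr.lf 75777154 104041285 0) 384 512 0 64 128 256)
  (band (go 16 Gd mult S285_314_660_808 (Tr.lf 9716866 103779652 0) 384 512 0 64 128 256)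
  (go 16 Gd mult S314_343_512_660 (Tr.lf 614745218 104041542 0) 384 512 0 64 128 256)))) = true := by decide +kernel
  have c3 : (band (go 16 Gd mult S343_372_660_808 (Tr.lf 547652738 108104901 0) 384 512 0 32 192 256)
  (go 16 Gd mult S343_372_660_808 (Tr.lf 1092911746 91069383 0) 384 512 0 64 128 192)) = true := by decide +kernel
  have c4 : (band (go 16 Gd mult S343_372_734_808 (Tr.lf 5388928130 103521224 0) 384 512 32 64 192 256)
  (go 16 Gd mult S343_372_660_734 (Tr.lf 5388796994 103521224 0) 384 512 32 64 192 256)) = true := by decide +kernel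
  have c5 : (go 16 Gd mult S401_430_216_364 (Tr.lf 539117698 99839173 0) 384 512 0 32 128 256) = true := by decide +kernel
  have c6 : (band (go 16 Gd mult S372_401_216_364 (Tr.lf 547505282 99716166 0) 384 512 0 64 128 256)
  (band (go 16 Gd mult S285_314_512_660 (Tr.lf 9716802 112037188 0) 384 512 0 64 128 256)
  (band (go 16 Gd mult S256_285_364_512 (Tr.lf 689194049 95525958 0) 384 512 0 64 128 256)
  (band (go 16 Gd mult S285_314_364_512 (Tr.lf 690242625 99716422 0) 384 512 0 64 128 256)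
  (go 16 Gd mult S256_285_512_660 (Tr.lf 75777089 112298821 0) 384 512 0 64 128 256))))) = true := by decide +kernel
  have c7 : (go 16 Gd mult S401_430_216_364 (Tr.lf 1084367938 95251527 0) 384 512 32 64 128 256) = true := by decide +kernel
  (And.intro (Ok.s4 364 (Ok.lf S256_314_216_364_ok (bl c1))
  (Ok.s3 285 (Ok.lf S256_285_364_512_ok (bl (br (br c6))))
  (Ok.lf S285_314_364_512_ok (bl (br (br (br c6)))))))
  (And.intro (Ok.s4 660 (Ok.s3 285 (Ok.lf S256_285_512_660_ok (br (br (br (br c6)))))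
  (Ok.lf S285_314_512_660_ok (bl (br c6))))
  (Ok.s3 285 (Ok.lf S256_285_660_808_ok (bl (br c2)))
  (Ok.lf S285_314_660_808_ok (bl (br (br c2))))))
  (And.intro (Ok.s4 512 (Ok.s4 364 (Ok.lf S314_372_216_364_ok (bl c0))
  (Ok.s3 343 (Ok.lf S314_343_364_512_ok (br (br c0)))
  (Ok.lf S343_372_364_512_ok (br (br c1)))))
  (Ok.s4 660 (Ok.s3 343 (Ok.lf S314_343_512_660_ok (br (br (br c2))))
  (Ok.lf S343_372_512_660_ok (bl (br c1))))
  (Ok.s3 343 (Ok.s4 734 (Ok.lf S314_343_660_734_ok (bl (br c0)))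
  (Ok.lf S314_343_734_808_ok (bl c2)))
  (Ok.s2 192 (Ok.lf S343_372_660_808_ok (br c3))
  (Ok.s1 32 (Ok.lf S343_372_660_808_ok (bl c3))
  (Ok.s4 734 (Ok.lf S343_372_660_734_ok (br c4))
  (Ok.lf S343_372_734_808_ok (bl c4))))))))
  (Ok.s3 401 (Ok.lf S372_401_216_364_ok (bl c6))
  (Ok.s1 32 (Ok.lf S401_430_216_364_ok c5)
  (Ok.lf S401_430_216_364_ok c7))))))

end Vale.Agent.P098.Ck
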