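import Vale.Agent.P098.CkGd
import Vale.Agent.P098.CkOk
import Vale.Agent.P098.Sh.A54
import Vale.Agent.P098.Sh.A56
import Vale.Agent.P098.Sh.A57
import Vale.Agent.P098.Sh.A58
import Vale.Agent.P098.Sh.A59

namespace Vale.Agent.P098.Ck

theorem r611 :
    Ok Gd mult 384 512 0 64 128 256 372 430 364 512 ∧
    Ok Gd mult 384 512 0 64 128 256 372 430 512 808 ∧
    Ok Gd mult 384 512 0 64 128 256 430 488 216 512 ∧
    Ok Gd mult 384 512 0 64 128 256 430 488 512 660 :=
  have c0 : (band (go 16 Gd mult S372_401_660_808 (Tr.lf 547653764 99716166 0) 384 512 32 64 128 256)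
  (band (go 16 Gd mult S372_401_512_660 (Tr.lf 547506242 99716166 0) 384 512 32 64 128 256)
  (go 16 Gd mult S401_430_660_808 (Tr.lf 539117634 108096582 0) 384 512 32 64 128 256))) = true := by decide +kernel
  have c1 : (go 16 Gd mult S372_401_364_512 (Tr.lf 1151633538 95513671 0) 384 512 0 64 128 256) = true := by decide +kernel
  have c2 : (band (go 16 Gd mult S372_401_660_808 (Tr.lf 547653762 108104901 0) 384 512 0 32 128 256)
  (band (go 16 Gd mult S401_430_512_660 (Tr.lf 539134082 112291013 0) 384 512 0 32 128 256)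
  (go 16 Gd mult S401_430_660_808 (Tr.lf 539134082 108096709 0) 384 512 0 32 128 256))) = true := by decide +kernel
  have c3 : (band (go 16 Gd mult S430_488_216_364 (Tr.lf 1152551042 99716167 0) 384 512 0 32 128 256)
  (band (go 16 Gd mult S401_430_364_512 (Tr.lf 539117698 108096709 0) 384 512 0 32 128 256)
  (band (go 16 Gd mult S372_401_512_660 (Tr.lf 539117698 108096709 0) 384 512 0 32 128 256)
  (go 16 Gd mult S430_459_512_660 (Tr.lf 1152534658 103910471 0) 384 512 0 32 128 256)))) = true := by decide +kernel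
  have c4 : (band (go 16 Gd mult S430_488_364_512 (Tr.lf 1152484482 95648839 0) 384 512 0 32 192 256)
  (band (go 16 Gd mult S430_488_364_512 (Tr.lf 1084326978 99453895 0) 384 512 32 64 128 256)
  (band (go 16 Gd mult S430_488_216_364 (Tr.lf 1084326978 99453895 0) 384 512 32 64 128 256)
  (band (go 16 Gd mult S430_488_512_660 (Tr.lf 5379294274 107842503 0) 384 512 32 64 128 256)
  (band (go 16 Gd mult S401_430_512_660 (Tr.lf 539116610 108096582 0) 384 512 32 64 128 256)
  (go 16 Gd mult S401_430_364_512 (Tr.lf 1084310594 99445831 0) 384 512 32 64 128 256)))))) = true := by decide +kernel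
  have c5 : (go 16 Gd mult S459_488_512_660 (Tr.lf 1152469122 103910471 0) 384 512 0 32 128 256) = true := by decide +kernel
  have c6 : (go 16 Gd mult S430_488_364_512 (Tr.lf 1152467521 99716167 0) 384 512 0 32 128 192) = true := by decide +kernel
  (And.intro (Ok.s3 401 (Ok.lf S372_401_364_512_ok c1)
  (Ok.s1 32 (Ok.lf S401_430_364_512_ok (bl (br c3)))
  (Ok.lf S401_430_364_512_ok (br (br (br (br (br c4))))))))
  (And.intro (Ok.s4 660 (Ok.s3 401 (Ok.s1 32 (Ok.lf S372_401_512_660_ok (bl (br (br c3))))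
  (Ok.lf S372_401_512_660_ok (bl (br c0))))
  (Ok.s1 32 (Ok.lf S401_430_512_660_ok (bl (br c2)))
  (Ok.lf S401_430_512_660_ok (bl (br (br (br (br c4))))))))
  (Ok.s3 401 (Ok.s1 32 (Ok.lf S372_401_660_808_ok (bl c2))
  (Ok.lf S372_401_660_808_ok (bl c0)))
  (Ok.s1 32 (Ok.lf S401_430_660_808_ok (br (br c2)))
  (Ok.lf S401_430_660_808_ok (br (br c0))))))
  (And.intro (Ok.s4 364 (Ok.s1 32 (Ok.lf S430_488_216_364_ok (bl c3))
  (Ok.lf S430_488_216_364_ok (bl (br (br c4)))))
  (Ok.s1 32 (Ok.s2 192 (Ok.lf S430_488_364_512_ok c6)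
  (Ok.lf S430_488_364_512_ok (bl c4)))
  (Ok.lf S430_488_364_512_ok (bl (br c4)))))
  (Ok.s1 32 (Ok.s3 459 (Ok.lf S430_459_512_660_ok (br (br (br c3))))
  (Ok.lf S459_488_512_660_ok c5))
  (Ok.lf S430_488_512_660_ok (bl (br (br (br c4)))))))))

end Vale.Agent.P098.Ck
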