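import Vale.Agent.P098.CkGd
import Vale.Agent.P098.CkOk
import Vale.Agent.P098.Sh.A0
import Vale.Agent.P098.Sh.A1
import Vale.Agent.P098.Sh.A3
import Vale.Agent.P098.Sh.A4
import Vale.Agent.P098.Sh.A58
import Vale.Agent.P098.Sh.A59

namespace Vale.Agent.P098.Ck

theorem r612 :
    Ok Gd mult 384 512 0 64 128 256 430 488 660 808 ∧
    Ok Gd mult 384 512 0 64 256 384 24 140 216 808 :=
  have c0 : (band (go 16 Gd mult S24_82_216_364 (Tr.lf 1077053572 103767111 0) 384 512 0 32 256 384)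
  (band (go 16 Gd mult S24_82_364_512 (Tr.lf 1077053572 103767111 0) 384 512 0 32 256 384)
  (go 16 Gd mult S82_140_364_512 (Tr.lf 1160939585 103779527 0) 384 512 0 32 256 384))) = true := by decide +kernel
  have c1 : (band (go 16 Gd mult S24_82_216_364 (Tr.lf 5371955332 99306695 0) 384 512 32 64 256 384)
  (band (go 16 Gd mult S24_82_660_808 (Tr.lf 5371955332 103500999 0) 384 512 32 64 256 384)
  (band (go 16 Gd mult S24_82_364_512 (Tr.lf 5371955330 103500999 0) 384 512 32 64 256 384)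
  (go 16 Gd mult S82_140_512_660 (Tr.lf 547521602 107973829 0) 384 512 32 64 256 384)))) = true := by decide +kernel
  have c2 : (band (go 16 Gd mult S24_82_512_660 (Tr.lf 1077053570 103767111 0) 384 512 0 32 256 384)
  (band (go 16 Gd mult S24_82_660_808 (Tr.lf 1077053570 107830343 0) 384 512 0 32 256 384)
  (go 16 Gd mult S82_140_216_364 (Tr.lf 1161070658 103779527 0) 384 512 0 32 256 384))) = true := by decide +kernel
  have c3 : (band (go 16 Gd mult S24_82_512_660 (Tr.lf 5371955330 103500999 0) 384 512 32 64 256 384)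
  (band (go 16 Gd mult S82_140_216_364 (Tr.lf 547522626 103779525 0) 384 512 32 64 256 384)
  (band (go 16 Gd mult S82_140_364_512 (Tr.lf 547522626 107973829 0) 384 512 32 64 256 384)
  (band (go 16 Gd mult S82_140_660_808 (Tr.lf 547521602 112168133 0) 384 512 32 64 256 384)
  (go 16 Gd mult S82_140_660_808 (Tr.lf 1160939585 99716295 0) 384 512 0 32 256 384))))) = true := by decide +kernel
  have c4 : (band (go 16 Gd mult S430_459_660_808 (Tr.lf 539117698 108104773 0) 384 512 0 32 128 256)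
  (go 16 Gd mult S459_488_660_808 (Tr.lf 1152469122 103910471 0) 384 512 0 32 128 256)) = true := by decide +kernel
  have c5 : (go 16 Gd mult S82_140_512_660 (Tr.lf 1160939585 107973831 0) 384 512 0 32 256 384) = true := by decide +kernel
  have c6 : (go 16 Gd mult S430_488_660_808 (Tr.lf 5379294274 107842503 0) 384 512 32 64 128 256) = true := by decide +kernel
  (And.intro (Ok.s1 32 (Ok.s3 459 (Ok.lf S430_459_660_808_ok (bl c4))
  (Ok.lf S459_488_660_808_ok (br c4)))
  (Ok.lf S430_488_660_808_ok c6))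
  (Ok.s3 82 (Ok.s4 512 (Ok.s4 364 (Ok.s1 32 (Ok.lf S24_82_216_364_ok (bl c0))
  (Ok.lf S24_82_216_364_ok (bl c1)))
  (Ok.s1 32 (Ok.lf S24_82_364_512_ok (bl (br c0)))
  (Ok.lf S24_82_364_512_ok (bl (br (br c1))))))
  (Ok.s4 660 (Ok.s1 32 (Ok.lf S24_82_512_660_ok (bl c2))
  (Ok.lf S24_82_512_660_ok (bl c3)))
  (Ok.s1 32 (Ok.lf S24_82_660_808_ok (bl (br c2)))
  (Ok.lf S24_82_660_808_ok (bl (br c1))))))
  (Ok.s4 512 (Ok.s4 364 (Ok.s1 32 (Ok.lf S82_140_216_364_ok (br (br c2)))
  (Ok.lf S82_140_216_364_ok (bl (br c3))))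
  (Ok.s1 32 (Ok.lf S82_140_364_512_ok (br (br c0)))
  (Ok.lf S82_140_364_512_ok (bl (br (br c3))))))
  (Ok.s4 660 (Ok.s1 32 (Ok.lf S82_140_512_660_ok c5)
  (Ok.lf S82_140_512_660_ok (br (br (br c1)))))
  (Ok.s1 32 (Ok.lf S82_140_660_808_ok (br (br (br (br c3)))))
  (Ok.lf S82_140_660_808_ok (bl (br (br (br c3))))))))))

end Vale.Agent.P098.Ck
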