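import Vale.Agent.P098.CkGd
import Vale.Agent.P098.CkOk
import Vale.Agent.P098.Sh.A11
import Vale.Agent.P098.Sh.A14
import Vale.Agent.P098.Sh.A17
import Vale.Agent.P098.Sh.A18
import Vale.Agent.P098.Sh.A20
import Vale.Agent.P098.Sh.A25
import Vale.Agent.P098.Sh.A28
import Vale.Agent.P098.Sh.A29
import Vale.Agent.P098.Sh.A36
import Vale.Agent.P098.Sh.A8
import Vale.Agent.P098.Sh.A9

namespace Vale.Agent.P098.Ck

theorem r613 :
    Ok Gd mult 384 512 0 64 256 384 140 169 216 364 ∧
    Ok Gd mult 384 512 0 64 256 384 169 198 216 364 ∧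
    Ok Gd mult 384 512 0 64 256 384 140 198 364 512 ∧
    Ok Gd mult 384 512 0 64 256 384 140 198 512 808 ∧
    Ok Gd mult 384 512 0 64 256 384 198 256 216 808 :=
  have c0 : (go 16 Gd mult S140_169_216_364 (Tr.lf 556304514 99589190 0) 384 512 0 32 320 384) = true := by decide +kernel
  have c1 : (band (go 16 Gd mult S169_198_216_364 (Tr.lf 1160284290 99585095 0) 384 512 32 64 256 384)
  (go 16 Gd mult S140_169_216_364 (Tr.lf 1160022082 103779271 0) 384 512 32 64 256 384)) = true := by decide +kernel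
  have c2 : (band (go 16 Gd mult S198_256_512_660 (Tr.lf 690522242 108240070 0) 384 512 0 64 256 384)
  (go 16 Gd mult S140_169_364_512 (Tr.lf 1236551810 99978312 0) 384 512 0 64 256 384)) = true := by decide +kernel
  have c3 : (go 16 Gd mult S169_183_216_364 (Tr.lf 556288130 107846981 0) 384 512 0 32 320 384) = true := by decide +kernel
  have c4 : (band (go 16 Gd mult S198_256_364_512 (Tr.lf 1227131010 95652935 0) 384 512 0 64 256 384)
  (band (go 16 Gd mult S198_256_660_808 (Tr.lf 9734274 95255749 0) 384 512 0 64 256 384)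
  (go 16 Gd mult S198_227_216_364 (Tr.lf 1227113537 95657031 0) 384 512 0 64 256 384))) = true := by decide +kernel
  have c5 : (band (go 16 Gd mult S140_169_216_364 (Tr.lf 1161069634 103779527 0) 384 512 0 32 256 320)
  (go 16 Gd mult S169_183_216_364 (Tr.lf 1161045058 99716295 0) 384 512 0 32 256 320)) = true := by decide +kernel
  have c6 : (band (go 16 Gd mult S169_198_364_512 (Tr.lf 1236550786 99716296 0) 384 512 0 64 256 384)
  (go 16 Gd mult S227_256_216_364 (Tr.lf 689185857 99847238 0) 384 512 0 64 256 384)) = true := by decide +kernel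
  have c7 : (band (go 16 Gd mult S183_198_216_364 (Tr.lf 623134785 108239942 0) 384 512 0 32 256 384)
  (band (go 16 Gd mult S140_198_512_660 (Tr.lf 1228178497 103906376 0) 384 512 0 32 256 384)
  (band (go 16 Gd mult S140_198_660_808 (Tr.lf 1161069633 99581000 0) 384 512 0 32 256 384)
  (band (go 16 Gd mult S140_198_512_660 (Tr.lf 547652673 103775302 0) 384 512 32 64 256 384)
  (go 16 Gd mult S140_198_660_808 (Tr.lf 546604065 107838533 0) 384 512 32 64 256 384))))) = true := by decide +kernel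
  (And.intro (Ok.s1 32 (Ok.s2 320 (Ok.lf S140_169_216_364_ok (bl c5))
  (Ok.lf S140_169_216_364_ok c0))
  (Ok.lf S140_169_216_364_ok (br c1)))
  (And.intro (Ok.s1 32 (Ok.s3 183 (Ok.s2 320 (Ok.lf S169_183_216_364_ok (br c5))
  (Ok.lf S169_183_216_364_ok c3))
  (Ok.lf S183_198_216_364_ok (bl c7)))
  (Ok.lf S169_198_216_364_ok (bl c1)))
  (And.intro (Ok.s3 169 (Ok.lf S140_169_364_512_ok (br c2))
  (Ok.lf S169_198_364_512_ok (bl c6)))
  (And.intro (Ok.s4 660 (Ok.s1 32 (Ok.lf S140_198_512_660_ok (bl (br c7)))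
  (Ok.lf S140_198_512_660_ok (bl (br (br (br c7))))))
  (Ok.s1 32 (Ok.lf S140_198_660_808_ok (bl (br (br c7))))
  (Ok.lf S140_198_660_808_ok (br (br (br (br c7)))))))
  (Ok.s4 512 (Ok.s4 364 (Ok.s3 227 (Ok.lf S198_227_216_364_ok (br (br c4)))
  (Ok.lf S227_256_216_364_ok (br c6)))
  (Ok.lf S198_256_364_512_ok (bl c4)))
  (Ok.s4 660 (Ok.lf S198_256_512_660_ok (bl c2))
  (Ok.lf S198_256_660_808_ok (bl (br c4)))))))))

end Vale.Agent.P098.Ck
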