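import Vale.Agent.P098.CkGd
import Vale.Agent.P098.CkOk
import Vale.Agent.P098.Sh.A43
import Vale.Agent.P098.Sh.A44
import Vale.Agent.P098.Sh.A47
import Vale.Agent.P098.Sh.A48
import Vale.Agent.P098.Sh.A49
import Vale.Agent.P098.Sh.A51
import Vale.Agent.P098.Sh.A52
import Vale.Agent.P098.Sh.A54
import Vale.Agent.P098.Sh.A56

namespace Vale.Agent.P098.Ck

theorem r614 :
    Ok Gd mult 384 512 0 64 256 384 256 314 216 808 ∧
    Ok Gd mult 384 512 0 64 256 384 314 372 216 808 ∧
    Ok Gd mult 384 512 0 64 256 384 372 430 216 364 :=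
  have c0 : (band (go 16 Gd mult S256_314_364_512 (Tr.lf 690522242 99851462 0) 384 512 0 64 256 384)
  (go 16 Gd mult S256_314_216_364 (Tr.lf 690259074 99716422 0) 384 512 0 64 256 384)) = true := by decide +kernel
  have c1 : (band (go 16 Gd mult S314_343_660_808 (Tr.lf 1094223938 103386184 0) 384 512 32 64 256 384)
  (band (go 16 Gd mult S401_430_216_364 (Tr.lf 1084376130 99318727 0) 384 512 32 64 256 384)
  (band (go 16 Gd mult S401_430_216_364 (Tr.lf 539117698 103906373 0) 384 512 0 32 256 384)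
  (go 16 Gd mult S314_343_660_808 (Tr.lf 547636289 103779398 0) 384 512 0 32 256 384)))) = true := by decide +kernel
  have c2 : (go 16 Gd mult S343_372_660_808 (Tr.lf 5389190274 103648455 0) 384 512 32 64 256 320) = true := by decide +kernel
  have c3 : (band (go 16 Gd mult S372_401_216_364 (Tr.lf 547637380 107977670 0) 384 512 0 64 256 384)
  (band (go 16 Gd mult S256_314_660_808 (Tr.lf 9733250 95255749 0) 384 512 0 64 256 384)
  (go 16 Gd mult S314_343_512_660 (Tr.lf 614746242 108104774 0) 384 512 0 64 256 384))) = true := by decide +kernel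
  have c4 : (go 16 Gd mult S343_372_512_660 (Tr.lf 1160021122 99716039 0) 384 512 0 64 256 320) = true := by decide +kernel
  have c5 : (go 16 Gd mult S343_372_660_808 (Tr.lf 547652738 112037061 0) 384 512 0 32 256 320) = true := by decide +kernel
  have c6 : (band (go 16 Gd mult S343_372_364_512 (Tr.lf 614615170 108108742 0) 384 512 0 64 256 384)
  (band (go 16 Gd mult S256_314_512_660 (Tr.lf 9733186 95390789 0) 384 512 0 64 256 384)
  (band (go 16 Gd mult S343_372_216_364 (Tr.lf 614614145 108108742 0) 384 512 0 64 256 384)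
  (band (go 16 Gd mult S314_343_364_512 (Tr.lf 613565505 104037445 0) 384 512 0 64 256 384)
  (go 16 Gd mult S314_343_216_364 (Tr.lf 613557313 108100677 0) 384 512 0 64 256 384))))) = true := by decide +kernel
  have c7 : (band (go 16 Gd mult S343_372_660_808 (Tr.lf 547635841 103779525 0) 384 512 0 64 320 384)
  (go 16 Gd mult S343_372_512_660 (Tr.lf 614613633 108235973 0) 384 512 0 64 320 384)) = true := by decide +kernel
  (And.intro (Ok.s4 512 (Ok.s4 364 (Ok.lf S256_314_216_364_ok (br c0))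
  (Ok.lf S256_314_364_512_ok (bl c0)))
  (Ok.s4 660 (Ok.lf S256_314_512_660_ok (bl (br c6)))
  (Ok.lf S256_314_660_808_ok (bl (br c3)))))
  (And.intro (Ok.s4 512 (Ok.s4 364 (Ok.s3 343 (Ok.lf S314_343_216_364_ok (br (br (br (br c6)))))
  (Ok.lf S343_372_216_364_ok (bl (br (br c6)))))
  (Ok.s3 343 (Ok.lf S314_343_364_512_ok (bl (br (br (br c6)))))
  (Ok.lf S343_372_364_512_ok (bl c6))))
  (Ok.s4 660 (Ok.s3 343 (Ok.lf S314_343_512_660_ok (br (br c3)))
  (Ok.s2 320 (Ok.lf S343_372_512_660_ok c4)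
  (Ok.lf S343_372_512_660_ok (br c7))))
  (Ok.s3 343 (Ok.s1 32 (Ok.lf S314_343_660_808_ok (br (br (br c1))))
  (Ok.lf S314_343_660_808_ok (bl c1)))
  (Ok.s2 320 (Ok.s1 32 (Ok.lf S343_372_660_808_ok c5)
  (Ok.lf S343_372_660_808_ok c2))
  (Ok.lf S343_372_660_808_ok (bl c7))))))
  (Ok.s3 401 (Ok.lf S372_401_216_364_ok (bl c3))
  (Ok.s1 32 (Ok.lf S401_430_216_364_ok (bl (br (br c1))))
  (Ok.lf S401_430_216_364_ok (bl (br c1)))))))

end Vale.Agent.P098.Ck
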