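import Vale.Agent.P098.CkGd
import Vale.Agent.P098.CkOk
import Vale.Agent.P098.Sh.A54
import Vale.Agent.P098.Sh.A56
import Vale.Agent.P098.Sh.A57
import Vale.Agent.P098.Sh.A58

namespace Vale.Agent.P098.Ck

theorem r615 :
    Ok Gd mult 384 512 0 64 256 384 372 430 364 512 ∧
    Ok Gd mult 384 512 0 64 256 384 372 430 512 808 ∧
    Ok Gd mult 384 512 0 64 256 384 430 488 216 512 :=
  have c0 : (band (go 16 Gd mult S430_488_216_364 (Tr.lf 1152551044 95517767 0) 384 512 0 32 256 320)
  (band (go 16 Gd mult S430_488_364_512 (Tr.lf 1152551044 95517767 0) 384 512 0 32 256 320)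
  (go 16 Gd mult S401_430_512_660 (Tr.lf 539116674 103906373 0) 384 512 0 32 256 320))) = true := by decide +kernel
  have c1 : (band (go 16 Gd mult S372_401_660_808 (Tr.lf 547652740 103906501 0) 384 512 0 32 256 320)
  (band (go 16 Gd mult S401_430_660_808 (Tr.lf 539133058 103906373 0) 384 512 0 32 256 320)
  (band (go 16 Gd mult S372_401_660_808 (Tr.lf 547652674 107977670 0) 384 512 32 64 256 320)
  (go 16 Gd mult S401_430_660_808 (Tr.lf 539116610 107969478 0) 384 512 32 64 256 320)))) = true := by decide +kernel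
  have c2 : (band (go 16 Gd mult S401_430_364_512 (Tr.lf 539134082 103906373 0) 384 512 0 32 256 384)
  (band (go 16 Gd mult S372_401_512_660 (Tr.lf 539134082 103898309 0) 384 512 0 32 256 384)
  (band (go 16 Gd mult S372_401_512_660 (Tr.lf 547522626 107977670 0) 384 512 32 64 256 384)
  (go 16 Gd mult S430_488_216_364 (Tr.lf 1084328002 99318727 0) 384 512 32 64 256 384)))) = true := by decide +kernel
  have c3 : (band (go 16 Gd mult S430_488_364_512 (Tr.lf 1084328002 99318727 0) 384 512 32 64 256 384)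
  (band (go 16 Gd mult S401_430_512_660 (Tr.lf 539117634 107969478 0) 384 512 32 64 256 384)
  (band (go 16 Gd mult S401_430_364_512 (Tr.lf 1084376130 99318727 0) 384 512 32 64 256 384)
  (band (go 16 Gd mult S430_488_364_512 (Tr.lf 1152484481 103902279 0) 384 512 0 32 320 384)
  (band (go 16 Gd mult S430_488_216_364 (Tr.lf 1152484481 103902279 0) 384 512 0 32 320 384)
  (go 16 Gd mult S401_430_512_660 (Tr.lf 1152468033 95644743 0) 384 512 0 32 320 384)))))) = true := by decide +kernel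
  have c4 : (go 16 Gd mult S372_401_364_512 (Tr.lf 1151485058 99580871 0) 384 512 0 64 256 320) = true := by decide +kernel
  have c5 : (band (go 16 Gd mult S401_430_660_808 (Tr.lf 614614146 104172741 0) 384 512 0 64 320 384)
  (band (go 16 Gd mult S372_401_660_808 (Tr.lf 614613633 108235973 0) 384 512 0 64 320 384)
  (go 16 Gd mult S372_401_364_512 (Tr.lf 614605441 108235973 0) 384 512 0 64 320 384))) = true := by decide +kernel
  (And.intro (Ok.s3 401 (Ok.s2 320 (Ok.lf S372_401_364_512_ok c4)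
  (Ok.lf S372_401_364_512_ok (br (br c5))))
  (Ok.s1 32 (Ok.lf S401_430_364_512_ok (bl c2))
  (Ok.lf S401_430_364_512_ok (bl (br (br c3))))))
  (And.intro (Ok.s4 660 (Ok.s3 401 (Ok.s1 32 (Ok.lf S372_401_512_660_ok (bl (br c2)))
  (Ok.lf S372_401_512_660_ok (bl (br (br c2)))))
  (Ok.s1 32 (Ok.s2 320 (Ok.lf S401_430_512_660_ok (br (br c0)))
  (Ok.lf S401_430_512_660_ok (br (br (br (br (br c3)))))))
  (Ok.lf S401_430_512_660_ok (bl (br c3)))))
  (Ok.s2 320 (Ok.s3 401 (Ok.s1 32 (Ok.lf S372_401_660_808_ok (bl c1))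
  (Ok.lf S372_401_660_808_ok (bl (br (br c1)))))
  (Ok.s1 32 (Ok.lf S401_430_660_808_ok (bl (br c1)))
  (Ok.lf S401_430_660_808_ok (br (br (br c1))))))
  (Ok.s3 401 (Ok.lf S372_401_660_808_ok (bl (br c5)))
  (Ok.lf S401_430_660_808_ok (bl c5)))))
  (Ok.s4 364 (Ok.s1 32 (Ok.s2 320 (Ok.lf S430_488_216_364_ok (bl c0))
  (Ok.lf S430_488_216_364_ok (bl (br (br (br (br c3)))))))
  (Ok.lf S430_488_216_364_ok (br (br (br c2)))))
  (Ok.s1 32 (Ok.s2 320 (Ok.lf S430_488_364_512_ok (bl (br c0)))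
  (Ok.lf S430_488_364_512_ok (bl (br (br (br c3))))))
  (Ok.lf S430_488_364_512_ok (bl c3))))))

end Vale.Agent.P098.Ck
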