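import Vale.Agent.P098.CkGd
import Vale.Agent.P098.CkOk
import Vale.Agent.P098.Sh.A0
import Vale.Agent.P098.Sh.A1
import Vale.Agent.P098.Sh.A58
import Vale.Agent.P098.Sh.A59

namespace Vale.Agent.P098.Ck

theorem r616 :
    Ok Gd mult 384 512 0 64 256 384 430 488 512 660 ∧
    Ok Gd mult 384 512 0 64 256 384 430 488 660 808 ∧
    Ok Gd mult 384 512 0 64 384 448 24 82 216 364 ∧
    Ok Gd mult 384 512 0 32 448 512 24 82 216 364 :=
  have c0 : (band (go 16 Gd mult S24_53_216_364 (Tr.lf 9666922632 94981192 0) 384 512 0 32 448 480)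
  (go 16 Gd mult S53_82_216_364 (Tr.lf 9675360392 103369928 0) 384 512 0 32 448 480)) = true := by decide +kernel
  have c1 : (go 16 Gd mult S24_53_216_364 (Tr.lf 9666922632 99568839 0) 384 512 0 32 480 512) = true := by decide +kernel
  have c2 : (band (go 16 Gd mult S430_488_512_660 (Tr.lf 1152551044 95517767 0) 384 512 0 32 256 320)
  (band (go 16 Gd mult S430_459_660_808 (Tr.lf 539116674 103906373 0) 384 512 0 32 256 320)
  (go 16 Gd mult S430_488_512_660 (Tr.lf 1152551044 99708103 0) 384 512 0 64 320 384))) = true := by decide +kernel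
  have c3 : (band (go 16 Gd mult S53_82_216_364 (Tr.lf 9675360392 99310919 0) 384 512 32 64 416 448)
  (band (go 16 Gd mult S24_53_216_364 (Tr.lf 9666905220 95243463 0) 384 512 32 64 416 448)
  (go 16 Gd mult S53_82_216_364 (Tr.lf 9675360392 107707591 0) 384 512 0 16 480 512))) = true := by decide +kernel
  have c4 : (go 16 Gd mult S459_488_660_808 (Tr.lf 1152485506 99589063 0) 384 512 0 32 256 384) = true := by decide +kernel
  have c5 : (go 16 Gd mult S430_488_660_808 (Tr.lf 5379360834 107707335 0) 384 512 32 64 256 384) = true := by decide +kernel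
  have c6 : (go 16 Gd mult S53_82_216_364 (Tr.lf 9675360324 107576519 463018588912402973912465408) 384 512 16 32 480 512) = true := by decide +kernel
  have c7 : (band (go 16 Gd mult S24_53_216_364 (Tr.lf 9666905220 99171400 0) 384 512 32 64 384 416)
  (go 16 Gd mult S53_82_216_364 (Tr.lf 9675293316 94858312 0) 384 512 32 64 384 416)) = true := by decide +kernel
  have c8 : (band (go 16 Gd mult S24_82_216_364 (Tr.lf 1076986498 107961415 0) 384 512 0 32 384 416)
  (go 16 Gd mult S24_82_216_364 (Tr.lf 1076986498 99445831 0) 384 512 0 32 416 448)) = true := by decide +kernel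
  have c9 : (go 16 Gd mult S430_488_512_660 (Tr.lf 5379293762 107707335 0) 384 512 32 64 256 320) = true := by decide +kernel
  have c10 : (go 16 Gd mult S430_459_660_808 (Tr.lf 539051073 103775301 0) 384 512 0 32 320 384) = true := by decide +kernel
  (And.intro (Ok.s2 320 (Ok.s1 32 (Ok.lf S430_488_512_660_ok (bl c2))
  (Ok.lf S430_488_512_660_ok c9))
  (Ok.lf S430_488_512_660_ok (br (br c2))))
  (And.intro (Ok.s1 32 (Ok.s3 459 (Ok.s2 320 (Ok.lf S430_459_660_808_ok (bl (br c2)))
  (Ok.lf S430_459_660_808_ok c10))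
  (Ok.lf S459_488_660_808_ok c4))
  (Ok.lf S430_488_660_808_ok c5))
  (And.intro (Ok.s2 416 (Ok.s1 32 (Ok.lf S24_82_216_364_ok (bl c8))
  (Ok.s3 53 (Ok.lf S24_53_216_364_ok (bl c7))
  (Ok.lf S53_82_216_364_ok (br c7))))
  (Ok.s1 32 (Ok.lf S24_82_216_364_ok (br c8))
  (Ok.s3 53 (Ok.lf S24_53_216_364_ok (bl (br c3)))
  (Ok.lf S53_82_216_364_ok (bl c3)))))
  (Ok.s3 53 (Ok.s2 480 (Ok.lf S24_53_216_364_ok (bl c0))
  (Ok.lf S24_53_216_364_ok c1))
  (Ok.s2 480 (Ok.lf S53_82_216_364_ok (br c0))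
  (Ok.s1 16 (Ok.lf S53_82_216_364_ok (br (br c3)))
  (Ok.lf S53_82_216_364_ok c6)))))))

end Vale.Agent.P098.Ck
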