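import Vale.Agent.P098.CkGd
import Vale.Agent.P098.CkOk
import Vale.Agent.P098.Sh.A0
import Vale.Agent.P098.Sh.A1

namespace Vale.Agent.P098.Ck

theorem r618 :
    Ok Gd mult 384 512 0 64 384 448 24 82 512 660 ∧
    Ok Gd mult 384 512 0 64 448 512 24 82 512 660 ∧
    Ok Gd mult 384 512 0 64 384 448 24 82 660 808 ∧
    Ok Gd mult 384 512 0 64 448 480 24 82 660 808 :=
  have c0 : (go 16 Gd mult S24_53_512_660 (Tr.lf 9666988168 99171400 0) 384 512 32 64 384 448) = true := by decide +kernel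
  have c1 : (go 16 Gd mult S53_82_512_660 (Tr.lf 9675376776 99052616 0) 384 512 32 64 384 448) = true := by decide +kernel
  have c2 : (go 16 Gd mult S24_53_660_808 (Tr.lf 9666988168 99171400 0) 384 512 32 64 384 448) = true := by decide +kernel
  have c3 : (go 16 Gd mult S53_82_660_808 (Tr.lf 9675376776 99052616 0) 384 512 32 64 384 448) = true := by decide +kernel
  have c4 : (band (go 16 Gd mult S24_53_512_660 (Tr.lf 9666922632 99568839 0) 384 512 0 32 480 512)
  (go 16 Gd mult S53_82_512_660 (Tr.lf 9675360392 107707591 0) 384 512 0 32 480 512)) = true := by decide +kernel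
  have c5 : (band (go 16 Gd mult S53_82_512_660 (Tr.lf 9675360392 103377992 0) 384 512 0 32 448 480)
  (go 16 Gd mult S53_82_660_808 (Tr.lf 9675360392 103377992 0) 384 512 0 32 448 480)) = true := by decide +kernel
  have c6 : (band (go 16 Gd mult S24_53_512_660 (Tr.lf 9666906248 94981192 0) 384 512 0 32 448 480)
  (band (go 16 Gd mult S24_53_660_808 (Tr.lf 9666906248 94981192 0) 384 512 0 32 448 480)
  (go 16 Gd mult S24_53_512_660 (Tr.lf 9666906244 99306695 0) 384 512 32 64 448 480))) = true := by decide +kernel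
  have c7 : (band (go 16 Gd mult S24_82_512_660 (Tr.lf 1076988034 99445831 0) 384 512 0 32 384 448)
  (go 16 Gd mult S24_82_660_808 (Tr.lf 1077052546 99445831 0) 384 512 0 32 384 448)) = true := by decide +kernel
  have c8 : (band (go 16 Gd mult S53_82_512_660 (Tr.lf 9675294852 99445959 0) 384 512 32 64 448 480)
  (band (go 16 Gd mult S24_53_660_808 (Tr.lf 9666906244 99306695 0) 384 512 32 64 448 480)
  (band (go 16 Gd mult S53_82_660_808 (Tr.lf 9675294852 99445959 0) 384 512 32 64 448 480)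
  (go 16 Gd mult S53_82_512_660 (Tr.lf 9675294852 90655944 0) 384 512 32 64 480 512)))) = true := by decide +kernel
  have c9 : (go 16 Gd mult S24_53_512_660 (Tr.lf 9666906244 90782792 0) 384 512 32 64 480 512) = true := by decide +kernel
  (And.intro (Ok.s1 32 (Ok.lf S24_82_512_660_ok (bl c7))
  (Ok.s3 53 (Ok.lf S24_53_512_660_ok c0)
  (Ok.lf S53_82_512_660_ok c1)))
  (And.intro (Ok.s2 480 (Ok.s3 53 (Ok.s1 32 (Ok.lf S24_53_512_660_ok (bl c6))
  (Ok.lf S24_53_512_660_ok (br (br c6))))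
  (Ok.s1 32 (Ok.lf S53_82_512_660_ok (bl c5))
  (Ok.lf S53_82_512_660_ok (bl c8))))
  (Ok.s3 53 (Ok.s1 32 (Ok.lf S24_53_512_660_ok (bl c4))
  (Ok.lf S24_53_512_660_ok c9))
  (Ok.s1 32 (Ok.lf S53_82_512_660_ok (br c4))
  (Ok.lf S53_82_512_660_ok (br (br (br c8)))))))
  (And.intro (Ok.s1 32 (Ok.lf S24_82_660_808_ok (br c7))
  (Ok.s3 53 (Ok.lf S24_53_660_808_ok c2)
  (Ok.lf S53_82_660_808_ok c3)))
  (Ok.s3 53 (Ok.s1 32 (Ok.lf S24_53_660_808_ok (bl (br c6)))
  (Ok.lf S24_53_660_808_ok (bl (br c8))))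
  (Ok.s1 32 (Ok.lf S53_82_660_808_ok (br c5))
  (Ok.lf S53_82_660_808_ok (bl (br (br c8)))))))))

end Vale.Agent.P098.Ck
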