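import Vale.Agent.P098.CkGd
import Vale.Agent.P098.CkOk
import Vale.Agent.P098.Sh.A0
import Vale.Agent.P098.Sh.A1
import Vale.Agent.P098.Sh.A2
import Vale.Agent.P098.Sh.A4
import Vale.Agent.P098.Sh.A5
import Vale.Agent.P098.Sh.A6

namespace Vale.Agent.P098.Ck

theorem r619 :
    Ok Gd mult 384 512 0 64 480 512 24 82 660 808 ∧
    Ok Gd mult 384 512 0 64 384 448 82 140 216 364 ∧
    Ok Gd mult 384 512 0 32 448 480 82 140 216 364 :=
  have c0 : (band (go 16 Gd mult S82_111_216_364 (Tr.lf 13440813192 90794952 0) 384 512 48 64 416 448)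
  (go 16 Gd mult S125_140_216_364 (Tr.lf 9145960516 95124551 0) 384 512 48 64 416 448)) = true := by decide +kernel
  have c1 : (go 16 Gd mult S82_111_216_364 (Tr.lf 9674328200 99048392 0) 384 512 0 32 448 480) = true := by decide +kernel
  have c2 : (band (go 16 Gd mult S24_53_660_808 (Tr.lf 9666922632 99568839 0) 384 512 0 32 480 512)
  (go 16 Gd mult S53_82_660_808 (Tr.lf 9675360392 107707591 0) 384 512 0 32 480 512)) = true := by decide +kernel
  have c3 : (go 16 Gd mult S111_125_216_364 (Tr.lf 13440927816 86473672 0) 384 512 48 64 416 448) = true := by decide +kernel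
  have c4 : (go 16 Gd mult S111_140_216_364 (Tr.lf 9145976900 94997575 0) 384 512 16 32 448 480) = true := by decide +kernel
  have c5 : (band (go 16 Gd mult S53_82_660_808 (Tr.lf 9675360388 94858312 0) 384 512 32 64 480 512)
  (go 16 Gd mult S24_53_660_808 (Tr.lf 9666906244 90782792 0) 384 512 32 64 480 512)) = true := by decide +kernel
  have c6 : (band (go 16 Gd mult S82_111_216_364 (Tr.lf 1160922242 99847112 0) 384 512 0 32 384 448)
  (band (go 16 Gd mult S111_140_216_364 (Tr.lf 1161053250 99589064 0) 384 512 0 32 384 448)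
  (band (go 16 Gd mult S82_111_216_364 (Tr.lf 4842472514 103509190 0) 384 512 32 48 384 448)
  (go 16 Gd mult S111_140_216_364 (Tr.lf 547635746 103910342 0) 384 512 32 48 416 448)))) = true := by decide +kernel
  have c7 : (go 16 Gd mult S111_140_216_364 (Tr.lf 547504706 103910342 0) 384 512 32 64 384 416) = true := by decide +kernel
  have c8 : (go 16 Gd mult S125_140_216_364 (Tr.lf 1159864866 91331527 0) 384 512 0 16 448 480) = true := by decide +kernel
  have c9 : (go 16 Gd mult S82_111_216_364 (Tr.lf 4842398242 103644485 0) 384 512 48 64 384 416) = true := by decide +kernel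
  have c10 : (go 16 Gd mult S111_125_216_364 (Tr.lf 546447890 107977669 0) 384 512 8 16 448 480) = true := by decide +kernel
  have c11 : (go 16 Gd mult S111_125_216_364 (Tr.lf 1160909329 91331528 0) 384 512 0 8 448 480) = true := by decide +kernel
  (And.intro (Ok.s3 53 (Ok.s1 32 (Ok.lf S24_53_660_808_ok (bl c2))
  (Ok.lf S24_53_660_808_ok (br c5)))
  (Ok.s1 32 (Ok.lf S53_82_660_808_ok (br c2))
  (Ok.lf S53_82_660_808_ok (bl c5))))
  (And.intro (Ok.s1 32 (Ok.s3 111 (Ok.lf S82_111_216_364_ok (bl c6))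
  (Ok.lf S111_140_216_364_ok (bl (br c6))))
  (Ok.s3 111 (Ok.s1 48 (Ok.lf S82_111_216_364_ok (bl (br (br c6))))
  (Ok.s2 416 (Ok.lf S82_111_216_364_ok c9)
  (Ok.lf S82_111_216_364_ok (bl c0))))
  (Ok.s2 416 (Ok.lf S111_140_216_364_ok c7)
  (Ok.s1 48 (Ok.lf S111_140_216_364_ok (br (br (br c6))))
  (Ok.s3 125 (Ok.lf S111_125_216_364_ok c3)
  (Ok.lf S125_140_216_364_ok (br c0)))))))
  (Ok.s3 111 (Ok.lf S82_111_216_364_ok c1)
  (Ok.s1 16 (Ok.s3 125 (Ok.s1 8 (Ok.lf S111_125_216_364_ok c11)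
  (Ok.lf S111_125_216_364_ok c10))
  (Ok.lf S125_140_216_364_ok c8))
  (Ok.lf S111_140_216_364_ok c4)))))

end Vale.Agent.P098.Ck
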