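import Vale.Agent.P098.CkGd
import Vale.Agent.P098.CkOk
import Vale.Agent.P098.Sh.A0
import Vale.Agent.P098.Sh.A1
import Vale.Agent.P098.Sh.A2
import Vale.Agent.P098.Sh.A4
import Vale.Agent.P098.Sh.A5

namespace Vale.Agent.P098.Ck

theorem r62 :
    Ok Gd mult 0 128 128 192 256 384 24 82 216 364 ∧
    Ok Gd mult 0 128 128 192 256 384 24 82 364 512 ∧
    Ok Gd mult 0 128 128 192 256 384 24 82 512 808 ∧
    Ok Gd mult 0 128 128 192 256 384 82 140 216 364 ∧
    Ok Gd mult 0 128 128 160 256 384 82 140 364 512 :=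
  have c0 : (go 16 Gd mult S24_82_660_808 (Tr.lf 9137457288 99585094 0) 0 128 160 192 256 384) = true := by decide +kernel
  have c1 : (band (go 16 Gd mult S82_140_364_512 (Tr.lf 9137588296 103382087 0) 0 128 128 160 256 384)
  (band (go 16 Gd mult S111_140_216_364 (Tr.lf 9137440836 95124296 0) 0 128 128 160 256 384)
  (go 16 Gd mult S24_82_216_364 (Tr.lf 9128986692 95116231 0) 0 128 128 160 256 384))) = true := by decide +kernel
  have c2 : (band (go 16 Gd mult S111_140_216_364 (Tr.lf 13970474116 99183816 0) 64 128 160 192 320 384)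
  (band (go 16 Gd mult S82_111_216_364 (Tr.lf 13970343044 99314760 0) 64 128 160 192 320 384)
  (go 16 Gd mult S111_140_216_364 (Tr.lf 9137587268 99576903 0) 0 128 160 192 256 320))) = true := by decide +kernel
  have c3 : (band (go 16 Gd mult S24_82_216_364 (Tr.lf 13432423496 86731592 0) 0 128 160 192 320 384)
  (band (go 16 Gd mult S24_82_512_660 (Tr.lf 13432357960 86731592 0) 0 128 160 192 320 384)
  (band (go 16 Gd mult S24_82_216_364 (Tr.lf 9137456196 95390790 0) 0 128 160 192 256 320)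
  (go 16 Gd mult S24_82_512_660 (Tr.lf 9137390660 95390790 0) 0 128 160 192 256 320)))) = true := by decide +kernel
  have c4 : (band (go 16 Gd mult S111_140_216_364 (Tr.lf 13970474052 99306824 0) 0 64 160 192 320 384)
  (band (go 16 Gd mult S82_111_216_364 (Tr.lf 13970326660 99179720 0) 0 64 160 192 320 384)
  (band (go 16 Gd mult S82_111_216_364 (Tr.lf 9137439816 95255750 0) 0 128 160 192 256 320)
  (band (go 16 Gd mult S82_111_216_364 (Tr.lf 9137439812 99183687 0) 0 128 128 160 256 384)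
  (go 16 Gd mult S24_82_364_512 (Tr.lf 9128986692 95116231 0) 0 128 128 160 256 384))))) = true := by decide +kernel
  have c5 : (band (go 16 Gd mult S24_82_364_512 (Tr.lf 9137391684 103517254 0) 64 128 160 192 256 384)
  (go 16 Gd mult S24_82_364_512 (Tr.lf 9129003074 95382598 0) 0 64 160 192 256 384)) = true := by decide +kernel
  have c6 : (band (go 16 Gd mult S24_82_660_808 (Tr.lf 9128986692 95116231 0) 0 128 128 160 256 384)
  (go 16 Gd mult S24_82_512_660 (Tr.lf 9128985668 95116231 0) 0 128 128 160 256 384)) = true := by decide +kernel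
  (And.intro (Ok.s1 160 (Ok.lf S24_82_216_364_ok (br (br c1)))
  (Ok.s2 320 (Ok.lf S24_82_216_364_ok (bl (br (br c3))))
  (Ok.lf S24_82_216_364_ok (bl c3))))
  (And.intro (Ok.s1 160 (Ok.lf S24_82_364_512_ok (br (br (br (br c4)))))
  (Ok.s0 64 (Ok.lf S24_82_364_512_ok (br c5))
  (Ok.lf S24_82_364_512_ok (bl c5))))
  (And.intro (Ok.s4 660 (Ok.s1 160 (Ok.lf S24_82_512_660_ok (br c6))
  (Ok.s2 320 (Ok.lf S24_82_512_660_ok (br (br (br c3))))
  (Ok.lf S24_82_512_660_ok (bl (br c3)))))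
  (Ok.s1 160 (Ok.lf S24_82_660_808_ok (bl c6))
  (Ok.lf S24_82_660_808_ok c0)))
  (And.intro (Ok.s1 160 (Ok.s3 111 (Ok.lf S82_111_216_364_ok (bl (br (br (br c4)))))
  (Ok.lf S111_140_216_364_ok (bl (br c1))))
  (Ok.s3 111 (Ok.s2 320 (Ok.lf S82_111_216_364_ok (bl (br (br c4))))
  (Ok.s0 64 (Ok.lf S82_111_216_364_ok (bl (br c4)))
  (Ok.lf S82_111_216_364_ok (bl (br c2)))))
  (Ok.s2 320 (Ok.lf S111_140_216_364_ok (br (br c2)))
  (Ok.s0 64 (Ok.lf S111_140_216_364_ok (bl c4))
  (Ok.lf S111_140_216_364_ok (bl c2))))))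
  (Ok.lf S82_140_364_512_ok (bl c1))))))

end Vale.Agent.P098.Ck
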