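import Vale.Agent.P098.CkGd
import Vale.Agent.P098.CkOk
import Vale.Agent.P098.Sh.A2
import Vale.Agent.P098.Sh.A3
import Vale.Agent.P098.Sh.A4
import Vale.Agent.P098.Sh.A5
import Vale.Agent.P098.Sh.A6

namespace Vale.Agent.P098.Ck

theorem r621 :
    Ok Gd mult 384 512 32 64 480 496 82 140 216 364 ∧
    Ok Gd mult 384 512 0 64 496 504 82 140 216 364 ∧
    Ok Gd mult 384 512 0 64 504 508 82 140 216 364 ∧
    Ok Gd mult 384 512 0 64 508 510 82 140 216 364 :=
  have c0 : (band (go 16 Gd mult S111_140_216_364 (Tr.lf 13987251336 99196104 0) 384 512 0 16 496 504)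
  (go 16 Gd mult S111_140_216_364 (Tr.lf 9682846340 99191624 0) 384 512 32 64 496 504)) = true := by decide +kernel
  have c1 : (band (go 16 Gd mult S111_140_216_364 (Tr.lf 13987251336 94870728 0) 384 512 16 32 496 504)
  (go 16 Gd mult S111_140_216_364 (Tr.lf 9692283524 103513288 0) 384 512 16 32 504 508)) = true := by decide +kernel
  have c2 : (band (go 16 Gd mult S111_140_216_364 (Tr.lf 13987512712 103517384 0) 384 512 0 16 508 510)
  (go 16 Gd mult S82_111_216_364 (Tr.lf 13977682312 107572168 0) 384 512 0 16 508 510)) = true := by decide +kernel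
  have c3 : (band (go 16 Gd mult S82_111_216_364 (Tr.lf 9682846344 103652295 0) 384 512 0 32 496 504)
  (go 16 Gd mult S82_111_216_364 (Tr.lf 13977813640 103250633 0) 384 512 0 32 504 508)) = true := by decide +kernel
  have c4 : (go 16 Gd mult S111_140_216_364 (Tr.lf 13987250824 111774920 0) 384 512 0 16 504 508) = true := by decide +kernel
  have c5 : (go 16 Gd mult S82_111_216_364 (Tr.lf 9682846852 103254856 0) 384 512 32 64 480 496) = true := by decide +kernel
  have c6 : (band (go 16 Gd mult S125_140_216_364 (Tr.lf 13987235972 90676424 0) 384 512 32 48 480 496)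
  (band (go 16 Gd mult S111_125_216_364 (Tr.lf 13978846340 90667977 0) 384 512 32 48 480 496)
  (go 16 Gd mult S125_140_216_364 (Tr.lf 13987235908 98798665 0) 384 512 48 64 480 496))) = true := by decide +kernel
  have c7 : (go 16 Gd mult S82_140_216_364 (Tr.lf 547651908 95652806 0) 384 512 32 64 508 510) = true := by decide +kernel
  have c8 : (go 16 Gd mult S111_125_216_364 (Tr.lf 9682822212 103255111 0) 384 512 48 64 480 496) = true := by decide +kernel
  have c9 : (band (go 16 Gd mult S111_140_216_364 (Tr.lf 9145958722 95124551 0) 384 512 16 32 508 510)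
  (band (go 16 Gd mult S82_111_216_364 (Tr.lf 9145762082 90938311 0) 384 512 16 32 508 510)
  (band (go 16 Gd mult S82_111_216_364 (Tr.lf 547438882 99716293 0) 384 512 32 64 504 508)
  (go 16 Gd mult S111_140_216_364 (Tr.lf 4850860354 99454150 0) 384 512 32 64 504 508)))) = true := by decide +kernel
  have c10 : (go 16 Gd mult S82_111_216_364 (Tr.lf 9145827906 90671944 0) 384 512 32 64 496 504) = true := by decide +kernel
  (And.intro (Ok.s3 111 (Ok.lf S82_111_216_364_ok c5)
  (Ok.s1 48 (Ok.s3 125 (Ok.lf S111_125_216_364_ok (bl (br c6)))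
  (Ok.lf S125_140_216_364_ok (bl c6)))
  (Ok.s3 125 (Ok.lf S111_125_216_364_ok c8)
  (Ok.lf S125_140_216_364_ok (br (br c6))))))
  (And.intro (Ok.s1 32 (Ok.s3 111 (Ok.lf S82_111_216_364_ok (bl c3))
  (Ok.s1 16 (Ok.lf S111_140_216_364_ok (bl c0))
  (Ok.lf S111_140_216_364_ok (bl c1))))
  (Ok.s3 111 (Ok.lf S82_111_216_364_ok c10)
  (Ok.lf S111_140_216_364_ok (br c0))))
  (And.intro (Ok.s1 32 (Ok.s3 111 (Ok.lf S82_111_216_364_ok (br c3))
  (Ok.s1 16 (Ok.lf S111_140_216_364_ok c4)
  (Ok.lf S111_140_216_364_ok (br c1))))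
  (Ok.s3 111 (Ok.lf S82_111_216_364_ok (bl (br (br c9))))
  (Ok.lf S111_140_216_364_ok (br (br (br c9))))))
  (Ok.s1 32 (Ok.s3 111 (Ok.s1 16 (Ok.lf S82_111_216_364_ok (br c2))
  (Ok.lf S82_111_216_364_ok (bl (br c9))))
  (Ok.s1 16 (Ok.lf S111_140_216_364_ok (bl c2))
  (Ok.lf S111_140_216_364_ok (bl c9))))
  (Ok.lf S82_140_216_364_ok c7)))))

end Vale.Agent.P098.Ck
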