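import Vale.Agent.P098.CkGd
import Vale.Agent.P098.CkOk
import Vale.Agent.P098.Sh.A2
import Vale.Agent.P098.Sh.A3
import Vale.Agent.P098.Sh.A5

namespace Vale.Agent.P098.Ck

theorem r622 :
    Ok Gd mult 384 448 0 64 510 512 82 140 216 290 ∧
    Ok Gd mult 448 512 0 64 510 512 82 140 216 290 ∧
    Ok Gd mult 384 512 0 64 510 512 82 140 290 364 ∧
    Ok Gd mult 384 512 0 64 384 448 82 140 364 512 :=
  have c0 : (go 16 Gd mult S82_111_364_512 (Tr.lf 13977684104 90659657 0) 384 512 48 64 384 448) = true := by decide +kernel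
  have c1 : (go 16 Gd mult S111_140_364_512 (Tr.lf 13440944260 82144073 0) 384 448 32 64 416 448) = true := by decide +kernel
  have c2 : (go 16 Gd mult S111_140_364_512 (Tr.lf 9145976962 90794952 0) 448 512 32 64 384 448) = true := by decide +kernel
  have c3 : (band (go 16 Gd mult S111_140_216_290 (Tr.lf 13987250564 99056713 0) 384 448 0 32 510 512)
  (band (go 16 Gd mult S82_111_216_290 (Tr.lf 13977682308 94853961 0) 384 448 0 32 510 512)
  (band (go 16 Gd mult S111_140_290_364 (Tr.lf 13987119492 99056713 0) 384 448 0 32 510 512)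
  (band (go 16 Gd mult S82_111_290_364 (Tr.lf 13977616772 94853961 0) 384 448 0 32 510 512)
  (band (go 16 Gd mult S111_140_216_290 (Tr.lf 13449331076 90667849 0) 448 512 0 32 510 512)
  (go 16 Gd mult S82_111_290_364 (Tr.lf 9136316802 95116103 0) 448 512 0 32 510 512)))))) = true := by decide +kernel
  have c4 : (band (go 16 Gd mult S111_140_290_364 (Tr.lf 13449200004 90667849 0) 448 512 0 32 510 512)
  (go 16 Gd mult S82_111_216_290 (Tr.lf 9136324994 99310407 0) 448 512 0 32 510 512)) = true := by decide +kernel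
  have c5 : (go 16 Gd mult S82_111_364_512 (Tr.lf 4842406980 103509190 0) 384 512 32 48 384 448) = true := by decide +kernel
  have c6 : (band (go 16 Gd mult S82_111_364_512 (Tr.lf 1160922178 99847112 0) 384 512 0 32 384 448)
  (band (go 16 Gd mult S111_140_364_512 (Tr.lf 1160922178 103783368 0) 384 512 0 32 384 448)
  (go 16 Gd mult S111_140_364_512 (Tr.lf 547504705 108104646 0) 384 448 32 64 384 416))) = true := by decide +kernel
  have c7 : (band (go 16 Gd mult S82_140_216_290 (Tr.lf 1160937793 99716040 1199518116373004827230710) 448 512 32 64 510 512)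
  (go 16 Gd mult S82_140_290_364 (Tr.lf 1160937793 99716040 1185074315764703292555766) 448 512 32 64 510 512)) = true := by decide +kernel
  have c8 : (band (go 16 Gd mult S82_140_216_290 (Tr.lf 547455297 99847110 1206472446281984073597053) 384 448 32 64 510 512)
  (go 16 Gd mult S82_140_290_364 (Tr.lf 547455297 99847110 1206472446418903334846589) 384 448 32 64 510 512)) = true := by decide +kernel
  (And.intro (Ok.s1 32 (Ok.s3 111 (Ok.lf S82_111_216_290_ok (bl (br c3)))
  (Ok.lf S111_140_216_290_ok (bl c3)))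
  (Ok.lf S82_140_216_290_ok (bl c8)))
  (And.intro (Ok.s1 32 (Ok.s3 111 (Ok.lf S82_111_216_290_ok (br c4))
  (Ok.lf S111_140_216_290_ok (bl (br (br (br (br c3)))))))
  (Ok.lf S82_140_216_290_ok (bl c7)))
  (And.intro (Ok.s0 448 (Ok.s1 32 (Ok.s3 111 (Ok.lf S82_111_290_364_ok (bl (br (br (br c3)))))
  (Ok.lf S111_140_290_364_ok (bl (br (br c3)))))
  (Ok.lf S82_140_290_364_ok (br c8)))
  (Ok.s1 32 (Ok.s3 111 (Ok.lf S82_111_290_364_ok (br (br (br (br (br c3))))))
  (Ok.lf S111_140_290_364_ok (bl c4)))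
  (Ok.lf S82_140_290_364_ok (br c7))))
  (Ok.s3 111 (Ok.s1 32 (Ok.lf S82_111_364_512_ok (bl c6))
  (Ok.s1 48 (Ok.lf S82_111_364_512_ok c5)
  (Ok.lf S82_111_364_512_ok c0)))
  (Ok.s1 32 (Ok.lf S111_140_364_512_ok (bl (br c6)))
  (Ok.s0 448 (Ok.s2 416 (Ok.lf S111_140_364_512_ok (br (br c6)))
  (Ok.lf S111_140_364_512_ok c1))
  (Ok.lf S111_140_364_512_ok c2)))))))

end Vale.Agent.P098.Ck
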