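import Vale.Agent.P098.CkGd
import Vale.Agent.P098.CkOk
import Vale.Agent.P098.Sh.A2
import Vale.Agent.P098.Sh.A3
import Vale.Agent.P098.Sh.A4
import Vale.Agent.P098.Sh.A6

namespace Vale.Agent.P098.Ck

theorem r623 :
    Ok Gd mult 384 512 0 32 448 512 82 111 364 438 ∧
    Ok Gd mult 384 512 32 64 448 512 82 111 364 438 ∧
    Ok Gd mult 384 512 0 64 448 512 82 111 438 512 ∧
    Ok Gd mult 384 512 0 64 448 512 111 125 364 512 ∧
    Ok Gd mult 384 512 0 32 448 512 125 140 364 438 :=
  have c0 : (go 16 Gd mult S111_125_364_512 (Tr.lf 13977798792 94858057 0) 384 448 0 32 480 512) = true := by decide +kernel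
  have c1 : (band (go 16 Gd mult S111_125_364_512 (Tr.lf 9682831496 99183560 0) 384 512 32 64 480 512)
  (band (go 16 Gd mult S82_111_438_512 (Tr.lf 9674246276 94981064 0) 384 512 32 64 480 512)
  (go 16 Gd mult S82_111_438_512 (Tr.lf 9137374338 103381959 0) 448 512 32 64 448 480))) = true := by decide +kernel
  have c2 : (band (go 16 Gd mult S82_111_364_438 (Tr.lf 9674262664 94981064 0) 384 512 32 64 480 512)
  (go 16 Gd mult S82_111_364_438 (Tr.lf 13977618564 103377864 0) 384 448 32 64 448 480)) = true := by decide +kernel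
  have c3 : (go 16 Gd mult S82_111_438_512 (Tr.lf 9145780360 99191879 0) 384 512 0 32 480 512) = true := by decide +kernel
  have c4 : (go 16 Gd mult S82_111_364_438 (Tr.lf 13977684100 98921289 0) 384 448 0 32 480 512) = true := by decide +kernel
  have c5 : (band (go 16 Gd mult S125_140_364_438 (Tr.lf 13987104904 94866505 0) 384 512 0 16 480 512)
  (go 16 Gd mult S125_140_364_438 (Tr.lf 13987104900 103251017 0) 384 512 16 32 480 512)) = true := by decide +kernel
  have c6 : (band (go 16 Gd mult S82_111_364_438 (Tr.lf 9674246280 99048392 0) 384 512 0 32 448 480)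
  (band (go 16 Gd mult S111_125_364_512 (Tr.lf 9145821320 94862280 0) 384 512 0 32 448 480)
  (band (go 16 Gd mult S82_111_438_512 (Tr.lf 9674246276 103242696 0) 384 512 0 32 448 480)
  (go 16 Gd mult S125_140_364_438 (Tr.lf 9145755780 94862280 0) 384 512 0 32 448 480)))) = true := by decide +kernel
  have c7 : (band (go 16 Gd mult S111_125_364_512 (Tr.lf 13977667716 99056584 0) 384 512 32 48 448 480)
  (go 16 Gd mult S111_125_364_512 (Tr.lf 13977667656 103119816 0) 384 512 48 64 448 480)) = true := by decide +kernel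
  have c8 : (go 16 Gd mult S82_111_438_512 (Tr.lf 13432342660 94981064 0) 384 448 32 64 448 480) = true := by decide +kernel
  have c9 : (band (go 16 Gd mult S111_125_364_512 (Tr.lf 9145821316 95128647 0) 448 512 0 32 480 512)
  (band (go 16 Gd mult S82_111_364_438 (Tr.lf 9137375362 99183687 0) 448 512 0 32 480 512)
  (go 16 Gd mult S82_111_364_438 (Tr.lf 9145763970 103390151 0) 448 512 32 64 448 480))) = true := by decide +kernel
  (And.intro (Ok.s2 480 (Ok.lf S82_111_364_438_ok (bl c6))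
  (Ok.s0 448 (Ok.lf S82_111_364_438_ok c4)
  (Ok.lf S82_111_364_438_ok (bl (br c9)))))
  (And.intro (Ok.s2 480 (Ok.s0 448 (Ok.lf S82_111_364_438_ok (br c2))
  (Ok.lf S82_111_364_438_ok (br (br c9))))
  (Ok.lf S82_111_364_438_ok (bl c2)))
  (And.intro (Ok.s1 32 (Ok.s2 480 (Ok.lf S82_111_438_512_ok (bl (br (br c6))))
  (Ok.lf S82_111_438_512_ok c3))
  (Ok.s2 480 (Ok.s0 448 (Ok.lf S82_111_438_512_ok c8)
  (Ok.lf S82_111_438_512_ok (br (br c1))))
  (Ok.lf S82_111_438_512_ok (bl (br c1)))))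
  (And.intro (Ok.s1 32 (Ok.s2 480 (Ok.lf S111_125_364_512_ok (bl (br c6)))
  (Ok.s0 448 (Ok.lf S111_125_364_512_ok c0)
  (Ok.lf S111_125_364_512_ok (bl c9))))
  (Ok.s2 480 (Ok.s1 48 (Ok.lf S111_125_364_512_ok (bl c7))
  (Ok.lf S111_125_364_512_ok (br c7)))
  (Ok.lf S111_125_364_512_ok (bl c1))))
  (Ok.s2 480 (Ok.lf S125_140_364_438_ok (br (br (br c6))))
  (Ok.s1 16 (Ok.lf S125_140_364_438_ok (bl c5))
  (Ok.lf S125_140_364_438_ok (br c5))))))))

end Vale.Agent.P098.Ck
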