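import Vale.Agent.P098.CkGd
import Vale.Agent.P098.CkOk
import Vale.Agent.P098.Sh.A3
import Vale.Agent.P098.Sh.A4
import Vale.Agent.P098.Sh.A5
import Vale.Agent.P098.Sh.A6

namespace Vale.Agent.P098.Ck

theorem r624 :
    Ok Gd mult 384 512 32 64 448 512 125 140 364 438 ∧
    Ok Gd mult 384 512 0 64 448 512 125 140 438 512 ∧
    Ok Gd mult 384 512 0 64 384 448 82 140 512 660 ∧
    Ok Gd mult 384 512 0 64 448 512 82 111 512 660 ∧
    Ok Gd mult 384 512 0 32 448 512 111 140 512 660 :=
  have c0 : (go 16 Gd mult S125_140_364_438 (Tr.lf 13987121288 99065032 0) 384 512 32 64 448 480) = true := by decide +kernel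
  have c1 : (go 16 Gd mult S125_140_438_512 (Tr.lf 13977684104 94858057 0) 384 512 0 32 480 512) = true := by decide +kernel
  have c2 : (band (go 16 Gd mult S125_140_364_438 (Tr.lf 13987104904 90532810 0) 384 512 32 64 480 512)
  (band (go 16 Gd mult S125_140_438_512 (Tr.lf 4841425028 99445702 0) 384 512 32 64 480 512)
  (go 16 Gd mult S82_111_512_660 (Tr.lf 9674311812 94981064 0) 384 512 32 64 480 512))) = true := by decide +kernel
  have c3 : (band (go 16 Gd mult S125_140_438_512 (Tr.lf 9137440904 99318982 0) 384 512 32 64 448 480)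
  (go 16 Gd mult S82_111_512_660 (Tr.lf 13432408200 94722761 0) 384 512 32 64 448 480)) = true := by decide +kernel
  have c4 : (band (go 16 Gd mult S82_111_512_660 (Tr.lf 13432408200 82262857 0) 384 512 48 64 384 448)
  (go 16 Gd mult S111_140_512_660 (Tr.lf 13440944196 86207305 0) 384 512 48 64 384 448)) = true := by decide +kernel
  have c5 : (band (go 16 Gd mult S82_111_512_660 (Tr.lf 9674311816 107572295 0) 384 512 0 32 480 512)
  (band (go 16 Gd mult S82_111_512_660 (Tr.lf 9674311812 99048392 0) 384 512 0 32 448 480)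
  (go 16 Gd mult S111_140_512_660 (Tr.lf 9137440900 86596552 0) 384 512 0 32 448 480))) = true := by decide +kernel
  have c6 : (band (go 16 Gd mult S111_140_512_660 (Tr.lf 9145960580 95128647 0) 384 448 0 32 480 512)
  (go 16 Gd mult S111_140_512_660 (Tr.lf 9145960578 99322951 0) 448 512 0 32 480 512)) = true := by decide +kernel
  have c7 : (go 16 Gd mult S82_140_512_660 (Tr.lf 1160939650 103783368 0) 384 512 0 32 384 448) = true := by decide +kernel
  have c8 : (go 16 Gd mult S125_140_438_512 (Tr.lf 9145754756 86604744 0) 384 512 0 32 448 480) = true := by decide +kernel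
  have c9 : (band (go 16 Gd mult S82_111_512_660 (Tr.lf 4842406980 103509190 0) 384 512 32 48 384 448)
  (go 16 Gd mult S111_140_512_660 (Tr.lf 547505186 99847110 0) 384 512 32 48 384 448)) = true := by decide +kernel
  (And.intro (Ok.s2 480 (Ok.lf S125_140_364_438_ok c0)
  (Ok.lf S125_140_364_438_ok (bl c2)))
  (And.intro (Ok.s1 32 (Ok.s2 480 (Ok.lf S125_140_438_512_ok c8)
  (Ok.lf S125_140_438_512_ok c1))
  (Ok.s2 480 (Ok.lf S125_140_438_512_ok (bl c3))
  (Ok.lf S125_140_438_512_ok (bl (br c2)))))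
  (And.intro (Ok.s1 32 (Ok.lf S82_140_512_660_ok c7)
  (Ok.s3 111 (Ok.s1 48 (Ok.lf S82_111_512_660_ok (bl c9))
  (Ok.lf S82_111_512_660_ok (bl c4)))
  (Ok.s1 48 (Ok.lf S111_140_512_660_ok (br c9))
  (Ok.lf S111_140_512_660_ok (br c4)))))
  (And.intro (Ok.s1 32 (Ok.s2 480 (Ok.lf S82_111_512_660_ok (bl (br c5)))
  (Ok.lf S82_111_512_660_ok (bl c5)))
  (Ok.s2 480 (Ok.lf S82_111_512_660_ok (br c3))
  (Ok.lf S82_111_512_660_ok (br (br c2)))))
  (Ok.s2 480 (Ok.lf S111_140_512_660_ok (br (br c5)))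
  (Ok.s0 448 (Ok.lf S111_140_512_660_ok (bl c6))
  (Ok.lf S111_140_512_660_ok (br c6))))))))

end Vale.Agent.P098.Ck
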