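import Vale.Agent.P098.CkGd
import Vale.Agent.P098.CkOk
import Vale.Agent.P098.Sh.A17
import Vale.Agent.P098.Sh.A3
import Vale.Agent.P098.Sh.A4
import Vale.Agent.P098.Sh.A5
import Vale.Agent.P098.Sh.A6
import Vale.Agent.P098.Sh.A8

namespace Vale.Agent.P098.Ck

theorem r625 :
    Ok Gd mult 384 512 32 64 448 512 111 140 512 660 ∧
    Ok Gd mult 384 512 0 64 384 512 82 140 660 808 ∧
    Ok Gd mult 384 512 0 32 384 448 140 198 216 364 :=
  have c0 : (go 16 Gd mult S111_140_512_660 (Tr.lf 9145976964 90794952 0) 384 512 32 64 480 512) = true := by decide +kernel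
  have c1 : (band (go 16 Gd mult S82_111_660_808 (Tr.lf 9137571976 86592456 0) 384 512 32 64 384 448)
  (go 16 Gd mult S82_111_660_808 (Tr.lf 9137571970 86592456 0) 448 512 32 64 448 512)) = true := by decide +kernel
  have c2 : (band (go 16 Gd mult S111_140_660_808 (Tr.lf 9137571976 94981064 0) 384 512 32 64 384 448)
  (go 16 Gd mult S111_140_660_808 (Tr.lf 9145959554 99327174 0) 384 448 32 64 448 480)) = true := by decide +kernel
  have c3 : (go 16 Gd mult S111_140_660_808 (Tr.lf 9145976962 90794952 0) 448 512 32 64 448 512) = true := by decide +kernel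
  have c4 : (go 16 Gd mult S111_140_512_660 (Tr.lf 8599668804 94993350 0) 384 512 48 64 448 480) = true := by decide +kernel
  have c5 : (band (go 16 Gd mult S82_140_660_808 (Tr.lf 1161069698 103783368 0) 384 512 0 32 384 448)
  (band (go 16 Gd mult S169_198_216_364 (Tr.lf 1161070658 99589064 0) 384 512 0 32 384 448)
  (go 16 Gd mult S140_169_216_364 (Tr.lf 1161069634 99589064 0) 384 512 0 32 384 448))) = true := by decide +kernel
  have c6 : (go 16 Gd mult S111_140_512_660 (Tr.lf 9145960516 99327174 0) 384 512 32 48 448 480) = true := by decide +kernel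
  have c7 : (band (go 16 Gd mult S82_111_660_808 (Tr.lf 9674311810 99048392 0) 384 448 0 32 448 480)
  (band (go 16 Gd mult S111_140_660_808 (Tr.lf 9137439874 94854088 0) 384 448 0 32 448 480)
  (band (go 16 Gd mult S82_111_660_808 (Tr.lf 9137440898 103640262 0) 384 448 32 64 448 480)
  (band (go 16 Gd mult S82_111_660_808 (Tr.lf 9674311810 107580359 0) 384 448 0 32 480 512)
  (go 16 Gd mult S111_140_660_808 (Tr.lf 9145829506 95128647 0) 384 448 0 32 480 512))))) = true := by decide +kernel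
  have c8 : (band (go 16 Gd mult S111_140_660_808 (Tr.lf 9145829506 90803016 0) 384 448 32 64 480 512)
  (band (go 16 Gd mult S82_111_660_808 (Tr.lf 9674311746 99052360 0) 384 448 32 64 480 512)
  (band (go 16 Gd mult S82_111_660_808 (Tr.lf 9137440898 90659784 0) 448 512 0 32 448 512)
  (go 16 Gd mult S111_140_660_808 (Tr.lf 4842473602 99450054 0) 448 512 0 32 448 512)))) = true := by decide +kernel
  (And.intro (Ok.s2 480 (Ok.s1 48 (Ok.lf S111_140_512_660_ok c6)
  (Ok.lf S111_140_512_660_ok c4))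
  (Ok.lf S111_140_512_660_ok c0))
  (And.intro (Ok.s2 448 (Ok.s1 32 (Ok.lf S82_140_660_808_ok (bl c5))
  (Ok.s3 111 (Ok.lf S82_111_660_808_ok (bl c1))
  (Ok.lf S111_140_660_808_ok (bl c2))))
  (Ok.s0 448 (Ok.s2 480 (Ok.s3 111 (Ok.s1 32 (Ok.lf S82_111_660_808_ok (bl c7))
  (Ok.lf S82_111_660_808_ok (bl (br (br c7)))))
  (Ok.s1 32 (Ok.lf S111_140_660_808_ok (bl (br c7)))
  (Ok.lf S111_140_660_808_ok (br c2))))
  (Ok.s3 111 (Ok.s1 32 (Ok.lf S82_111_660_808_ok (bl (br (br (br c7)))))
  (Ok.lf S82_111_660_808_ok (bl (br c8))))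
  (Ok.s1 32 (Ok.lf S111_140_660_808_ok (br (br (br (br c7)))))
  (Ok.lf S111_140_660_808_ok (bl c8)))))
  (Ok.s3 111 (Ok.s1 32 (Ok.lf S82_111_660_808_ok (bl (br (br c8))))
  (Ok.lf S82_111_660_808_ok (br c1)))
  (Ok.s1 32 (Ok.lf S111_140_660_808_ok (br (br (br c8))))
  (Ok.lf S111_140_660_808_ok c3)))))
  (Ok.s3 169 (Ok.lf S140_169_216_364_ok (br (br c5)))
  (Ok.lf S169_198_216_364_ok (bl (br c5))))))

end Vale.Agent.P098.Ck
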