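import Vale.Agent.P098.CkGd
import Vale.Agent.P098.CkOk
import Vale.Agent.P098.Sh.A12
import Vale.Agent.P098.Sh.A14
import Vale.Agent.P098.Sh.A15
import Vale.Agent.P098.Sh.A17
import Vale.Agent.P098.Sh.A20
import Vale.Agent.P098.Sh.A21
import Vale.Agent.P098.Sh.A7
import Vale.Agent.P098.Sh.A8

namespace Vale.Agent.P098.Ck

theorem r627 :
    Ok Gd mult 384 512 32 64 448 480 183 198 216 364 ∧
    Ok Gd mult 384 512 0 64 480 496 140 198 216 364 :=
  have c0 : (band (go 16 Gd mult S154_169_216_364 (Tr.lf 13987498116 99056968 0) 384 512 16 32 480 496)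
  (go 16 Gd mult S183_198_290_364 (Tr.lf 8609089604 86735943 0) 384 512 16 32 480 496)) = true := by decide +kernel
  have c1 : (go 16 Gd mult S154_169_216_364 (Tr.lf 13987498056 99183689 0) 384 512 32 48 480 496) = true := by decide +kernel
  have c2 : (go 16 Gd mult S169_183_216_364 (Tr.lf 13987498116 99056713 0) 384 512 16 32 480 496) = true := by decide +kernel
  have c3 : (go 16 Gd mult S183_198_216_290 (Tr.lf 13449332868 90536777 0) 384 512 32 64 480 496) = true := by decide +kernel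
  have c4 : (band (go 16 Gd mult S183_198_216_290 (Tr.lf 13449332804 90667849 0) 384 512 48 64 448 480)
  (go 16 Gd mult S183_198_290_364 (Tr.lf 8609105988 90930247 0) 384 512 48 64 448 480)) = true := by decide +kernel
  have c5 : (band (go 16 Gd mult S140_169_216_364 (Tr.lf 9146238020 95128647 0) 384 512 0 16 480 496)
  (go 16 Gd mult S169_198_216_364 (Tr.lf 4313089092 99462213 0) 384 512 0 16 480 496)) = true := by decide +kernel
  have c6 : (band (go 16 Gd mult S140_154_216_364 (Tr.lf 13987497092 99065032 0) 384 512 16 32 480 496)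
  (go 16 Gd mult S183_198_216_290 (Tr.lf 4851009604 112299078 0) 384 512 16 32 480 496)) = true := by decide +kernel
  have c7 : (band (go 16 Gd mult S140_154_216_364 (Tr.lf 13987498052 99183689 0) 384 512 32 48 480 496)
  (go 16 Gd mult S140_154_216_364 (Tr.lf 13987498052 99056713 0) 384 512 48 64 480 496)) = true := by decide +kernel
  have c8 : (go 16 Gd mult S154_169_216_364 (Tr.lf 13987498052 94862409 0) 384 512 48 64 480 496) = true := by decide +kernel
  have c9 : (band (go 16 Gd mult S169_183_216_290 (Tr.lf 13987235972 90668105 0) 384 512 32 64 480 496)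
  (go 16 Gd mult S169_183_290_364 (Tr.lf 9145960580 95124551 0) 384 512 32 64 480 496)) = true := by decide +kernel
  have c10 : (band (go 16 Gd mult S183_198_290_364 (Tr.lf 8609089668 90799175 0) 384 512 32 64 480 496)
  (band (go 16 Gd mult S183_198_290_364 (Tr.lf 4313073732 95267909 0) 384 512 32 48 448 480)
  (go 16 Gd mult S183_198_216_290 (Tr.lf 4313073732 99589189 0) 384 512 32 48 448 480))) = true := by decide +kernel
  (And.intro (Ok.s4 290 (Ok.s1 48 (Ok.lf S183_198_216_290_ok (br (br c10)))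
  (Ok.lf S183_198_216_290_ok (bl c4)))
  (Ok.s1 48 (Ok.lf S183_198_290_364_ok (bl (br c10)))
  (Ok.lf S183_198_290_364_ok (br c4))))
  (Ok.s3 169 (Ok.s1 32 (Ok.s1 16 (Ok.lf S140_169_216_364_ok (bl c5))
  (Ok.s3 154 (Ok.lf S140_154_216_364_ok (bl c6))
  (Ok.lf S154_169_216_364_ok (bl c0))))
  (Ok.s1 48 (Ok.s3 154 (Ok.lf S140_154_216_364_ok (bl c7))
  (Ok.lf S154_169_216_364_ok c1))
  (Ok.s3 154 (Ok.lf S140_154_216_364_ok (br c7))
  (Ok.lf S154_169_216_364_ok c8))))
  (Ok.s1 32 (Ok.s1 16 (Ok.lf S169_198_216_364_ok (br c5))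
  (Ok.s3 183 (Ok.lf S169_183_216_364_ok c2)
  (Ok.s4 290 (Ok.lf S183_198_216_290_ok (br c6))
  (Ok.lf S183_198_290_364_ok (br c0)))))
  (Ok.s3 183 (Ok.s4 290 (Ok.lf S169_183_216_290_ok (bl c9))
  (Ok.lf S169_183_290_364_ok (br c9)))
  (Ok.s4 290 (Ok.lf S183_198_216_290_ok c3)
  (Ok.lf S183_198_290_364_ok (bl c10)))))))

end Vale.Agent.P098.Ck
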