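import Vale.Agent.P098.CkGd
import Vale.Agent.P098.CkOk
import Vale.Agent.P098.Sh.A12
import Vale.Agent.P098.Sh.A14
import Vale.Agent.P098.Sh.A16
import Vale.Agent.P098.Sh.A17
import Vale.Agent.P098.Sh.A20
import Vale.Agent.P098.Sh.A7
import Vale.Agent.P098.Sh.A8

namespace Vale.Agent.P098.Ck

theorem r629 :
    Ok Gd mult 384 512 0 64 504 508 169 198 216 364 ∧
    Ok Gd mult 384 512 0 64 508 510 140 198 216 364 ∧
    Ok Gd mult 384 512 0 64 510 512 140 198 216 290 :=
  have c0 : (band (go 16 Gd mult S169_183_216_364 (Tr.lf 4314399368 108104774 0) 384 512 0 32 504 508)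
  (go 16 Gd mult S169_183_216_364 (Tr.lf 9146237316 103640135 0) 384 512 0 32 508 510)) = true := by decide +kernel
  have c1 : (band (go 16 Gd mult S183_198_216_364 (Tr.lf 4314399368 112168006 0) 384 512 0 32 504 508)
  (go 16 Gd mult S183_198_216_364 (Tr.lf 9146237316 107703367 0) 384 512 0 32 508 510)) = true := by decide +kernel
  have c2 : (band (go 16 Gd mult S140_169_216_290 (Tr.lf 13450642056 90668105 0) 384 448 0 32 510 512)
  (go 16 Gd mult S169_198_216_290 (Tr.lf 9146237316 99445831 0) 384 448 0 32 510 512)) = true := by decide +kernel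
  have c3 : (go 16 Gd mult S169_198_216_290 (Tr.lf 13449593476 90794825 0) 448 512 0 32 510 512) = true := by decide +kernel
  have c4 : (band (go 16 Gd mult S169_198_216_364 (Tr.lf 4851270020 95259846 0) 384 512 32 64 504 508)
  (band (go 16 Gd mult S169_198_216_364 (Tr.lf 1161331076 99716040 0) 384 512 32 64 508 510)
  (go 16 Gd mult S140_169_216_364 (Tr.lf 9716034 99716292 0) 384 512 32 64 508 510))) = true := by decide +kernel
  have c5 : (go 16 Gd mult S140_169_216_364 (Tr.lf 9154625924 99327047 0) 384 512 16 32 508 510) = true := by decide +kernel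
  have c6 : (go 16 Gd mult S140_169_216_290 (Tr.lf 13449331074 94989129 0) 448 512 0 16 510 512) = true := by decide +kernel
  have c7 : (band (go 16 Gd mult S169_198_216_290 (Tr.lf 1161068930 95521736 1206472560841191519945254) 448 512 32 64 510 512)
  (band (go 16 Gd mult S140_169_216_290 (Tr.lf 1092763969 99453895 312414057913248712228864) 448 512 32 64 510 512)
  (band (go 16 Gd mult S140_169_216_290 (Tr.lf 9584929 99716292 0) 384 448 32 64 510 512)
  (go 16 Gd mult S169_198_216_290 (Tr.lf 9584961 95521988 0) 384 448 32 64 510 512)))) = true := by decide +kernel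
  have c8 : (band (go 16 Gd mult S140_154_216_364 (Tr.lf 13987496260 107580616 0) 384 512 0 16 508 510)
  (go 16 Gd mult S154_169_216_364 (Tr.lf 13987496260 107572297 0) 384 512 0 16 508 510)) = true := by decide +kernel
  have c9 : (go 16 Gd mult S140_169_216_290 (Tr.lf 4312957249 95394885 0) 448 512 16 32 510 512) = true := by decide +kernel
  (And.intro (Ok.s1 32 (Ok.s3 183 (Ok.lf S169_183_216_364_ok (bl c0))
  (Ok.lf S183_198_216_364_ok (bl c1)))
  (Ok.lf S169_198_216_364_ok (bl c4)))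
  (And.intro (Ok.s3 169 (Ok.s1 32 (Ok.s1 16 (Ok.s3 154 (Ok.lf S140_154_216_364_ok (bl c8))
  (Ok.lf S154_169_216_364_ok (br c8)))
  (Ok.lf S140_169_216_364_ok c5))
  (Ok.lf S140_169_216_364_ok (br (br c4))))
  (Ok.s1 32 (Ok.s3 183 (Ok.lf S169_183_216_364_ok (br c0))
  (Ok.lf S183_198_216_364_ok (br c1)))
  (Ok.lf S169_198_216_364_ok (bl (br c4)))))
  (Ok.s0 448 (Ok.s1 32 (Ok.s3 169 (Ok.lf S140_169_216_290_ok (bl c2))
  (Ok.lf S169_198_216_290_ok (br c2)))
  (Ok.s3 169 (Ok.lf S140_169_216_290_ok (bl (br (br c7))))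
  (Ok.lf S169_198_216_290_ok (br (br (br c7))))))
  (Ok.s1 32 (Ok.s3 169 (Ok.s1 16 (Ok.lf S140_169_216_290_ok c6)
  (Ok.lf S140_169_216_290_ok c9))
  (Ok.lf S169_198_216_290_ok c3))
  (Ok.s3 169 (Ok.lf S140_169_216_290_ok (bl (br c7)))
  (Ok.lf S169_198_216_290_ok (bl c7)))))))

end Vale.Agent.P098.Ck
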