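import Vale.Agent.P098.CkGd
import Vale.Agent.P098.CkOk
import Vale.Agent.P098.Sh.A17
import Vale.Agent.P098.Sh.A2
import Vale.Agent.P098.Sh.A3
import Vale.Agent.P098.Sh.A4
import Vale.Agent.P098.Sh.A5
import Vale.Agent.P098.Sh.A6
import Vale.Agent.P098.Sh.A8

namespace Vale.Agent.P098.Ck

theorem r63 :
    Ok Gd mult 0 128 160 192 256 384 82 140 364 512 ∧
    Ok Gd mult 0 128 128 192 256 384 82 140 512 808 ∧
    Ok Gd mult 0 128 128 192 256 384 140 198 216 364 :=
  have c0 : (band (go 16 Gd mult S82_111_364_512 (Tr.lf 13969295496 103373768 0) 0 128 160 192 320 384)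
  (go 16 Gd mult S111_140_512_660 (Tr.lf 13432538184 90917960 0) 0 128 160 192 320 384)) = true := by decide +kernel
  have c1 : (go 16 Gd mult S82_111_512_660 (Tr.lf 13432424584 94985160 0) 0 128 160 192 256 384) = true := by decide +kernel
  have c2 : (go 16 Gd mult S111_140_660_808 (Tr.lf 9137571976 99576903 0) 0 128 160 192 256 384) = true := by decide +kernel
  have c3 : (band (go 16 Gd mult S140_169_216_364 (Tr.lf 9145975944 99454151 0) 0 128 160 192 320 384)
  (band (go 16 Gd mult S82_111_660_808 (Tr.lf 13432407112 94985160 0) 0 128 160 192 320 384)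
  (go 16 Gd mult S82_111_660_808 (Tr.lf 9137439812 99450054 0) 0 128 160 192 256 320))) = true := by decide +kernel
  have c4 : (band (go 16 Gd mult S169_198_216_364 (Tr.lf 13441206340 95120329 0) 64 128 160 192 320 384)
  (go 16 Gd mult S111_140_364_512 (Tr.lf 13970474052 99183816 0) 64 128 160 192 320 384)) = true := by decide +kernel
  have c5 : (band (go 16 Gd mult S82_140_512_660 (Tr.lf 9137457224 103382087 0) 0 128 128 160 256 384)
  (band (go 16 Gd mult S82_140_660_808 (Tr.lf 9129068612 99179591 0) 0 128 128 160 256 384)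
  (go 16 Gd mult S140_169_216_364 (Tr.lf 9136523332 99445448 0) 0 128 128 160 256 384))) = true := by decide +kernel
  have c6 : (band (go 16 Gd mult S169_198_216_364 (Tr.lf 4841556036 107973702 0) 0 128 128 160 256 384)
  (band (go 16 Gd mult S169_198_216_364 (Tr.lf 9136521796 99322823 0) 0 128 160 192 256 320)
  (band (go 16 Gd mult S111_140_364_512 (Tr.lf 9137439816 99576903 0) 0 128 160 192 256 320)
  (band (go 16 Gd mult S140_169_216_364 (Tr.lf 9137570884 103640263 0) 0 128 160 192 256 320)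
  (go 16 Gd mult S82_111_364_512 (Tr.lf 9137439812 99450054 0) 0 128 160 192 256 320))))) = true := by decide +kernel
  have c7 : (band (go 16 Gd mult S111_140_364_512 (Tr.lf 13969294404 99306568 0) 0 64 160 192 320 384)
  (go 16 Gd mult S169_198_216_364 (Tr.lf 9136522306 103513031 0) 0 64 160 192 320 384)) = true := by decide +kernel
  have c8 : (go 16 Gd mult S111_140_512_660 (Tr.lf 9137439812 99576903 0) 0 128 160 192 256 320) = true := by decide +kernel
  (And.intro (Ok.s3 111 (Ok.s2 320 (Ok.lf S82_111_364_512_ok (br (br (br (br c6)))))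
  (Ok.lf S82_111_364_512_ok (bl c0)))
  (Ok.s2 320 (Ok.lf S111_140_364_512_ok (bl (br (br c6))))
  (Ok.s0 64 (Ok.lf S111_140_364_512_ok (bl c7))
  (Ok.lf S111_140_364_512_ok (br c4)))))
  (And.intro (Ok.s4 660 (Ok.s1 160 (Ok.lf S82_140_512_660_ok (bl c5))
  (Ok.s3 111 (Ok.lf S82_111_512_660_ok c1)
  (Ok.s2 320 (Ok.lf S111_140_512_660_ok c8)
  (Ok.lf S111_140_512_660_ok (br c0)))))
  (Ok.s1 160 (Ok.lf S82_140_660_808_ok (bl (br c5)))
  (Ok.s3 111 (Ok.s2 320 (Ok.lf S82_111_660_808_ok (br (br c3)))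
  (Ok.lf S82_111_660_808_ok (bl (br c3))))
  (Ok.lf S111_140_660_808_ok c2))))
  (Ok.s1 160 (Ok.s3 169 (Ok.lf S140_169_216_364_ok (br (br c5)))
  (Ok.lf S169_198_216_364_ok (bl c6)))
  (Ok.s2 320 (Ok.s3 169 (Ok.lf S140_169_216_364_ok (bl (br (br (br c6)))))
  (Ok.lf S169_198_216_364_ok (bl (br c6))))
  (Ok.s3 169 (Ok.lf S140_169_216_364_ok (bl c3))
  (Ok.s0 64 (Ok.lf S169_198_216_364_ok (br c7))
  (Ok.lf S169_198_216_364_ok (bl c4))))))))

end Vale.Agent.P098.Ck
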