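import Vale.Agent.P098.CkGd
import Vale.Agent.P098.CkOk
import Vale.Agent.P098.Sh.A17
import Vale.Agent.P098.Sh.A7
import Vale.Agent.P098.Sh.A8
import Vale.Agent.P098.Sh.A9

namespace Vale.Agent.P098.Ck

theorem r630 :
    Ok Gd mult 384 448 0 64 510 512 140 198 290 364 ∧
    Ok Gd mult 448 512 0 64 510 512 140 198 290 364 ∧
    Ok Gd mult 384 512 0 64 384 448 140 169 364 512 ∧
    Ok Gd mult 384 512 0 64 448 512 140 154 364 512 :=
  have c0 : (go 16 Gd mult S140_169_364_512 (Tr.lf 9145976964 94731208 0) 384 512 32 64 384 448) = true := by decide +kernel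
  have c1 : (go 16 Gd mult S140_154_364_438 (Tr.lf 9145960584 94989256 0) 384 512 32 64 480 512) = true := by decide +kernel
  have c2 : (go 16 Gd mult S140_154_438_512 (Tr.lf 9144912008 95128391 0) 384 512 0 32 480 512) = true := by decide +kernel
  have c3 : (band (go 16 Gd mult S140_154_364_438 (Tr.lf 9145829512 95128647 0) 384 512 0 16 480 512)
  (go 16 Gd mult S140_154_364_438 (Tr.lf 9145829512 99318855 0) 384 512 32 64 448 480)) = true := by decide +kernel
  have c4 : (band (go 16 Gd mult S140_154_438_512 (Tr.lf 9145829512 103513159 0) 384 512 32 64 448 480)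
  (go 16 Gd mult S140_154_438_512 (Tr.lf 9145829512 94989256 0) 384 512 32 64 480 512)) = true := by decide +kernel
  have c5 : (go 16 Gd mult S140_154_364_438 (Tr.lf 9145829508 103513159 0) 384 512 16 32 480 512) = true := by decide +kernel
  have c6 : (band (go 16 Gd mult S169_198_290_364 (Tr.lf 9145975172 99445831 0) 384 448 0 32 510 512)
  (band (go 16 Gd mult S140_169_290_364 (Tr.lf 9145975170 99318855 0) 384 448 0 32 510 512)
  (band (go 16 Gd mult S169_198_290_364 (Tr.lf 8608055684 91056967 0) 448 512 0 32 510 512)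
  (go 16 Gd mult S140_169_290_364 (Tr.lf 8608055682 90929991 0) 448 512 0 32 510 512)))) = true := by decide +kernel
  have c7 : (band (go 16 Gd mult S140_154_364_438 (Tr.lf 9145754756 94862280 0) 384 512 0 32 448 480)
  (go 16 Gd mult S140_154_438_512 (Tr.lf 9145754756 94862280 0) 384 512 0 32 448 480)) = true := by decide +kernel
  have c8 : (go 16 Gd mult S140_169_364_512 (Tr.lf 1160922177 99589064 0) 384 512 0 32 384 448) = true := by decide +kernel
  have c9 : (band (go 16 Gd mult S169_198_290_364 (Tr.lf 9584961 95521988 0) 448 512 32 64 510 512)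
  (band (go 16 Gd mult S140_169_290_364 (Tr.lf 9584929 99716292 0) 448 512 32 64 510 512)
  (band (go 16 Gd mult S169_198_290_364 (Tr.lf 9584929 95521988 0) 384 448 32 64 510 512)
  (go 16 Gd mult S140_169_290_364 (Tr.lf 9519393 99716292 0) 384 448 32 64 510 512)))) = true := by decide +kernel
  (And.intro (Ok.s1 32 (Ok.s3 169 (Ok.lf S140_169_290_364_ok (bl (br c6)))
  (Ok.lf S169_198_290_364_ok (bl c6)))
  (Ok.s3 169 (Ok.lf S140_169_290_364_ok (br (br (br c9))))
  (Ok.lf S169_198_290_364_ok (bl (br (br c9))))))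
  (And.intro (Ok.s1 32 (Ok.s3 169 (Ok.lf S140_169_290_364_ok (br (br (br c6))))
  (Ok.lf S169_198_290_364_ok (bl (br (br c6)))))
  (Ok.s3 169 (Ok.lf S140_169_290_364_ok (bl (br c9)))
  (Ok.lf S169_198_290_364_ok (bl c9))))
  (And.intro (Ok.s1 32 (Ok.lf S140_169_364_512_ok c8)
  (Ok.lf S140_169_364_512_ok c0))
  (Ok.s4 438 (Ok.s1 32 (Ok.s2 480 (Ok.lf S140_154_364_438_ok (bl c7))
  (Ok.s1 16 (Ok.lf S140_154_364_438_ok (bl c3))
  (Ok.lf S140_154_364_438_ok c5)))
  (Ok.s2 480 (Ok.lf S140_154_364_438_ok (br c3))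
  (Ok.lf S140_154_364_438_ok c1)))
  (Ok.s1 32 (Ok.s2 480 (Ok.lf S140_154_438_512_ok (br c7))
  (Ok.lf S140_154_438_512_ok c2))
  (Ok.s2 480 (Ok.lf S140_154_438_512_ok (bl c4))
  (Ok.lf S140_154_438_512_ok (br c4))))))))

end Vale.Agent.P098.Ck
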