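import Vale.Agent.P098.CkGd
import Vale.Agent.P098.CkOk
import Vale.Agent.P098.Sh.A12
import Vale.Agent.P098.Sh.A13
import Vale.Agent.P098.Sh.A14

namespace Vale.Agent.P098.Ck

theorem r631 :
    Ok Gd mult 384 512 0 64 448 512 154 157 364 512 ∧
    Ok Gd mult 384 512 0 64 448 512 157 161 364 512 ∧
    Ok Gd mult 384 512 0 64 448 512 161 165 364 512 ∧
    Ok Gd mult 384 512 0 32 448 512 165 169 364 512 :=
  have c0 : (go 16 Gd mult S154_157_364_512 (Tr.lf 9146214536 95128647 0) 384 512 0 32 480 512) = true := by decide +kernel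
  have c1 : (go 16 Gd mult S157_161_364_512 (Tr.lf 9146214536 95128647 0) 384 512 0 32 480 512) = true := by decide +kernel
  have c2 : (band (go 16 Gd mult S154_157_364_512 (Tr.lf 9146210440 94989256 0) 384 512 32 64 480 512)
  (go 16 Gd mult S157_161_364_512 (Tr.lf 9146210440 94989256 0) 384 512 32 64 480 512)) = true := by decide +kernel
  have c3 : (band (go 16 Gd mult S157_161_364_512 (Tr.lf 9146210440 103513159 0) 384 512 32 64 448 480)
  (go 16 Gd mult S154_157_364_512 (Tr.lf 9145948296 103513159 0) 384 512 32 64 448 480)) = true := by decide +kernel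
  have c4 : (band (go 16 Gd mult S161_165_364_512 (Tr.lf 9146210436 95128647 0) 384 512 0 16 480 512)
  (band (go 16 Gd mult S165_169_364_512 (Tr.lf 9146210436 94862535 0) 384 512 0 16 480 512)
  (go 16 Gd mult S161_165_364_512 (Tr.lf 9146210436 103513159 0) 384 512 16 32 480 512))) = true := by decide +kernel
  have c5 : (go 16 Gd mult S165_169_364_512 (Tr.lf 9146210436 103513159 0) 384 512 16 32 480 512) = true := by decide +kernel
  have c6 : (band (go 16 Gd mult S161_165_364_512 (Tr.lf 8609077380 95124551 0) 384 448 32 64 448 480)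
  (band (go 16 Gd mult S161_165_364_512 (Tr.lf 9145948292 94989256 0) 384 512 32 64 496 512)
  (go 16 Gd mult S161_165_364_512 (Tr.lf 8608028802 90929991 0) 448 512 32 64 448 480))) = true := by decide +kernel
  have c7 : (go 16 Gd mult S161_165_364_512 (Tr.lf 9146209412 99318855 0) 384 512 32 64 480 496) = true := by decide +kernel
  have c8 : (band (go 16 Gd mult S154_157_364_512 (Tr.lf 9144767618 94862024 0) 384 512 0 32 448 480)
  (band (go 16 Gd mult S161_165_364_512 (Tr.lf 8524930 103783364 0) 384 512 0 32 448 480)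
  (band (go 16 Gd mult S157_161_364_512 (Tr.lf 9144767618 94862024 0) 384 512 0 32 448 480)
  (go 16 Gd mult S165_169_364_512 (Tr.lf 8524930 103783364 0) 384 512 0 32 448 480)))) = true := by decide +kernel
  (And.intro (Ok.s1 32 (Ok.s2 480 (Ok.lf S154_157_364_512_ok (bl c8))
  (Ok.lf S154_157_364_512_ok c0))
  (Ok.s2 480 (Ok.lf S154_157_364_512_ok (br c3))
  (Ok.lf S154_157_364_512_ok (bl c2))))
  (And.intro (Ok.s1 32 (Ok.s2 480 (Ok.lf S157_161_364_512_ok (bl (br (br c8))))
  (Ok.lf S157_161_364_512_ok c1))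
  (Ok.s2 480 (Ok.lf S157_161_364_512_ok (bl c3))
  (Ok.lf S157_161_364_512_ok (br c2))))
  (And.intro (Ok.s1 32 (Ok.s2 480 (Ok.lf S161_165_364_512_ok (bl (br c8)))
  (Ok.s1 16 (Ok.lf S161_165_364_512_ok (bl c4))
  (Ok.lf S161_165_364_512_ok (br (br c4)))))
  (Ok.s2 480 (Ok.s0 448 (Ok.lf S161_165_364_512_ok (bl c6))
  (Ok.lf S161_165_364_512_ok (br (br c6))))
  (Ok.s2 496 (Ok.lf S161_165_364_512_ok c7)
  (Ok.lf S161_165_364_512_ok (bl (br c6))))))
  (Ok.s2 480 (Ok.lf S165_169_364_512_ok (br (br (br c8))))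
  (Ok.s1 16 (Ok.lf S165_169_364_512_ok (bl (br c4)))
  (Ok.lf S165_169_364_512_ok c5))))))

end Vale.Agent.P098.Ck
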