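import Vale.Agent.P098.CkGd
import Vale.Agent.P098.CkOk
import Vale.Agent.P098.Sh.A10
import Vale.Agent.P098.Sh.A15
import Vale.Agent.P098.Sh.A19
import Vale.Agent.P098.Sh.A21
import Vale.Agent.P098.Sh.A9

namespace Vale.Agent.P098.Ck

theorem r633 :
    Ok Gd mult 448 512 0 64 448 512 169 183 364 512 ∧
    Ok Gd mult 448 512 0 64 448 512 183 198 364 512 ∧
    Ok Gd mult 384 512 0 64 384 448 140 198 512 660 ∧
    Ok Gd mult 384 512 0 64 448 512 140 169 512 586 :=
  have c0 : (band (go 16 Gd mult S169_183_364_512 (Tr.lf 4313335940 95132869 0) 448 512 0 32 480 512)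
  (go 16 Gd mult S140_169_512_586 (Tr.lf 4304570498 99318981 0) 448 512 0 32 480 512)) = true := by decide +kernel
  have c1 : (band (go 16 Gd mult S183_198_364_512 (Tr.lf 4313335940 99454149 0) 448 512 32 64 448 480)
  (go 16 Gd mult S140_169_512_586 (Tr.lf 4304554114 95259717 0) 448 512 32 64 448 480)) = true := by decide +kernel
  have c2 : (go 16 Gd mult S169_198_512_660 (Tr.lf 8685700 95390533 0) 384 512 0 64 384 448) = true := by decide +kernel
  have c3 : (go 16 Gd mult S140_169_512_586 (Tr.lf 4313090180 99584966 0) 384 448 0 32 480 512) = true := by decide +kernel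
  have c4 : (go 16 Gd mult S140_169_512_586 (Tr.lf 4313090180 95259590 0) 384 512 32 64 480 512) = true := by decide +kernel
  have c5 : (band (go 16 Gd mult S169_183_364_512 (Tr.lf 4313335938 95267909 0) 448 512 32 64 448 480)
  (go 16 Gd mult S169_183_364_512 (Tr.lf 4313335938 91065286 0) 448 512 32 64 480 512)) = true := by decide +kernel
  have c6 : (band (go 16 Gd mult S183_198_364_512 (Tr.lf 12979816578 82414409 10145722469864158789632) 448 512 0 32 496 512)
  (go 16 Gd mult S183_198_364_512 (Tr.lf 4313335938 91065286 0) 448 512 32 64 480 512)) = true := by decide +kernel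
  have c7 : (go 16 Gd mult S140_169_512_660 (Tr.lf 9145960580 94731208 0) 384 512 32 64 384 448) = true := by decide +kernel
  have c8 : (go 16 Gd mult S140_169_512_586 (Tr.lf 4304570498 95259717 0) 384 448 32 64 448 480) = true := by decide +kernel
  have c9 : (go 16 Gd mult S183_198_364_512 (Tr.lf 4313334914 99327173 0) 448 512 0 32 480 496) = true := by decide +kernel
  have c10 : (go 16 Gd mult S140_169_512_586 (Tr.lf 9137374340 90782792 0) 384 512 0 32 448 480) = true := by decide +kernel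
  have c11 : (band (go 16 Gd mult S169_183_364_512 (Tr.lf 8660033 103775300 0) 448 512 0 32 448 480)
  (go 16 Gd mult S183_198_364_512 (Tr.lf 8660033 99712068 0) 448 512 0 32 448 480)) = true := by decide +kernel
  have c12 : (go 16 Gd mult S140_169_512_660 (Tr.lf 1160922177 107969608 0) 384 512 0 32 384 448) = true := by decide +kernel
  (And.intro (Ok.s2 480 (Ok.s1 32 (Ok.lf S169_183_364_512_ok (bl c11))
  (Ok.lf S169_183_364_512_ok (bl c5)))
  (Ok.s1 32 (Ok.lf S169_183_364_512_ok (bl c0))
  (Ok.lf S169_183_364_512_ok (br c5))))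
  (And.intro (Ok.s2 480 (Ok.s1 32 (Ok.lf S183_198_364_512_ok (br c11))
  (Ok.lf S183_198_364_512_ok (bl c1)))
  (Ok.s1 32 (Ok.s2 496 (Ok.lf S183_198_364_512_ok c9)
  (Ok.lf S183_198_364_512_ok (bl c6)))
  (Ok.lf S183_198_364_512_ok (br c6))))
  (And.intro (Ok.s3 169 (Ok.s1 32 (Ok.lf S140_169_512_660_ok c12)
  (Ok.lf S140_169_512_660_ok c7))
  (Ok.lf S169_198_512_660_ok c2))
  (Ok.s1 32 (Ok.s2 480 (Ok.lf S140_169_512_586_ok c10)
  (Ok.s0 448 (Ok.lf S140_169_512_586_ok c3)
  (Ok.lf S140_169_512_586_ok (br c0))))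
  (Ok.s2 480 (Ok.s0 448 (Ok.lf S140_169_512_586_ok c8)
  (Ok.lf S140_169_512_586_ok (br c1)))
  (Ok.lf S140_169_512_586_ok c4))))))

end Vale.Agent.P098.Ck
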