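import Vale.Agent.P098.CkGd
import Vale.Agent.P098.CkOk
import Vale.Agent.P098.Sh.A10
import Vale.Agent.P098.Sh.A16
import Vale.Agent.P098.Sh.A19
import Vale.Agent.P098.Sh.A22

namespace Vale.Agent.P098.Ck

theorem r634 :
    Ok Gd mult 384 512 0 64 448 512 140 169 586 660 ∧
    Ok Gd mult 384 512 0 64 448 512 169 198 512 660 ∧
    Ok Gd mult 384 448 0 64 384 448 140 169 660 808 :=
  have c0 : (go 16 Gd mult S140_169_586_660 (Tr.lf 4304701572 91061445 0) 384 512 0 32 480 512) = true := by decide +kernel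
  have c1 : (band (go 16 Gd mult S169_183_512_660 (Tr.lf 4313335940 99454149 0) 384 512 32 64 448 480)
  (go 16 Gd mult S140_169_586_660 (Tr.lf 9145829508 99191879 0) 384 512 32 64 448 480)) = true := by decide +kernel
  have c2 : (band (go 16 Gd mult S183_198_512_660 (Tr.lf 4313335940 95132869 0) 384 512 32 64 448 480)
  (go 16 Gd mult S183_198_512_660 (Tr.lf 4313334404 95263941 0) 384 512 0 32 496 504)) = true := by decide +kernel
  have c3 : (go 16 Gd mult S169_183_512_586 (Tr.lf 4313073800 91069637 0) 384 512 0 32 480 512) = true := by decide +kernel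
  have c4 : (band (go 16 Gd mult S169_183_512_660 (Tr.lf 4313335940 95259845 0) 384 512 32 64 480 512)
  (go 16 Gd mult S140_169_586_660 (Tr.lf 4304554116 95251398 0) 384 512 32 64 480 512)) = true := by decide +kernel
  have c5 : (go 16 Gd mult S169_183_586_660 (Tr.lf 4313073796 95263686 10145709240540253388800) 384 512 0 32 480 512) = true := by decide +kernel
  have c6 : (band (go 16 Gd mult S183_198_512_660 (Tr.lf 4313334916 99457990 0) 384 512 0 32 480 496)
  (band (go 16 Gd mult S183_198_512_660 (Tr.lf 4313334916 99712197 0) 384 512 32 64 480 496)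
  (go 16 Gd mult S183_198_512_660 (Tr.lf 8608301698 90934342 0) 384 448 0 32 504 512))) = true := by decide +kernel
  have c7 : (band (go 16 Gd mult S183_198_512_660 (Tr.lf 8609351748 95124551 28555581499877456084992) 384 512 32 48 496 512)
  (go 16 Gd mult S183_198_512_660 (Tr.lf 8609350786 95128647 84578321577958294159360) 448 512 0 32 504 512)) = true := by decide +kernel
  have c8 : (go 16 Gd mult S140_169_660_808 (Tr.lf 9137571906 99175368 0) 384 448 32 64 384 448) = true := by decide +kernel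
  have c9 : (band (go 16 Gd mult S169_198_512_660 (Tr.lf 4841555010 103377735 0) 384 512 0 32 448 480)
  (go 16 Gd mult S140_169_586_660 (Tr.lf 9137374338 90524489 0) 384 512 0 32 448 480)) = true := by decide +kernel
  have c10 : (go 16 Gd mult S183_198_512_660 (Tr.lf 4304684066 95259717 0) 384 512 48 64 496 512) = true := by decide +kernel
  have c11 : (go 16 Gd mult S140_169_660_808 (Tr.lf 1159864897 103775303 0) 384 448 0 32 384 448) = true := by decide +kernel
  (And.intro (Ok.s1 32 (Ok.s2 480 (Ok.lf S140_169_586_660_ok (br c9))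
  (Ok.lf S140_169_586_660_ok c0))
  (Ok.s2 480 (Ok.lf S140_169_586_660_ok (br c1))
  (Ok.lf S140_169_586_660_ok (br c4))))
  (And.intro (Ok.s2 480 (Ok.s1 32 (Ok.lf S169_198_512_660_ok (bl c9))
  (Ok.s3 183 (Ok.lf S169_183_512_660_ok (bl c1))
  (Ok.lf S183_198_512_660_ok (bl c2))))
  (Ok.s3 183 (Ok.s1 32 (Ok.s4 586 (Ok.lf S169_183_512_586_ok c3)
  (Ok.lf S169_183_586_660_ok c5))
  (Ok.lf S169_183_512_660_ok (bl c4)))
  (Ok.s1 32 (Ok.s2 496 (Ok.lf S183_198_512_660_ok (bl c6))
  (Ok.s2 504 (Ok.lf S183_198_512_660_ok (br c2))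
  (Ok.s0 448 (Ok.lf S183_198_512_660_ok (br (br c6)))
  (Ok.lf S183_198_512_660_ok (br c7)))))
  (Ok.s2 496 (Ok.lf S183_198_512_660_ok (bl (br c6)))
  (Ok.s1 48 (Ok.lf S183_198_512_660_ok (bl c7))
  (Ok.lf S183_198_512_660_ok c10))))))
  (Ok.s1 32 (Ok.lf S140_169_660_808_ok c11)
  (Ok.lf S140_169_660_808_ok c8))))

end Vale.Agent.P098.Ck
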