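import Vale.Agent.P098.CkGd
import Vale.Agent.P098.CkOk
import Vale.Agent.P098.Sh.A10
import Vale.Agent.P098.Sh.A16
import Vale.Agent.P098.Sh.A19

namespace Vale.Agent.P098.Ck

theorem r635 :
    Ok Gd mult 384 448 0 64 448 512 140 169 660 808 ∧
    Ok Gd mult 448 512 0 64 384 512 140 169 660 808 ∧
    Ok Gd mult 384 512 0 64 384 448 169 198 660 808 ∧
    Ok Gd mult 384 512 0 64 448 480 169 198 660 808 ∧
    Ok Gd mult 384 512 0 64 480 496 169 198 660 808 ∧
    Ok Gd mult 384 512 0 64 496 512 169 183 660 808 :=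
  have c0 : (go 16 Gd mult S140_169_660_808 (Tr.lf 9146239106 99183560 0) 448 480 32 64 448 512) = true := by decide +kernel
  have c1 : (band (go 16 Gd mult S169_198_660_808 (Tr.lf 4304685188 90925895 0) 384 512 0 64 384 448)
  (go 16 Gd mult S169_198_660_808 (Tr.lf 4304683586 90925895 0) 384 512 0 32 448 480)) = true := by decide +kernel
  have c2 : (band (go 16 Gd mult S169_198_660_808 (Tr.lf 9145975940 99056839 0) 384 512 32 64 448 480)
  (go 16 Gd mult S169_198_660_808 (Tr.lf 9145975940 94866376 0) 384 512 0 32 480 496)) = true := by decide +kernel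
  have c3 : (go 16 Gd mult S169_198_660_808 (Tr.lf 4304700548 103648325 0) 384 512 32 64 480 496) = true := by decide +kernel
  have c4 : (go 16 Gd mult S169_183_660_808 (Tr.lf 9146221700 95001671 6050553729749939650560) 384 512 0 32 496 512) = true := by decide +kernel
  have c5 : (band (go 16 Gd mult S140_169_660_808 (Tr.lf 9145960577 94989256 0) 480 512 32 64 448 512)
  (band (go 16 Gd mult S140_169_660_808 (Tr.lf 9145959554 99191879 0) 384 448 32 64 448 480)
  (band (go 16 Gd mult S140_169_660_808 (Tr.lf 9145959554 90799303 0) 384 448 0 32 480 496)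
  (band (go 16 Gd mult S140_169_660_808 (Tr.lf 9145959554 99323206 5515589707564924796928) 384 448 0 32 496 512)
  (go 16 Gd mult S140_169_660_808 (Tr.lf 9145960514 94997320 0) 384 448 32 64 480 512))))) = true := by decide +kernel
  have c6 : (band (go 16 Gd mult S140_169_660_808 (Tr.lf 9137570946 94723016 0) 448 512 32 64 384 448)
  (band (go 16 Gd mult S140_169_660_808 (Tr.lf 9145959553 90799303 6050545286037509242880) 448 480 0 32 480 512)
  (go 16 Gd mult S140_169_660_808 (Tr.lf 9145959553 94993352 0) 480 512 0 32 480 512))) = true := by decide +kernel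
  have c7 : (go 16 Gd mult S169_183_660_808 (Tr.lf 9145951364 94997575 6050558796299520442368) 384 512 32 64 496 512) = true := by decide +kernel
  have c8 : (go 16 Gd mult S140_169_660_808 (Tr.lf 4842472514 99450054 0) 384 448 0 32 448 480) = true := by decide +kernel
  have c9 : (band (go 16 Gd mult S140_169_660_808 (Tr.lf 1159865409 99712071 0) 448 512 0 32 384 448)
  (band (go 16 Gd mult S140_169_660_808 (Tr.lf 4841415745 99441479 0) 480 512 0 32 448 480)
  (go 16 Gd mult S140_169_660_808 (Tr.lf 4841415745 99441734 0) 448 480 0 32 448 480))) = true := by decide +kernel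
  (And.intro (Ok.s2 480 (Ok.s1 32 (Ok.lf S140_169_660_808_ok c8)
  (Ok.lf S140_169_660_808_ok (bl (br c5))))
  (Ok.s1 32 (Ok.s2 496 (Ok.lf S140_169_660_808_ok (bl (br (br c5))))
  (Ok.lf S140_169_660_808_ok (bl (br (br (br c5))))))
  (Ok.lf S140_169_660_808_ok (br (br (br (br c5)))))))
  (And.intro (Ok.s2 448 (Ok.s1 32 (Ok.lf S140_169_660_808_ok (bl c9))
  (Ok.lf S140_169_660_808_ok (bl c6)))
  (Ok.s0 480 (Ok.s1 32 (Ok.s2 480 (Ok.lf S140_169_660_808_ok (br (br c9)))
  (Ok.lf S140_169_660_808_ok (bl (br c6))))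
  (Ok.lf S140_169_660_808_ok c0))
  (Ok.s1 32 (Ok.s2 480 (Ok.lf S140_169_660_808_ok (bl (br c9)))
  (Ok.lf S140_169_660_808_ok (br (br c6))))
  (Ok.lf S140_169_660_808_ok (bl c5)))))
  (And.intro (Ok.lf S169_198_660_808_ok (bl c1))
  (And.intro (Ok.s1 32 (Ok.lf S169_198_660_808_ok (br c1))
  (Ok.lf S169_198_660_808_ok (bl c2)))
  (And.intro (Ok.s1 32 (Ok.lf S169_198_660_808_ok (br c2))
  (Ok.lf S169_198_660_808_ok c3))
  (Ok.s1 32 (Ok.lf S169_183_660_808_ok c4)
  (Ok.lf S169_183_660_808_ok c7)))))))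

end Vale.Agent.P098.Ck
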