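import Vale.Agent.P098.CkGd
import Vale.Agent.P098.CkOk
import Vale.Agent.P098.Sh.A22
import Vale.Agent.P098.Sh.A23
import Vale.Agent.P098.Sh.A25
import Vale.Agent.P098.Sh.A30
import Vale.Agent.P098.Sh.A31
import Vale.Agent.P098.Sh.A36

namespace Vale.Agent.P098.Ck

theorem r636 :
    Ok Gd mult 384 512 0 64 496 512 183 198 660 808 ∧
    Ok Gd mult 384 512 0 64 384 448 198 256 216 364 ∧
    Ok Gd mult 384 512 0 32 448 512 198 227 216 364 ∧
    Ok Gd mult 384 512 32 48 448 512 198 227 216 364 :=
  have c0 : (band (go 16 Gd mult S198_227_216_364 (Tr.lf 4850223234 107580231 0) 384 512 0 64 384 448)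
  (go 16 Gd mult S227_256_216_364 (Tr.lf 4303635522 91052615 0) 384 512 0 64 384 448)) = true := by decide +kernel
  have c1 : (go 16 Gd mult S198_212_216_364 (Tr.lf 8608319556 94993223 0) 384 512 0 16 496 512) = true := by decide +kernel
  have c2 : (go 16 Gd mult S198_212_216_364 (Tr.lf 8608319556 90929991 0) 384 448 16 32 480 512) = true := by decide +kernel
  have c3 : (go 16 Gd mult S212_227_290_364 (Tr.lf 4313090180 99462213 0) 384 512 0 32 480 512) = true := by decide +kernel
  have c4 : (go 16 Gd mult S198_212_216_364 (Tr.lf 4313352258 99589189 0) 448 512 16 32 480 512) = true := by decide +kernel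
  have c5 : (band (go 16 Gd mult S183_198_660_808 (Tr.lf 13450626180 90545225 121527185142172478341120) 448 512 0 32 504 512)
  (band (go 16 Gd mult S183_198_660_808 (Tr.lf 4304945796 99450053 0) 448 512 0 64 496 504)
  (go 16 Gd mult S183_198_660_808 (Tr.lf 13450625666 90541129 121859191350925297975296) 448 512 32 64 504 512))) = true := by decide +kernel
  have c6 : (go 16 Gd mult S212_227_216_290 (Tr.lf 4313073796 95267909 0) 384 512 0 32 480 512) = true := by decide +kernel
  have c7 : (band (go 16 Gd mult S198_212_216_290 (Tr.lf 8608303172 90790600 0) 384 512 32 48 480 512)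
  (band (go 16 Gd mult S212_227_216_364 (Tr.lf 4313335876 107846725 0) 384 512 32 48 480 512)
  (go 16 Gd mult S212_227_216_364 (Tr.lf 4312286242 99453893 0) 384 512 32 48 448 480))) = true := by decide +kernel
  have c8 : (go 16 Gd mult S198_227_216_364 (Tr.lf 8946754 103783364 0) 384 512 0 32 448 480) = true := by decide +kernel
  have c9 : (go 16 Gd mult S198_212_216_364 (Tr.lf 4313334852 95267909 0) 384 512 32 48 448 480) = true := by decide +kernel
  have c10 : (go 16 Gd mult S198_212_290_364 (Tr.lf 8608041028 94992968 0) 384 512 32 48 480 512) = true := by decide +kernel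
  have c11 : (go 16 Gd mult S183_198_660_808 (Tr.lf 4304684162 99458117 64065555397647890644992) 384 448 0 32 496 512) = true := by decide +kernel
  have c12 : (go 16 Gd mult S198_212_216_364 (Tr.lf 4304938018 95259717 0) 384 512 0 16 480 496) = true := by decide +kernel
  have c13 : (go 16 Gd mult S183_198_660_808 (Tr.lf 9145951298 99449927 0) 384 448 32 64 496 512) = true := by decide +kernel
  (And.intro (Ok.s0 448 (Ok.s1 32 (Ok.lf S183_198_660_808_ok c11)
  (Ok.lf S183_198_660_808_ok c13))
  (Ok.s2 504 (Ok.lf S183_198_660_808_ok (bl (br c5)))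
  (Ok.s1 32 (Ok.lf S183_198_660_808_ok (bl c5))
  (Ok.lf S183_198_660_808_ok (br (br c5))))))
  (And.intro (Ok.s3 227 (Ok.lf S198_227_216_364_ok (bl c0))
  (Ok.lf S227_256_216_364_ok (br c0)))
  (And.intro (Ok.s2 480 (Ok.lf S198_227_216_364_ok c8)
  (Ok.s3 212 (Ok.s1 16 (Ok.s2 496 (Ok.lf S198_212_216_364_ok c12)
  (Ok.lf S198_212_216_364_ok c1))
  (Ok.s0 448 (Ok.lf S198_212_216_364_ok c2)
  (Ok.lf S198_212_216_364_ok c4)))
  (Ok.s4 290 (Ok.lf S212_227_216_290_ok c6)
  (Ok.lf S212_227_290_364_ok c3))))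
  (Ok.s3 212 (Ok.s2 480 (Ok.lf S198_212_216_364_ok c9)
  (Ok.s4 290 (Ok.lf S198_212_216_290_ok (bl c7))
  (Ok.lf S198_212_290_364_ok c10)))
  (Ok.s2 480 (Ok.lf S212_227_216_364_ok (br (br c7)))
  (Ok.lf S212_227_216_364_ok (bl (br c7))))))))

end Vale.Agent.P098.Ck
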