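import Vale.Agent.P098.CkGd
import Vale.Agent.P098.CkOk
import Vale.Agent.P098.Sh.A23
import Vale.Agent.P098.Sh.A26
import Vale.Agent.P098.Sh.A30
import Vale.Agent.P098.Sh.A31
import Vale.Agent.P098.Sh.A32
import Vale.Agent.P098.Sh.A34
import Vale.Agent.P098.Sh.A36
import Vale.Agent.P098.Sh.A37
import Vale.Agent.P098.Sh.A39

namespace Vale.Agent.P098.Ck

theorem r637 :
    Ok Gd mult 384 512 48 64 448 512 198 212 216 364 ∧
    Ok Gd mult 384 512 48 64 448 512 212 227 216 364 ∧
    Ok Gd mult 384 512 0 64 448 512 227 256 216 364 ∧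
    Ok Gd mult 384 512 0 64 384 448 198 256 364 512 ∧
    Ok Gd mult 384 448 0 64 448 512 198 227 364 512 :=
  have c0 : (band (go 16 Gd mult S198_212_216_364 (Tr.lf 13449578568 90794825 0) 384 512 48 64 480 496)
  (band (go 16 Gd mult S198_212_216_364 (Tr.lf 4313334820 95386566 0) 384 512 48 64 496 512)
  (go 16 Gd mult S198_212_216_364 (Tr.lf 9154609700 103521351 0) 384 512 48 64 448 464))) = true := by decide +kernel
  have c1 : (go 16 Gd mult S212_227_216_364 (Tr.lf 4313352260 107838406 0) 384 512 48 64 480 512) = true := by decide +kernel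
  have c2 : (band (go 16 Gd mult S227_241_216_364 (Tr.lf 4380444804 95390917 4076730513029377032192) 384 512 0 64 480 512)
  (go 16 Gd mult S241_256_216_364 (Tr.lf 4380173442 91200454 150433241560069359796253) 384 512 0 64 480 512)) = true := by decide +kernel
  have c3 : (go 16 Gd mult S198_212_364_512 (Tr.lf 8608303236 90667975 0) 384 448 0 32 480 512) = true := by decide +kernel
  have c4 : (go 16 Gd mult S227_256_216_364 (Tr.lf 4380460162 91065414 0) 384 512 0 64 448 480) = true := by decide +kernel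
  have c5 : (band (go 16 Gd mult S198_212_364_512 (Tr.lf 8608303234 86731719 0) 384 448 32 64 448 480)
  (go 16 Gd mult S198_212_364_512 (Tr.lf 8608303234 95124295 0) 384 448 32 64 480 512)) = true := by decide +kernel
  have c6 : (go 16 Gd mult S198_212_216_364 (Tr.lf 13449577544 99183433 0) 384 512 48 64 464 480) = true := by decide +kernel
  have c7 : (go 16 Gd mult S212_227_216_364 (Tr.lf 9154611268 103386311 0) 384 512 48 64 448 480) = true := by decide +kernel
  have c8 : (band (go 16 Gd mult S198_227_364_512 (Tr.lf 4380182658 91065159 0) 384 512 0 64 384 448)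
  (go 16 Gd mult S227_256_364_512 (Tr.lf 75768898 103910213 0) 384 512 0 64 384 448)) = true := by decide +kernel
  have c9 : (band (go 16 Gd mult S212_227_364_438 (Tr.lf 4313073794 95390917 0) 384 448 0 64 480 512)
  (go 16 Gd mult S212_227_438_512 (Tr.lf 8675018882 82672583 0) 384 448 0 64 480 512)) = true := by decide +kernel
  have c10 : (go 16 Gd mult S212_227_364_512 (Tr.lf 8675148930 86600520 0) 384 448 0 64 448 480) = true := by decide +kernel
  have c11 : (go 16 Gd mult S198_212_364_512 (Tr.lf 4380041793 95394758 0) 384 448 0 32 448 480) = true := by decide +kernel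
  (And.intro (Ok.s2 480 (Ok.s2 464 (Ok.lf S198_212_216_364_ok (br (br c0)))
  (Ok.lf S198_212_216_364_ok c6))
  (Ok.s2 496 (Ok.lf S198_212_216_364_ok (bl c0))
  (Ok.lf S198_212_216_364_ok (bl (br c0)))))
  (And.intro (Ok.s2 480 (Ok.lf S212_227_216_364_ok c7)
  (Ok.lf S212_227_216_364_ok c1))
  (And.intro (Ok.s2 480 (Ok.lf S227_256_216_364_ok c4)
  (Ok.s3 241 (Ok.lf S227_241_216_364_ok (bl c2))
  (Ok.lf S241_256_216_364_ok (br c2))))
  (And.intro (Ok.s3 227 (Ok.lf S198_227_364_512_ok (bl c8))
  (Ok.lf S227_256_364_512_ok (br c8)))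
  (Ok.s3 212 (Ok.s2 480 (Ok.s1 32 (Ok.lf S198_212_364_512_ok c11)
  (Ok.lf S198_212_364_512_ok (bl c5)))
  (Ok.s1 32 (Ok.lf S198_212_364_512_ok c3)
  (Ok.lf S198_212_364_512_ok (br c5))))
  (Ok.s2 480 (Ok.lf S212_227_364_512_ok c10)
  (Ok.s4 438 (Ok.lf S212_227_364_438_ok (bl c9))
  (Ok.lf S212_227_438_512_ok (br c9)))))))))

end Vale.Agent.P098.Ck
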