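import Vale.Agent.P098.CkGd
import Vale.Agent.P098.CkOk
import Vale.Agent.P098.Sh.A23
import Vale.Agent.P098.Sh.A24
import Vale.Agent.P098.Sh.A27
import Vale.Agent.P098.Sh.A31
import Vale.Agent.P098.Sh.A32
import Vale.Agent.P098.Sh.A37

namespace Vale.Agent.P098.Ck

theorem r638 :
    Ok Gd mult 448 512 0 32 448 512 198 227 364 512 ∧
    Ok Gd mult 448 512 32 64 448 512 198 227 364 512 ∧
    Ok Gd mult 384 512 0 64 448 512 227 256 364 512 ∧
    Ok Gd mult 384 512 0 64 384 448 198 227 512 660 ∧
    Ok Gd mult 384 512 0 64 448 480 198 227 512 660 ∧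
    Ok Gd mult 384 512 0 64 480 512 198 227 512 586 :=
  have c0 : (go 16 Gd mult S198_212_364_512 (Tr.lf 4313335940 99453894 0) 448 512 32 64 448 512) = true := by decide +kernel
  have c1 : (band (go 16 Gd mult S198_212_512_586 (Tr.lf 12979554440 78216137 85463813988667323580416) 384 512 0 32 496 512)
  (go 16 Gd mult S212_227_512_586 (Tr.lf 8684586116 91069384 159362307010103594713088) 384 512 0 32 496 512)) = true := by decide +kernel
  have c2 : (go 16 Gd mult S198_227_512_586 (Tr.lf 4313090180 108100805 36930438774986794598400) 384 512 32 64 496 512) = true := by decide +kernel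
  have c3 : (go 16 Gd mult S198_212_364_512 (Tr.lf 12979816578 86608713 34624609276571982757888) 448 512 0 32 496 512) = true := by decide +kernel
  have c4 : (band (go 16 Gd mult S212_227_364_512 (Tr.lf 8684849282 86875080 77421262411686024839168) 448 512 0 32 480 512)
  (go 16 Gd mult S212_227_364_512 (Tr.lf 8684849282 86744008 34956743275166092492800) 448 512 32 64 448 512)) = true := by decide +kernel
  have c5 : (go 16 Gd mult S227_256_364_512 (Tr.lf 8675426948 86731592 99908169948510952620032) 384 512 0 64 496 512) = true := by decide +kernel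
  have c6 : (go 16 Gd mult S198_227_512_660 (Tr.lf 4304700548 99449798 0) 384 512 32 64 448 480) = true := by decide +kernel
  have c7 : (band (go 16 Gd mult S198_227_512_586 (Tr.lf 4304700548 95120454 0) 384 512 0 64 480 496)
  (band (go 16 Gd mult S227_256_364_512 (Tr.lf 4380181124 95390790 0) 384 512 0 64 480 496)
  (go 16 Gd mult S227_256_364_512 (Tr.lf 4380181634 95390535 0) 384 512 0 64 448 480))) = true := by decide +kernel
  have c8 : (go 16 Gd mult S198_212_364_512 (Tr.lf 4313072770 99326918 0) 448 512 0 32 480 496) = true := by decide +kernel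
  have c9 : (go 16 Gd mult S198_227_512_660 (Tr.lf 4371784834 91188039 0) 384 512 0 64 384 448) = true := by decide +kernel
  have c10 : (band (go 16 Gd mult S198_212_364_512 (Tr.lf 4380172865 91065414 0) 448 512 0 32 448 480)
  (go 16 Gd mult S212_227_364_512 (Tr.lf 4380041761 91065159 0) 448 512 0 32 448 480)) = true := by decide +kernel
  have c11 : (go 16 Gd mult S198_227_512_660 (Tr.lf 4371653186 95382343 0) 384 512 0 32 448 480) = true := by decide +kernel
  (And.intro (Ok.s3 212 (Ok.s2 480 (Ok.lf S198_212_364_512_ok (bl c10))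
  (Ok.s2 496 (Ok.lf S198_212_364_512_ok c8)
  (Ok.lf S198_212_364_512_ok c3)))
  (Ok.s2 480 (Ok.lf S212_227_364_512_ok (br c10))
  (Ok.lf S212_227_364_512_ok (bl c4))))
  (And.intro (Ok.s3 212 (Ok.lf S198_212_364_512_ok c0)
  (Ok.lf S212_227_364_512_ok (br c4)))
  (And.intro (Ok.s2 480 (Ok.lf S227_256_364_512_ok (br (br c7)))
  (Ok.s2 496 (Ok.lf S227_256_364_512_ok (bl (br c7)))
  (Ok.lf S227_256_364_512_ok c5)))
  (And.intro (Ok.lf S198_227_512_660_ok c9)
  (And.intro (Ok.s1 32 (Ok.lf S198_227_512_660_ok c11)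
  (Ok.lf S198_227_512_660_ok c6))
  (Ok.s2 496 (Ok.lf S198_227_512_586_ok (bl c7))
  (Ok.s1 32 (Ok.s3 212 (Ok.lf S198_212_512_586_ok (bl c1))
  (Ok.lf S212_227_512_586_ok (br c1)))
  (Ok.lf S198_227_512_586_ok c2))))))))

end Vale.Agent.P098.Ck
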