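import Vale.Agent.P098.CkGd
import Vale.Agent.P098.CkOk
import Vale.Agent.P098.Sh.A25
import Vale.Agent.P098.Sh.A27
import Vale.Agent.P098.Sh.A32
import Vale.Agent.P098.Sh.A33
import Vale.Agent.P098.Sh.A37
import Vale.Agent.P098.Sh.A38

namespace Vale.Agent.P098.Ck

theorem r639 :
    Ok Gd mult 384 512 0 64 480 512 198 227 586 660 ∧
    Ok Gd mult 384 512 0 64 384 512 227 256 512 660 ∧
    Ok Gd mult 384 512 0 64 384 512 198 256 660 808 :=
  have c0 : (go 16 Gd mult S227_256_512_660 (Tr.lf 4380460164 91323335 308337539142712618385437) 384 512 0 64 480 512) = true := by decide +kernel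
  have c1 : (band (go 16 Gd mult S198_227_660_808 (Tr.lf 4314399876 90930375 0) 384 512 0 64 448 480)
  (band (go 16 Gd mult S227_256_512_660 (Tr.lf 4380181058 95386567 0) 384 512 0 64 448 480)
  (go 16 Gd mult S227_256_660_808 (Tr.lf 9708098 99454149 0) 384 512 0 64 448 480))) = true := by decide +kernel
  have c2 : (go 16 Gd mult S227_256_660_808 (Tr.lf 4313351300 86739911 489023198623364118741039) 384 512 0 64 480 512) = true := by decide +kernel
  have c3 : (go 16 Gd mult S198_212_660_808 (Tr.lf 13450642052 90667978 178416970887013190336512) 448 512 0 32 504 512) = true := by decide +kernel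
  have c4 : (band (go 16 Gd mult S212_227_660_808 (Tr.lf 8609351810 82279496 245692233012908488916992) 448 512 0 64 480 512)
  (go 16 Gd mult S212_227_586_660 (Tr.lf 8684587140 82676808 206419066184809882583040) 448 512 0 64 480 512)) = true := by decide +kernel
  have c5 : (band (go 16 Gd mult S198_212_586_660 (Tr.lf 8609088648 90799048 133665107558099411009536) 384 512 0 32 496 512)
  (band (go 16 Gd mult S198_212_586_660 (Tr.lf 8676197508 86731848 0) 384 512 0 64 480 496)
  (go 16 Gd mult S198_212_586_660 (Tr.lf 8609088644 95255623 120973809841357092552704) 384 512 32 64 496 512))) = true := by decide +kernel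
  have c6 : (band (go 16 Gd mult S198_212_660_808 (Tr.lf 13450626180 99187785 148108951796637243539456) 448 512 32 64 496 512)
  (band (go 16 Gd mult S198_212_660_808 (Tr.lf 9146221698 99060680 97601758078369326432256) 384 448 0 64 480 512)
  (band (go 16 Gd mult S212_227_660_808 (Tr.lf 4313064578 95259718 219128872851720317698048) 384 448 0 64 480 512)
  (go 16 Gd mult S212_227_586_660 (Tr.lf 4312933506 99331014 167201301513427281248256) 384 448 0 64 480 512)))) = true := by decide +kernel
  have c7 : (go 16 Gd mult S198_212_660_808 (Tr.lf 4314382978 91065670 0) 448 512 0 64 480 496) = true := by decide +kernel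
  have c8 : (band (go 16 Gd mult S198_227_660_808 (Tr.lf 4304675970 90790855 0) 384 512 0 64 384 448)
  (band (go 16 Gd mult S227_256_512_660 (Tr.lf 75637314 99711941 0) 384 512 0 64 384 448)
  (go 16 Gd mult S227_256_660_808 (Tr.lf 8528449 95386565 0) 384 512 0 64 384 448))) = true := by decide +kernel
  have c9 : (go 16 Gd mult S198_212_660_808 (Tr.lf 8676188546 90934216 0) 448 512 0 32 496 504) = true := by decide +kernel
  (And.intro (Ok.s3 212 (Ok.s2 496 (Ok.lf S198_212_586_660_ok (bl (br c5)))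
  (Ok.s1 32 (Ok.lf S198_212_586_660_ok (bl c5))
  (Ok.lf S198_212_586_660_ok (br (br c5)))))
  (Ok.s0 448 (Ok.lf S212_227_586_660_ok (br (br (br c6))))
  (Ok.lf S212_227_586_660_ok (br c4))))
  (And.intro (Ok.s2 448 (Ok.lf S227_256_512_660_ok (bl (br c8)))
  (Ok.s2 480 (Ok.lf S227_256_512_660_ok (bl (br c1)))
  (Ok.lf S227_256_512_660_ok c0)))
  (Ok.s3 227 (Ok.s2 448 (Ok.lf S198_227_660_808_ok (bl c8))
  (Ok.s2 480 (Ok.lf S198_227_660_808_ok (bl c1))
  (Ok.s0 448 (Ok.s3 212 (Ok.lf S198_212_660_808_ok (bl (br c6)))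
  (Ok.lf S212_227_660_808_ok (bl (br (br c6)))))
  (Ok.s3 212 (Ok.s2 496 (Ok.lf S198_212_660_808_ok c7)
  (Ok.s1 32 (Ok.s2 504 (Ok.lf S198_212_660_808_ok c9)
  (Ok.lf S198_212_660_808_ok c3))
  (Ok.lf S198_212_660_808_ok (bl c6))))
  (Ok.lf S212_227_660_808_ok (bl c4))))))
  (Ok.s2 448 (Ok.lf S227_256_660_808_ok (br (br c8)))
  (Ok.s2 480 (Ok.lf S227_256_660_808_ok (br (br c1)))
  (Ok.lf S227_256_660_808_ok c2))))))

end Vale.Agent.P098.Ck
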