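import Vale.Agent.P098.CkGd
import Vale.Agent.P098.CkOk
import Vale.Agent.P098.Sh.A10
import Vale.Agent.P098.Sh.A18
import Vale.Agent.P098.Sh.A19
import Vale.Agent.P098.Sh.A25
import Vale.Agent.P098.Sh.A9

namespace Vale.Agent.P098.Ck

theorem r64 :
    Ok Gd mult 0 128 128 192 256 384 140 169 364 512 ∧
    Ok Gd mult 0 128 128 192 256 384 169 198 364 512 ∧
    Ok Gd mult 0 128 128 192 256 384 140 198 512 808 ∧
    Ok Gd mult 0 128 128 192 256 320 198 227 216 364 :=
  have c0 : (band (go 16 Gd mult S169_198_364_512 (Tr.lf 13439894664 94862025 0) 0 128 160 192 320 384)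
  (go 16 Gd mult S140_169_512_660 (Tr.lf 9137570888 103517255 0) 0 128 160 192 320 384)) = true := by decide +kernel
  have c1 : (go 16 Gd mult S140_169_660_808 (Tr.lf 9137571976 99454023 0) 0 128 160 192 256 384) = true := by decide +kernel
  have c2 : (go 16 Gd mult S169_198_660_808 (Tr.lf 9136785480 103513031 0) 0 128 160 192 256 384) = true := by decide +kernel
  have c3 : (band (go 16 Gd mult S140_169_364_512 (Tr.lf 9137587272 99454023 0) 0 128 160 192 320 384)
  (go 16 Gd mult S169_198_512_660 (Tr.lf 9145975880 103521479 0) 0 128 160 192 320 384)) = true := by decide +kernel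
  have c4 : (band (go 16 Gd mult S140_169_364_512 (Tr.lf 9137570948 103640008 0) 0 128 128 192 256 320)
  (band (go 16 Gd mult S169_198_364_512 (Tr.lf 9136391300 95120200 0) 0 128 128 192 256 320)
  (band (go 16 Gd mult S169_198_364_512 (Tr.lf 4841423428 112163910 0) 0 128 128 160 320 384)
  (go 16 Gd mult S140_169_364_512 (Tr.lf 9136391204 103508680 0) 0 128 128 160 320 384)))) = true := by decide +kernel
  have c5 : (band (go 16 Gd mult S198_227_216_364 (Tr.lf 4303635586 95386566 0) 0 64 128 192 256 320)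
  (go 16 Gd mult S198_227_216_364 (Tr.lf 8599650882 95251272 0) 64 128 128 192 256 320)) = true := by decide +kernel
  have c6 : (band (go 16 Gd mult S140_169_512_660 (Tr.lf 9136391236 95251144 0) 0 128 128 160 256 384)
  (band (go 16 Gd mult S140_169_660_808 (Tr.lf 4841423940 112168133 0) 0 128 128 160 256 384)
  (band (go 16 Gd mult S169_198_512_660 (Tr.lf 4841423908 108100678 0) 0 128 128 160 256 384)
  (band (go 16 Gd mult S169_198_660_808 (Tr.lf 4304675876 99580998 0) 0 128 128 160 256 384)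
  (band (go 16 Gd mult S140_169_512_660 (Tr.lf 9137439300 99445959 0) 0 128 160 192 256 320)
  (go 16 Gd mult S169_198_512_660 (Tr.lf 9136390724 99449799 0) 0 128 160 192 256 320)))))) = true := by decide +kernel
  (And.intro (Ok.s2 320 (Ok.lf S140_169_364_512_ok (bl c4))
  (Ok.s1 160 (Ok.lf S140_169_364_512_ok (br (br (br c4))))
  (Ok.lf S140_169_364_512_ok (bl c3))))
  (And.intro (Ok.s2 320 (Ok.lf S169_198_364_512_ok (bl (br c4)))
  (Ok.s1 160 (Ok.lf S169_198_364_512_ok (bl (br (br c4))))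
  (Ok.lf S169_198_364_512_ok (bl c0))))
  (And.intro (Ok.s4 660 (Ok.s3 169 (Ok.s1 160 (Ok.lf S140_169_512_660_ok (bl c6))
  (Ok.s2 320 (Ok.lf S140_169_512_660_ok (bl (br (br (br (br c6))))))
  (Ok.lf S140_169_512_660_ok (br c0))))
  (Ok.s1 160 (Ok.lf S169_198_512_660_ok (bl (br (br c6))))
  (Ok.s2 320 (Ok.lf S169_198_512_660_ok (br (br (br (br (br c6))))))
  (Ok.lf S169_198_512_660_ok (br c3)))))
  (Ok.s1 160 (Ok.s3 169 (Ok.lf S140_169_660_808_ok (bl (br c6)))
  (Ok.lf S169_198_660_808_ok (bl (br (br (br c6))))))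
  (Ok.s3 169 (Ok.lf S140_169_660_808_ok c1)
  (Ok.lf S169_198_660_808_ok c2))))
  (Ok.s0 64 (Ok.lf S198_227_216_364_ok (bl c5))
  (Ok.lf S198_227_216_364_ok (br c5))))))

end Vale.Agent.P098.Ck
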