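import Vale.Agent.P098.CkGd
import Vale.Agent.P098.CkOk
import Vale.Agent.P098.Sh.A41
import Vale.Agent.P098.Sh.A42
import Vale.Agent.P098.Sh.A43
import Vale.Agent.P098.Sh.A44
import Vale.Agent.P098.Sh.A45
import Vale.Agent.P098.Sh.A46
import Vale.Agent.P098.Sh.A47
import Vale.Agent.P098.Sh.A49
import Vale.Agent.P098.Sh.A51

namespace Vale.Agent.P098.Ck

theorem r640 :
    Ok Gd mult 384 512 0 64 384 512 256 314 216 364 ∧
    Ok Gd mult 384 512 0 64 384 512 256 314 364 512 ∧
    Ok Gd mult 384 512 0 64 384 512 256 314 512 808 ∧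
    Ok Gd mult 384 512 0 64 384 512 314 372 216 364 :=
  have c0 : (go 16 Gd mult S285_314_216_364 (Tr.lf 85477508 104168645 788100247061423886172160) 384 512 0 64 448 512) = true := by decide +kernel
  have c1 : (go 16 Gd mult S285_314_364_512 (Tr.lf 85477508 103914693 784669152663791218982912) 384 512 0 64 448 512) = true := by decide +kernel
  have c2 : (go 16 Gd mult S285_314_512_660 (Tr.lf 631539844 104033352 844086115329783824908288) 384 512 0 64 448 512) = true := by decide +kernel
  have c3 : (band (go 16 Gd mult S256_285_660_808 (Tr.lf 17335428 95263558 1172050778211283781032727) 384 512 0 64 480 512)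
  (go 16 Gd mult S285_314_660_808 (Tr.lf 1168409730 99585096 1206140788646265918195230) 384 512 0 64 480 512)) = true := by decide +kernel
  have c4 : (band (go 16 Gd mult S256_285_216_364 (Tr.lf 85477506 99974341 414313871895718392758881) 384 512 0 64 448 512)
  (go 16 Gd mult S343_372_216_364 (Tr.lf 623151234 112303174 395774894101846451814400) 384 512 0 64 448 512)) = true := by decide +kernel
  have c5 : (band (go 16 Gd mult S314_372_216_364 (Tr.lf 556042370 112172102 0) 384 512 0 64 384 448)
  (band (go 16 Gd mult S256_314_216_364 (Tr.lf 623150210 104168646 0) 384 512 0 64 384 448)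
  (go 16 Gd mult S256_314_364_512 (Tr.lf 623150210 108235974 0) 384 512 0 64 384 448))) = true := by decide +kernel
  have c6 : (band (go 16 Gd mult S256_285_364_512 (Tr.lf 85215364 99978437 565762024391065204687099) 384 512 0 64 448 512)
  (go 16 Gd mult S314_343_216_364 (Tr.lf 623134852 108104902 526857457490296540495872) 384 512 0 64 448 512)) = true := by decide +kernel
  have c7 : (band (go 16 Gd mult S256_314_512_660 (Tr.lf 623150210 108240070 0) 384 512 0 64 384 448)
  (band (go 16 Gd mult S256_285_660_808 (Tr.lf 622076481 108112838 0) 384 512 0 64 384 448)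
  (band (go 16 Gd mult S285_314_660_808 (Tr.lf 623002177 108113094 0) 384 512 0 64 384 448)
  (band (go 16 Gd mult S285_314_660_808 (Tr.lf 623002177 104041798 0) 384 512 0 64 448 480)
  (band (go 16 Gd mult S256_285_512_660 (Tr.lf 8528193 95386565 0) 384 512 0 64 448 480)
  (go 16 Gd mult S256_285_660_808 (Tr.lf 8528193 95259589 0) 384 512 0 64 448 480)))))) = true := by decide +kernel
  have c8 : (go 16 Gd mult S256_285_512_660 (Tr.lf 17056386 99461830 792176977501382984599196) 384 512 0 64 480 512) = true := by decide +kernel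
  (And.intro (Ok.s2 448 (Ok.lf S256_314_216_364_ok (bl (br c5)))
  (Ok.s3 285 (Ok.lf S256_285_216_364_ok (bl c4))
  (Ok.lf S285_314_216_364_ok c0)))
  (And.intro (Ok.s2 448 (Ok.lf S256_314_364_512_ok (br (br c5)))
  (Ok.s3 285 (Ok.lf S256_285_364_512_ok (bl c6))
  (Ok.lf S285_314_364_512_ok c1)))
  (And.intro (Ok.s4 660 (Ok.s2 448 (Ok.lf S256_314_512_660_ok (bl c7))
  (Ok.s3 285 (Ok.s2 480 (Ok.lf S256_285_512_660_ok (bl (br (br (br (br c7))))))
  (Ok.lf S256_285_512_660_ok c8))
  (Ok.lf S285_314_512_660_ok c2)))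
  (Ok.s3 285 (Ok.s2 448 (Ok.lf S256_285_660_808_ok (bl (br c7)))
  (Ok.s2 480 (Ok.lf S256_285_660_808_ok (br (br (br (br (br c7))))))
  (Ok.lf S256_285_660_808_ok (bl c3))))
  (Ok.s2 448 (Ok.lf S285_314_660_808_ok (bl (br (br c7))))
  (Ok.s2 480 (Ok.lf S285_314_660_808_ok (bl (br (br (br c7)))))
  (Ok.lf S285_314_660_808_ok (br c3))))))
  (Ok.s2 448 (Ok.lf S314_372_216_364_ok (bl c5))
  (Ok.s3 343 (Ok.lf S314_343_216_364_ok (br c6))
  (Ok.lf S343_372_216_364_ok (br c4)))))))

end Vale.Agent.P098.Ck
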