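import Vale.Agent.P098.CkGd
import Vale.Agent.P098.CkOk
import Vale.Agent.P098.Sh.A52
import Vale.Agent.P098.Sh.A54
import Vale.Agent.P098.Sh.A56
import Vale.Agent.P098.Sh.A57

namespace Vale.Agent.P098.Ck

theorem r642 :
    Ok Gd mult 384 512 0 64 448 512 343 372 660 808 ∧
    Ok Gd mult 384 512 0 64 384 512 372 430 216 512 ∧
    Ok Gd mult 384 512 0 64 384 448 372 430 512 660 :=
  have c0 : (band (go 16 Gd mult S343_372_660_808 (Tr.lf 557352066 107719751 0) 384 512 0 64 448 480)
  (band (go 16 Gd mult S372_401_364_512 (Tr.lf 624051330 104041543 0) 384 512 0 64 448 480)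
  (band (go 16 Gd mult S401_430_364_512 (Tr.lf 1160922242 103783495 0) 384 512 0 64 448 480)
  (band (go 16 Gd mult S372_401_216_364 (Tr.lf 623002242 104041542 0) 384 512 0 64 448 480)
  (go 16 Gd mult S401_430_216_364 (Tr.lf 1160921730 104041543 0) 384 512 0 64 448 480))))) = true := by decide +kernel
  have c1 : (band (go 16 Gd mult S372_430_216_364 (Tr.lf 556042370 107973702 0) 384 512 0 64 384 448)
  (band (go 16 Gd mult S372_401_512_660 (Tr.lf 555893890 112294982 0) 384 512 0 64 384 448)
  (band (go 16 Gd mult S372_401_364_512 (Tr.lf 623002753 108235846 0) 384 512 0 64 384 448)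
  (go 16 Gd mult S401_430_364_512 (Tr.lf 1093747842 103644359 0) 384 512 0 64 384 448)))) = true := by decide +kernel
  have c2 : (band (go 16 Gd mult S343_372_660_808 (Tr.lf 1102611524 99454024 1044473096197508522049536) 384 512 32 64 496 512)
  (go 16 Gd mult S343_372_660_808 (Tr.lf 1094222466 99327175 0) 384 512 0 64 480 496)) = true := by decide +kernel
  have c3 : (band (go 16 Gd mult S401_430_216_364 (Tr.lf 1774486658 95521865 513280653852505872007168) 384 512 0 64 480 512)
  (band (go 16 Gd mult S372_401_364_512 (Tr.lf 1161069698 99712199 381995176278579258327040) 384 512 0 64 480 512)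
  (go 16 Gd mult S401_430_364_512 (Tr.lf 1774486658 95521865 427872228789817603784704) 384 512 0 64 480 512))) = true := by decide +kernel
  have c4 : (go 16 Gd mult S401_430_512_660 (Tr.lf 9603138 99588933 0) 384 512 0 32 384 448) = true := by decide +kernel
  have c5 : (go 16 Gd mult S372_401_216_364 (Tr.lf 1237599362 99974217 514719499888842172792832) 384 512 0 64 480 512) = true := by decide +kernel
  have c6 : (go 16 Gd mult S343_372_660_808 (Tr.lf 1170506306 103783497 1206472521999624700428616) 384 512 0 32 496 512) = true := by decide +kernel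
  have c7 : (go 16 Gd mult S401_430_512_660 (Tr.lf 1093747778 103644359 0) 384 512 32 64 384 448) = true := by decide +kernel
  (And.intro (Ok.s2 480 (Ok.lf S343_372_660_808_ok (bl c0))
  (Ok.s2 496 (Ok.lf S343_372_660_808_ok (br c2))
  (Ok.s1 32 (Ok.lf S343_372_660_808_ok c6)
  (Ok.lf S343_372_660_808_ok (bl c2)))))
  (And.intro (Ok.s4 364 (Ok.s2 448 (Ok.lf S372_430_216_364_ok (bl c1))
  (Ok.s2 480 (Ok.s3 401 (Ok.lf S372_401_216_364_ok (bl (br (br (br c0)))))
  (Ok.lf S401_430_216_364_ok (br (br (br (br c0))))))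
  (Ok.s3 401 (Ok.lf S372_401_216_364_ok c5)
  (Ok.lf S401_430_216_364_ok (bl c3)))))
  (Ok.s2 448 (Ok.s3 401 (Ok.lf S372_401_364_512_ok (bl (br (br c1))))
  (Ok.lf S401_430_364_512_ok (br (br (br c1)))))
  (Ok.s2 480 (Ok.s3 401 (Ok.lf S372_401_364_512_ok (bl (br c0)))
  (Ok.lf S401_430_364_512_ok (bl (br (br c0)))))
  (Ok.s3 401 (Ok.lf S372_401_364_512_ok (bl (br c3)))
  (Ok.lf S401_430_364_512_ok (br (br c3)))))))
  (Ok.s3 401 (Ok.lf S372_401_512_660_ok (bl (br c1)))
  (Ok.s1 32 (Ok.lf S401_430_512_660_ok c4)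
  (Ok.lf S401_430_512_660_ok c7)))))

end Vale.Agent.P098.Ck
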