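import Vale.Agent.P098.CkGd
import Vale.Agent.P098.CkOk
import Vale.Agent.P098.Sh.A54
import Vale.Agent.P098.Sh.A57
import Vale.Agent.P098.Sh.A58
import Vale.Agent.P098.Sh.A59

namespace Vale.Agent.P098.Ck

theorem r643 :
    Ok Gd mult 384 512 0 64 448 512 372 430 512 660 ∧
    Ok Gd mult 384 512 0 64 384 512 372 430 660 808 ∧
    Ok Gd mult 384 512 0 64 384 512 430 488 216 364 :=
  have c0 : (go 16 Gd mult S401_430_660_808 (Tr.lf 5396269188 107715272 0) 384 512 0 32 384 448) = true := by decide +kernel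
  have c1 : (band (go 16 Gd mult S401_430_660_808 (Tr.lf 1093961860 103779399 0) 384 512 0 64 448 480)
  (go 16 Gd mult S372_401_512_660 (Tr.lf 1160938626 99712199 0) 384 512 0 64 448 480)) = true := by decide +kernel
  have c2 : (go 16 Gd mult S401_430_660_808 (Tr.lf 1161070724 99716167 304924679538418888212480) 384 512 0 64 480 512) = true := by decide +kernel
  have c3 : (band (go 16 Gd mult S372_401_660_808 (Tr.lf 556042370 103779398 0) 384 512 0 64 384 448)
  (band (go 16 Gd mult S430_488_216_364 (Tr.lf 1085375618 99449927 0) 384 512 0 64 384 448)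
  (go 16 Gd mult S372_401_660_808 (Tr.lf 1102350404 99318856 386293267647551720390656) 384 512 32 64 480 512))) = true := by decide +kernel
  have c4 : (band (go 16 Gd mult S372_401_512_660 (Tr.lf 1161069700 95517895 283508009669791286558720) 384 512 0 64 480 512)
  (go 16 Gd mult S401_430_512_660 (Tr.lf 1161069700 99716167 343293907212142777466880) 384 512 0 64 480 512)) = true := by decide +kernel
  have c5 : (band (go 16 Gd mult S372_401_660_808 (Tr.lf 615810178 108231623 0) 384 512 0 32 480 512)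
  (band (go 16 Gd mult S430_488_216_364 (Tr.lf 2379383938 87256266 1206472552399669649015286) 384 512 0 32 480 512)
  (band (go 16 Gd mult S430_488_216_364 (Tr.lf 1152550018 103902279 0) 384 512 0 64 448 480)
  (go 16 Gd mult S401_430_512_660 (Tr.lf 1160938626 103783495 0) 384 512 0 64 448 480)))) = true := by decide +kernel
  have c6 : (band (go 16 Gd mult S372_401_660_808 (Tr.lf 4850992194 99318727 0) 384 512 0 32 448 480)
  (go 16 Gd mult S372_401_660_808 (Tr.lf 1093944386 99450055 0) 384 512 32 64 448 480)) = true := by decide +kernel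
  have c7 : (go 16 Gd mult S401_430_660_808 (Tr.lf 1093813314 103644359 0) 384 512 32 64 384 448) = true := by decide +kernel
  have c8 : (band (go 16 Gd mult S430_459_216_364 (Tr.lf 1765950530 95648713 739327055747483772649472) 384 512 32 64 480 512)
  (go 16 Gd mult S459_488_216_364 (Tr.lf 2379301954 83065803 858013407100452374315008) 384 512 32 64 480 512)) = true := by decide +kernel
  (And.intro (Ok.s2 480 (Ok.s3 401 (Ok.lf S372_401_512_660_ok (br c1))
  (Ok.lf S401_430_512_660_ok (br (br (br c5)))))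
  (Ok.s3 401 (Ok.lf S372_401_512_660_ok (bl c4))
  (Ok.lf S401_430_512_660_ok (br c4))))
  (And.intro (Ok.s2 448 (Ok.s3 401 (Ok.lf S372_401_660_808_ok (bl c3))
  (Ok.s1 32 (Ok.lf S401_430_660_808_ok c0)
  (Ok.lf S401_430_660_808_ok c7)))
  (Ok.s2 480 (Ok.s3 401 (Ok.s1 32 (Ok.lf S372_401_660_808_ok (bl c6))
  (Ok.lf S372_401_660_808_ok (br c6)))
  (Ok.lf S401_430_660_808_ok (bl c1)))
  (Ok.s3 401 (Ok.s1 32 (Ok.lf S372_401_660_808_ok (bl c5))
  (Ok.lf S372_401_660_808_ok (br (br c3))))
  (Ok.lf S401_430_660_808_ok c2))))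
  (Ok.s2 448 (Ok.lf S430_488_216_364_ok (bl (br c3)))
  (Ok.s2 480 (Ok.lf S430_488_216_364_ok (bl (br (br c5))))
  (Ok.s1 32 (Ok.lf S430_488_216_364_ok (bl (br c5)))
  (Ok.s3 459 (Ok.lf S430_459_216_364_ok (bl c8))
  (Ok.lf S459_488_216_364_ok (br c8))))))))

end Vale.Agent.P098.Ck
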