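import Vale.Agent.P098.CkGd
import Vale.Agent.P098.CkOk
import Vale.Agent.P098.Sh.A0
import Vale.Agent.P098.Sh.A58
import Vale.Agent.P098.Sh.A59

namespace Vale.Agent.P098.Ck

theorem r644 :
    Ok Gd mult 384 512 0 64 384 512 430 488 364 512 ∧
    Ok Gd mult 384 512 0 64 384 512 430 488 512 808 ∧
    Ok Gd mult 384 512 64 128 0 128 24 82 216 512 :=
  have c0 : (band (go 16 Gd mult S430_488_512_660 (Tr.lf 1093961860 103652423 0) 384 512 0 64 384 448)
  (go 16 Gd mult S430_459_660_808 (Tr.lf 1093830786 103652423 0) 384 512 0 64 384 448)) = true := by decide +kernel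
  have c1 : (band (go 16 Gd mult S430_488_512_660 (Tr.lf 1160939652 108104775 0) 384 512 0 64 448 480)
  (band (go 16 Gd mult S430_488_364_512 (Tr.lf 1152550018 103902279 0) 384 512 0 64 448 480)
  (band (go 16 Gd mult S430_488_364_512 (Tr.lf 2379383938 91450570 1206472552399669585576438) 384 512 0 32 480 512)
  (go 16 Gd mult S459_488_660_808 (Tr.lf 2379302017 95779914 1206472552399669660418550) 384 512 0 32 480 512)))) = true := by decide +kernel
  have c2 : (band (go 16 Gd mult S430_488_364_512 (Tr.lf 1085376642 99449927 0) 384 512 0 64 384 448)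
  (go 16 Gd mult S459_488_660_808 (Tr.lf 1085351041 107715527 0) 384 512 0 64 384 448)) = true := by decide +kernel
  have c3 : (band (go 16 Gd mult S430_488_512_660 (Tr.lf 2379383938 87256266 1206472552399669574173174) 384 512 0 32 480 512)
  (go 16 Gd mult S430_459_660_808 (Tr.lf 1765950529 95644872 1206472543955420222718484) 384 512 0 32 480 512)) = true := by decide +kernel
  have c4 : (band (go 16 Gd mult S24_82_216_364 (Tr.lf 5372019842 103894087 0) 384 512 64 96 0 128)
  (go 16 Gd mult S24_82_364_512 (Tr.lf 5371954242 99699783 0) 384 512 64 96 0 128)) = true := by decide +kernel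
  have c5 : (band (go 16 Gd mult S430_459_512_660 (Tr.lf 1765966914 95648713 417523605366163057410048) 384 512 32 64 480 512)
  (band (go 16 Gd mult S430_459_660_808 (Tr.lf 1160938562 95521863 302600389785131484708864) 384 512 32 64 480 512)
  (band (go 16 Gd mult S430_459_364_512 (Tr.lf 1765950530 95648713 655302136477692221980672) 384 512 32 64 480 512)
  (band (go 16 Gd mult S459_488_364_512 (Tr.lf 2379301954 83065803 800219757917520349102080) 384 512 32 64 480 512)
  (band (go 16 Gd mult S459_488_512_660 (Tr.lf 2379301954 83065803 740765901767954464243712) 384 512 32 64 480 512)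
  (go 16 Gd mult S459_488_660_808 (Tr.lf 2379301954 83065803 713630741235527713816576) 384 512 32 64 480 512)))))) = true := by decide +kernel
  have c6 : (band (go 16 Gd mult S430_488_660_808 (Tr.lf 1093829698 103648327 0) 384 512 32 64 448 480)
  (go 16 Gd mult S430_488_660_808 (Tr.lf 1765966913 95648968 0) 384 512 0 32 448 480)) = true := by decide +kernel
  have c7 : (band (go 16 Gd mult S24_82_216_364 (Tr.lf 4834034242 112294854 0) 384 512 96 128 0 128)
  (go 16 Gd mult S24_82_364_512 (Tr.lf 4834018370 108100550 0) 384 512 96 128 0 128)) = true := by decide +kernel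
  (And.intro (Ok.s2 448 (Ok.lf S430_488_364_512_ok (bl c2))
  (Ok.s2 480 (Ok.lf S430_488_364_512_ok (bl (br c1)))
  (Ok.s1 32 (Ok.lf S430_488_364_512_ok (bl (br (br c1))))
  (Ok.s3 459 (Ok.lf S430_459_364_512_ok (bl (br (br c5))))
  (Ok.lf S459_488_364_512_ok (bl (br (br (br c5)))))))))
  (And.intro (Ok.s4 660 (Ok.s2 448 (Ok.lf S430_488_512_660_ok (bl c0))
  (Ok.s2 480 (Ok.lf S430_488_512_660_ok (bl c1))
  (Ok.s1 32 (Ok.lf S430_488_512_660_ok (bl c3))
  (Ok.s3 459 (Ok.lf S430_459_512_660_ok (bl c5))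
  (Ok.lf S459_488_512_660_ok (bl (br (br (br (br c5))))))))))
  (Ok.s2 448 (Ok.s3 459 (Ok.lf S430_459_660_808_ok (br c0))
  (Ok.lf S459_488_660_808_ok (br c2)))
  (Ok.s2 480 (Ok.s1 32 (Ok.lf S430_488_660_808_ok (br c6))
  (Ok.lf S430_488_660_808_ok (bl c6)))
  (Ok.s1 32 (Ok.s3 459 (Ok.lf S430_459_660_808_ok (br c3))
  (Ok.lf S459_488_660_808_ok (br (br (br c1)))))
  (Ok.s3 459 (Ok.lf S430_459_660_808_ok (bl (br c5)))
  (Ok.lf S459_488_660_808_ok (br (br (br (br (br c5)))))))))))
  (Ok.s4 364 (Ok.s1 96 (Ok.lf S24_82_216_364_ok (bl c4))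
  (Ok.lf S24_82_216_364_ok (bl c7)))
  (Ok.s1 96 (Ok.lf S24_82_364_512_ok (br c4))
  (Ok.lf S24_82_364_512_ok (br c7))))))

end Vale.Agent.P098.Ck
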