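import Vale.Agent.P098.CkGd
import Vale.Agent.P098.CkOk
import Vale.Agent.P098.Sh.A1
import Vale.Agent.P098.Sh.A10
import Vale.Agent.P098.Sh.A11
import Vale.Agent.P098.Sh.A17
import Vale.Agent.P098.Sh.A18
import Vale.Agent.P098.Sh.A19
import Vale.Agent.P098.Sh.A2
import Vale.Agent.P098.Sh.A3
import Vale.Agent.P098.Sh.A4
import Vale.Agent.P098.Sh.A5
import Vale.Agent.P098.Sh.A6
import Vale.Agent.P098.Sh.A8
import Vale.Agent.P098.Sh.A9

namespace Vale.Agent.P098.Ck

theorem r645 :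
    Ok Gd mult 384 512 64 128 0 128 24 82 512 808 ∧
    Ok Gd mult 384 512 64 128 0 128 82 140 216 808 ∧
    Ok Gd mult 384 512 64 128 0 128 140 198 216 808 :=
  have c0 : (band (go 16 Gd mult S140_198_660_808 (Tr.lf 547914882 99712198 0) 384 512 64 128 0 128)
  (band (go 16 Gd mult S169_198_216_364 (Tr.lf 1160021122 82947271 0) 384 512 64 128 0 128)
  (band (go 16 Gd mult S111_140_216_364 (Tr.lf 547636354 99585094 0) 384 512 64 128 0 128)
  (go 16 Gd mult S169_198_512_660 (Tr.lf 9585217 108366917 0) 384 512 64 128 0 128)))) = true := by decide +kernel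
  have c1 : (band (go 16 Gd mult S82_111_216_364 (Tr.lf 4842472578 107973702 0) 384 512 64 128 0 128)
  (band (go 16 Gd mult S82_111_512_660 (Tr.lf 4842472578 107973702 0) 384 512 64 128 0 128)
  (band (go 16 Gd mult S111_140_512_660 (Tr.lf 547505282 103779398 0) 384 512 64 128 0 128)
  (band (go 16 Gd mult S82_111_660_808 (Tr.lf 4842472578 107973702 0) 384 512 64 128 0 128)
  (band (go 16 Gd mult S140_169_364_512 (Tr.lf 547505282 103783494 0) 384 512 64 128 0 128)
  (go 16 Gd mult S140_169_216_364 (Tr.lf 547636290 99589190 0) 384 512 64 128 0 128)))))) = true := by decide +kernel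
  have c2 : (band (go 16 Gd mult S24_82_512_660 (Tr.lf 5371954242 99699783 0) 384 512 64 96 0 128)
  (band (go 16 Gd mult S24_82_660_808 (Tr.lf 5371954242 99699783 0) 384 512 64 96 0 128)
  (band (go 16 Gd mult S82_111_364_512 (Tr.lf 5380325954 107830471 0) 384 512 64 96 0 128)
  (go 16 Gd mult S111_140_364_512 (Tr.lf 547505185 104037573 0) 384 512 64 96 0 128)))) = true := by decide +kernel
  have c3 : (band (go 16 Gd mult S82_140_364_512 (Tr.lf 4842488866 107973702 0) 384 512 96 128 0 128)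
  (band (go 16 Gd mult S24_82_512_660 (Tr.lf 4834018370 112294854 0) 384 512 96 128 0 128)
  (go 16 Gd mult S24_82_660_808 (Tr.lf 4834018370 108100550 0) 384 512 96 128 0 128))) = true := by decide +kernel
  have c4 : (band (go 16 Gd mult S111_140_660_808 (Tr.lf 547504770 103779398 0) 384 512 64 128 0 128)
  (band (go 16 Gd mult S169_198_364_512 (Tr.lf 1159873602 91331783 0) 384 512 64 128 0 128)
  (go 16 Gd mult S140_169_512_660 (Tr.lf 547505218 103783494 0) 384 512 64 128 0 128))) = true := by decide +kernel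
  (And.intro (Ok.s4 660 (Ok.s1 96 (Ok.lf S24_82_512_660_ok (bl c2))
  (Ok.lf S24_82_512_660_ok (bl (br c3))))
  (Ok.s1 96 (Ok.lf S24_82_660_808_ok (bl (br c2)))
  (Ok.lf S24_82_660_808_ok (br (br c3)))))
  (And.intro (Ok.s4 512 (Ok.s4 364 (Ok.s3 111 (Ok.lf S82_111_216_364_ok (bl c1))
  (Ok.lf S111_140_216_364_ok (bl (br (br c0)))))
  (Ok.s1 96 (Ok.s3 111 (Ok.lf S82_111_364_512_ok (bl (br (br c2))))
  (Ok.lf S111_140_364_512_ok (br (br (br c2)))))
  (Ok.lf S82_140_364_512_ok (bl c3))))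
  (Ok.s4 660 (Ok.s3 111 (Ok.lf S82_111_512_660_ok (bl (br c1)))
  (Ok.lf S111_140_512_660_ok (bl (br (br c1)))))
  (Ok.s3 111 (Ok.lf S82_111_660_808_ok (bl (br (br (br c1)))))
  (Ok.lf S111_140_660_808_ok (bl c4)))))
  (Ok.s4 512 (Ok.s4 364 (Ok.s3 169 (Ok.lf S140_169_216_364_ok (br (br (br (br (br c1))))))
  (Ok.lf S169_198_216_364_ok (bl (br c0))))
  (Ok.s3 169 (Ok.lf S140_169_364_512_ok (bl (br (br (br (br c1))))))
  (Ok.lf S169_198_364_512_ok (bl (br c4)))))
  (Ok.s4 660 (Ok.s3 169 (Ok.lf S140_169_512_660_ok (br (br c4)))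
  (Ok.lf S169_198_512_660_ok (br (br (br c0)))))
  (Ok.lf S140_198_660_808_ok (bl c0))))))

end Vale.Agent.P098.Ck
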