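import Vale.Agent.P098.CkGd
import Vale.Agent.P098.CkOk
import Vale.Agent.P098.Sh.A25
import Vale.Agent.P098.Sh.A26
import Vale.Agent.P098.Sh.A27
import Vale.Agent.P098.Sh.A29
import Vale.Agent.P098.Sh.A36
import Vale.Agent.P098.Sh.A37
import Vale.Agent.P098.Sh.A38
import Vale.Agent.P098.Sh.A41
import Vale.Agent.P098.Sh.A42
import Vale.Agent.P098.Sh.A43
import Vale.Agent.P098.Sh.A45
import Vale.Agent.P098.Sh.A46
import Vale.Agent.P098.Sh.A49
import Vale.Agent.P098.Sh.A50
import Vale.Agent.P098.Sh.A52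
import Vale.Agent.P098.Sh.A54
import Vale.Agent.P098.Sh.A55

namespace Vale.Agent.P098.Ck

theorem r646 :
    Ok Gd mult 384 512 64 128 0 128 198 256 216 512 ∧
    Ok Gd mult 384 512 64 128 0 128 198 256 512 808 ∧
    Ok Gd mult 384 512 64 128 0 128 256 372 216 808 ∧
    Ok Gd mult 384 512 64 128 0 128 372 430 216 512 :=
  have c0 : (band (go 16 Gd mult S314_343_660_808 (Tr.lf 547914882 95525703 0) 384 512 64 128 0 128)
  (band (go 16 Gd mult S198_227_216_364 (Tr.lf 13497812036 99445193 0) 384 512 64 128 0 128)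
  (go 16 Gd mult S227_256_216_364 (Tr.lf 13497812036 103639497 0) 384 512 64 128 0 128))) = true := by decide +kernel
  have c1 : (band (go 16 Gd mult S198_256_512_660 (Tr.lf 4303651908 103779269 0) 384 512 64 128 0 128)
  (band (go 16 Gd mult S256_314_364_512 (Tr.lf 9733188 99847365 0) 384 512 64 128 0 128)
  (band (go 16 Gd mult S372_430_364_512 (Tr.lf 546473090 95653189 0) 384 512 64 128 0 128)
  (go 16 Gd mult S314_372_216_364 (Tr.lf 546604098 99720389 0) 384 512 64 128 0 128)))) = true := by decide +kernel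
  have c2 : (band (go 16 Gd mult S314_372_364_512 (Tr.lf 546604098 103783621 0) 384 512 64 128 0 128)
  (band (go 16 Gd mult S372_430_216_364 (Tr.lf 546473026 95653189 0) 384 512 64 128 0 128)
  (band (go 16 Gd mult S256_285_660_808 (Tr.lf 8598602818 95251270 0) 384 512 64 128 0 128)
  (band (go 16 Gd mult S285_314_660_808 (Tr.lf 8598602818 99322566 0) 384 512 64 128 0 128)
  (band (go 16 Gd mult S198_227_660_808 (Tr.lf 9708610 108363076 0) 384 512 64 128 0 128)
  (band (go 16 Gd mult S227_256_660_808 (Tr.lf 8598594626 94992967 0) 384 512 64 128 0 128)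
  (go 16 Gd mult S285_314_216_364 (Tr.lf 9708097 104168645 0) 384 512 64 128 0 128))))))) = true := by decide +kernel
  have c3 : (band (go 16 Gd mult S314_372_512_660 (Tr.lf 546604068 99589317 0) 384 512 96 128 0 128)
  (go 16 Gd mult S314_372_512_660 (Tr.lf 546604066 103783493 0) 384 512 64 96 0 128)) = true := by decide +kernel
  have c4 : (band (go 16 Gd mult S256_285_216_364 (Tr.lf 4295238722 112425925 0) 384 512 64 128 0 128)
  (band (go 16 Gd mult S256_285_512_660 (Tr.lf 4303627330 103648197 0) 384 512 64 128 0 128)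
  (band (go 16 Gd mult S285_314_512_660 (Tr.lf 4303627330 99588933 0) 384 512 64 128 0 128)
  (band (go 16 Gd mult S343_372_660_808 (Tr.lf 547505218 103652295 0) 384 512 64 128 0 128)
  (band (go 16 Gd mult S198_227_364_512 (Tr.lf 4295238690 104037317 0) 384 512 64 128 0 128)
  (go 16 Gd mult S227_256_364_512 (Tr.lf 4295238690 104037317 0) 384 512 64 128 0 128)))))) = true := by decide +kernel
  (And.intro (Ok.s4 364 (Ok.s3 227 (Ok.lf S198_227_216_364_ok (bl (br c0)))
  (Ok.lf S227_256_216_364_ok (br (br c0))))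
  (Ok.s3 227 (Ok.lf S198_227_364_512_ok (bl (br (br (br (br c4))))))
  (Ok.lf S227_256_364_512_ok (br (br (br (br (br c4))))))))
  (And.intro (Ok.s4 660 (Ok.lf S198_256_512_660_ok (bl c1))
  (Ok.s3 227 (Ok.lf S198_227_660_808_ok (bl (br (br (br (br c2))))))
  (Ok.lf S227_256_660_808_ok (bl (br (br (br (br (br c2)))))))))
  (And.intro (Ok.s3 314 (Ok.s4 512 (Ok.s4 364 (Ok.s3 285 (Ok.lf S256_285_216_364_ok (bl c4))
  (Ok.lf S285_314_216_364_ok (br (br (br (br (br (br c2))))))))
  (Ok.lf S256_314_364_512_ok (bl (br c1))))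
  (Ok.s4 660 (Ok.s3 285 (Ok.lf S256_285_512_660_ok (bl (br c4)))
  (Ok.lf S285_314_512_660_ok (bl (br (br c4)))))
  (Ok.s3 285 (Ok.lf S256_285_660_808_ok (bl (br (br c2))))
  (Ok.lf S285_314_660_808_ok (bl (br (br (br c2))))))))
  (Ok.s4 512 (Ok.s4 364 (Ok.lf S314_372_216_364_ok (br (br (br c1))))
  (Ok.lf S314_372_364_512_ok (bl c2)))
  (Ok.s4 660 (Ok.s1 96 (Ok.lf S314_372_512_660_ok (br c3))
  (Ok.lf S314_372_512_660_ok (bl c3)))
  (Ok.s3 343 (Ok.lf S314_343_660_808_ok (bl c0))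
  (Ok.lf S343_372_660_808_ok (bl (br (br (br c4)))))))))
  (Ok.s4 364 (Ok.lf S372_430_216_364_ok (bl (br c2)))
  (Ok.lf S372_430_364_512_ok (bl (br (br c1))))))))

end Vale.Agent.P098.Ck
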