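import Vale.Agent.P098.CkGd
import Vale.Agent.P098.CkOk
import Vale.Agent.P098.Sh.A0
import Vale.Agent.P098.Sh.A1
import Vale.Agent.P098.Sh.A55
import Vale.Agent.P098.Sh.A58
import Vale.Agent.P098.Sh.A59

namespace Vale.Agent.P098.Ck

theorem r647 :
    Ok Gd mult 384 512 64 128 0 128 372 430 512 808 ∧
    Ok Gd mult 384 512 64 128 0 128 430 488 216 808 ∧
    Ok Gd mult 384 512 64 128 128 256 24 82 216 808 :=
  have c0 : (band (go 16 Gd mult S24_82_512_660 (Tr.lf 13961888904 103373896 0) 384 512 96 128 192 256)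
  (band (go 16 Gd mult S24_82_512_660 (Tr.lf 5371954308 99572807 0) 384 512 64 96 128 256)
  (band (go 16 Gd mult S24_82_216_364 (Tr.lf 5372019844 99564743 0) 384 512 64 96 128 256)
  (go 16 Gd mult S24_82_660_808 (Tr.lf 5372019780 99572807 0) 384 512 64 96 128 256)))) = true := by decide +kernel
  have c1 : (band (go 16 Gd mult S53_82_216_364 (Tr.lf 9674311812 103509063 0) 384 512 96 128 128 256)
  (band (go 16 Gd mult S53_82_660_808 (Tr.lf 9674311812 103509063 0) 384 512 96 128 128 256)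
  (band (go 16 Gd mult S24_53_216_364 (Tr.lf 13961873540 103631944 0) 384 512 96 128 128 256)
  (go 16 Gd mult S24_53_364_512 (Tr.lf 13961873540 103631944 0) 384 512 96 128 128 256)))) = true := by decide +kernel
  have c2 : (go 16 Gd mult S24_82_364_512 (Tr.lf 5371954308 99564743 0) 384 512 64 96 128 256) = true := by decide +kernel
  have c3 : (band (go 16 Gd mult S53_82_364_512 (Tr.lf 9674246276 103509063 0) 384 512 96 128 128 256)
  (go 16 Gd mult S24_53_660_808 (Tr.lf 13961873540 103631944 0) 384 512 96 128 128 256)) = true := by decide +kernel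
  have c4 : (band (go 16 Gd mult S430_488_660_808 (Tr.lf 8591066180 95251399 0) 384 512 64 128 0 128)
  (band (go 16 Gd mult S430_488_216_364 (Tr.lf 8591066178 95251399 0) 384 512 64 128 0 128)
  (band (go 16 Gd mult S430_488_364_512 (Tr.lf 8591066178 95251399 0) 384 512 64 128 0 128)
  (go 16 Gd mult S430_488_512_660 (Tr.lf 8591066178 95251399 0) 384 512 64 128 0 128)))) = true := by decide +kernel
  have c5 : (go 16 Gd mult S24_82_512_660 (Tr.lf 9128985156 99449926 0) 384 512 96 128 128 192) = true := by decide +kernel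
  have c6 : (band (go 16 Gd mult S372_430_660_808 (Tr.lf 4295131682 107973573 0) 384 512 96 128 0 128)
  (band (go 16 Gd mult S372_430_512_660 (Tr.lf 4295050274 108231621 0) 384 512 96 128 0 128)
  (band (go 16 Gd mult S372_430_660_808 (Tr.lf 546472481 103910597 0) 384 512 64 96 0 128)
  (go 16 Gd mult S372_430_512_660 (Tr.lf 546406945 103918661 0) 384 512 64 96 0 128)))) = true := by decide +kernel
  (And.intro (Ok.s4 660 (Ok.s1 96 (Ok.lf S372_430_512_660_ok (br (br (br c6))))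
  (Ok.lf S372_430_512_660_ok (bl (br c6))))
  (Ok.s1 96 (Ok.lf S372_430_660_808_ok (bl (br (br c6))))
  (Ok.lf S372_430_660_808_ok (bl c6))))
  (And.intro (Ok.s4 512 (Ok.s4 364 (Ok.lf S430_488_216_364_ok (bl (br c4)))
  (Ok.lf S430_488_364_512_ok (bl (br (br c4)))))
  (Ok.s4 660 (Ok.lf S430_488_512_660_ok (br (br (br c4))))
  (Ok.lf S430_488_660_808_ok (bl c4))))
  (Ok.s4 512 (Ok.s4 364 (Ok.s1 96 (Ok.lf S24_82_216_364_ok (bl (br (br c0))))
  (Ok.s3 53 (Ok.lf S24_53_216_364_ok (bl (br (br c1))))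
  (Ok.lf S53_82_216_364_ok (bl c1))))
  (Ok.s1 96 (Ok.lf S24_82_364_512_ok c2)
  (Ok.s3 53 (Ok.lf S24_53_364_512_ok (br (br (br c1))))
  (Ok.lf S53_82_364_512_ok (bl c3)))))
  (Ok.s4 660 (Ok.s1 96 (Ok.lf S24_82_512_660_ok (bl (br c0)))
  (Ok.s2 192 (Ok.lf S24_82_512_660_ok c5)
  (Ok.lf S24_82_512_660_ok (bl c0))))
  (Ok.s1 96 (Ok.lf S24_82_660_808_ok (br (br (br c0))))
  (Ok.s3 53 (Ok.lf S24_53_660_808_ok (br c3))
  (Ok.lf S53_82_660_808_ok (bl (br c1)))))))))

end Vale.Agent.P098.Ck
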