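import Vale.Agent.P098.CkGd
import Vale.Agent.P098.CkOk
import Vale.Agent.P098.Sh.A10
import Vale.Agent.P098.Sh.A17
import Vale.Agent.P098.Sh.A18
import Vale.Agent.P098.Sh.A19
import Vale.Agent.P098.Sh.A2
import Vale.Agent.P098.Sh.A3
import Vale.Agent.P098.Sh.A4
import Vale.Agent.P098.Sh.A5
import Vale.Agent.P098.Sh.A6
import Vale.Agent.P098.Sh.A8
import Vale.Agent.P098.Sh.A9

namespace Vale.Agent.P098.Ck

theorem r648 :
    Ok Gd mult 384 512 64 128 128 256 82 140 216 364 ∧
    Ok Gd mult 384 512 64 128 128 256 82 140 364 512 ∧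
    Ok Gd mult 384 512 64 128 128 256 82 140 512 808 ∧
    Ok Gd mult 384 512 64 128 128 256 140 198 216 808 :=
  have c0 : (band (go 16 Gd mult S82_111_364_512 (Tr.lf 9137457288 99572807 0) 384 512 64 128 128 256)
  (go 16 Gd mult S169_198_364_512 (Tr.lf 1161069698 87137225 0) 384 512 64 128 128 256)) = true := by decide +kernel
  have c1 : (band (go 16 Gd mult S82_111_512_660 (Tr.lf 9137457288 99572807 0) 384 512 64 128 128 256)
  (go 16 Gd mult S140_169_364_512 (Tr.lf 547636356 103783494 0) 384 512 64 128 128 256)) = true := by decide +kernel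
  have c2 : (band (go 16 Gd mult S111_140_216_364 (Tr.lf 547653764 95521862 0) 384 512 64 128 128 256)
  (band (go 16 Gd mult S140_169_512_660 (Tr.lf 547636354 103783494 0) 384 512 64 128 128 256)
  (go 16 Gd mult S169_198_512_660 (Tr.lf 1160004674 87133383 0) 384 512 64 128 128 256))) = true := by decide +kernel
  have c3 : (band (go 16 Gd mult S169_198_216_364 (Tr.lf 1161331844 82815945 0) 384 512 64 128 128 256)
  (band (go 16 Gd mult S140_169_660_808 (Tr.lf 547636354 99589190 0) 384 512 64 128 128 256)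
  (go 16 Gd mult S169_198_660_808 (Tr.lf 546587714 99712197 0) 384 512 64 128 128 256))) = true := by decide +kernel
  have c4 : (band (go 16 Gd mult S111_140_364_512 (Tr.lf 547637380 95521862 0) 384 512 64 128 128 256)
  (go 16 Gd mult S111_140_512_660 (Tr.lf 547637380 95521862 0) 384 512 64 128 128 256)) = true := by decide +kernel
  have c5 : (band (go 16 Gd mult S82_140_660_808 (Tr.lf 547521602 99716293 0) 384 512 64 96 128 256)
  (band (go 16 Gd mult S140_169_216_364 (Tr.lf 1161053217 95395015 0) 384 512 64 96 128 256)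
  (band (go 16 Gd mult S82_111_216_364 (Tr.lf 547505186 103779525 0) 384 512 64 96 128 256)
  (band (go 16 Gd mult S82_111_216_364 (Tr.lf 9137439812 99581126 0) 384 512 96 128 128 256)
  (band (go 16 Gd mult S140_169_216_364 (Tr.lf 4842603586 107977798 0) 384 512 96 128 128 256)
  (band (go 16 Gd mult S82_111_660_808 (Tr.lf 9137439812 99581126 0) 384 512 96 128 128 256)
  (go 16 Gd mult S111_140_660_808 (Tr.lf 9137439810 103517382 0) 384 512 96 128 128 256))))))) = true := by decide +kernel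
  (And.intro (Ok.s3 111 (Ok.s1 96 (Ok.lf S82_111_216_364_ok (bl (br (br c5))))
  (Ok.lf S82_111_216_364_ok (bl (br (br (br c5))))))
  (Ok.lf S111_140_216_364_ok (bl c2)))
  (And.intro (Ok.s3 111 (Ok.lf S82_111_364_512_ok (bl c0))
  (Ok.lf S111_140_364_512_ok (bl c4)))
  (And.intro (Ok.s4 660 (Ok.s3 111 (Ok.lf S82_111_512_660_ok (bl c1))
  (Ok.lf S111_140_512_660_ok (br c4)))
  (Ok.s1 96 (Ok.lf S82_140_660_808_ok (bl c5))
  (Ok.s3 111 (Ok.lf S82_111_660_808_ok (bl (br (br (br (br (br c5)))))))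
  (Ok.lf S111_140_660_808_ok (br (br (br (br (br (br c5))))))))))
  (Ok.s4 512 (Ok.s4 364 (Ok.s3 169 (Ok.s1 96 (Ok.lf S140_169_216_364_ok (bl (br c5)))
  (Ok.lf S140_169_216_364_ok (bl (br (br (br (br c5)))))))
  (Ok.lf S169_198_216_364_ok (bl c3)))
  (Ok.s3 169 (Ok.lf S140_169_364_512_ok (br c1))
  (Ok.lf S169_198_364_512_ok (br c0))))
  (Ok.s4 660 (Ok.s3 169 (Ok.lf S140_169_512_660_ok (bl (br c2)))
  (Ok.lf S169_198_512_660_ok (br (br c2))))
  (Ok.s3 169 (Ok.lf S140_169_660_808_ok (bl (br c3)))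
  (Ok.lf S169_198_660_808_ok (br (br c3)))))))))

end Vale.Agent.P098.Ck
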