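import Vale.Agent.P098.CkGd
import Vale.Agent.P098.CkOk
import Vale.Agent.P098.Sh.A25
import Vale.Agent.P098.Sh.A26
import Vale.Agent.P098.Sh.A27
import Vale.Agent.P098.Sh.A36
import Vale.Agent.P098.Sh.A37
import Vale.Agent.P098.Sh.A38
import Vale.Agent.P098.Sh.A41
import Vale.Agent.P098.Sh.A42
import Vale.Agent.P098.Sh.A45
import Vale.Agent.P098.Sh.A46
import Vale.Agent.P098.Sh.A49

namespace Vale.Agent.P098.Ck

theorem r649 :
    Ok Gd mult 384 512 64 128 128 256 198 256 216 512 ∧
    Ok Gd mult 384 512 64 128 128 256 198 256 512 808 ∧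
    Ok Gd mult 384 512 64 128 128 256 256 314 216 808 ∧
    Ok Gd mult 384 512 64 128 128 256 314 372 216 512 :=
  have c0 : (band (go 16 Gd mult S198_227_512_660 (Tr.lf 623133826 95657031 0) 384 512 64 128 128 256)
  (band (go 16 Gd mult S256_285_216_364 (Tr.lf 622347330 91462599 0) 384 512 64 128 128 256)
  (band (go 16 Gd mult S285_314_216_364 (Tr.lf 623395906 95780039 0) 384 512 64 128 128 256)
  (band (go 16 Gd mult S285_314_660_808 (Tr.lf 4304684162 108104773 0) 384 512 64 128 128 256)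
  (go 16 Gd mult S314_372_216_364 (Tr.lf 546604098 99589317 0) 384 512 64 128 128 256))))) = true := by decide +kernel
  have c1 : (band (go 16 Gd mult S314_372_364_512 (Tr.lf 4304700450 108104901 0) 384 512 96 128 128 256)
  (band (go 16 Gd mult S198_227_216_364 (Tr.lf 4303634978 108231749 0) 384 512 96 128 128 256)
  (band (go 16 Gd mult S314_372_364_512 (Tr.lf 546604065 99589189 0) 384 512 64 96 128 256)
  (go 16 Gd mult S198_227_216_364 (Tr.lf 623133729 91458759 0) 384 512 64 96 128 256)))) = true := by decide +kernel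
  have c2 : (band (go 16 Gd mult S198_227_364_512 (Tr.lf 623133762 95784135 0) 384 512 64 128 128 256)
  (band (go 16 Gd mult S227_256_364_512 (Tr.lf 622085186 95783879 0) 384 512 64 128 128 256)
  (band (go 16 Gd mult S256_285_364_512 (Tr.lf 75777090 99593157 0) 384 512 64 128 128 256)
  (band (go 16 Gd mult S285_314_512_660 (Tr.lf 4304684098 99581125 0) 384 512 64 128 128 256)
  (band (go 16 Gd mult S256_285_660_808 (Tr.lf 4303635522 103910213 0) 384 512 64 128 128 256)
  (band (go 16 Gd mult S227_256_216_364 (Tr.lf 4295238722 108231366 0) 384 512 64 128 128 256)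
  (go 16 Gd mult S227_256_512_660 (Tr.lf 75776578 108104900 0) 384 512 64 128 128 256))))))) = true := by decide +kernel
  have c3 : (band (go 16 Gd mult S198_227_660_808 (Tr.lf 9716290 104168772 0) 384 512 64 128 128 256)
  (band (go 16 Gd mult S227_256_660_808 (Tr.lf 4303627330 99715909 0) 384 512 64 128 128 256)
  (band (go 16 Gd mult S285_314_364_512 (Tr.lf 76825154 103910597 0) 384 512 64 128 128 256)
  (go 16 Gd mult S256_285_512_660 (Tr.lf 4303627330 103774918 0) 384 512 64 128 128 256)))) = true := by decide +kernel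
  (And.intro (Ok.s4 364 (Ok.s3 227 (Ok.s1 96 (Ok.lf S198_227_216_364_ok (br (br (br c1))))
  (Ok.lf S198_227_216_364_ok (bl (br c1))))
  (Ok.lf S227_256_216_364_ok (bl (br (br (br (br (br c2))))))))
  (Ok.s3 227 (Ok.lf S198_227_364_512_ok (bl c2))
  (Ok.lf S227_256_364_512_ok (bl (br c2)))))
  (And.intro (Ok.s4 660 (Ok.s3 227 (Ok.lf S198_227_512_660_ok (bl c0))
  (Ok.lf S227_256_512_660_ok (br (br (br (br (br (br c2))))))))
  (Ok.s3 227 (Ok.lf S198_227_660_808_ok (bl c3))
  (Ok.lf S227_256_660_808_ok (bl (br c3)))))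
  (And.intro (Ok.s4 512 (Ok.s4 364 (Ok.s3 285 (Ok.lf S256_285_216_364_ok (bl (br c0)))
  (Ok.lf S285_314_216_364_ok (bl (br (br c0)))))
  (Ok.s3 285 (Ok.lf S256_285_364_512_ok (bl (br (br c2))))
  (Ok.lf S285_314_364_512_ok (bl (br (br c3))))))
  (Ok.s4 660 (Ok.s3 285 (Ok.lf S256_285_512_660_ok (br (br (br c3))))
  (Ok.lf S285_314_512_660_ok (bl (br (br (br c2))))))
  (Ok.s3 285 (Ok.lf S256_285_660_808_ok (bl (br (br (br (br c2))))))
  (Ok.lf S285_314_660_808_ok (bl (br (br (br c0))))))))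
  (Ok.s4 364 (Ok.lf S314_372_216_364_ok (br (br (br (br c0)))))
  (Ok.s1 96 (Ok.lf S314_372_364_512_ok (bl (br (br c1))))
  (Ok.lf S314_372_364_512_ok (bl c1)))))))

end Vale.Agent.P098.Ck
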