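import Vale.Agent.P098.CkGd
import Vale.Agent.P098.CkOk
import Vale.Agent.P098.Sh.A25
import Vale.Agent.P098.Sh.A26
import Vale.Agent.P098.Sh.A27
import Vale.Agent.P098.Sh.A36
import Vale.Agent.P098.Sh.A37
import Vale.Agent.P098.Sh.A38
import Vale.Agent.P098.Sh.A41
import Vale.Agent.P098.Sh.A43
import Vale.Agent.P098.Sh.A45

namespace Vale.Agent.P098.Ck

theorem r65 :
    Ok Gd mult 0 128 128 192 320 384 198 227 216 364 ∧
    Ok Gd mult 0 128 128 192 256 384 227 256 216 364 ∧
    Ok Gd mult 0 128 128 192 256 384 198 256 364 512 ∧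
    Ok Gd mult 0 128 128 192 256 384 198 256 512 808 ∧
    Ok Gd mult 0 128 128 192 256 384 256 314 216 512 :=
  have c0 : (band (go 16 Gd mult S227_256_216_364 (Tr.lf 4303897736 99580870 0) 0 128 128 192 256 320)
  (band (go 16 Gd mult S198_227_364_512 (Tr.lf 8599650948 90798920 0) 0 128 128 192 256 320)
  (go 16 Gd mult S198_227_512_660 (Tr.lf 8598602308 90925640 0) 0 128 128 192 256 320))) = true := by decide +kernel
  have c1 : (go 16 Gd mult S227_256_216_364 (Tr.lf 9144140932 99322440 0) 0 128 128 192 320 384) = true := by decide +kernel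
  have c2 : (band (go 16 Gd mult S227_256_364_512 (Tr.lf 9135474824 99187272 0) 0 128 128 192 256 384)
  (go 16 Gd mult S285_314_216_364 (Tr.lf 4303628420 103779142 0) 0 128 128 192 256 384)) = true := by decide +kernel
  have c3 : (go 16 Gd mult S198_227_512_660 (Tr.lf 9136784520 99183432 0) 0 128 128 192 320 384) = true := by decide +kernel
  have c4 : (band (go 16 Gd mult S256_285_216_364 (Tr.lf 4303898756 95386566 0) 0 128 128 192 256 384)
  (go 16 Gd mult S227_256_512_660 (Tr.lf 8598602884 90925640 0) 0 128 128 192 256 384)) = true := by decide +kernel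
  have c5 : (band (go 16 Gd mult S256_314_364_512 (Tr.lf 4303652996 103779142 0) 0 128 128 192 256 384)
  (go 16 Gd mult S227_256_660_808 (Tr.lf 4303635524 103775046 0) 0 128 128 192 256 384)) = true := by decide +kernel
  have c6 : (go 16 Gd mult S198_227_216_364 (Tr.lf 13441205316 95120329 0) 64 128 160 192 352 384) = true := by decide +kernel
  have c7 : (go 16 Gd mult S198_227_364_512 (Tr.lf 13439895620 94993097 0) 64 128 160 192 320 384) = true := by decide +kernel
  have c8 : (go 16 Gd mult S198_227_660_808 (Tr.lf 9136523332 99449799 0) 0 128 160 192 256 384) = true := by decide +kernel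
  have c9 : (band (go 16 Gd mult S198_227_216_364 (Tr.lf 9136538690 103636039 0) 0 64 160 192 320 384)
  (go 16 Gd mult S198_227_364_512 (Tr.lf 8599520322 91061191 0) 0 64 160 192 320 384)) = true := by decide +kernel
  have c10 : (band (go 16 Gd mult S198_227_216_364 (Tr.lf 4304684100 95390790 0) 0 128 128 160 320 384)
  (band (go 16 Gd mult S198_227_364_512 (Tr.lf 4304683586 103648326 0) 0 128 128 160 320 384)
  (go 16 Gd mult S198_227_216_364 (Tr.lf 9144910402 103652295 0) 64 128 160 192 320 352))) = true := by decide +kernel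
  have c11 : (go 16 Gd mult S198_227_660_808 (Tr.lf 4303496226 99580742 0) 0 128 128 160 256 384) = true := by decide +kernel
  (And.intro (Ok.s1 160 (Ok.lf S198_227_216_364_ok (bl c10))
  (Ok.s0 64 (Ok.lf S198_227_216_364_ok (bl c9))
  (Ok.s2 352 (Ok.lf S198_227_216_364_ok (br (br c10)))
  (Ok.lf S198_227_216_364_ok c6))))
  (And.intro (Ok.s2 320 (Ok.lf S227_256_216_364_ok (bl c0))
  (Ok.lf S227_256_216_364_ok c1))
  (And.intro (Ok.s3 227 (Ok.s2 320 (Ok.lf S198_227_364_512_ok (bl (br c0)))
  (Ok.s1 160 (Ok.lf S198_227_364_512_ok (bl (br c10)))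
  (Ok.s0 64 (Ok.lf S198_227_364_512_ok (br c9))
  (Ok.lf S198_227_364_512_ok c7))))
  (Ok.lf S227_256_364_512_ok (bl c2)))
  (And.intro (Ok.s4 660 (Ok.s3 227 (Ok.s2 320 (Ok.lf S198_227_512_660_ok (br (br c0)))
  (Ok.lf S198_227_512_660_ok c3))
  (Ok.lf S227_256_512_660_ok (br c4)))
  (Ok.s3 227 (Ok.s1 160 (Ok.lf S198_227_660_808_ok c11)
  (Ok.lf S198_227_660_808_ok c8))
  (Ok.lf S227_256_660_808_ok (br c5))))
  (Ok.s4 364 (Ok.s3 285 (Ok.lf S256_285_216_364_ok (bl c4))
  (Ok.lf S285_314_216_364_ok (br c2)))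
  (Ok.lf S256_314_364_512_ok (bl c5)))))))

end Vale.Agent.P098.Ck
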