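import Vale.Agent.P098.CkGd
import Vale.Agent.P098.CkOk
import Vale.Agent.P098.Sh.A48
import Vale.Agent.P098.Sh.A49
import Vale.Agent.P098.Sh.A52
import Vale.Agent.P098.Sh.A54
import Vale.Agent.P098.Sh.A55
import Vale.Agent.P098.Sh.A58
import Vale.Agent.P098.Sh.A59

namespace Vale.Agent.P098.Ck

theorem r650 :
    Ok Gd mult 384 512 64 128 128 256 314 372 512 660 ∧
    Ok Gd mult 384 512 64 128 128 256 314 372 660 808 ∧
    Ok Gd mult 384 512 64 128 128 256 372 488 216 808 :=
  have c0 : (band (go 16 Gd mult S314_343_734_808 (Tr.lf 1093961858 90938440 0) 384 512 64 128 128 256)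
  (band (go 16 Gd mult S314_343_512_660 (Tr.lf 614761602 95652807 0) 384 512 64 128 128 256)
  (go 16 Gd mult S430_488_660_808 (Tr.lf 4832987204 103910597 0) 384 512 64 128 128 256))) = true := by decide +kernel
  have c1 : (band (go 16 Gd mult S343_372_660_808 (Tr.lf 1094223938 90938440 0) 384 512 64 96 128 256)
  (band (go 16 Gd mult S372_430_364_512 (Tr.lf 546472993 99724357 0) 384 512 64 96 128 256)
  (band (go 16 Gd mult S372_430_512_660 (Tr.lf 547456033 103787335 0) 384 512 64 96 128 256)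
  (band (go 16 Gd mult S372_430_216_364 (Tr.lf 546472481 95530053 0) 384 512 64 96 128 256)
  (band (go 16 Gd mult S343_372_512_660 (Tr.lf 614614049 99851334 0) 384 512 64 96 128 256)
  (go 16 Gd mult S372_430_364_512 (Tr.lf 4833051682 103910597 0) 384 512 96 128 128 256)))))) = true := by decide +kernel
  have c2 : (band (go 16 Gd mult S314_343_660_734 (Tr.lf 555910274 99581254 0) 384 512 64 128 128 256)
  (band (go 16 Gd mult S430_488_216_364 (Tr.lf 4832986180 103910597 0) 384 512 64 128 128 256)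
  (band (go 16 Gd mult S430_488_364_512 (Tr.lf 4832986180 103910597 0) 384 512 64 128 128 256)
  (go 16 Gd mult S430_488_512_660 (Tr.lf 4832986180 103910597 0) 384 512 64 128 128 256)))) = true := by decide +kernel
  have c3 : (band (go 16 Gd mult S372_430_660_808 (Tr.lf 4833051684 107973829 0) 384 512 96 128 128 256)
  (band (go 16 Gd mult S372_430_512_660 (Tr.lf 4833051682 103910597 0) 384 512 96 128 128 256)
  (band (go 16 Gd mult S343_372_660_808 (Tr.lf 547636258 99716039 0) 384 512 96 128 128 256)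
  (band (go 16 Gd mult S372_430_216_364 (Tr.lf 4833035298 107973829 0) 384 512 96 128 128 256)
  (band (go 16 Gd mult S343_372_512_660 (Tr.lf 4304544802 103910597 0) 384 512 96 128 128 256)
  (band (go 16 Gd mult S372_430_660_808 (Tr.lf 547521553 99720262 0) 384 512 64 80 128 256)
  (go 16 Gd mult S372_430_660_808 (Tr.lf 546472977 99724357 0) 384 512 80 96 128 256))))))) = true := by decide +kernel
  (And.intro (Ok.s3 343 (Ok.lf S314_343_512_660_ok (bl (br c0)))
  (Ok.s1 96 (Ok.lf S343_372_512_660_ok (bl (br (br (br (br c1))))))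
  (Ok.lf S343_372_512_660_ok (bl (br (br (br (br c3))))))))
  (And.intro (Ok.s3 343 (Ok.s4 734 (Ok.lf S314_343_660_734_ok (bl c2))
  (Ok.lf S314_343_734_808_ok (bl c0)))
  (Ok.s1 96 (Ok.lf S343_372_660_808_ok (bl c1))
  (Ok.lf S343_372_660_808_ok (bl (br (br c3))))))
  (Ok.s3 430 (Ok.s4 512 (Ok.s4 364 (Ok.s1 96 (Ok.lf S372_430_216_364_ok (bl (br (br (br c1)))))
  (Ok.lf S372_430_216_364_ok (bl (br (br (br c3))))))
  (Ok.s1 96 (Ok.lf S372_430_364_512_ok (bl (br c1)))
  (Ok.lf S372_430_364_512_ok (br (br (br (br (br c1))))))))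
  (Ok.s4 660 (Ok.s1 96 (Ok.lf S372_430_512_660_ok (bl (br (br c1))))
  (Ok.lf S372_430_512_660_ok (bl (br c3))))
  (Ok.s1 96 (Ok.s1 80 (Ok.lf S372_430_660_808_ok (bl (br (br (br (br (br c3)))))))
  (Ok.lf S372_430_660_808_ok (br (br (br (br (br (br c3))))))))
  (Ok.lf S372_430_660_808_ok (bl c3)))))
  (Ok.s4 512 (Ok.s4 364 (Ok.lf S430_488_216_364_ok (bl (br c2)))
  (Ok.lf S430_488_364_512_ok (bl (br (br c2)))))
  (Ok.s4 660 (Ok.lf S430_488_512_660_ok (br (br (br c2))))
  (Ok.lf S430_488_660_808_ok (br (br c0))))))))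

end Vale.Agent.P098.Ck
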