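import Vale.Agent.P098.CkGd
import Vale.Agent.P098.CkOk
import Vale.Agent.P098.Sh.A0
import Vale.Agent.P098.Sh.A1

namespace Vale.Agent.P098.Ck

theorem r651 :
    Ok Gd mult 384 512 64 96 256 384 24 82 216 364 ∧
    Ok Gd mult 384 512 96 128 256 384 24 82 216 364 ∧
    Ok Gd mult 384 512 64 128 256 384 24 82 364 512 ∧
    Ok Gd mult 384 512 64 96 256 384 24 82 512 660 :=
  have c0 : (band (go 16 Gd mult S24_82_216_364 (Tr.lf 9666988168 103632071 0) 384 512 64 96 256 320)
  (band (go 16 Gd mult S24_53_364_512 (Tr.lf 9666905220 103500999 0) 384 512 64 96 256 320)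
  (go 16 Gd mult S53_82_364_512 (Tr.lf 9137374276 103508935 0) 384 512 64 96 256 320))) = true := by decide +kernel
  have c1 : (band (go 16 Gd mult S53_82_364_512 (Tr.lf 9675376776 99577031 0) 384 512 64 96 320 384)
  (go 16 Gd mult S24_53_216_364 (Tr.lf 13961873544 103230664 0) 384 512 64 96 320 384)) = true := by decide +kernel
  have c2 : (band (go 16 Gd mult S24_53_216_364 (Tr.lf 13961889928 103238856 0) 384 512 96 128 320 384)
  (go 16 Gd mult S24_53_364_512 (Tr.lf 13961889928 103238856 0) 384 512 96 128 320 384)) = true := by decide +kernel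
  have c3 : (band (go 16 Gd mult S24_53_364_512 (Tr.lf 13961889928 107568200 0) 384 512 96 128 256 320)
  (go 16 Gd mult S53_82_216_364 (Tr.lf 13970327688 107576392 0) 384 512 96 128 256 320)) = true := by decide +kernel
  have c4 : (go 16 Gd mult S53_82_364_512 (Tr.lf 13970278536 103247048 0) 384 512 96 128 320 384) = true := by decide +kernel
  have c5 : (go 16 Gd mult S24_82_512_660 (Tr.lf 9666988164 99437767 0) 384 512 64 96 256 320) = true := by decide +kernel
  have c6 : (band (go 16 Gd mult S24_53_216_364 (Tr.lf 13961873544 107568200 0) 384 512 96 128 256 320)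
  (go 16 Gd mult S53_82_364_512 (Tr.lf 13970262152 107576392 0) 384 512 96 128 256 320)) = true := by decide +kernel
  have c7 : (band (go 16 Gd mult S24_53_364_512 (Tr.lf 13961873544 103230664 0) 384 512 64 96 320 384)
  (band (go 16 Gd mult S24_53_512_660 (Tr.lf 13961873544 103230664 0) 384 512 64 96 320 384)
  (go 16 Gd mult S53_82_216_364 (Tr.lf 9675360388 95382727 0) 384 512 64 96 320 384))) = true := by decide +kernel
  have c8 : (band (go 16 Gd mult S53_82_216_364 (Tr.lf 13970326664 103505096 0) 384 512 96 128 320 352)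
  (go 16 Gd mult S53_82_216_364 (Tr.lf 13970326664 107441352 0) 384 512 96 128 352 384)) = true := by decide +kernel
  have c9 : (go 16 Gd mult S53_82_512_660 (Tr.lf 9675294852 95382727 0) 384 512 64 96 320 384) = true := by decide +kernel
  (And.intro (Ok.s2 320 (Ok.lf S24_82_216_364_ok (bl c0))
  (Ok.s3 53 (Ok.lf S24_53_216_364_ok (br c1))
  (Ok.lf S53_82_216_364_ok (br (br c7)))))
  (And.intro (Ok.s2 320 (Ok.s3 53 (Ok.lf S24_53_216_364_ok (bl c6))
  (Ok.lf S53_82_216_364_ok (br c3)))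
  (Ok.s3 53 (Ok.lf S24_53_216_364_ok (bl c2))
  (Ok.s2 352 (Ok.lf S53_82_216_364_ok (bl c8))
  (Ok.lf S53_82_216_364_ok (br c8)))))
  (And.intro (Ok.s1 96 (Ok.s3 53 (Ok.s2 320 (Ok.lf S24_53_364_512_ok (bl (br c0)))
  (Ok.lf S24_53_364_512_ok (bl c7)))
  (Ok.s2 320 (Ok.lf S53_82_364_512_ok (br (br c0)))
  (Ok.lf S53_82_364_512_ok (bl c1))))
  (Ok.s2 320 (Ok.s3 53 (Ok.lf S24_53_364_512_ok (bl c3))
  (Ok.lf S53_82_364_512_ok (br c6)))
  (Ok.s3 53 (Ok.lf S24_53_364_512_ok (br c2))
  (Ok.lf S53_82_364_512_ok c4))))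
  (Ok.s2 320 (Ok.lf S24_82_512_660_ok c5)
  (Ok.s3 53 (Ok.lf S24_53_512_660_ok (bl (br c7)))
  (Ok.lf S53_82_512_660_ok c9))))))

end Vale.Agent.P098.Ck
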