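import Vale.Agent.P098.CkGd
import Vale.Agent.P098.CkOk
import Vale.Agent.P098.Sh.A0
import Vale.Agent.P098.Sh.A1
import Vale.Agent.P098.Sh.A2
import Vale.Agent.P098.Sh.A5

namespace Vale.Agent.P098.Ck

theorem r652 :
    Ok Gd mult 384 512 96 128 256 384 24 82 512 660 ∧
    Ok Gd mult 384 512 64 128 256 384 24 82 660 808 ∧
    Ok Gd mult 384 512 64 96 256 384 82 140 216 364 ∧
    Ok Gd mult 384 512 96 128 256 384 82 111 216 364 :=
  have c0 : (go 16 Gd mult S53_82_512_660 (Tr.lf 13970344072 107441352 0) 384 512 96 128 320 384) = true := by decide +kernel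
  have c1 : (band (go 16 Gd mult S82_111_216_364 (Tr.lf 9137457288 103373895 0) 384 512 64 96 320 384)
  (go 16 Gd mult S24_53_660_808 (Tr.lf 13961873544 103230664 0) 384 512 64 96 320 384)) = true := by decide +kernel
  have c2 : (band (go 16 Gd mult S82_111_216_364 (Tr.lf 13970474120 107568328 0) 384 512 96 128 256 320)
  (go 16 Gd mult S53_82_512_660 (Tr.lf 13970262152 107576392 0) 384 512 96 128 256 320)) = true := by decide +kernel
  have c3 : (go 16 Gd mult S82_111_216_364 (Tr.lf 13978863748 103390280 0) 384 448 96 128 320 384) = true := by decide +kernel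
  have c4 : (band (go 16 Gd mult S24_53_512_660 (Tr.lf 13961889928 107568200 0) 384 512 96 128 256 320)
  (go 16 Gd mult S24_53_660_808 (Tr.lf 13961889928 107568200 0) 384 512 96 128 256 320)) = true := by decide +kernel
  have c5 : (band (go 16 Gd mult S24_53_512_660 (Tr.lf 13961889928 103238856 0) 384 512 96 128 320 384)
  (go 16 Gd mult S24_53_660_808 (Tr.lf 13961889928 103238856 0) 384 512 96 128 320 384)) = true := by decide +kernel
  have c6 : (band (go 16 Gd mult S24_82_660_808 (Tr.lf 9666988164 99437767 0) 384 512 64 96 256 320)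
  (band (go 16 Gd mult S82_111_216_364 (Tr.lf 547504706 99716038 0) 384 512 64 96 256 320)
  (band (go 16 Gd mult S111_140_216_364 (Tr.lf 547504674 99716038 0) 384 512 64 96 256 320)
  (go 16 Gd mult S82_111_216_364 (Tr.lf 9137440898 103517382 0) 448 512 96 128 320 384)))) = true := by decide +kernel
  have c7 : (band (go 16 Gd mult S53_82_660_808 (Tr.lf 13970327688 107441352 0) 384 512 96 128 320 384)
  (band (go 16 Gd mult S53_82_660_808 (Tr.lf 9675360388 95382727 0) 384 512 64 96 320 384)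
  (go 16 Gd mult S53_82_660_808 (Tr.lf 13970326664 107576392 0) 384 512 96 128 256 320))) = true := by decide +kernel
  have c8 : (go 16 Gd mult S111_140_216_364 (Tr.lf 9137587332 95116359 0) 384 512 64 96 320 384) = true := by decide +kernel
  (And.intro (Ok.s2 320 (Ok.s3 53 (Ok.lf S24_53_512_660_ok (bl c4))
  (Ok.lf S53_82_512_660_ok (br c2)))
  (Ok.s3 53 (Ok.lf S24_53_512_660_ok (bl c5))
  (Ok.lf S53_82_512_660_ok c0)))
  (And.intro (Ok.s1 96 (Ok.s2 320 (Ok.lf S24_82_660_808_ok (bl c6))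
  (Ok.s3 53 (Ok.lf S24_53_660_808_ok (br c1))
  (Ok.lf S53_82_660_808_ok (bl (br c7)))))
  (Ok.s2 320 (Ok.s3 53 (Ok.lf S24_53_660_808_ok (br c4))
  (Ok.lf S53_82_660_808_ok (br (br c7))))
  (Ok.s3 53 (Ok.lf S24_53_660_808_ok (br c5))
  (Ok.lf S53_82_660_808_ok (bl c7)))))
  (And.intro (Ok.s3 111 (Ok.s2 320 (Ok.lf S82_111_216_364_ok (bl (br c6)))
  (Ok.lf S82_111_216_364_ok (bl c1)))
  (Ok.s2 320 (Ok.lf S111_140_216_364_ok (bl (br (br c6))))
  (Ok.lf S111_140_216_364_ok c8)))
  (Ok.s2 320 (Ok.lf S82_111_216_364_ok (bl c2))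
  (Ok.s0 448 (Ok.lf S82_111_216_364_ok c3)
  (Ok.lf S82_111_216_364_ok (br (br (br c6)))))))))

end Vale.Agent.P098.Ck
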