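import Vale.Agent.P098.CkGd
import Vale.Agent.P098.CkOk
import Vale.Agent.P098.Sh.A2
import Vale.Agent.P098.Sh.A3
import Vale.Agent.P098.Sh.A4
import Vale.Agent.P098.Sh.A5
import Vale.Agent.P098.Sh.A6

namespace Vale.Agent.P098.Ck

theorem r653 :
    Ok Gd mult 384 512 96 128 256 384 111 140 216 364 ∧
    Ok Gd mult 384 512 64 128 256 384 82 140 364 512 ∧
    Ok Gd mult 384 512 64 96 256 384 82 140 512 660 :=
  have c0 : (band (go 16 Gd mult S82_111_364_512 (Tr.lf 9137457288 103373895 0) 384 512 64 96 320 384)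
  (go 16 Gd mult S111_140_364_512 (Tr.lf 9137440900 99310663 0) 384 512 64 96 320 384)) = true := by decide +kernel
  have c1 : (band (go 16 Gd mult S82_111_364_512 (Tr.lf 13970343048 107568328 0) 384 512 96 128 256 320)
  (go 16 Gd mult S111_140_216_364 (Tr.lf 9137587332 103775175 0) 384 512 96 128 256 320)) = true := by decide +kernel
  have c2 : (band (go 16 Gd mult S82_111_364_512 (Tr.lf 13978732676 103390280 0) 384 448 96 128 320 384)
  (band (go 16 Gd mult S111_125_364_512 (Tr.lf 13978716292 103648328 0) 384 448 96 128 320 384)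
  (go 16 Gd mult S125_140_364_512 (Tr.lf 13441976450 103251144 0) 384 448 96 128 320 384))) = true := by decide +kernel
  have c3 : (band (go 16 Gd mult S111_125_216_364 (Tr.lf 13978846344 107707592 0) 384 512 96 128 352 384)
  (go 16 Gd mult S125_140_216_364 (Tr.lf 13978846344 103513288 0) 384 512 96 128 352 384)) = true := by decide +kernel
  have c4 : (band (go 16 Gd mult S82_140_364_512 (Tr.lf 547652740 103910342 0) 384 512 64 96 256 320)
  (go 16 Gd mult S82_140_512_660 (Tr.lf 547521668 95394758 0) 384 512 64 96 256 320)) = true := by decide +kernel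
  have c5 : (band (go 16 Gd mult S111_140_364_512 (Tr.lf 9137587332 103775175 0) 384 512 96 128 256 320)
  (band (go 16 Gd mult S111_140_364_512 (Tr.lf 9145976898 107977926 0) 448 512 96 128 320 384)
  (go 16 Gd mult S82_111_364_512 (Tr.lf 9137440834 103517382 0) 448 512 96 128 320 384))) = true := by decide +kernel
  have c6 : (band (go 16 Gd mult S82_111_512_660 (Tr.lf 9137440900 103373895 0) 384 512 64 96 320 384)
  (go 16 Gd mult S111_140_512_660 (Tr.lf 9137440900 99310663 0) 384 512 64 96 320 384)) = true := by decide +kernel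
  have c7 : (band (go 16 Gd mult S111_125_216_364 (Tr.lf 13978846340 111770824 0) 384 512 96 128 320 352)
  (go 16 Gd mult S125_140_216_364 (Tr.lf 13441975428 99187912 0) 384 512 96 128 320 352)) = true := by decide +kernel
  (And.intro (Ok.s2 320 (Ok.lf S111_140_216_364_ok (br c1))
  (Ok.s3 125 (Ok.s2 352 (Ok.lf S111_125_216_364_ok (bl c7))
  (Ok.lf S111_125_216_364_ok (bl c3)))
  (Ok.s2 352 (Ok.lf S125_140_216_364_ok (br c7))
  (Ok.lf S125_140_216_364_ok (br c3)))))
  (And.intro (Ok.s1 96 (Ok.s2 320 (Ok.lf S82_140_364_512_ok (bl c4))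
  (Ok.s3 111 (Ok.lf S82_111_364_512_ok (bl c0))
  (Ok.lf S111_140_364_512_ok (br c0))))
  (Ok.s3 111 (Ok.s2 320 (Ok.lf S82_111_364_512_ok (bl c1))
  (Ok.s0 448 (Ok.lf S82_111_364_512_ok (bl c2))
  (Ok.lf S82_111_364_512_ok (br (br c5)))))
  (Ok.s2 320 (Ok.lf S111_140_364_512_ok (bl c5))
  (Ok.s0 448 (Ok.s3 125 (Ok.lf S111_125_364_512_ok (bl (br c2)))
  (Ok.lf S125_140_364_512_ok (br (br c2))))
  (Ok.lf S111_140_364_512_ok (bl (br c5)))))))
  (Ok.s2 320 (Ok.lf S82_140_512_660_ok (br c4))
  (Ok.s3 111 (Ok.lf S82_111_512_660_ok (bl c6))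
  (Ok.lf S111_140_512_660_ok (br c6))))))

end Vale.Agent.P098.Ck
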