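import Vale.Agent.P098.CkGd
import Vale.Agent.P098.CkOk
import Vale.Agent.P098.Sh.A10
import Vale.Agent.P098.Sh.A12
import Vale.Agent.P098.Sh.A15
import Vale.Agent.P098.Sh.A16
import Vale.Agent.P098.Sh.A18
import Vale.Agent.P098.Sh.A19
import Vale.Agent.P098.Sh.A21
import Vale.Agent.P098.Sh.A22
import Vale.Agent.P098.Sh.A8

namespace Vale.Agent.P098.Ck

theorem r656 :
    Ok Gd mult 384 512 64 128 256 384 169 198 364 512 ∧
    Ok Gd mult 384 512 64 128 256 384 140 198 512 808 :=
  have c0 : (band (go 16 Gd mult S169_183_364_512 (Tr.lf 13449578628 99191625 0) 384 512 96 128 320 384)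
  (go 16 Gd mult S183_198_364_512 (Tr.lf 9146221636 103644359 0) 384 512 96 128 320 384)) = true := by decide +kernel
  have c1 : (band (go 16 Gd mult S140_154_512_660 (Tr.lf 13987235976 103521480 0) 384 512 96 128 320 384)
  (go 16 Gd mult S183_198_512_660 (Tr.lf 9145951300 103521351 0) 384 512 96 128 320 384)) = true := by decide +kernel
  have c2 : (go 16 Gd mult S154_169_512_660 (Tr.lf 13987498116 107449417 0) 384 512 96 128 320 384) = true := by decide +kernel
  have c3 : (go 16 Gd mult S140_169_660_808 (Tr.lf 9146239044 107846854 0) 384 512 96 112 320 384) = true := by decide +kernel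
  have c4 : (go 16 Gd mult S169_198_660_808 (Tr.lf 9146238084 107842631 0) 384 512 96 128 320 384) = true := by decide +kernel
  have c5 : (go 16 Gd mult S169_183_512_660 (Tr.lf 9146221700 107842631 0) 384 512 96 128 320 384) = true := by decide +kernel
  have c6 : (go 16 Gd mult S140_169_660_808 (Tr.lf 13979124804 103513288 0) 384 512 112 128 352 384) = true := by decide +kernel
  have c7 : (band (go 16 Gd mult S140_169_512_660 (Tr.lf 9137570948 103631816 0) 384 512 64 128 256 320)
  (band (go 16 Gd mult S169_198_364_512 (Tr.lf 4841555074 103910342 0) 384 512 64 128 256 320)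
  (band (go 16 Gd mult S169_198_512_660 (Tr.lf 4304683650 103906246 0) 384 512 64 128 256 320)
  (band (go 16 Gd mult S140_169_512_660 (Tr.lf 9137570882 94989128 0) 384 512 64 96 320 384)
  (band (go 16 Gd mult S169_198_364_512 (Tr.lf 4841554498 107838406 0) 384 512 64 96 320 384)
  (go 16 Gd mult S169_198_512_660 (Tr.lf 4304683554 99576774 0) 384 512 64 96 320 384)))))) = true := by decide +kernel
  have c8 : (band (go 16 Gd mult S140_169_660_808 (Tr.lf 9137571908 94989128 0) 384 512 64 96 256 384)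
  (band (go 16 Gd mult S169_198_660_808 (Tr.lf 4304684098 99576774 0) 384 512 64 96 256 384)
  (band (go 16 Gd mult S140_169_660_808 (Tr.lf 9137570882 103640135 0) 384 512 96 128 256 320)
  (go 16 Gd mult S169_198_660_808 (Tr.lf 4304683554 99589189 0) 384 512 96 128 256 320)))) = true := by decide +kernel
  have c9 : (go 16 Gd mult S140_169_660_808 (Tr.lf 13440942660 99318728 0) 384 512 112 128 320 352) = true := by decide +kernel
  (And.intro (Ok.s2 320 (Ok.lf S169_198_364_512_ok (bl (br c7)))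
  (Ok.s1 96 (Ok.lf S169_198_364_512_ok (bl (br (br (br (br c7))))))
  (Ok.s3 183 (Ok.lf S169_183_364_512_ok (bl c0))
  (Ok.lf S183_198_364_512_ok (br c0)))))
  (Ok.s4 660 (Ok.s3 169 (Ok.s2 320 (Ok.lf S140_169_512_660_ok (bl c7))
  (Ok.s1 96 (Ok.lf S140_169_512_660_ok (bl (br (br (br c7)))))
  (Ok.s3 154 (Ok.lf S140_154_512_660_ok (bl c1))
  (Ok.lf S154_169_512_660_ok c2))))
  (Ok.s2 320 (Ok.lf S169_198_512_660_ok (bl (br (br c7))))
  (Ok.s1 96 (Ok.lf S169_198_512_660_ok (br (br (br (br (br c7))))))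
  (Ok.s3 183 (Ok.lf S169_183_512_660_ok c5)
  (Ok.lf S183_198_512_660_ok (br c1))))))
  (Ok.s3 169 (Ok.s1 96 (Ok.lf S140_169_660_808_ok (bl c8))
  (Ok.s2 320 (Ok.lf S140_169_660_808_ok (bl (br (br c8))))
  (Ok.s1 112 (Ok.lf S140_169_660_808_ok c3)
  (Ok.s2 352 (Ok.lf S140_169_660_808_ok c9)
  (Ok.lf S140_169_660_808_ok c6)))))
  (Ok.s1 96 (Ok.lf S169_198_660_808_ok (bl (br c8)))
  (Ok.s2 320 (Ok.lf S169_198_660_808_ok (br (br (br c8))))
  (Ok.lf S169_198_660_808_ok c4))))))

end Vale.Agent.P098.Ck
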