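import Vale.Agent.P098.CkGd
import Vale.Agent.P098.CkOk
import Vale.Agent.P098.Sh.A23
import Vale.Agent.P098.Sh.A25
import Vale.Agent.P098.Sh.A26
import Vale.Agent.P098.Sh.A27
import Vale.Agent.P098.Sh.A30
import Vale.Agent.P098.Sh.A36
import Vale.Agent.P098.Sh.A37
import Vale.Agent.P098.Sh.A38
import Vale.Agent.P098.Sh.A41
import Vale.Agent.P098.Sh.A45

namespace Vale.Agent.P098.Ck

theorem r657 :
    Ok Gd mult 384 512 64 128 256 320 198 227 216 364 ∧
    Ok Gd mult 384 512 64 128 320 384 198 227 216 364 ∧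
    Ok Gd mult 384 512 64 128 256 384 227 256 216 364 ∧
    Ok Gd mult 384 512 64 128 256 384 198 256 364 512 ∧
    Ok Gd mult 384 512 64 128 256 384 198 256 512 808 ∧
    Ok Gd mult 384 512 64 128 256 384 256 314 216 512 :=
  have c0 : (go 16 Gd mult S198_212_216_290 (Tr.lf 13449593988 99187657 0) 384 512 96 128 352 384) = true := by decide +kernel
  have c1 : (go 16 Gd mult S198_227_364_512 (Tr.lf 9145189508 107711176 0) 384 512 64 128 320 384) = true := by decide +kernel
  have c2 : (band (go 16 Gd mult S198_227_512_660 (Tr.lf 4313335940 99585094 0) 384 512 64 128 256 384)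
  (go 16 Gd mult S198_227_660_808 (Tr.lf 4304685186 107838406 0) 384 512 64 128 256 384)) = true := by decide +kernel
  have c3 : (band (go 16 Gd mult S198_227_290_364 (Tr.lf 9154365508 103640264 0) 384 512 96 128 320 384)
  (go 16 Gd mult S212_227_216_290 (Tr.lf 9154349124 107834568 0) 384 512 96 128 320 384)) = true := by decide +kernel
  have c4 : (go 16 Gd mult S227_256_216_364 (Tr.lf 4313334916 108096710 0) 384 512 64 128 320 384) = true := by decide +kernel
  have c5 : (band (go 16 Gd mult S198_227_216_364 (Tr.lf 4313334914 103906247 0) 384 512 64 128 256 320)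
  (band (go 16 Gd mult S198_227_364_512 (Tr.lf 4304683586 108104646 0) 384 512 64 128 256 320)
  (go 16 Gd mult S227_256_216_364 (Tr.lf 4303626818 104041158 0) 384 512 64 128 256 320))) = true := by decide +kernel
  have c6 : (band (go 16 Gd mult S227_256_364_512 (Tr.lf 4303636546 108104390 0) 384 512 64 128 256 384)
  (band (go 16 Gd mult S227_256_512_660 (Tr.lf 4303627330 103774918 0) 384 512 64 128 256 384)
  (band (go 16 Gd mult S256_285_364_512 (Tr.lf 689185858 95521990 0) 384 512 64 128 256 384)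
  (band (go 16 Gd mult S227_256_660_808 (Tr.lf 8660033 104045508 0) 384 512 64 128 256 384)
  (band (go 16 Gd mult S285_314_216_364 (Tr.lf 9708609 108235845 0) 384 512 64 128 256 384)
  (band (go 16 Gd mult S285_314_364_512 (Tr.lf 9708609 108105028 0) 384 512 64 128 256 384)
  (go 16 Gd mult S256_285_216_364 (Tr.lf 8660002 104037572 0) 384 512 64 128 256 384))))))) = true := by decide +kernel
  have c7 : (go 16 Gd mult S198_212_216_290 (Tr.lf 9144910402 107711431 0) 384 512 96 128 320 352) = true := by decide +kernel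
  have c8 : (go 16 Gd mult S198_227_216_364 (Tr.lf 4313072162 103648326 0) 384 512 64 96 320 384) = true := by decide +kernel
  (And.intro (Ok.lf S198_227_216_364_ok (bl c5))
  (And.intro (Ok.s1 96 (Ok.lf S198_227_216_364_ok c8)
  (Ok.s4 290 (Ok.s3 212 (Ok.s2 352 (Ok.lf S198_212_216_290_ok c7)
  (Ok.lf S198_212_216_290_ok c0))
  (Ok.lf S212_227_216_290_ok (br c3)))
  (Ok.lf S198_227_290_364_ok (bl c3))))
  (And.intro (Ok.s2 320 (Ok.lf S227_256_216_364_ok (br (br c5)))
  (Ok.lf S227_256_216_364_ok c4))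
  (And.intro (Ok.s3 227 (Ok.s2 320 (Ok.lf S198_227_364_512_ok (bl (br c5)))
  (Ok.lf S198_227_364_512_ok c1))
  (Ok.lf S227_256_364_512_ok (bl c6)))
  (And.intro (Ok.s4 660 (Ok.s3 227 (Ok.lf S198_227_512_660_ok (bl c2))
  (Ok.lf S227_256_512_660_ok (bl (br c6))))
  (Ok.s3 227 (Ok.lf S198_227_660_808_ok (br c2))
  (Ok.lf S227_256_660_808_ok (bl (br (br (br c6)))))))
  (Ok.s4 364 (Ok.s3 285 (Ok.lf S256_285_216_364_ok (br (br (br (br (br (br c6)))))))
  (Ok.lf S285_314_216_364_ok (bl (br (br (br (br c6)))))))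
  (Ok.s3 285 (Ok.lf S256_285_364_512_ok (bl (br (br c6))))
  (Ok.lf S285_314_364_512_ok (bl (br (br (br (br (br c6))))))))))))))

end Vale.Agent.P098.Ck
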