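import Vale.Agent.P098.CkGd
import Vale.Agent.P098.CkOk
import Vale.Agent.P098.Sh.A42
import Vale.Agent.P098.Sh.A46
import Vale.Agent.P098.Sh.A47
import Vale.Agent.P098.Sh.A48
import Vale.Agent.P098.Sh.A49
import Vale.Agent.P098.Sh.A50
import Vale.Agent.P098.Sh.A51
import Vale.Agent.P098.Sh.A52
import Vale.Agent.P098.Sh.A53

namespace Vale.Agent.P098.Ck

theorem r658 :
    Ok Gd mult 384 512 64 128 256 384 256 314 512 808 ∧
    Ok Gd mult 384 512 64 128 256 384 314 372 216 808 :=
  have c0 : (band (go 16 Gd mult S343_372_660_808 (Tr.lf 1094222980 86739913 0) 384 512 64 128 256 320)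
  (band (go 16 Gd mult S314_328_660_808 (Tr.lf 4850983554 107846854 0) 384 512 64 128 256 320)
  (band (go 16 Gd mult S314_328_660_808 (Tr.lf 4850983458 103783622 0) 384 512 96 128 320 384)
  (go 16 Gd mult S343_357_660_734 (Tr.lf 4851909698 103783368 0) 384 512 96 128 320 384)))) = true := by decide +kernel
  have c1 : (band (go 16 Gd mult S314_343_512_660 (Tr.lf 4851009666 112164166 0) 384 512 64 128 256 384)
  (band (go 16 Gd mult S343_372_512_660 (Tr.lf 4851009666 107973703 0) 384 512 64 128 256 384)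
  (go 16 Gd mult S285_314_660_808 (Tr.lf 4304684098 95259590 0) 384 512 64 128 256 384))) = true := by decide +kernel
  have c2 : (band (go 16 Gd mult S328_343_660_808 (Tr.lf 1094206596 86744136 0) 384 512 64 128 256 320)
  (band (go 16 Gd mult S328_343_660_808 (Tr.lf 9692530756 103521480 0) 384 512 96 128 320 384)
  (go 16 Gd mult S357_372_660_808 (Tr.lf 9683878980 103644360 0) 384 512 96 128 320 384))) = true := by decide +kernel
  have c3 : (band (go 16 Gd mult S314_343_660_808 (Tr.lf 5389190212 103517256 0) 384 512 64 96 320 384)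
  (go 16 Gd mult S343_372_660_808 (Tr.lf 5388928068 103644232 0) 384 512 64 96 320 384)) = true := by decide +kernel
  have c4 : (go 16 Gd mult S343_357_734_808 (Tr.lf 9692268612 103521480 0) 384 512 96 128 320 384) = true := by decide +kernel
  have c5 : (band (go 16 Gd mult S285_314_512_660 (Tr.lf 9717826 104176836 0) 384 512 64 128 256 384)
  (band (go 16 Gd mult S343_372_364_512 (Tr.lf 4842603650 112167879 0) 384 512 64 128 256 384)
  (band (go 16 Gd mult S343_372_216_364 (Tr.lf 4842603586 103910343 0) 384 512 64 128 256 384)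
  (band (go 16 Gd mult S256_285_660_808 (Tr.lf 4303627330 103643846 0) 384 512 64 128 256 384)
  (band (go 16 Gd mult S314_343_364_512 (Tr.lf 9585730 108363076 0) 384 512 64 128 256 384)
  (go 16 Gd mult S256_285_512_660 (Tr.lf 4303496258 103770822 0) 384 512 64 128 256 384)))))) = true := by decide +kernel
  have c6 : (go 16 Gd mult S314_343_216_364 (Tr.lf 9577538 108105028 0) 384 512 64 128 256 384) = true := by decide +kernel
  (And.intro (Ok.s4 660 (Ok.s3 285 (Ok.lf S256_285_512_660_ok (br (br (br (br (br c5))))))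
  (Ok.lf S285_314_512_660_ok (bl c5)))
  (Ok.s3 285 (Ok.lf S256_285_660_808_ok (bl (br (br (br c5)))))
  (Ok.lf S285_314_660_808_ok (br (br c1)))))
  (Ok.s4 512 (Ok.s4 364 (Ok.s3 343 (Ok.lf S314_343_216_364_ok c6)
  (Ok.lf S343_372_216_364_ok (bl (br (br c5)))))
  (Ok.s3 343 (Ok.lf S314_343_364_512_ok (bl (br (br (br (br c5))))))
  (Ok.lf S343_372_364_512_ok (bl (br c5)))))
  (Ok.s4 660 (Ok.s3 343 (Ok.lf S314_343_512_660_ok (bl c1))
  (Ok.lf S343_372_512_660_ok (bl (br c1))))
  (Ok.s3 343 (Ok.s2 320 (Ok.s3 328 (Ok.lf S314_328_660_808_ok (bl (br c0)))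
  (Ok.lf S328_343_660_808_ok (bl c2)))
  (Ok.s1 96 (Ok.lf S314_343_660_808_ok (bl c3))
  (Ok.s3 328 (Ok.lf S314_328_660_808_ok (bl (br (br c0))))
  (Ok.lf S328_343_660_808_ok (bl (br c2))))))
  (Ok.s2 320 (Ok.lf S343_372_660_808_ok (bl c0))
  (Ok.s1 96 (Ok.lf S343_372_660_808_ok (br c3))
  (Ok.s3 357 (Ok.s4 734 (Ok.lf S343_357_660_734_ok (br (br (br c0))))
  (Ok.lf S343_357_734_808_ok c4))
  (Ok.lf S357_372_660_808_ok (br (br c2))))))))))

end Vale.Agent.P098.Ck
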