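import Vale.Agent.P098.CkGd
import Vale.Agent.P098.CkOk
import Vale.Agent.P098.Sh.A0
import Vale.Agent.P098.Sh.A1
import Vale.Agent.P098.Sh.A54
import Vale.Agent.P098.Sh.A56
import Vale.Agent.P098.Sh.A57
import Vale.Agent.P098.Sh.A58
import Vale.Agent.P098.Sh.A59

namespace Vale.Agent.P098.Ck

theorem r659 :
    Ok Gd mult 384 512 64 128 256 384 372 430 216 512 ∧
    Ok Gd mult 384 512 64 128 256 384 372 430 512 808 ∧
    Ok Gd mult 384 512 64 128 256 384 430 488 216 808 ∧
    Ok Gd mult 384 512 64 128 384 448 24 82 216 364 :=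
  have c0 : (band (go 16 Gd mult S53_82_216_364 (Tr.lf 9137457288 95116232 0) 384 512 96 128 384 448)
  (go 16 Gd mult S24_53_216_364 (Tr.lf 9665857672 107559880 0) 384 512 96 128 384 448)) = true := by decide +kernel
  have c1 : (band (go 16 Gd mult S372_401_660_808 (Tr.lf 4851009668 103783495 0) 384 512 64 128 256 384)
  (go 16 Gd mult S372_401_512_660 (Tr.lf 4842473604 103783367 0) 384 512 64 128 256 384)) = true := by decide +kernel
  have c2 : (band (go 16 Gd mult S401_430_660_808 (Tr.lf 4851009668 99712199 0) 384 512 64 128 256 384)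
  (go 16 Gd mult S372_401_216_364 (Tr.lf 4842473602 103783367 0) 384 512 64 128 256 384)) = true := by decide +kernel
  have c3 : (go 16 Gd mult S24_53_216_364 (Tr.lf 9666922632 107699399 0) 384 512 64 96 384 448) = true := by decide +kernel
  have c4 : (band (go 16 Gd mult S401_430_512_660 (Tr.lf 4850878596 99712199 0) 384 512 64 128 256 384)
  (go 16 Gd mult S430_488_216_364 (Tr.lf 4834101380 99711943 0) 384 512 64 128 256 384)) = true := by decide +kernel
  have c5 : (go 16 Gd mult S430_488_660_808 (Tr.lf 4850878596 103910471 0) 384 512 64 128 320 384) = true := by decide +kernel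
  have c6 : (band (go 16 Gd mult S430_488_512_660 (Tr.lf 4850878532 103906503 0) 384 512 96 128 256 384)
  (band (go 16 Gd mult S430_488_364_512 (Tr.lf 4834035778 99711943 0) 384 512 96 128 256 384)
  (band (go 16 Gd mult S430_488_364_512 (Tr.lf 547456034 99720262 0) 384 512 64 96 256 384)
  (go 16 Gd mult S430_488_512_660 (Tr.lf 547456034 99720262 0) 384 512 64 96 256 384)))) = true := by decide +kernel
  have c7 : (band (go 16 Gd mult S53_82_216_364 (Tr.lf 13969278088 103377736 0) 384 512 64 96 384 416)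
  (go 16 Gd mult S53_82_216_364 (Tr.lf 9675360388 111901895 0) 384 512 64 96 416 448)) = true := by decide +kernel
  have c8 : (band (go 16 Gd mult S401_430_216_364 (Tr.lf 4842473602 99720135 0) 384 512 64 128 256 384)
  (band (go 16 Gd mult S372_401_364_512 (Tr.lf 4842473602 103783367 0) 384 512 64 128 256 384)
  (go 16 Gd mult S401_430_364_512 (Tr.lf 4842473602 99720135 0) 384 512 64 128 256 384))) = true := by decide +kernel
  have c9 : (go 16 Gd mult S430_488_660_808 (Tr.lf 4834034242 99711943 0) 384 512 64 128 256 320) = true := by decide +kernel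
  (And.intro (Ok.s4 364 (Ok.s3 401 (Ok.lf S372_401_216_364_ok (br c2))
  (Ok.lf S401_430_216_364_ok (bl c8)))
  (Ok.s3 401 (Ok.lf S372_401_364_512_ok (bl (br c8)))
  (Ok.lf S401_430_364_512_ok (br (br c8)))))
  (And.intro (Ok.s4 660 (Ok.s3 401 (Ok.lf S372_401_512_660_ok (br c1))
  (Ok.lf S401_430_512_660_ok (bl c4)))
  (Ok.s3 401 (Ok.lf S372_401_660_808_ok (bl c1))
  (Ok.lf S401_430_660_808_ok (bl c2))))
  (And.intro (Ok.s4 512 (Ok.s4 364 (Ok.lf S430_488_216_364_ok (br c4))
  (Ok.s1 96 (Ok.lf S430_488_364_512_ok (bl (br (br c6))))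
  (Ok.lf S430_488_364_512_ok (bl (br c6)))))
  (Ok.s4 660 (Ok.s1 96 (Ok.lf S430_488_512_660_ok (br (br (br c6))))
  (Ok.lf S430_488_512_660_ok (bl c6)))
  (Ok.s2 320 (Ok.lf S430_488_660_808_ok c9)
  (Ok.lf S430_488_660_808_ok c5))))
  (Ok.s3 53 (Ok.s1 96 (Ok.lf S24_53_216_364_ok c3)
  (Ok.lf S24_53_216_364_ok (br c0)))
  (Ok.s1 96 (Ok.s2 416 (Ok.lf S53_82_216_364_ok (bl c7))
  (Ok.lf S53_82_216_364_ok (br c7)))
  (Ok.lf S53_82_216_364_ok (bl c0)))))))

end Vale.Agent.P098.Ck
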