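import Vale.Agent.P098.CkGd
import Vale.Agent.P098.CkOk
import Vale.Agent.P098.Sh.A0
import Vale.Agent.P098.Sh.A44
import Vale.Agent.P098.Sh.A49
import Vale.Agent.P098.Sh.A50
import Vale.Agent.P098.Sh.A54
import Vale.Agent.P098.Sh.A55
import Vale.Agent.P098.Sh.A57
import Vale.Agent.P098.Sh.A58
import Vale.Agent.P098.Sh.A59

namespace Vale.Agent.P098.Ck

theorem r66 :
    Ok Gd mult 0 128 128 192 256 384 256 314 512 808 ∧
    Ok Gd mult 0 128 128 192 256 384 314 372 216 808 ∧
    Ok Gd mult 0 128 128 192 256 384 372 488 216 808 ∧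
    Ok Gd mult 0 128 128 160 384 512 24 82 216 364 :=
  have c0 : (band (go 16 Gd mult S372_430_216_364 (Tr.lf 4834232452 99703879 0) 0 128 128 192 256 384)
  (go 16 Gd mult S401_430_660_808 (Tr.lf 4834084996 99711943 0) 0 128 128 192 256 384)) = true := by decide +kernel
  have c1 : (band (go 16 Gd mult S372_430_364_512 (Tr.lf 4834232452 99703879 0) 0 128 128 192 256 384)
  (go 16 Gd mult S256_314_512_660 (Tr.lf 4303651908 103775046 0) 0 128 128 192 256 384)) = true := by decide +kernel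
  have c2 : (band (go 16 Gd mult S430_488_216_364 (Tr.lf 4834035848 91323590 0) 0 128 128 192 256 384)
  (go 16 Gd mult S430_488_364_512 (Tr.lf 4834035848 95517894 0) 0 128 128 192 256 384)) = true := by decide +kernel
  have c3 : (band (go 16 Gd mult S430_488_512_660 (Tr.lf 4834035848 95517639 0) 0 128 128 192 256 384)
  (go 16 Gd mult S430_488_660_808 (Tr.lf 4834035848 91323335 0) 0 128 128 192 256 384)) = true := by decide +kernel
  have c4 : (band (go 16 Gd mult S314_372_364_512 (Tr.lf 1214596 108362821 0) 0 128 128 192 256 384)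
  (band (go 16 Gd mult S314_372_512_660 (Tr.lf 1214596 108231749 0) 0 128 128 192 256 384)
  (go 16 Gd mult S372_401_512_660 (Tr.lf 4834018436 99703879 0) 0 128 128 192 256 384))) = true := by decide +kernel
  have c5 : (band (go 16 Gd mult S256_314_660_808 (Tr.lf 4303652932 103779014 0) 0 128 128 192 256 384)
  (band (go 16 Gd mult S314_372_216_364 (Tr.lf 1329284 108104773 0) 0 128 128 192 256 384)
  (go 16 Gd mult S401_430_512_660 (Tr.lf 4834019460 99711943 0) 0 128 128 192 256 384))) = true := by decide +kernel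
  have c6 : (band (go 16 Gd mult S314_372_660_808 (Tr.lf 9733252 108231877 0) 0 128 128 192 256 384)
  (go 16 Gd mult S372_401_660_808 (Tr.lf 4834083972 103898183 0) 0 128 128 192 256 384)) = true := by decide +kernel
  have c7 : (band (go 16 Gd mult S24_82_216_364 (Tr.lf 9137391684 99318727 0) 0 128 128 160 384 448)
  (band (go 16 Gd mult S24_82_216_364 (Tr.lf 9137390664 99585094 39254671388853925838848) 0 128 128 160 448 480)
  (go 16 Gd mult S24_82_216_364 (Tr.lf 9137390660 103648326 2347858125172714069980872704) 0 128 128 160 480 512))) = true := by decide +kernel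
  (And.intro (Ok.s4 660 (Ok.lf S256_314_512_660_ok (br c1))
  (Ok.lf S256_314_660_808_ok (bl c5)))
  (And.intro (Ok.s4 512 (Ok.s4 364 (Ok.lf S314_372_216_364_ok (bl (br c5)))
  (Ok.lf S314_372_364_512_ok (bl c4)))
  (Ok.s4 660 (Ok.lf S314_372_512_660_ok (bl (br c4)))
  (Ok.lf S314_372_660_808_ok (bl c6))))
  (And.intro (Ok.s3 430 (Ok.s4 512 (Ok.s4 364 (Ok.lf S372_430_216_364_ok (bl c0))
  (Ok.lf S372_430_364_512_ok (bl c1)))
  (Ok.s4 660 (Ok.s3 401 (Ok.lf S372_401_512_660_ok (br (br c4)))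
  (Ok.lf S401_430_512_660_ok (br (br c5))))
  (Ok.s3 401 (Ok.lf S372_401_660_808_ok (br c6))
  (Ok.lf S401_430_660_808_ok (br c0)))))
  (Ok.s4 512 (Ok.s4 364 (Ok.lf S430_488_216_364_ok (bl c2))
  (Ok.lf S430_488_364_512_ok (br c2)))
  (Ok.s4 660 (Ok.lf S430_488_512_660_ok (bl c3))
  (Ok.lf S430_488_660_808_ok (br c3)))))
  (Ok.s2 448 (Ok.lf S24_82_216_364_ok (bl c7))
  (Ok.s2 480 (Ok.lf S24_82_216_364_ok (bl (br c7)))
  (Ok.lf S24_82_216_364_ok (br (br c7))))))))

end Vale.Agent.P098.Ck
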