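import Vale.Agent.P098.CkGd
import Vale.Agent.P098.CkOk
import Vale.Agent.P098.Sh.A0
import Vale.Agent.P098.Sh.A1
import Vale.Agent.P098.Sh.A2
import Vale.Agent.P098.Sh.A4

namespace Vale.Agent.P098.Ck

theorem r661 :
    Ok Gd mult 384 512 96 128 384 512 24 82 512 660 ∧
    Ok Gd mult 384 512 64 128 384 512 24 82 660 808 ∧
    Ok Gd mult 384 512 64 96 384 448 82 111 216 364 ∧
    Ok Gd mult 384 512 64 96 384 448 111 125 216 364 :=
  have c0 : (go 16 Gd mult S53_82_660_808 (Tr.lf 9674328200 111901639 0) 384 512 64 96 384 448) = true := by decide +kernel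
  have c1 : (band (go 16 Gd mult S24_82_660_808 (Tr.lf 9666988168 103369800 0) 384 512 64 96 448 480)
  (go 16 Gd mult S24_82_660_808 (Tr.lf 540181572 103775175 234993072754986039508992) 384 512 64 96 480 512)) = true := by decide +kernel
  have c2 : (go 16 Gd mult S82_111_216_364 (Tr.lf 13978863688 107580488 0) 384 512 80 96 384 416) = true := by decide +kernel
  have c3 : (go 16 Gd mult S82_111_216_364 (Tr.lf 13978862728 103521479 0) 384 512 64 80 416 432) = true := by decide +kernel
  have c4 : (go 16 Gd mult S82_111_216_364 (Tr.lf 13978862728 103386184 0) 384 512 64 80 432 448) = true := by decide +kernel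
  have c5 : (go 16 Gd mult S111_125_216_364 (Tr.lf 13978863748 99322952 0) 384 448 64 96 416 448) = true := by decide +kernel
  have c6 : (go 16 Gd mult S24_53_660_808 (Tr.lf 9666922632 107699399 0) 384 512 64 96 384 448) = true := by decide +kernel
  have c7 : (band (go 16 Gd mult S53_82_512_660 (Tr.lf 9674311816 103504840 0) 384 512 96 128 384 448)
  (go 16 Gd mult S53_82_660_808 (Tr.lf 9674311816 103504840 0) 384 512 96 128 384 448)) = true := by decide +kernel
  have c8 : (band (go 16 Gd mult S82_111_216_364 (Tr.lf 13978862664 103251144 0) 384 512 80 96 416 432)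
  (go 16 Gd mult S82_111_216_364 (Tr.lf 13978862664 94993608 0) 384 512 80 96 432 448)) = true := by decide +kernel
  have c9 : (band (go 16 Gd mult S111_125_216_364 (Tr.lf 13978847364 98925768 0) 384 448 64 96 384 416)
  (go 16 Gd mult S111_125_216_364 (Tr.lf 9145960580 95263942 0) 448 512 64 96 384 448)) = true := by decide +kernel
  have c10 : (band (go 16 Gd mult S24_53_512_660 (Tr.lf 9665857672 107559880 0) 384 512 96 128 384 448)
  (go 16 Gd mult S24_53_660_808 (Tr.lf 9665857672 107559880 0) 384 512 96 128 384 448)) = true := by decide +kernel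
  have c11 : (go 16 Gd mult S82_111_216_364 (Tr.lf 9137456200 95251654 0) 384 512 64 80 384 416) = true := by decide +kernel
  have c12 : (band (go 16 Gd mult S24_82_512_660 (Tr.lf 4834018338 103369799 0) 384 512 96 128 448 512)
  (go 16 Gd mult S24_82_660_808 (Tr.lf 4834018338 103369799 0) 384 512 96 128 448 512)) = true := by decide +kernel
  (And.intro (Ok.s2 448 (Ok.s3 53 (Ok.lf S24_53_512_660_ok (bl c10))
  (Ok.lf S53_82_512_660_ok (bl c7)))
  (Ok.lf S24_82_512_660_ok (bl c12)))
  (And.intro (Ok.s2 448 (Ok.s1 96 (Ok.s3 53 (Ok.lf S24_53_660_808_ok c6)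
  (Ok.lf S53_82_660_808_ok c0))
  (Ok.s3 53 (Ok.lf S24_53_660_808_ok (br c10))
  (Ok.lf S53_82_660_808_ok (br c7))))
  (Ok.s1 96 (Ok.s2 480 (Ok.lf S24_82_660_808_ok (bl c1))
  (Ok.lf S24_82_660_808_ok (br c1)))
  (Ok.lf S24_82_660_808_ok (br c12))))
  (And.intro (Ok.s2 416 (Ok.s1 80 (Ok.lf S82_111_216_364_ok c11)
  (Ok.lf S82_111_216_364_ok c2))
  (Ok.s1 80 (Ok.s2 432 (Ok.lf S82_111_216_364_ok c3)
  (Ok.lf S82_111_216_364_ok c4))
  (Ok.s2 432 (Ok.lf S82_111_216_364_ok (bl c8))
  (Ok.lf S82_111_216_364_ok (br c8)))))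
  (Ok.s0 448 (Ok.s2 416 (Ok.lf S111_125_216_364_ok (bl c9))
  (Ok.lf S111_125_216_364_ok c5))
  (Ok.lf S111_125_216_364_ok (br c9))))))

end Vale.Agent.P098.Ck
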