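import Vale.Agent.P098.CkGd
import Vale.Agent.P098.CkOk
import Vale.Agent.P098.Sh.A2
import Vale.Agent.P098.Sh.A3
import Vale.Agent.P098.Sh.A4
import Vale.Agent.P098.Sh.A5
import Vale.Agent.P098.Sh.A6

namespace Vale.Agent.P098.Ck

theorem r664 :
    Ok Gd mult 384 512 96 128 384 448 111 140 364 512 ∧
    Ok Gd mult 384 512 64 128 448 512 82 140 364 512 ∧
    Ok Gd mult 384 512 64 96 384 448 82 140 512 660 ∧
    Ok Gd mult 384 512 96 128 384 448 82 111 512 660 :=
  have c0 : (go 16 Gd mult S82_111_512_660 (Tr.lf 13440813192 86604489 0) 384 512 64 96 416 448) = true := by decide +kernel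
  have c1 : (go 16 Gd mult S82_111_512_660 (Tr.lf 13978732680 103119945 0) 384 512 96 128 384 416) = true := by decide +kernel
  have c2 : (go 16 Gd mult S111_140_364_512 (Tr.lf 13987252356 98929737 0) 384 448 64 96 448 480) = true := by decide +kernel
  have c3 : (go 16 Gd mult S111_140_512_660 (Tr.lf 13440943240 90667976 0) 384 512 64 96 384 416) = true := by decide +kernel
  have c4 : (band (go 16 Gd mult S111_125_364_512 (Tr.lf 13978716296 94854345 0) 384 512 96 128 416 448)
  (go 16 Gd mult S82_111_512_660 (Tr.lf 13440796808 86465481 0) 384 512 96 128 416 448)) = true := by decide +kernel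
  have c5 : (go 16 Gd mult S82_111_364_512 (Tr.lf 13977683080 98921289 0) 384 512 64 96 448 464) = true := by decide +kernel
  have c6 : (go 16 Gd mult S111_140_364_512 (Tr.lf 9145976962 95128647 0) 448 512 64 96 448 480) = true := by decide +kernel
  have c7 : (go 16 Gd mult S82_111_512_660 (Tr.lf 13440812168 99183560 0) 384 512 64 96 384 416) = true := by decide +kernel
  have c8 : (go 16 Gd mult S111_125_364_512 (Tr.lf 13978846344 103378248 0) 384 512 96 128 384 416) = true := by decide +kernel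
  have c9 : (band (go 16 Gd mult S125_140_364_512 (Tr.lf 13978847364 94989385 0) 384 448 96 128 384 448)
  (go 16 Gd mult S125_140_364_512 (Tr.lf 9145960514 95132743 0) 448 512 96 128 384 448)) = true := by decide +kernel
  have c10 : (band (go 16 Gd mult S111_140_512_660 (Tr.lf 8599668804 95259717 0) 384 512 64 80 416 448)
  (go 16 Gd mult S111_140_512_660 (Tr.lf 13440944196 86604744 0) 384 512 80 96 416 448)) = true := by decide +kernel
  have c11 : (band (go 16 Gd mult S111_140_364_512 (Tr.lf 4850862212 103517255 0) 384 512 64 128 480 512)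
  (band (go 16 Gd mult S82_111_364_512 (Tr.lf 547439748 112168006 52278072720758478471168) 384 512 64 128 480 512)
  (band (go 16 Gd mult S111_140_364_512 (Tr.lf 9145828420 94866376 0) 384 512 96 128 448 480)
  (go 16 Gd mult S82_111_364_512 (Tr.lf 4841350178 99322822 0) 384 512 96 128 448 480)))) = true := by decide +kernel
  have c12 : (go 16 Gd mult S82_111_364_512 (Tr.lf 9145827908 90934088 0) 384 512 64 96 464 480) = true := by decide +kernel
  (And.intro (Ok.s3 125 (Ok.s2 416 (Ok.lf S111_125_364_512_ok c8)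
  (Ok.lf S111_125_364_512_ok (bl c4)))
  (Ok.s0 448 (Ok.lf S125_140_364_512_ok (bl c9))
  (Ok.lf S125_140_364_512_ok (br c9))))
  (And.intro (Ok.s3 111 (Ok.s2 480 (Ok.s1 96 (Ok.s2 464 (Ok.lf S82_111_364_512_ok c5)
  (Ok.lf S82_111_364_512_ok c12))
  (Ok.lf S82_111_364_512_ok (br (br (br c11)))))
  (Ok.lf S82_111_364_512_ok (bl (br c11))))
  (Ok.s2 480 (Ok.s1 96 (Ok.s0 448 (Ok.lf S111_140_364_512_ok c2)
  (Ok.lf S111_140_364_512_ok c6))
  (Ok.lf S111_140_364_512_ok (bl (br (br c11)))))
  (Ok.lf S111_140_364_512_ok (bl c11))))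
  (And.intro (Ok.s3 111 (Ok.s2 416 (Ok.lf S82_111_512_660_ok c7)
  (Ok.lf S82_111_512_660_ok c0))
  (Ok.s2 416 (Ok.lf S111_140_512_660_ok c3)
  (Ok.s1 80 (Ok.lf S111_140_512_660_ok (bl c10))
  (Ok.lf S111_140_512_660_ok (br c10)))))
  (Ok.s2 416 (Ok.lf S82_111_512_660_ok c1)
  (Ok.lf S82_111_512_660_ok (br c4))))))

end Vale.Agent.P098.Ck
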