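import Vale.Agent.P098.CkGd
import Vale.Agent.P098.CkOk
import Vale.Agent.P098.Sh.A3
import Vale.Agent.P098.Sh.A5
import Vale.Agent.P098.Sh.A6

namespace Vale.Agent.P098.Ck

theorem r665 :
    Ok Gd mult 384 512 96 128 384 448 111 140 512 660 ∧
    Ok Gd mult 384 512 64 128 448 512 82 140 512 660 ∧
    Ok Gd mult 384 512 64 128 384 448 82 140 660 808 :=
  have c0 : (band (go 16 Gd mult S111_140_660_808 (Tr.lf 13440943240 90667976 0) 384 512 64 96 384 416)
  (go 16 Gd mult S82_111_660_808 (Tr.lf 13432407176 94989128 0) 384 512 64 96 384 416)) = true := by decide +kernel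
  have c1 : (go 16 Gd mult S111_140_660_808 (Tr.lf 13440927880 86604744 0) 384 512 64 96 416 448) = true := by decide +kernel
  have c2 : (go 16 Gd mult S82_111_660_808 (Tr.lf 13978862728 103119945 0) 384 512 96 128 384 416) = true := by decide +kernel
  have c3 : (go 16 Gd mult S111_140_660_808 (Tr.lf 13978862728 103378248 0) 384 512 96 128 384 416) = true := by decide +kernel
  have c4 : (band (go 16 Gd mult S111_140_660_808 (Tr.lf 13440927880 86473545 0) 384 512 96 128 416 448)
  (go 16 Gd mult S82_111_660_808 (Tr.lf 13440795784 86465481 0) 384 512 96 128 416 448)) = true := by decide +kernel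
  have c5 : (go 16 Gd mult S82_111_660_808 (Tr.lf 13440796808 86604489 0) 384 512 64 96 416 448) = true := by decide +kernel
  have c6 : (band (go 16 Gd mult S111_140_512_660 (Tr.lf 13978862664 103382216 0) 384 512 96 112 384 416)
  (band (go 16 Gd mult S111_140_512_660 (Tr.lf 13978862664 103378248 0) 384 512 112 128 384 416)
  (go 16 Gd mult S111_140_512_660 (Tr.lf 13440943140 86473545 0) 384 512 112 128 416 448))) = true := by decide +kernel
  have c7 : (band (go 16 Gd mult S111_140_512_660 (Tr.lf 13978863684 99052617 0) 384 512 96 112 416 448)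
  (go 16 Gd mult S111_140_512_660 (Tr.lf 8599668804 86600519 0) 384 512 64 80 448 480)) = true := by decide +kernel
  have c8 : (go 16 Gd mult S111_140_512_660 (Tr.lf 8599668804 86731591 0) 384 512 80 96 448 480) = true := by decide +kernel
  have c9 : (go 16 Gd mult S82_111_512_660 (Tr.lf 13432408196 82266698 0) 384 512 64 96 448 480) = true := by decide +kernel
  have c10 : (band (go 16 Gd mult S111_140_512_660 (Tr.lf 4850861188 103517255 0) 384 512 64 128 480 512)
  (band (go 16 Gd mult S82_111_512_660 (Tr.lf 547439748 112168006 50839226679109303140352) 384 512 64 128 480 512)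
  (band (go 16 Gd mult S111_140_512_660 (Tr.lf 9145828388 94866376 0) 384 512 96 128 448 480)
  (go 16 Gd mult S82_111_512_660 (Tr.lf 4841349666 99322822 0) 384 512 96 128 448 480)))) = true := by decide +kernel
  (And.intro (Ok.s2 416 (Ok.s1 112 (Ok.lf S111_140_512_660_ok (bl c6))
  (Ok.lf S111_140_512_660_ok (bl (br c6))))
  (Ok.s1 112 (Ok.lf S111_140_512_660_ok (bl c7))
  (Ok.lf S111_140_512_660_ok (br (br c6)))))
  (And.intro (Ok.s2 480 (Ok.s1 96 (Ok.s3 111 (Ok.lf S82_111_512_660_ok c9)
  (Ok.s1 80 (Ok.lf S111_140_512_660_ok (br c7))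
  (Ok.lf S111_140_512_660_ok c8)))
  (Ok.s3 111 (Ok.lf S82_111_512_660_ok (br (br (br c10))))
  (Ok.lf S111_140_512_660_ok (bl (br (br c10))))))
  (Ok.s3 111 (Ok.lf S82_111_512_660_ok (bl (br c10)))
  (Ok.lf S111_140_512_660_ok (bl c10))))
  (Ok.s1 96 (Ok.s3 111 (Ok.s2 416 (Ok.lf S82_111_660_808_ok (br c0))
  (Ok.lf S82_111_660_808_ok c5))
  (Ok.s2 416 (Ok.lf S111_140_660_808_ok (bl c0))
  (Ok.lf S111_140_660_808_ok c1)))
  (Ok.s3 111 (Ok.s2 416 (Ok.lf S82_111_660_808_ok c2)
  (Ok.lf S82_111_660_808_ok (br c4)))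
  (Ok.s2 416 (Ok.lf S111_140_660_808_ok c3)
  (Ok.lf S111_140_660_808_ok (bl c4)))))))

end Vale.Agent.P098.Ck
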