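import Vale.Agent.P098.CkGd
import Vale.Agent.P098.CkOk
import Vale.Agent.P098.Sh.A12
import Vale.Agent.P098.Sh.A14
import Vale.Agent.P098.Sh.A15
import Vale.Agent.P098.Sh.A3
import Vale.Agent.P098.Sh.A4
import Vale.Agent.P098.Sh.A6
import Vale.Agent.P098.Sh.A7

namespace Vale.Agent.P098.Ck

theorem r666 :
    Ok Gd mult 384 512 64 128 448 512 82 140 660 808 ∧
    Ok Gd mult 384 512 64 128 384 448 140 169 216 364 ∧
    Ok Gd mult 384 512 64 96 384 448 169 183 216 364 :=
  have c0 : (band (go 16 Gd mult S140_154_216_364 (Tr.lf 13987497096 107449672 0) 384 512 96 128 384 416)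
  (go 16 Gd mult S140_154_216_364 (Tr.lf 13450626178 95128776 0) 448 512 64 96 416 448)) = true := by decide +kernel
  have c1 : (go 16 Gd mult S140_154_216_364 (Tr.lf 13987498116 103128137 0) 384 512 96 128 416 448) = true := by decide +kernel
  have c2 : (go 16 Gd mult S154_169_216_364 (Tr.lf 13987498116 99191881 0) 384 512 96 128 416 448) = true := by decide +kernel
  have c3 : (go 16 Gd mult S169_183_216_290 (Tr.lf 13450365064 94862409 0) 384 512 64 96 416 448) = true := by decide +kernel
  have c4 : (go 16 Gd mult S169_183_290_364 (Tr.lf 9145960584 103513159 0) 384 512 64 96 416 448) = true := by decide +kernel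
  have c5 : (band (go 16 Gd mult S111_140_660_808 (Tr.lf 9145960580 95128647 0) 384 512 64 96 448 480)
  (go 16 Gd mult S82_111_660_808 (Tr.lf 9137440900 90925896 0) 384 512 64 96 448 480)) = true := by decide +kernel
  have c6 : (band (go 16 Gd mult S140_154_216_364 (Tr.lf 13987235972 103386312 0) 384 448 64 96 416 448)
  (band (go 16 Gd mult S140_154_216_364 (Tr.lf 9145959556 99318855 0) 384 512 64 96 384 416)
  (go 16 Gd mult S154_169_216_364 (Tr.lf 9154348164 103254984 0) 384 512 64 96 384 416))) = true := by decide +kernel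
  have c7 : (band (go 16 Gd mult S154_169_216_364 (Tr.lf 13450627140 86473801 0) 384 512 64 80 416 448)
  (go 16 Gd mult S154_169_216_364 (Tr.lf 9146222660 107842758 0) 384 512 80 96 416 448)) = true := by decide +kernel
  have c8 : (band (go 16 Gd mult S154_169_216_290 (Tr.lf 13987234952 103513416 0) 384 512 96 128 384 416)
  (go 16 Gd mult S154_169_290_364 (Tr.lf 13987234952 103513416 0) 384 512 96 128 384 416)) = true := by decide +kernel
  have c9 : (go 16 Gd mult S169_183_216_364 (Tr.lf 9154610308 103386056 0) 384 512 64 96 384 416) = true := by decide +kernel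
  have c10 : (go 16 Gd mult S82_140_660_808 (Tr.lf 9137587268 94858184 0) 384 512 96 128 448 480) = true := by decide +kernel
  have c11 : (band (go 16 Gd mult S111_140_660_808 (Tr.lf 4842472580 103509063 0) 384 512 64 128 480 512)
  (go 16 Gd mult S82_111_660_808 (Tr.lf 547497090 107973702 49418827383273299116032) 384 512 64 128 480 512)) = true := by decide +kernel
  (And.intro (Ok.s2 480 (Ok.s1 96 (Ok.s3 111 (Ok.lf S82_111_660_808_ok (br c5))
  (Ok.lf S111_140_660_808_ok (bl c5)))
  (Ok.lf S82_140_660_808_ok c10))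
  (Ok.s3 111 (Ok.lf S82_111_660_808_ok (br c11))
  (Ok.lf S111_140_660_808_ok (bl c11))))
  (And.intro (Ok.s1 96 (Ok.s2 416 (Ok.s3 154 (Ok.lf S140_154_216_364_ok (bl (br c6)))
  (Ok.lf S154_169_216_364_ok (br (br c6))))
  (Ok.s3 154 (Ok.s0 448 (Ok.lf S140_154_216_364_ok (bl c6))
  (Ok.lf S140_154_216_364_ok (br c0)))
  (Ok.s1 80 (Ok.lf S154_169_216_364_ok (bl c7))
  (Ok.lf S154_169_216_364_ok (br c7)))))
  (Ok.s2 416 (Ok.s3 154 (Ok.lf S140_154_216_364_ok (bl c0))
  (Ok.s4 290 (Ok.lf S154_169_216_290_ok (bl c8))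
  (Ok.lf S154_169_290_364_ok (br c8))))
  (Ok.s3 154 (Ok.lf S140_154_216_364_ok c1)
  (Ok.lf S154_169_216_364_ok c2))))
  (Ok.s2 416 (Ok.lf S169_183_216_364_ok c9)
  (Ok.s4 290 (Ok.lf S169_183_216_290_ok c3)
  (Ok.lf S169_183_290_364_ok c4)))))

end Vale.Agent.P098.Ck
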