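import Vale.Agent.P098.CkGd
import Vale.Agent.P098.CkOk
import Vale.Agent.P098.Sh.A12
import Vale.Agent.P098.Sh.A14
import Vale.Agent.P098.Sh.A15
import Vale.Agent.P098.Sh.A20
import Vale.Agent.P098.Sh.A21
import Vale.Agent.P098.Sh.A7

namespace Vale.Agent.P098.Ck

theorem r667 :
    Ok Gd mult 384 512 96 128 384 448 169 183 216 364 ∧
    Ok Gd mult 384 512 64 128 384 448 183 198 216 364 ∧
    Ok Gd mult 384 512 64 128 448 480 140 169 216 364 :=
  have c0 : (go 16 Gd mult S169_183_216_290 (Tr.lf 13987251336 103513161 0) 384 512 96 128 384 416) = true := by decide +kernel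
  have c1 : (go 16 Gd mult S169_183_216_290 (Tr.lf 13450365064 90803273 0) 384 512 96 128 416 448) = true := by decide +kernel
  have c2 : (go 16 Gd mult S183_198_216_290 (Tr.lf 13450381444 94735433 0) 384 512 64 96 416 448) = true := by decide +kernel
  have c3 : (go 16 Gd mult S183_198_290_364 (Tr.lf 13987252356 103124041 0) 384 512 64 96 416 448) = true := by decide +kernel
  have c4 : (go 16 Gd mult S183_198_216_290 (Tr.lf 13449593988 94997321 0) 384 512 96 128 384 416) = true := by decide +kernel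
  have c5 : (go 16 Gd mult S183_198_290_364 (Tr.lf 13987252356 99191881 0) 384 512 96 128 416 448) = true := by decide +kernel
  have c6 : (go 16 Gd mult S140_154_216_364 (Tr.lf 13987498056 99056713 0) 384 512 64 80 448 480) = true := by decide +kernel
  have c7 : (go 16 Gd mult S154_169_216_364 (Tr.lf 9146221704 95255878 0) 384 512 64 96 448 464) = true := by decide +kernel
  have c8 : (go 16 Gd mult S154_169_216_364 (Tr.lf 9146221704 99191879 0) 384 512 64 96 464 480) = true := by decide +kernel
  have c9 : (band (go 16 Gd mult S154_169_216_364 (Tr.lf 9146222724 95124424 0) 384 512 96 128 448 480)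
  (go 16 Gd mult S140_154_216_364 (Tr.lf 9145959492 94866376 0) 384 512 96 128 448 480)) = true := by decide +kernel
  have c10 : (band (go 16 Gd mult S169_183_290_364 (Tr.lf 13987234952 103513161 0) 384 512 96 128 384 416)
  (go 16 Gd mult S183_198_290_364 (Tr.lf 13986202756 103385929 0) 384 512 96 128 384 416)) = true := by decide +kernel
  have c11 : (go 16 Gd mult S169_183_290_364 (Tr.lf 13987235972 99191881 0) 384 512 96 128 416 448) = true := by decide +kernel
  have c12 : (band (go 16 Gd mult S183_198_216_290 (Tr.lf 13450381380 94993481 0) 384 512 96 112 416 448)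
  (go 16 Gd mult S183_198_216_290 (Tr.lf 13986203716 99191625 0) 384 512 112 128 416 448)) = true := by decide +kernel
  have c13 : (go 16 Gd mult S140_154_216_364 (Tr.lf 13987498052 90672201 0) 384 512 80 96 448 480) = true := by decide +kernel
  have c14 : (go 16 Gd mult S183_198_216_364 (Tr.lf 9154610244 103517128 0) 384 512 64 96 384 416) = true := by decide +kernel
  (And.intro (Ok.s2 416 (Ok.s4 290 (Ok.lf S169_183_216_290_ok c0)
  (Ok.lf S169_183_290_364_ok (bl c10)))
  (Ok.s4 290 (Ok.lf S169_183_216_290_ok c1)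
  (Ok.lf S169_183_290_364_ok c11)))
  (And.intro (Ok.s1 96 (Ok.s2 416 (Ok.lf S183_198_216_364_ok c14)
  (Ok.s4 290 (Ok.lf S183_198_216_290_ok c2)
  (Ok.lf S183_198_290_364_ok c3)))
  (Ok.s4 290 (Ok.s2 416 (Ok.lf S183_198_216_290_ok c4)
  (Ok.s1 112 (Ok.lf S183_198_216_290_ok (bl c12))
  (Ok.lf S183_198_216_290_ok (br c12))))
  (Ok.s2 416 (Ok.lf S183_198_290_364_ok (br c10))
  (Ok.lf S183_198_290_364_ok c5))))
  (Ok.s1 96 (Ok.s3 154 (Ok.s1 80 (Ok.lf S140_154_216_364_ok c6)
  (Ok.lf S140_154_216_364_ok c13))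
  (Ok.s2 464 (Ok.lf S154_169_216_364_ok c7)
  (Ok.lf S154_169_216_364_ok c8)))
  (Ok.s3 154 (Ok.lf S140_154_216_364_ok (br c9))
  (Ok.lf S154_169_216_364_ok (bl c9))))))

end Vale.Agent.P098.Ck
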