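import Vale.Agent.P098.CkGd
import Vale.Agent.P098.CkOk
import Vale.Agent.P098.Sh.A12
import Vale.Agent.P098.Sh.A14
import Vale.Agent.P098.Sh.A17
import Vale.Agent.P098.Sh.A20
import Vale.Agent.P098.Sh.A7
import Vale.Agent.P098.Sh.A8
import Vale.Agent.P098.Sh.A9

namespace Vale.Agent.P098.Ck

theorem r669 :
    Ok Gd mult 384 512 64 128 504 508 140 198 216 364 ∧
    Ok Gd mult 384 512 64 128 508 512 140 198 216 364 ∧
    Ok Gd mult 384 512 64 128 384 448 140 169 364 512 :=
  have c0 : (go 16 Gd mult S140_169_364_512 (Tr.lf 9146238084 103255111 0) 384 512 64 96 384 416) = true := by decide +kernel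
  have c1 : (go 16 Gd mult S154_169_364_512 (Tr.lf 13987497096 107707720 0) 384 512 96 128 384 416) = true := by decide +kernel
  have c2 : (go 16 Gd mult S154_169_364_512 (Tr.lf 9146222724 103390279 0) 384 512 96 128 416 448) = true := by decide +kernel
  have c3 : (band (go 16 Gd mult S140_154_364_512 (Tr.lf 13987235912 103128264 0) 384 512 64 80 416 448)
  (band (go 16 Gd mult S154_169_364_512 (Tr.lf 8608041028 90938310 0) 384 512 64 80 416 448)
  (go 16 Gd mult S140_154_364_512 (Tr.lf 9145960516 103521478 0) 384 512 80 96 416 448))) = true := by decide +kernel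
  have c4 : (go 16 Gd mult S154_169_364_512 (Tr.lf 9146222660 103779526 0) 384 512 80 96 416 448) = true := by decide +kernel
  have c5 : (band (go 16 Gd mult S140_154_364_512 (Tr.lf 9145959560 107711814 0) 384 512 96 128 384 416)
  (go 16 Gd mult S140_154_364_512 (Tr.lf 9145960580 103390279 0) 384 512 96 128 416 448)) = true := by decide +kernel
  have c6 : (band (go 16 Gd mult S169_183_216_364 (Tr.lf 1161331076 103914440 0) 384 512 64 128 508 510)
  (band (go 16 Gd mult S183_198_216_364 (Tr.lf 1161314692 103648328 0) 384 512 64 128 508 510)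
  (band (go 16 Gd mult S140_169_216_364 (Tr.lf 1160020354 99585095 0) 384 512 64 128 508 510)
  (go 16 Gd mult S183_198_216_364 (Tr.lf 1161314692 103648328 941750760384559650948252760) 384 512 64 128 510 512)))) = true := by decide +kernel
  have c7 : (band (go 16 Gd mult S169_183_216_364 (Tr.lf 1161314692 108108744 1206472724378153025668184) 384 512 64 128 510 512)
  (go 16 Gd mult S140_169_216_364 (Tr.lf 1160020354 99585095 1203816128646374941851821) 384 512 64 128 510 512)) = true := by decide +kernel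
  have c8 : (band (go 16 Gd mult S169_198_216_364 (Tr.lf 1161331010 99589064 0) 384 512 64 96 504 508)
  (band (go 16 Gd mult S140_169_216_364 (Tr.lf 1160003874 99847111 0) 384 512 64 96 504 508)
  (band (go 16 Gd mult S169_198_216_364 (Tr.lf 1093173538 103386183 0) 384 512 96 128 504 508)
  (go 16 Gd mult S140_169_216_364 (Tr.lf 1160921378 99585096 0) 384 512 96 128 504 508)))) = true := by decide +kernel
  (And.intro (Ok.s1 96 (Ok.s3 169 (Ok.lf S140_169_216_364_ok (bl (br c8)))
  (Ok.lf S169_198_216_364_ok (bl c8)))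
  (Ok.s3 169 (Ok.lf S140_169_216_364_ok (br (br (br c8))))
  (Ok.lf S169_198_216_364_ok (bl (br (br c8))))))
  (And.intro (Ok.s2 510 (Ok.s3 169 (Ok.lf S140_169_216_364_ok (bl (br (br c6))))
  (Ok.s3 183 (Ok.lf S169_183_216_364_ok (bl c6))
  (Ok.lf S183_198_216_364_ok (bl (br c6)))))
  (Ok.s3 169 (Ok.lf S140_169_216_364_ok (br c7))
  (Ok.s3 183 (Ok.lf S169_183_216_364_ok (bl c7))
  (Ok.lf S183_198_216_364_ok (br (br (br c6)))))))
  (Ok.s1 96 (Ok.s2 416 (Ok.lf S140_169_364_512_ok c0)
  (Ok.s1 80 (Ok.s3 154 (Ok.lf S140_154_364_512_ok (bl c3))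
  (Ok.lf S154_169_364_512_ok (bl (br c3))))
  (Ok.s3 154 (Ok.lf S140_154_364_512_ok (br (br c3)))
  (Ok.lf S154_169_364_512_ok c4))))
  (Ok.s2 416 (Ok.s3 154 (Ok.lf S140_154_364_512_ok (bl c5))
  (Ok.lf S154_169_364_512_ok c1))
  (Ok.s3 154 (Ok.lf S140_154_364_512_ok (br c5))
  (Ok.lf S154_169_364_512_ok c2))))))

end Vale.Agent.P098.Ck
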