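import Vale.Agent.P098.CkGd
import Vale.Agent.P098.CkOk
import Vale.Agent.P098.Sh.A0
import Vale.Agent.P098.Sh.A1

namespace Vale.Agent.P098.Ck

theorem r67 :
    Ok Gd mult 0 128 160 192 384 512 24 82 216 364 ∧
    Ok Gd mult 0 128 128 192 384 512 24 82 364 512 ∧
    Ok Gd mult 0 128 128 192 384 512 24 82 512 808 :=
  have c0 : (go 16 Gd mult S24_82_512_660 (Tr.lf 9137457288 99585094 342174540334597986272149504) 0 128 128 160 448 512) = true := by decide +kernel
  have c1 : (band (go 16 Gd mult S24_82_660_808 (Tr.lf 9137457288 99585094 373610891297366219755094016) 0 128 128 160 448 512)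
  (go 16 Gd mult S24_82_660_808 (Tr.lf 13424034888 103504839 605708784455308856759681024) 0 128 160 192 448 480)) = true := by decide +kernel
  have c2 : (band (go 16 Gd mult S24_82_216_364 (Tr.lf 9129003080 95382598 250247644660228239164178432) 0 128 160 192 384 448)
  (band (go 16 Gd mult S24_82_660_808 (Tr.lf 9129002056 99576902 242994089742540464115941376) 0 128 160 192 384 448)
  (band (go 16 Gd mult S24_82_364_512 (Tr.lf 9129002056 95382598 249038718840613609989472256) 0 128 160 192 384 448)
  (go 16 Gd mult S24_82_512_660 (Tr.lf 9129002056 99576902 245411941381769722465353728) 0 128 160 192 384 448)))) = true := by decide +kernel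
  have c3 : (band (go 16 Gd mult S24_82_512_660 (Tr.lf 9137390728 103914693 597246635759399779308666880) 0 128 160 192 448 480)
  (band (go 16 Gd mult S24_82_364_512 (Tr.lf 9129002056 112164037 589994169207775127448584192) 0 128 160 192 448 480)
  (band (go 16 Gd mult S24_82_364_512 (Tr.lf 9129002052 99310535 0) 0 128 128 160 384 448)
  (band (go 16 Gd mult S24_82_512_660 (Tr.lf 9129002052 99310535 0) 0 128 128 160 384 448)
  (go 16 Gd mult S24_82_660_808 (Tr.lf 9129002052 99310535 0) 0 128 128 160 384 448))))) = true := by decide +kernel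
  have c4 : (band (go 16 Gd mult S53_82_216_364 (Tr.lf 9137440840 103648326 805183850534731884280152064) 0 128 160 192 448 512)
  (go 16 Gd mult S24_53_216_364 (Tr.lf 13423953992 99302216 1164233933516561211109408768) 0 128 160 192 448 512)) = true := by decide +kernel
  have c5 : (band (go 16 Gd mult S24_82_364_512 (Tr.lf 9129002052 99445830 38369241077865848504320) 0 128 128 160 448 480)
  (go 16 Gd mult S24_82_364_512 (Tr.lf 4834034756 103783493 2343025281139586978264449024) 0 128 128 160 480 512)) = true := by decide +kernel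
  have c6 : (band (go 16 Gd mult S24_82_364_512 (Tr.lf 539050532 107969733 12009447011514401634079671007) 0 128 160 192 480 512)
  (band (go 16 Gd mult S24_82_660_808 (Tr.lf 539050532 107969733 12010630443947217401699697453) 0 128 160 192 480 512)
  (go 16 Gd mult S24_82_512_660 (Tr.lf 539050532 107969733 12009384366385038321489216301) 0 128 160 192 480 512))) = true := by decide +kernel
  (And.intro (Ok.s2 448 (Ok.lf S24_82_216_364_ok (bl c2))
  (Ok.s3 53 (Ok.lf S24_53_216_364_ok (br c4))
  (Ok.lf S53_82_216_364_ok (bl c4))))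
  (And.intro (Ok.s1 160 (Ok.s2 448 (Ok.lf S24_82_364_512_ok (bl (br (br c3))))
  (Ok.s2 480 (Ok.lf S24_82_364_512_ok (bl c5))
  (Ok.lf S24_82_364_512_ok (br c5))))
  (Ok.s2 448 (Ok.lf S24_82_364_512_ok (bl (br (br c2))))
  (Ok.s2 480 (Ok.lf S24_82_364_512_ok (bl (br c3)))
  (Ok.lf S24_82_364_512_ok (bl c6)))))
  (Ok.s4 660 (Ok.s1 160 (Ok.s2 448 (Ok.lf S24_82_512_660_ok (bl (br (br (br c3)))))
  (Ok.lf S24_82_512_660_ok c0))
  (Ok.s2 448 (Ok.lf S24_82_512_660_ok (br (br (br c2))))
  (Ok.s2 480 (Ok.lf S24_82_512_660_ok (bl c3))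
  (Ok.lf S24_82_512_660_ok (br (br c6))))))
  (Ok.s1 160 (Ok.s2 448 (Ok.lf S24_82_660_808_ok (br (br (br (br c3)))))
  (Ok.lf S24_82_660_808_ok (bl c1)))
  (Ok.s2 448 (Ok.lf S24_82_660_808_ok (bl (br c2)))
  (Ok.s2 480 (Ok.lf S24_82_660_808_ok (br c1))
  (Ok.lf S24_82_660_808_ok (bl (br c6)))))))))

end Vale.Agent.P098.Ck
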