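import Vale.Agent.P098.CkGd
import Vale.Agent.P098.CkOk
import Vale.Agent.P098.Sh.A12
import Vale.Agent.P098.Sh.A15
import Vale.Agent.P098.Sh.A21
import Vale.Agent.P098.Sh.A7

namespace Vale.Agent.P098.Ck

theorem r670 :
    Ok Gd mult 384 512 64 96 384 448 169 183 364 512 ∧
    Ok Gd mult 384 512 96 128 384 448 169 183 364 512 ∧
    Ok Gd mult 384 512 64 128 384 448 183 198 364 512 ∧
    Ok Gd mult 384 512 64 128 448 480 140 169 364 512 ∧
    Ok Gd mult 384 512 64 128 448 480 169 183 364 512 :=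
  have c0 : (band (go 16 Gd mult S169_183_364_512 (Tr.lf 13987497096 107707465 0) 384 512 96 128 384 416)
  (go 16 Gd mult S169_183_364_512 (Tr.lf 4313334852 103775429 0) 384 512 64 80 416 448)) = true := by decide +kernel
  have c1 : (go 16 Gd mult S169_183_364_512 (Tr.lf 9146222724 99454023 0) 384 512 96 128 416 448) = true := by decide +kernel
  have c2 : (go 16 Gd mult S183_198_364_512 (Tr.lf 8609351812 103517255 0) 384 448 96 128 384 448) = true := by decide +kernel
  have c3 : (go 16 Gd mult S140_154_364_512 (Tr.lf 13987235976 94866505 0) 384 512 64 96 448 480) = true := by decide +kernel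
  have c4 : (band (go 16 Gd mult S154_169_364_512 (Tr.lf 9146222724 95124679 0) 384 512 96 128 448 480)
  (go 16 Gd mult S140_154_364_512 (Tr.lf 9145952324 94866376 0) 384 512 96 128 448 480)) = true := by decide +kernel
  have c5 : (go 16 Gd mult S169_183_364_512 (Tr.lf 9146222724 95124679 0) 384 512 96 128 448 480) = true := by decide +kernel
  have c6 : (band (go 16 Gd mult S183_198_364_512 (Tr.lf 4313335938 103902278 0) 448 512 96 128 384 448)
  (go 16 Gd mult S183_198_364_512 (Tr.lf 8609351748 95255623 0) 384 512 80 96 416 448)) = true := by decide +kernel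
  have c7 : (band (go 16 Gd mult S169_183_364_512 (Tr.lf 9146222722 99449927 0) 384 448 64 96 448 480)
  (go 16 Gd mult S169_183_364_512 (Tr.lf 9146222660 103513414 0) 384 512 80 96 416 448)) = true := by decide +kernel
  have c8 : (band (go 16 Gd mult S154_169_364_512 (Tr.lf 9146221700 99450182 0) 384 512 64 96 448 464)
  (go 16 Gd mult S154_169_364_512 (Tr.lf 9146221700 95128647 0) 384 512 64 96 464 480)) = true := by decide +kernel
  have c9 : (band (go 16 Gd mult S169_183_364_512 (Tr.lf 4313073794 99454149 0) 448 512 64 96 448 480)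
  (band (go 16 Gd mult S169_183_364_512 (Tr.lf 4304683588 99454021 0) 384 512 64 96 384 416)
  (go 16 Gd mult S183_198_364_512 (Tr.lf 4304675396 99577029 0) 384 512 64 96 384 416))) = true := by decide +kernel
  have c10 : (go 16 Gd mult S183_198_364_512 (Tr.lf 4313072708 99454149 0) 384 512 64 80 416 448) = true := by decide +kernel
  (And.intro (Ok.s2 416 (Ok.lf S169_183_364_512_ok (bl (br c9)))
  (Ok.s1 80 (Ok.lf S169_183_364_512_ok (br c0))
  (Ok.lf S169_183_364_512_ok (br c7))))
  (And.intro (Ok.s2 416 (Ok.lf S169_183_364_512_ok (bl c0))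
  (Ok.lf S169_183_364_512_ok c1))
  (And.intro (Ok.s1 96 (Ok.s2 416 (Ok.lf S183_198_364_512_ok (br (br c9)))
  (Ok.s1 80 (Ok.lf S183_198_364_512_ok c10)
  (Ok.lf S183_198_364_512_ok (br c6))))
  (Ok.s0 448 (Ok.lf S183_198_364_512_ok c2)
  (Ok.lf S183_198_364_512_ok (bl c6))))
  (And.intro (Ok.s1 96 (Ok.s3 154 (Ok.lf S140_154_364_512_ok c3)
  (Ok.s2 464 (Ok.lf S154_169_364_512_ok (bl c8))
  (Ok.lf S154_169_364_512_ok (br c8))))
  (Ok.s3 154 (Ok.lf S140_154_364_512_ok (br c4))
  (Ok.lf S154_169_364_512_ok (bl c4))))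
  (Ok.s1 96 (Ok.s0 448 (Ok.lf S169_183_364_512_ok (bl c7))
  (Ok.lf S169_183_364_512_ok (bl c9)))
  (Ok.lf S169_183_364_512_ok c5))))))

end Vale.Agent.P098.Ck
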