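import Vale.Agent.P098.CkGd
import Vale.Agent.P098.CkOk
import Vale.Agent.P098.Sh.A10
import Vale.Agent.P098.Sh.A12
import Vale.Agent.P098.Sh.A15
import Vale.Agent.P098.Sh.A18
import Vale.Agent.P098.Sh.A21
import Vale.Agent.P098.Sh.A8
import Vale.Agent.P098.Sh.A9

namespace Vale.Agent.P098.Ck

theorem r671 :
    Ok Gd mult 384 512 64 128 448 480 183 198 364 512 ∧
    Ok Gd mult 384 512 64 128 480 512 140 198 364 512 ∧
    Ok Gd mult 384 512 64 96 384 448 140 169 512 660 ∧
    Ok Gd mult 384 512 96 128 384 416 140 169 512 660 :=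
  have c0 : (band (go 16 Gd mult S183_198_364_512 (Tr.lf 8609351812 94993607 0) 384 512 96 128 448 480)
  (go 16 Gd mult S183_198_364_512 (Tr.lf 4313335874 99712197 0) 448 512 64 96 448 480)) = true := by decide +kernel
  have c1 : (go 16 Gd mult S140_169_512_660 (Tr.lf 8599930948 95124422 0) 384 512 64 80 416 448) = true := by decide +kernel
  have c2 : (go 16 Gd mult S140_169_512_660 (Tr.lf 9146239044 103521478 0) 384 512 80 96 416 448) = true := by decide +kernel
  have c3 : (band (go 16 Gd mult S183_198_364_512 (Tr.lf 8609351810 91061574 0) 384 448 64 96 448 480)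
  (go 16 Gd mult S183_198_364_512 (Tr.lf 8609350788 86731975 0) 384 512 64 96 480 496)) = true := by decide +kernel
  have c4 : (band (go 16 Gd mult S140_169_364_512 (Tr.lf 4313089156 95132614 0) 384 512 64 96 480 496)
  (go 16 Gd mult S169_183_364_512 (Tr.lf 8609350788 86731975 0) 384 512 64 96 480 496)) = true := by decide +kernel
  have c5 : (go 16 Gd mult S140_169_512_660 (Tr.lf 9146238020 103521478 0) 384 512 80 96 384 416) = true := by decide +kernel
  have c6 : (band (go 16 Gd mult S140_154_512_660 (Tr.lf 9145959560 99462342 0) 384 512 96 128 384 416)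
  (go 16 Gd mult S154_169_512_660 (Tr.lf 9146221700 107977926 0) 384 512 96 128 384 416)) = true := by decide +kernel
  have c7 : (band (go 16 Gd mult S169_198_364_512 (Tr.lf 8667524 99593156 0) 384 512 64 128 496 504)
  (band (go 16 Gd mult S140_169_364_512 (Tr.lf 556024194 112168134 0) 384 512 64 128 496 504)
  (band (go 16 Gd mult S169_198_364_512 (Tr.lf 4849943074 107846598 0) 384 512 96 128 480 496)
  (band (go 16 Gd mult S140_169_364_512 (Tr.lf 4841423138 99322822 0) 384 512 96 128 480 496)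
  (band (go 16 Gd mult S140_169_364_512 (Tr.lf 555893058 107973830 0) 384 512 64 128 504 512)
  (go 16 Gd mult S169_198_364_512 (Tr.lf 556040514 107973830 0) 384 512 64 128 504 512)))))) = true := by decide +kernel
  have c8 : (go 16 Gd mult S140_169_512_660 (Tr.lf 9137439266 99310663 0) 384 512 64 80 384 416) = true := by decide +kernel
  (And.intro (Ok.s1 96 (Ok.s0 448 (Ok.lf S183_198_364_512_ok (bl c3))
  (Ok.lf S183_198_364_512_ok (br c0)))
  (Ok.lf S183_198_364_512_ok (bl c0)))
  (And.intro (Ok.s2 496 (Ok.s3 169 (Ok.s1 96 (Ok.lf S140_169_364_512_ok (bl c4))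
  (Ok.lf S140_169_364_512_ok (bl (br (br (br c7))))))
  (Ok.s1 96 (Ok.s3 183 (Ok.lf S169_183_364_512_ok (br c4))
  (Ok.lf S183_198_364_512_ok (br c3)))
  (Ok.lf S169_198_364_512_ok (bl (br (br c7))))))
  (Ok.s2 504 (Ok.s3 169 (Ok.lf S140_169_364_512_ok (bl (br c7)))
  (Ok.lf S169_198_364_512_ok (bl c7)))
  (Ok.s3 169 (Ok.lf S140_169_364_512_ok (bl (br (br (br (br c7))))))
  (Ok.lf S169_198_364_512_ok (br (br (br (br (br c7)))))))))
  (And.intro (Ok.s2 416 (Ok.s1 80 (Ok.lf S140_169_512_660_ok c8)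
  (Ok.lf S140_169_512_660_ok c5))
  (Ok.s1 80 (Ok.lf S140_169_512_660_ok c1)
  (Ok.lf S140_169_512_660_ok c2)))
  (Ok.s3 154 (Ok.lf S140_154_512_660_ok (bl c6))
  (Ok.lf S154_169_512_660_ok (br c6))))))

end Vale.Agent.P098.Ck
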