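import Vale.Agent.P098.CkGd
import Vale.Agent.P098.CkOk
import Vale.Agent.P098.Sh.A10
import Vale.Agent.P098.Sh.A19
import Vale.Agent.P098.Sh.A23
import Vale.Agent.P098.Sh.A30

namespace Vale.Agent.P098.Ck

theorem r674 :
    Ok Gd mult 384 512 64 128 384 448 169 198 660 808 ∧
    Ok Gd mult 384 512 64 128 448 512 140 198 660 808 ∧
    Ok Gd mult 384 512 64 96 384 448 198 227 216 364 ∧
    Ok Gd mult 384 512 96 128 384 448 198 212 216 364 :=
  have c0 : (go 16 Gd mult S169_198_660_808 (Tr.lf 13441205380 99310664 0) 384 512 96 128 384 416) = true := by decide +kernel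
  have c1 : (go 16 Gd mult S169_198_660_808 (Tr.lf 9146238084 103648582 0) 384 512 96 128 416 448) = true := by decide +kernel
  have c2 : (go 16 Gd mult S169_198_660_808 (Tr.lf 9146238084 103386183 0) 384 512 64 96 448 480) = true := by decide +kernel
  have c3 : (go 16 Gd mult S198_212_216_290 (Tr.lf 13449578628 94866249 0) 384 512 64 96 416 448) = true := by decide +kernel
  have c4 : (go 16 Gd mult S212_227_216_364 (Tr.lf 9154611332 103521224 0) 384 512 64 96 384 448) = true := by decide +kernel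
  have c5 : (go 16 Gd mult S198_212_216_290 (Tr.lf 13449577608 95120329 0) 384 512 96 128 384 416) = true := by decide +kernel
  have c6 : (go 16 Gd mult S198_212_216_290 (Tr.lf 13986449540 103385929 0) 384 512 96 128 416 448) = true := by decide +kernel
  have c7 : (go 16 Gd mult S198_212_290_364 (Tr.lf 13449316488 95120329 0) 384 512 96 128 384 448) = true := by decide +kernel
  have c8 : (band (go 16 Gd mult S169_198_660_808 (Tr.lf 9145975940 103386183 0) 384 512 64 96 416 448)
  (go 16 Gd mult S169_198_660_808 (Tr.lf 9145975940 94866376 0) 384 512 64 128 480 496)) = true := by decide +kernel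
  have c9 : (band (go 16 Gd mult S140_169_660_808 (Tr.lf 9145960580 95128647 0) 384 512 64 96 448 480)
  (band (go 16 Gd mult S140_169_660_808 (Tr.lf 9145959556 94866376 0) 384 512 64 128 480 496)
  (go 16 Gd mult S140_169_660_808 (Tr.lf 9145960516 94866376 0) 384 512 96 128 448 480))) = true := by decide +kernel
  have c10 : (go 16 Gd mult S169_198_660_808 (Tr.lf 9146238020 95124679 0) 384 512 96 128 448 480) = true := by decide +kernel
  have c11 : (go 16 Gd mult S198_212_290_364 (Tr.lf 8608041092 94993096 0) 384 512 64 96 384 448) = true := by decide +kernel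
  have c12 : (band (go 16 Gd mult S169_198_660_808 (Tr.lf 4850991746 103525574 0) 384 512 64 128 496 512)
  (band (go 16 Gd mult S140_169_660_808 (Tr.lf 4841423426 99314503 0) 384 512 64 128 496 512)
  (band (go 16 Gd mult S169_198_660_808 (Tr.lf 9145958980 103386183 0) 384 512 64 96 384 416)
  (go 16 Gd mult S198_212_216_290 (Tr.lf 9144902210 103381704 0) 384 512 64 96 384 416)))) = true := by decide +kernel
  (And.intro (Ok.s1 96 (Ok.s2 416 (Ok.lf S169_198_660_808_ok (bl (br (br c12))))
  (Ok.lf S169_198_660_808_ok (bl c8)))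
  (Ok.s2 416 (Ok.lf S169_198_660_808_ok c0)
  (Ok.lf S169_198_660_808_ok c1)))
  (And.intro (Ok.s2 480 (Ok.s3 169 (Ok.s1 96 (Ok.lf S140_169_660_808_ok (bl c9))
  (Ok.lf S140_169_660_808_ok (br (br c9))))
  (Ok.s1 96 (Ok.lf S169_198_660_808_ok c2)
  (Ok.lf S169_198_660_808_ok c10)))
  (Ok.s2 496 (Ok.s3 169 (Ok.lf S140_169_660_808_ok (bl (br c9)))
  (Ok.lf S169_198_660_808_ok (br c8)))
  (Ok.s3 169 (Ok.lf S140_169_660_808_ok (bl (br c12)))
  (Ok.lf S169_198_660_808_ok (bl c12)))))
  (And.intro (Ok.s3 212 (Ok.s4 290 (Ok.s2 416 (Ok.lf S198_212_216_290_ok (br (br (br c12))))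
  (Ok.lf S198_212_216_290_ok c3))
  (Ok.lf S198_212_290_364_ok c11))
  (Ok.lf S212_227_216_364_ok c4))
  (Ok.s4 290 (Ok.s2 416 (Ok.lf S198_212_216_290_ok c5)
  (Ok.lf S198_212_216_290_ok c6))
  (Ok.lf S198_212_290_364_ok c7)))))

end Vale.Agent.P098.Ck
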