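import Vale.Agent.P098.CkGd
import Vale.Agent.P098.CkOk
import Vale.Agent.P098.Sh.A23
import Vale.Agent.P098.Sh.A29
import Vale.Agent.P098.Sh.A30
import Vale.Agent.P098.Sh.A31
import Vale.Agent.P098.Sh.A33
import Vale.Agent.P098.Sh.A34
import Vale.Agent.P098.Sh.A39

namespace Vale.Agent.P098.Ck

theorem r675 :
    Ok Gd mult 384 512 96 128 384 448 212 227 216 364 ∧
    Ok Gd mult 384 512 64 128 448 512 198 227 216 364 ∧
    Ok Gd mult 384 512 64 128 384 512 227 256 216 364 :=
  have c0 : (band (go 16 Gd mult S212_219_216_364 (Tr.lf 13449570440 94997321 0) 384 512 64 128 448 480)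
  (go 16 Gd mult S219_227_216_364 (Tr.lf 9153553540 103639880 0) 384 512 64 128 448 480)) = true := by decide +kernel
  have c1 : (go 16 Gd mult S198_212_216_290 (Tr.lf 13449578628 90798921 0) 384 512 64 96 448 480) = true := by decide +kernel
  have c2 : (band (go 16 Gd mult S227_241_216_364 (Tr.lf 8608303236 94993351 0) 384 512 64 128 448 512)
  (band (go 16 Gd mult S241_256_216_364 (Tr.lf 4312016962 103910086 0) 384 512 64 128 448 512)
  (go 16 Gd mult S241_256_216_364 (Tr.lf 4312015938 103906118 0) 384 512 64 128 384 448))) = true := by decide +kernel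
  have c3 : (go 16 Gd mult S227_241_216_364 (Tr.lf 8608295044 99449544 0) 384 512 64 128 384 448) = true := by decide +kernel
  have c4 : (band (go 16 Gd mult S212_227_216_290 (Tr.lf 13449316484 94993353 0) 384 512 96 128 384 448)
  (go 16 Gd mult S212_227_290_364 (Tr.lf 9154349124 111901768 0) 384 512 96 128 384 448)) = true := by decide +kernel
  have c5 : (band (go 16 Gd mult S198_212_290_364 (Tr.lf 8608041092 91061063 0) 384 512 64 96 448 480)
  (go 16 Gd mult S198_212_290_364 (Tr.lf 13449316420 90536905 0) 384 512 96 128 448 480)) = true := by decide +kernel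
  have c6 : (go 16 Gd mult S198_212_216_290 (Tr.lf 13449316484 94731209 0) 384 512 96 128 448 480) = true := by decide +kernel
  have c7 : (go 16 Gd mult S198_212_216_364 (Tr.lf 13449578564 90667849 0) 384 512 64 80 480 496) = true := by decide +kernel
  have c8 : (go 16 Gd mult S212_227_216_364 (Tr.lf 4313334852 99454149 0) 384 512 64 96 480 496) = true := by decide +kernel
  have c9 : (go 16 Gd mult S198_212_216_364 (Tr.lf 9154602020 99192007 0) 384 512 80 96 480 496) = true := by decide +kernel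
  have c10 : (band (go 16 Gd mult S198_212_216_364 (Tr.lf 9144902724 99187400 0) 384 512 96 128 480 512)
  (band (go 16 Gd mult S212_227_216_364 (Tr.lf 9144910884 99187400 0) 384 512 96 128 480 512)
  (band (go 16 Gd mult S198_212_216_364 (Tr.lf 4303627330 95251142 0) 384 512 64 96 496 512)
  (go 16 Gd mult S212_227_216_364 (Tr.lf 4303635010 99445446 0) 384 512 64 96 496 512)))) = true := by decide +kernel
  (And.intro (Ok.s4 290 (Ok.lf S212_227_216_290_ok (bl c4))
  (Ok.lf S212_227_290_364_ok (br c4)))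
  (And.intro (Ok.s2 480 (Ok.s3 212 (Ok.s1 96 (Ok.s4 290 (Ok.lf S198_212_216_290_ok c1)
  (Ok.lf S198_212_290_364_ok (bl c5)))
  (Ok.s4 290 (Ok.lf S198_212_216_290_ok c6)
  (Ok.lf S198_212_290_364_ok (br c5))))
  (Ok.s3 219 (Ok.lf S212_219_216_364_ok (bl c0))
  (Ok.lf S219_227_216_364_ok (br c0))))
  (Ok.s3 212 (Ok.s1 96 (Ok.s2 496 (Ok.s1 80 (Ok.lf S198_212_216_364_ok c7)
  (Ok.lf S198_212_216_364_ok c9))
  (Ok.lf S198_212_216_364_ok (bl (br (br c10)))))
  (Ok.lf S198_212_216_364_ok (bl c10)))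
  (Ok.s1 96 (Ok.s2 496 (Ok.lf S212_227_216_364_ok c8)
  (Ok.lf S212_227_216_364_ok (br (br (br c10)))))
  (Ok.lf S212_227_216_364_ok (bl (br c10))))))
  (Ok.s2 448 (Ok.s3 241 (Ok.lf S227_241_216_364_ok c3)
  (Ok.lf S241_256_216_364_ok (br (br c2))))
  (Ok.s3 241 (Ok.lf S227_241_216_364_ok (bl c2))
  (Ok.lf S241_256_216_364_ok (bl (br c2)))))))

end Vale.Agent.P098.Ck
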