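import Vale.Agent.P098.CkGd
import Vale.Agent.P098.CkOk
import Vale.Agent.P098.Sh.A23
import Vale.Agent.P098.Sh.A27
import Vale.Agent.P098.Sh.A31
import Vale.Agent.P098.Sh.A37

namespace Vale.Agent.P098.Ck

theorem r676 :
    Ok Gd mult 384 512 64 80 384 512 198 212 364 512 ∧
    Ok Gd mult 384 512 80 96 384 512 198 212 364 512 ∧
    Ok Gd mult 384 512 64 96 384 512 212 227 364 512 ∧
    Ok Gd mult 384 512 96 128 384 512 198 227 364 512 ∧
    Ok Gd mult 384 512 64 128 384 512 227 256 364 512 ∧
    Ok Gd mult 384 512 64 128 384 512 198 256 512 586 :=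
  have c0 : (band (go 16 Gd mult S198_212_364_512 (Tr.lf 13449578628 103377865 0) 384 512 96 128 384 448)
  (go 16 Gd mult S212_227_364_512 (Tr.lf 9145173060 107707335 0) 384 512 96 128 384 448)) = true := by decide +kernel
  have c1 : (go 16 Gd mult S227_256_364_512 (Tr.lf 4313090180 99589062 0) 384 512 64 128 448 512) = true := by decide +kernel
  have c2 : (band (go 16 Gd mult S198_227_512_586 (Tr.lf 9144928388 103512776 0) 384 512 64 128 384 448)
  (go 16 Gd mult S227_256_364_512 (Tr.lf 4313072772 99712070 0) 384 512 64 128 384 448)) = true := by decide +kernel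
  have c3 : (go 16 Gd mult S198_227_512_586 (Tr.lf 8676214916 99449800 0) 384 512 64 128 448 512) = true := by decide +kernel
  have c4 : (go 16 Gd mult S227_256_512_586 (Tr.lf 4313090180 103775302 86349217172551765065823) 384 512 64 128 384 512) = true := by decide +kernel
  have c5 : (band (go 16 Gd mult S198_212_364_512 (Tr.lf 8608303172 91061063 0) 384 512 64 80 448 480)
  (go 16 Gd mult S198_212_364_512 (Tr.lf 8608303172 90794696 0) 384 512 64 80 480 512)) = true := by decide +kernel
  have c6 : (band (go 16 Gd mult S212_227_364_512 (Tr.lf 4303898692 107834309 0) 384 512 64 96 448 512)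
  (go 16 Gd mult S212_227_364_512 (Tr.lf 9145174084 103381959 0) 384 512 96 128 448 512)) = true := by decide +kernel
  have c7 : (band (go 16 Gd mult S198_212_364_512 (Tr.lf 4313335876 103652294 0) 384 512 96 128 448 480)
  (band (go 16 Gd mult S198_212_364_512 (Tr.lf 4313335844 99457990 0) 384 512 80 96 384 448)
  (go 16 Gd mult S198_212_364_512 (Tr.lf 8608303140 95255367 0) 384 512 80 96 448 480))) = true := by decide +kernel
  have c8 : (go 16 Gd mult S198_212_364_512 (Tr.lf 4304685092 95124422 0) 384 512 80 96 480 512) = true := by decide +kernel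
  have c9 : (go 16 Gd mult S198_212_364_512 (Tr.lf 4303889444 103512774 0) 384 512 64 80 384 448) = true := by decide +kernel
  have c10 : (go 16 Gd mult S212_227_364_512 (Tr.lf 8675140676 95255240 0) 384 512 64 96 384 448) = true := by decide +kernel
  have c11 : (go 16 Gd mult S198_212_364_512 (Tr.lf 9144902690 99187400 0) 384 512 96 128 480 512) = true := by decide +kernel
  (And.intro (Ok.s2 448 (Ok.lf S198_212_364_512_ok c9)
  (Ok.s2 480 (Ok.lf S198_212_364_512_ok (bl c5))
  (Ok.lf S198_212_364_512_ok (br c5))))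
  (And.intro (Ok.s2 448 (Ok.lf S198_212_364_512_ok (bl (br c7)))
  (Ok.s2 480 (Ok.lf S198_212_364_512_ok (br (br c7)))
  (Ok.lf S198_212_364_512_ok c8)))
  (And.intro (Ok.s2 448 (Ok.lf S212_227_364_512_ok c10)
  (Ok.lf S212_227_364_512_ok (bl c6)))
  (And.intro (Ok.s2 448 (Ok.s3 212 (Ok.lf S198_212_364_512_ok (bl c0))
  (Ok.lf S212_227_364_512_ok (br c0)))
  (Ok.s3 212 (Ok.s2 480 (Ok.lf S198_212_364_512_ok (bl c7))
  (Ok.lf S198_212_364_512_ok c11))
  (Ok.lf S212_227_364_512_ok (br c6))))
  (And.intro (Ok.s2 448 (Ok.lf S227_256_364_512_ok (br c2))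
  (Ok.lf S227_256_364_512_ok c1))
  (Ok.s3 227 (Ok.s2 448 (Ok.lf S198_227_512_586_ok (bl c2))
  (Ok.lf S198_227_512_586_ok c3))
  (Ok.lf S227_256_512_586_ok c4)))))))

end Vale.Agent.P098.Ck
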