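import Vale.Agent.P098.CkGd
import Vale.Agent.P098.CkOk
import Vale.Agent.P098.Sh.A27
import Vale.Agent.P098.Sh.A38
import Vale.Agent.P098.Sh.A41
import Vale.Agent.P098.Sh.A45

namespace Vale.Agent.P098.Ck

theorem r677 :
    Ok Gd mult 384 512 64 128 384 512 198 256 586 660 ∧
    Ok Gd mult 384 512 64 128 384 512 198 256 660 808 ∧
    Ok Gd mult 384 512 64 128 384 512 256 314 216 364 :=
  have c0 : (band (go 16 Gd mult S198_227_586_660 (Tr.lf 8676083844 91192264 0) 384 512 64 128 448 512)
  (band (go 16 Gd mult S227_256_660_734 (Tr.lf 4312959108 99454022 249436873365649744723968) 384 512 64 128 448 512)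
  (go 16 Gd mult S285_314_216_364 (Tr.lf 18105410 103906246 484743540825066229989376) 384 512 64 128 448 512))) = true := by decide +kernel
  have c1 : (band (go 16 Gd mult S198_227_734_808 (Tr.lf 4313090116 99589062 0) 384 512 96 128 384 512)
  (band (go 16 Gd mult S227_256_734_808 (Tr.lf 17057858 108096326 120438792057249662500941) 384 512 96 128 384 512)
  (band (go 16 Gd mult S227_256_586_660 (Tr.lf 8538146 104176580 46209093906721190969391) 384 512 96 128 384 512)
  (go 16 Gd mult S227_256_586_660 (Tr.lf 4312942660 95394758 231580438330673616388096) 384 512 64 96 384 512)))) = true := by decide +kernel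
  have c2 : (band (go 16 Gd mult S256_285_216_364 (Tr.lf 85477444 103783366 169507193503650609627416) 384 512 64 128 448 512)
  (band (go 16 Gd mult S198_227_660_734 (Tr.lf 4313991300 99589318 0) 384 512 64 128 448 512)
  (band (go 16 Gd mult S198_227_660_734 (Tr.lf 4312941700 99589062 0) 384 512 64 128 384 448)
  (go 16 Gd mult S256_285_216_364 (Tr.lf 4303626818 103774918 0) 384 512 64 128 384 448)))) = true := by decide +kernel
  have c3 : (band (go 16 Gd mult S198_227_586_660 (Tr.lf 9144780932 107576008 0) 384 512 64 128 384 448)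
  (band (go 16 Gd mult S227_256_660_734 (Tr.lf 8528450 112434116 0) 384 512 64 128 384 448)
  (go 16 Gd mult S285_314_216_364 (Tr.lf 9577025 108240068 0) 384 512 64 128 384 448))) = true := by decide +kernel
  have c4 : (band (go 16 Gd mult S227_256_734_808 (Tr.lf 4313073730 103775302 344732766478808006000640) 384 512 64 96 448 512)
  (band (go 16 Gd mult S198_227_734_808 (Tr.lf 4849813570 107846853 5165088340638674452480) 384 512 64 96 448 512)
  (band (go 16 Gd mult S198_227_734_808 (Tr.lf 4312941602 99458245 0) 384 512 64 96 384 448)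
  (go 16 Gd mult S227_256_734_808 (Tr.lf 8462881 104045508 0) 384 512 64 96 384 448)))) = true := by decide +kernel
  (And.intro (Ok.s3 227 (Ok.s2 448 (Ok.lf S198_227_586_660_ok (bl c3))
  (Ok.lf S198_227_586_660_ok (bl c0)))
  (Ok.s1 96 (Ok.lf S227_256_586_660_ok (br (br (br c1))))
  (Ok.lf S227_256_586_660_ok (bl (br (br c1))))))
  (And.intro (Ok.s4 734 (Ok.s3 227 (Ok.s2 448 (Ok.lf S198_227_660_734_ok (bl (br (br c2))))
  (Ok.lf S198_227_660_734_ok (bl (br c2))))
  (Ok.s2 448 (Ok.lf S227_256_660_734_ok (bl (br c3)))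
  (Ok.lf S227_256_660_734_ok (bl (br c0)))))
  (Ok.s1 96 (Ok.s3 227 (Ok.s2 448 (Ok.lf S198_227_734_808_ok (bl (br (br c4))))
  (Ok.lf S198_227_734_808_ok (bl (br c4))))
  (Ok.s2 448 (Ok.lf S227_256_734_808_ok (br (br (br c4))))
  (Ok.lf S227_256_734_808_ok (bl c4))))
  (Ok.s3 227 (Ok.lf S198_227_734_808_ok (bl c1))
  (Ok.lf S227_256_734_808_ok (bl (br c1))))))
  (Ok.s3 285 (Ok.s2 448 (Ok.lf S256_285_216_364_ok (br (br (br c2))))
  (Ok.lf S256_285_216_364_ok (bl c2)))
  (Ok.s2 448 (Ok.lf S285_314_216_364_ok (br (br c3)))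
  (Ok.lf S285_314_216_364_ok (br (br c0)))))))

end Vale.Agent.P098.Ck
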