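import Vale.Agent.P098.CkGd
import Vale.Agent.P098.CkOk
import Vale.Agent.P098.Sh.A41
import Vale.Agent.P098.Sh.A42
import Vale.Agent.P098.Sh.A44
import Vale.Agent.P098.Sh.A45
import Vale.Agent.P098.Sh.A46
import Vale.Agent.P098.Sh.A47
import Vale.Agent.P098.Sh.A48
import Vale.Agent.P098.Sh.A51

namespace Vale.Agent.P098.Ck

theorem r678 :
    Ok Gd mult 384 512 64 128 384 512 256 314 364 512 ∧
    Ok Gd mult 384 512 64 128 384 512 256 314 512 808 ∧
    Ok Gd mult 384 512 64 128 384 512 314 372 216 512 :=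
  have c0 : (band (go 16 Gd mult S256_285_660_808 (Tr.lf 17320068 99846854 521673935633830025118655) 384 512 64 128 448 512)
  (band (go 16 Gd mult S285_314_364_512 (Tr.lf 85215298 103783366 535785689784076273188864) 384 512 64 128 448 512)
  (go 16 Gd mult S314_343_364_512 (Tr.lf 556024898 95395014 251207760801630714331136) 384 512 64 128 448 512))) = true := by decide +kernel
  have c1 : (band (go 16 Gd mult S256_285_364_512 (Tr.lf 85215364 108235718 254067006127201654408405) 384 512 64 128 448 512)
  (go 16 Gd mult S256_285_512_660 (Tr.lf 17057924 103910086 386846670002705406113259) 384 512 64 128 448 512)) = true := by decide +kernel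
  have c2 : (band (go 16 Gd mult S256_314_512_660 (Tr.lf 9733252 108232004 0) 384 512 64 128 384 448)
  (band (go 16 Gd mult S314_343_364_512 (Tr.lf 547636290 99581126 0) 384 512 64 128 384 448)
  (band (go 16 Gd mult S343_372_364_512 (Tr.lf 556024898 95386950 0) 384 512 64 128 384 448)
  (band (go 16 Gd mult S285_314_660_808 (Tr.lf 9716289 108104773 0) 384 512 64 128 384 448)
  (go 16 Gd mult S256_285_364_512 (Tr.lf 8528450 104037444 0) 384 512 64 128 384 448))))) = true := by decide +kernel
  have c3 : (go 16 Gd mult S285_314_512_660 (Tr.lf 631539780 95513672 597305573125071971549184) 384 512 64 128 448 512) = true := by decide +kernel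
  have c4 : (go 16 Gd mult S285_314_660_808 (Tr.lf 1168671810 99581000 1206472772921604289398081) 384 512 64 128 480 512) = true := by decide +kernel
  have c5 : (band (go 16 Gd mult S314_343_216_364 (Tr.lf 623134786 99847366 299944058638517309276160) 384 512 64 96 384 512)
  (band (go 16 Gd mult S343_372_216_364 (Tr.lf 623134786 99974342 189116020243872186630144) 384 512 64 96 384 512)
  (band (go 16 Gd mult S343_372_216_364 (Tr.lf 556025890 95386950 0) 384 512 96 128 384 512)
  (go 16 Gd mult S314_343_216_364 (Tr.lf 9709602 108240068 10699111562751539937280) 384 512 96 128 384 512)))) = true := by decide +kernel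
  have c6 : (band (go 16 Gd mult S343_372_364_512 (Tr.lf 623134786 99974342 156483729978480717201408) 384 512 64 96 448 512)
  (go 16 Gd mult S343_372_364_512 (Tr.lf 556024866 99716294 0) 384 512 96 128 448 512)) = true := by decide +kernel
  have c7 : (go 16 Gd mult S285_314_660_808 (Tr.lf 623133217 99974470 0) 384 512 64 128 448 480) = true := by decide +kernel
  have c8 : (band (go 16 Gd mult S285_314_364_512 (Tr.lf 9577025 104045764 0) 384 512 64 128 384 448)
  (go 16 Gd mult S256_285_660_808 (Tr.lf 8528417 99843140 0) 384 512 64 128 384 448)) = true := by decide +kernel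
  (And.intro (Ok.s3 285 (Ok.s2 448 (Ok.lf S256_285_364_512_ok (br (br (br (br c2)))))
  (Ok.lf S256_285_364_512_ok (bl c1)))
  (Ok.s2 448 (Ok.lf S285_314_364_512_ok (bl c8))
  (Ok.lf S285_314_364_512_ok (bl (br c0)))))
  (And.intro (Ok.s4 660 (Ok.s2 448 (Ok.lf S256_314_512_660_ok (bl c2))
  (Ok.s3 285 (Ok.lf S256_285_512_660_ok (br c1))
  (Ok.lf S285_314_512_660_ok c3)))
  (Ok.s2 448 (Ok.s3 285 (Ok.lf S256_285_660_808_ok (br c8))
  (Ok.lf S285_314_660_808_ok (bl (br (br (br c2))))))
  (Ok.s3 285 (Ok.lf S256_285_660_808_ok (bl c0))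
  (Ok.s2 480 (Ok.lf S285_314_660_808_ok c7)
  (Ok.lf S285_314_660_808_ok c4)))))
  (Ok.s4 364 (Ok.s1 96 (Ok.s3 343 (Ok.lf S314_343_216_364_ok (bl c5))
  (Ok.lf S343_372_216_364_ok (bl (br c5))))
  (Ok.s3 343 (Ok.lf S314_343_216_364_ok (br (br (br c5))))
  (Ok.lf S343_372_216_364_ok (bl (br (br c5))))))
  (Ok.s3 343 (Ok.s2 448 (Ok.lf S314_343_364_512_ok (bl (br c2)))
  (Ok.lf S314_343_364_512_ok (br (br c0))))
  (Ok.s2 448 (Ok.lf S343_372_364_512_ok (bl (br (br c2))))
  (Ok.s1 96 (Ok.lf S343_372_364_512_ok (bl c6))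
  (Ok.lf S343_372_364_512_ok (br c6))))))))

end Vale.Agent.P098.Ck
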