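import Vale.Agent.P098.CkGd
import Vale.Agent.P098.CkOk
import Vale.Agent.P098.Sh.A47
import Vale.Agent.P098.Sh.A48
import Vale.Agent.P098.Sh.A50
import Vale.Agent.P098.Sh.A51
import Vale.Agent.P098.Sh.A52

namespace Vale.Agent.P098.Ck

theorem r679 :
    Ok Gd mult 384 512 64 128 384 512 314 343 512 660 ∧
    Ok Gd mult 384 512 64 128 384 512 343 372 512 660 ∧
    Ok Gd mult 384 512 64 128 384 512 314 343 660 808 ∧
    Ok Gd mult 384 448 64 128 384 512 343 372 660 808 ∧
    Ok Gd mult 448 512 64 128 384 512 343 357 660 808 :=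
  have c0 : (go 16 Gd mult S343_372_660_808 (Tr.lf 1094224002 99326920 211953089406922748067840) 384 448 64 96 448 512) = true := by decide +kernel
  have c1 : (band (go 16 Gd mult S343_372_512_660 (Tr.lf 556042372 95386950 0) 384 512 64 128 384 448)
  (go 16 Gd mult S314_328_660_808 (Tr.lf 556016770 103783622 0) 384 512 64 128 384 448)) = true := by decide +kernel
  have c2 : (go 16 Gd mult S328_343_660_808 (Tr.lf 9692547140 103255368 0) 384 512 96 128 384 448) = true := by decide +kernel
  have c3 : (band (go 16 Gd mult S314_343_512_660 (Tr.lf 1169459330 91200712 187677174218092915458048) 384 512 64 128 448 512)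
  (go 16 Gd mult S314_328_660_808 (Tr.lf 1169705026 91200712 457866634653544780660736) 384 512 64 128 448 512)) = true := by decide +kernel
  have c4 : (go 16 Gd mult S314_343_512_660 (Tr.lf 556041348 103783622 0) 384 512 64 128 384 448) = true := by decide +kernel
  have c5 : (band (go 16 Gd mult S343_372_512_660 (Tr.lf 557089924 103779272 365227085917531486027776) 384 512 64 128 480 512)
  (go 16 Gd mult S328_343_660_808 (Tr.lf 1094206596 91065416 1082620962941939874791424) 384 512 64 128 480 512)) = true := by decide +kernel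
  have c6 : (go 16 Gd mult S328_343_660_808 (Tr.lf 5389174850 107580488 0) 384 512 64 96 384 448) = true := by decide +kernel
  have c7 : (band (go 16 Gd mult S343_372_660_808 (Tr.lf 4851008642 103652550 0) 384 448 64 128 384 448)
  (go 16 Gd mult S343_372_660_808 (Tr.lf 556042273 103779526 0) 384 448 96 128 448 512)) = true := by decide +kernel
  have c8 : (band (go 16 Gd mult S343_357_660_808 (Tr.lf 5397563458 107707592 0) 448 512 64 96 384 448)
  (band (go 16 Gd mult S343_357_660_808 (Tr.lf 5397562498 99454152 0) 448 512 96 128 416 448)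
  (go 16 Gd mult S343_357_660_808 (Tr.lf 1102596162 95132744 679559604931386171981824) 448 512 64 96 480 512))) = true := by decide +kernel
  have c9 : (band (go 16 Gd mult S343_372_512_660 (Tr.lf 557073538 99716040 0) 384 512 64 128 448 480)
  (go 16 Gd mult S328_343_660_808 (Tr.lf 556024962 103910598 0) 384 512 64 128 448 480)) = true := by decide +kernel
  have c10 : (go 16 Gd mult S343_357_660_808 (Tr.lf 9692529730 107584712 0) 448 512 96 128 384 416) = true := by decide +kernel
  have c11 : (go 16 Gd mult S343_357_660_808 (Tr.lf 5388911746 99454024 0) 448 512 64 128 448 480) = true := by decide +kernel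
  have c12 : (go 16 Gd mult S343_357_660_808 (Tr.lf 556016673 103779526 0) 448 512 96 128 480 512) = true := by decide +kernel
  (And.intro (Ok.s2 448 (Ok.lf S314_343_512_660_ok c4)
  (Ok.lf S314_343_512_660_ok (bl c3)))
  (And.intro (Ok.s2 448 (Ok.lf S343_372_512_660_ok (bl c1))
  (Ok.s2 480 (Ok.lf S343_372_512_660_ok (bl c9))
  (Ok.lf S343_372_512_660_ok (bl c5))))
  (And.intro (Ok.s3 328 (Ok.s2 448 (Ok.lf S314_328_660_808_ok (br c1))
  (Ok.lf S314_328_660_808_ok (br c3)))
  (Ok.s2 448 (Ok.s1 96 (Ok.lf S328_343_660_808_ok c6)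
  (Ok.lf S328_343_660_808_ok c2))
  (Ok.s2 480 (Ok.lf S328_343_660_808_ok (br c9))
  (Ok.lf S328_343_660_808_ok (br c5)))))
  (And.intro (Ok.s2 448 (Ok.lf S343_372_660_808_ok (bl c7))
  (Ok.s1 96 (Ok.lf S343_372_660_808_ok c0)
  (Ok.lf S343_372_660_808_ok (br c7))))
  (Ok.s2 448 (Ok.s1 96 (Ok.lf S343_357_660_808_ok (bl c8))
  (Ok.s2 416 (Ok.lf S343_357_660_808_ok c10)
  (Ok.lf S343_357_660_808_ok (bl (br c8)))))
  (Ok.s2 480 (Ok.lf S343_357_660_808_ok c11)
  (Ok.s1 96 (Ok.lf S343_357_660_808_ok (br (br c8)))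
  (Ok.lf S343_357_660_808_ok c12))))))))

end Vale.Agent.P098.Ck
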