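import Vale.Agent.P098.CkGd
import Vale.Agent.P098.CkOk
import Vale.Agent.P098.Sh.A2
import Vale.Agent.P098.Sh.A5

namespace Vale.Agent.P098.Ck

theorem r68 :
    Ok Gd mult 0 128 128 160 384 448 82 140 216 364 ∧
    Ok Gd mult 0 128 160 192 384 448 82 140 216 364 ∧
    Ok Gd mult 0 128 128 192 448 512 82 140 216 290 :=
  have c0 : (band (go 16 Gd mult S111_140_216_364 (Tr.lf 13440944200 90667849 0) 0 128 128 160 384 448)
  (go 16 Gd mult S82_111_216_364 (Tr.lf 9137440840 95120455 0) 0 128 128 160 384 448)) = true := by decide +kernel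
  have c1 : (go 16 Gd mult S111_140_216_364 (Tr.lf 13978863688 99323080 0) 0 64 160 176 384 448) = true := by decide +kernel
  have c2 : (go 16 Gd mult S111_140_216_364 (Tr.lf 13970475140 103505096 0) 64 128 160 192 384 448) = true := by decide +kernel
  have c3 : (band (go 16 Gd mult S82_111_216_364 (Tr.lf 13970344068 103382088 296192341395291510867427328) 0 64 160 192 384 448)
  (go 16 Gd mult S82_111_216_364 (Tr.lf 13970344068 99315015 0) 64 128 160 192 384 448)) = true := by decide +kernel
  have c4 : (band (go 16 Gd mult S111_140_216_290 (Tr.lf 13978732676 99192008 40693517426603270864896) 0 64 128 160 448 480)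
  (go 16 Gd mult S111_140_216_290 (Tr.lf 13978732616 99327048 875287989723648974217281536) 0 64 160 176 448 480)) = true := by decide +kernel
  have c5 : (go 16 Gd mult S82_111_216_290 (Tr.lf 13970343048 107703368 767698221902546704443179008) 0 128 160 192 448 480) = true := by decide +kernel
  have c6 : (go 16 Gd mult S111_140_216_364 (Tr.lf 13970475076 103644232 452139123541005674569596957) 0 64 176 192 384 448) = true := by decide +kernel
  have c7 : (band (go 16 Gd mult S111_140_216_290 (Tr.lf 13440813124 86469449 0) 64 128 128 160 448 512)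
  (go 16 Gd mult S111_140_216_290 (Tr.lf 13969294404 107699144 12703500813358209440495435776) 0 64 176 192 448 480)) = true := by decide +kernel
  have c8 : (band (go 16 Gd mult S82_111_216_290 (Tr.lf 13433390216 94985416 30326460486502408257536) 0 128 128 160 448 480)
  (go 16 Gd mult S82_111_216_290 (Tr.lf 9137374276 99449799 2584814743153881987531210752) 0 128 128 160 480 512)) = true := by decide +kernel
  have c9 : (band (go 16 Gd mult S111_140_216_290 (Tr.lf 9137439812 99323078 2868909783559381745376690176) 0 64 128 160 480 512)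
  (go 16 Gd mult S111_140_216_290 (Tr.lf 13440795716 94993352 85833733192638671404138496) 64 128 160 192 448 480)) = true := by decide +kernel
  have c10 : (band (go 16 Gd mult S111_140_216_290 (Tr.lf 4841357858 103902405 17049056226870026604422103040) 0 128 160 192 480 512)
  (go 16 Gd mult S82_111_216_290 (Tr.lf 4834009634 103771206 14382303629084897107951747072) 0 128 160 192 480 512)) = true := by decide +kernel
  (And.intro (Ok.s3 111 (Ok.lf S82_111_216_364_ok (br c0))
  (Ok.lf S111_140_216_364_ok (bl c0)))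
  (And.intro (Ok.s3 111 (Ok.s0 64 (Ok.lf S82_111_216_364_ok (bl c3))
  (Ok.lf S82_111_216_364_ok (br c3)))
  (Ok.s0 64 (Ok.s1 176 (Ok.lf S111_140_216_364_ok c1)
  (Ok.lf S111_140_216_364_ok c6))
  (Ok.lf S111_140_216_364_ok c2)))
  (Ok.s1 160 (Ok.s3 111 (Ok.s2 480 (Ok.lf S82_111_216_290_ok (bl c8))
  (Ok.lf S82_111_216_290_ok (br c8)))
  (Ok.s0 64 (Ok.s2 480 (Ok.lf S111_140_216_290_ok (bl c4))
  (Ok.lf S111_140_216_290_ok (bl c9)))
  (Ok.lf S111_140_216_290_ok (bl c7))))
  (Ok.s3 111 (Ok.s2 480 (Ok.lf S82_111_216_290_ok c5)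
  (Ok.lf S82_111_216_290_ok (br c10)))
  (Ok.s2 480 (Ok.s0 64 (Ok.s1 176 (Ok.lf S111_140_216_290_ok (br c4))
  (Ok.lf S111_140_216_290_ok (br c7)))
  (Ok.lf S111_140_216_290_ok (br c9)))
  (Ok.lf S111_140_216_290_ok (bl c10)))))))

end Vale.Agent.P098.Ck
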