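import Vale.Agent.P098.CkGd
import Vale.Agent.P098.CkOk
import Vale.Agent.P098.Sh.A53
import Vale.Agent.P098.Sh.A54
import Vale.Agent.P098.Sh.A56
import Vale.Agent.P098.Sh.A57

namespace Vale.Agent.P098.Ck

theorem r680 :
    Ok Gd mult 448 512 64 128 384 512 357 372 660 808 ∧
    Ok Gd mult 384 512 64 128 384 512 372 430 216 512 ∧
    Ok Gd mult 384 512 64 128 384 448 372 430 512 660 :=
  have c0 : (go 16 Gd mult S357_372_660_808 (Tr.lf 5389191298 90938440 0) 448 512 64 128 384 448) = true := by decide +kernel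
  have c1 : (go 16 Gd mult S357_372_660_808 (Tr.lf 1102596226 90934472 515272902210928905289728) 448 512 64 128 480 512) = true := by decide +kernel
  have c2 : (band (go 16 Gd mult S401_430_216_364 (Tr.lf 5380524164 91061320 0) 384 512 64 128 384 448)
  (band (go 16 Gd mult S372_401_364_512 (Tr.lf 556041348 91323718 0) 384 512 64 128 384 448)
  (go 16 Gd mult S372_401_216_364 (Tr.lf 555893890 91323718 0) 384 512 64 128 384 448))) = true := by decide +kernel
  have c3 : (band (go 16 Gd mult S401_430_216_364 (Tr.lf 1774486660 78740554 325972414529343280119808) 384 512 64 128 480 512)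
  (go 16 Gd mult S401_430_364_512 (Tr.lf 1774486660 82934858 249990275688320592773120) 384 512 64 128 480 512)) = true := by decide +kernel
  have c4 : (band (go 16 Gd mult S372_401_512_660 (Tr.lf 5388928132 86875208 0) 384 512 64 128 384 448)
  (band (go 16 Gd mult S401_430_364_512 (Tr.lf 5388781700 91069512 0) 384 512 64 128 384 448)
  (go 16 Gd mult S401_430_364_512 (Tr.lf 5388780676 99322952 0) 384 512 64 128 448 480))) = true := by decide +kernel
  have c5 : (band (go 16 Gd mult S401_430_512_660 (Tr.lf 5388798020 91069512 0) 384 512 96 128 384 448)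
  (go 16 Gd mult S401_430_512_660 (Tr.lf 5388796996 103652296 0) 384 512 64 96 384 448)) = true := by decide +kernel
  have c6 : (band (go 16 Gd mult S401_430_216_364 (Tr.lf 1161053316 91196488 0) 384 512 64 128 448 480)
  (band (go 16 Gd mult S372_401_364_512 (Tr.lf 624182404 95783880 0) 384 512 64 128 448 480)
  (band (go 16 Gd mult S372_401_216_364 (Tr.lf 623133314 91589830 0) 384 512 64 128 448 480)
  (go 16 Gd mult S372_401_216_364 (Tr.lf 1237599364 83069898 427872228790771086524416) 384 512 64 128 480 512)))) = true := by decide +kernel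
  have c7 : (go 16 Gd mult S372_401_364_512 (Tr.lf 1161053316 87002184 356298861784365709393920) 384 512 64 128 480 512) = true := by decide +kernel
  have c8 : (go 16 Gd mult S357_372_660_808 (Tr.lf 557073538 91327432 0) 448 512 64 128 448 480) = true := by decide +kernel
  (And.intro (Ok.s2 448 (Ok.lf S357_372_660_808_ok c0)
  (Ok.s2 480 (Ok.lf S357_372_660_808_ok c8)
  (Ok.lf S357_372_660_808_ok c1)))
  (And.intro (Ok.s4 364 (Ok.s2 448 (Ok.s3 401 (Ok.lf S372_401_216_364_ok (br (br c2)))
  (Ok.lf S401_430_216_364_ok (bl c2)))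
  (Ok.s2 480 (Ok.s3 401 (Ok.lf S372_401_216_364_ok (bl (br (br c6))))
  (Ok.lf S401_430_216_364_ok (bl c6)))
  (Ok.s3 401 (Ok.lf S372_401_216_364_ok (br (br (br c6))))
  (Ok.lf S401_430_216_364_ok (bl c3)))))
  (Ok.s2 448 (Ok.s3 401 (Ok.lf S372_401_364_512_ok (bl (br c2)))
  (Ok.lf S401_430_364_512_ok (bl (br c4))))
  (Ok.s2 480 (Ok.s3 401 (Ok.lf S372_401_364_512_ok (bl (br c6)))
  (Ok.lf S401_430_364_512_ok (br (br c4))))
  (Ok.s3 401 (Ok.lf S372_401_364_512_ok c7)
  (Ok.lf S401_430_364_512_ok (br c3))))))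
  (Ok.s3 401 (Ok.lf S372_401_512_660_ok (bl c4))
  (Ok.s1 96 (Ok.lf S401_430_512_660_ok (br c5))
  (Ok.lf S401_430_512_660_ok (bl c5))))))

end Vale.Agent.P098.Ck
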