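import Vale.Agent.P098.CkGd
import Vale.Agent.P098.CkOk
import Vale.Agent.P098.Sh.A54
import Vale.Agent.P098.Sh.A57
import Vale.Agent.P098.Sh.A58
import Vale.Agent.P098.Sh.A59

namespace Vale.Agent.P098.Ck

theorem r681 :
    Ok Gd mult 384 512 64 128 448 512 372 430 512 660 ∧
    Ok Gd mult 384 512 64 128 384 512 372 430 660 808 ∧
    Ok Gd mult 384 512 64 128 384 512 430 488 216 364 :=
  have c0 : (band (go 16 Gd mult S372_401_660_808 (Tr.lf 5388929156 86875208 0) 384 512 64 128 384 448)
  (go 16 Gd mult S372_401_660_808 (Tr.lf 1093960770 94997576 0) 384 512 96 128 480 512)) = true := by decide +kernel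
  have c1 : (band (go 16 Gd mult S401_430_660_808 (Tr.lf 5388928136 95128648 0) 384 512 64 128 448 480)
  (go 16 Gd mult S372_401_512_660 (Tr.lf 5388797060 91065416 0) 384 512 64 128 448 480)) = true := by decide +kernel
  have c2 : (go 16 Gd mult S401_430_660_808 (Tr.lf 1161070724 87129160 142371970760890319372288) 384 512 64 128 480 512) = true := by decide +kernel
  have c3 : (band (go 16 Gd mult S430_459_216_364 (Tr.lf 1765968004 78736585 189669422572607528501248) 384 512 64 96 448 512)
  (band (go 16 Gd mult S459_488_216_364 (Tr.lf 1765886084 74550345 231248383708022939058176) 384 512 64 96 448 512)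
  (band (go 16 Gd mult S459_488_216_364 (Tr.lf 5371937860 90917960 0) 384 512 96 128 448 512)
  (go 16 Gd mult S430_459_216_364 (Tr.lf 1085425732 82545608 0) 384 512 96 128 448 512)))) = true := by decide +kernel
  have c4 : (band (go 16 Gd mult S372_401_512_660 (Tr.lf 1161069700 87002184 291569236829383885324288) 384 512 64 128 480 512)
  (go 16 Gd mult S401_430_512_660 (Tr.lf 1161069700 91323464 175576110097677795983360) 384 512 64 128 480 512)) = true := by decide +kernel
  have c5 : (band (go 16 Gd mult S401_430_660_808 (Tr.lf 5388929092 103644232 0) 384 512 64 96 384 448)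
  (band (go 16 Gd mult S430_488_216_364 (Tr.lf 1085441090 95255496 0) 384 512 64 96 384 448)
  (go 16 Gd mult S401_430_660_808 (Tr.lf 5388929092 91069512 0) 384 512 96 128 384 448))) = true := by decide +kernel
  have c6 : (band (go 16 Gd mult S372_401_660_808 (Tr.lf 5388928132 99322952 0) 384 512 64 128 448 480)
  (go 16 Gd mult S401_430_512_660 (Tr.lf 5388797060 95128648 0) 384 512 64 128 448 480)) = true := by decide +kernel
  have c7 : (go 16 Gd mult S372_401_660_808 (Tr.lf 1102611524 91065416 178970311003130069778432) 384 512 64 96 480 512) = true := by decide +kernel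
  have c8 : (go 16 Gd mult S430_488_216_364 (Tr.lf 5372020804 91053128 0) 384 512 96 128 384 448) = true := by decide +kernel
  (And.intro (Ok.s2 480 (Ok.s3 401 (Ok.lf S372_401_512_660_ok (br c1))
  (Ok.lf S401_430_512_660_ok (br c6)))
  (Ok.s3 401 (Ok.lf S372_401_512_660_ok (bl c4))
  (Ok.lf S401_430_512_660_ok (br c4))))
  (And.intro (Ok.s2 448 (Ok.s3 401 (Ok.lf S372_401_660_808_ok (bl c0))
  (Ok.s1 96 (Ok.lf S401_430_660_808_ok (bl c5))
  (Ok.lf S401_430_660_808_ok (br (br c5)))))
  (Ok.s2 480 (Ok.s3 401 (Ok.lf S372_401_660_808_ok (bl c6))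
  (Ok.lf S401_430_660_808_ok (bl c1)))
  (Ok.s3 401 (Ok.s1 96 (Ok.lf S372_401_660_808_ok c7)
  (Ok.lf S372_401_660_808_ok (br c0)))
  (Ok.lf S401_430_660_808_ok c2))))
  (Ok.s2 448 (Ok.s1 96 (Ok.lf S430_488_216_364_ok (bl (br c5)))
  (Ok.lf S430_488_216_364_ok c8))
  (Ok.s3 459 (Ok.s1 96 (Ok.lf S430_459_216_364_ok (bl c3))
  (Ok.lf S430_459_216_364_ok (br (br (br c3)))))
  (Ok.s1 96 (Ok.lf S459_488_216_364_ok (bl (br c3)))
  (Ok.lf S459_488_216_364_ok (bl (br (br c3)))))))))

end Vale.Agent.P098.Ck
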