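import Vale.Agent.P098.CkGd
import Vale.Agent.P098.CkOk
import Vale.Agent.P098.Sh.A58
import Vale.Agent.P098.Sh.A59

namespace Vale.Agent.P098.Ck

theorem r682 :
    Ok Gd mult 384 512 64 128 384 448 430 488 364 512 ∧
    Ok Gd mult 384 512 64 128 448 512 430 488 364 512 ∧
    Ok Gd mult 384 512 64 128 384 512 430 488 512 808 :=
  have c0 : (band (go 16 Gd mult S430_459_364_512 (Tr.lf 1765968004 78736585 120088303921257930293248) 384 512 64 96 448 512)
  (band (go 16 Gd mult S430_459_660_808 (Tr.lf 1160939588 91327687 5515576478039155933184) 384 512 64 96 448 512)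
  (go 16 Gd mult S459_488_364_512 (Tr.lf 1765886084 78744649 216232734032023364042752) 384 512 64 96 448 512))) = true := by decide +kernel
  have c1 : (band (go 16 Gd mult S430_459_660_808 (Tr.lf 5388798084 90934344 0) 384 512 96 128 448 512)
  (band (go 16 Gd mult S430_459_364_512 (Tr.lf 1085425732 82545608 0) 384 512 96 128 448 512)
  (band (go 16 Gd mult S459_488_364_512 (Tr.lf 5371937860 90917960 0) 384 512 96 128 448 512)
  (band (go 16 Gd mult S459_488_512_660 (Tr.lf 5371937860 90917960 0) 384 512 96 128 448 512)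
  (go 16 Gd mult S459_488_660_808 (Tr.lf 5371937860 86723656 0) 384 512 96 128 448 512))))) = true := by decide +kernel
  have c2 : (band (go 16 Gd mult S430_459_364_512 (Tr.lf 5380393092 91061320 0) 384 512 64 128 384 448)
  (band (go 16 Gd mult S459_488_660_808 (Tr.lf 5371938948 91053128 0) 384 512 64 128 384 448)
  (band (go 16 Gd mult S459_488_364_512 (Tr.lf 5371937924 91053128 0) 384 512 64 128 384 448)
  (go 16 Gd mult S459_488_512_660 (Tr.lf 5371937924 91053128 0) 384 512 64 128 384 448)))) = true := by decide +kernel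
  have c3 : (band (go 16 Gd mult S430_459_512_660 (Tr.lf 1160938628 91200456 173270267108156527083520) 384 512 64 128 480 512)
  (band (go 16 Gd mult S430_459_512_660 (Tr.lf 5388796996 91069512 0) 384 512 96 128 384 448)
  (band (go 16 Gd mult S430_459_660_808 (Tr.lf 5388798020 91069512 0) 384 512 96 128 384 448)
  (go 16 Gd mult S430_459_660_808 (Tr.lf 5388796996 103652296 0) 384 512 64 96 384 448)))) = true := by decide +kernel
  have c4 : (band (go 16 Gd mult S459_488_512_660 (Tr.lf 1765902404 78744649 201807380166382494679040) 384 512 64 96 448 512)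
  (go 16 Gd mult S459_488_660_808 (Tr.lf 1765902404 78744649 194852957650593993719808) 384 512 64 96 448 512)) = true := by decide +kernel
  have c5 : (band (go 16 Gd mult S430_459_512_660 (Tr.lf 5388780676 90934344 0) 384 512 64 128 448 480)
  (go 16 Gd mult S430_459_512_660 (Tr.lf 5388780612 103652296 0) 384 512 64 96 384 448)) = true := by decide +kernel
  (And.intro (Ok.s3 459 (Ok.lf S430_459_364_512_ok (bl c2))
  (Ok.lf S459_488_364_512_ok (bl (br (br c2)))))
  (And.intro (Ok.s3 459 (Ok.s1 96 (Ok.lf S430_459_364_512_ok (bl c0))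
  (Ok.lf S430_459_364_512_ok (bl (br c1))))
  (Ok.s1 96 (Ok.lf S459_488_364_512_ok (br (br c0)))
  (Ok.lf S459_488_364_512_ok (bl (br (br c1))))))
  (Ok.s4 660 (Ok.s2 448 (Ok.s3 459 (Ok.s1 96 (Ok.lf S430_459_512_660_ok (br c5))
  (Ok.lf S430_459_512_660_ok (bl (br c3))))
  (Ok.lf S459_488_512_660_ok (br (br (br c2)))))
  (Ok.s3 459 (Ok.s2 480 (Ok.lf S430_459_512_660_ok (bl c5))
  (Ok.lf S430_459_512_660_ok (bl c3)))
  (Ok.s1 96 (Ok.lf S459_488_512_660_ok (bl c4))
  (Ok.lf S459_488_512_660_ok (bl (br (br (br c1))))))))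
  (Ok.s2 448 (Ok.s3 459 (Ok.s1 96 (Ok.lf S430_459_660_808_ok (br (br (br c3))))
  (Ok.lf S430_459_660_808_ok (bl (br (br c3)))))
  (Ok.lf S459_488_660_808_ok (bl (br c2))))
  (Ok.s3 459 (Ok.s1 96 (Ok.lf S430_459_660_808_ok (bl (br c0)))
  (Ok.lf S430_459_660_808_ok (bl c1)))
  (Ok.s1 96 (Ok.lf S459_488_660_808_ok (br c4))
  (Ok.lf S459_488_660_808_ok (br (br (br (br c1)))))))))))

end Vale.Agent.P098.Ck
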