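import Vale.Agent.P098.CkGd
import Vale.Agent.P098.CkOk
import Vale.Agent.P098.Sh.A0
import Vale.Agent.P098.Sh.A1
import Vale.Agent.P098.Sh.A14
import Vale.Agent.P098.Sh.A20
import Vale.Agent.P098.Sh.A3
import Vale.Agent.P098.Sh.A4
import Vale.Agent.P098.Sh.A8

namespace Vale.Agent.P098.Ck

theorem r683 :
    Ok Gd mult 384 512 128 192 0 128 24 82 216 512 ∧
    Ok Gd mult 384 512 128 192 0 128 24 82 512 808 ∧
    Ok Gd mult 384 512 128 192 0 128 82 140 216 808 ∧
    Ok Gd mult 384 512 128 192 0 128 140 198 216 364 :=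
  have c0 : (go 16 Gd mult S183_198_216_364 (Tr.lf 13440141380 103520969 0) 384 512 128 192 0 128) = true := by decide +kernel
  have c1 : (band (go 16 Gd mult S82_140_216_364 (Tr.lf 8591148068 95247175 0) 384 512 128 160 0 128)
  (band (go 16 Gd mult S82_140_364_512 (Tr.lf 9128018978 103636038 0) 384 512 128 160 0 128)
  (band (go 16 Gd mult S82_140_512_660 (Tr.lf 9128018978 107830342 0) 384 512 128 160 0 128)
  (band (go 16 Gd mult S82_140_660_808 (Tr.lf 9128002594 103636038 0) 384 512 128 160 0 128)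
  (band (go 16 Gd mult S140_169_216_364 (Tr.lf 4296164386 103910469 0) 384 512 128 160 0 128)
  (band (go 16 Gd mult S24_82_216_364 (Tr.lf 9128985634 107965638 0) 384 512 128 160 0 128)
  (band (go 16 Gd mult S24_82_364_512 (Tr.lf 9128985634 112159942 0) 384 512 128 160 0 128)
  (go 16 Gd mult S24_82_512_660 (Tr.lf 9128985634 112159942 0) 384 512 128 160 0 128)))))))) = true := by decide +kernel
  have c2 : (band (go 16 Gd mult S82_140_216_364 (Tr.lf 8591148066 99576902 0) 384 512 160 192 0 128)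
  (band (go 16 Gd mult S140_169_216_364 (Tr.lf 8591131684 99580998 0) 384 512 160 192 0 128)
  (band (go 16 Gd mult S169_183_216_364 (Tr.lf 8598594596 99593030 0) 384 512 160 192 0 128)
  (band (go 16 Gd mult S82_140_364_512 (Tr.lf 8591082530 99576902 0) 384 512 160 192 0 128)
  (band (go 16 Gd mult S82_140_512_660 (Tr.lf 8591131682 99576902 0) 384 512 160 192 0 128)
  (band (go 16 Gd mult S82_140_660_808 (Tr.lf 8591131682 103771206 0) 384 512 160 192 0 128)
  (band (go 16 Gd mult S24_82_216_364 (Tr.lf 8591066130 95390917 0) 384 512 160 192 0 128)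
  (go 16 Gd mult S24_82_364_512 (Tr.lf 8591066130 95390917 0) 384 512 160 192 0 128)))))))) = true := by decide +kernel
  have c3 : (band (go 16 Gd mult S24_82_660_808 (Tr.lf 9128985634 112159942 0) 384 512 128 160 0 128)
  (band (go 16 Gd mult S169_183_216_364 (Tr.lf 4296156194 108108869 0) 384 512 128 160 0 128)
  (band (go 16 Gd mult S24_82_660_808 (Tr.lf 8591066130 95390917 0) 384 512 160 192 0 128)
  (go 16 Gd mult S24_82_512_660 (Tr.lf 8591066130 95390917 0) 384 512 160 192 0 128)))) = true := by decide +kernel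
  (And.intro (Ok.s4 364 (Ok.s1 160 (Ok.lf S24_82_216_364_ok (bl (br (br (br (br (br c1)))))))
  (Ok.lf S24_82_216_364_ok (bl (br (br (br (br (br (br c2)))))))))
  (Ok.s1 160 (Ok.lf S24_82_364_512_ok (bl (br (br (br (br (br (br c1))))))))
  (Ok.lf S24_82_364_512_ok (br (br (br (br (br (br (br c2))))))))))
  (And.intro (Ok.s4 660 (Ok.s1 160 (Ok.lf S24_82_512_660_ok (br (br (br (br (br (br (br c1))))))))
  (Ok.lf S24_82_512_660_ok (br (br (br c3)))))
  (Ok.s1 160 (Ok.lf S24_82_660_808_ok (bl c3))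
  (Ok.lf S24_82_660_808_ok (bl (br (br c3))))))
  (And.intro (Ok.s4 512 (Ok.s4 364 (Ok.s1 160 (Ok.lf S82_140_216_364_ok (bl c1))
  (Ok.lf S82_140_216_364_ok (bl c2)))
  (Ok.s1 160 (Ok.lf S82_140_364_512_ok (bl (br c1)))
  (Ok.lf S82_140_364_512_ok (bl (br (br (br c2)))))))
  (Ok.s4 660 (Ok.s1 160 (Ok.lf S82_140_512_660_ok (bl (br (br c1))))
  (Ok.lf S82_140_512_660_ok (bl (br (br (br (br c2)))))))
  (Ok.s1 160 (Ok.lf S82_140_660_808_ok (bl (br (br (br c1)))))
  (Ok.lf S82_140_660_808_ok (bl (br (br (br (br (br c2))))))))))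
  (Ok.s3 169 (Ok.s1 160 (Ok.lf S140_169_216_364_ok (bl (br (br (br (br c1))))))
  (Ok.lf S140_169_216_364_ok (bl (br c2))))
  (Ok.s3 183 (Ok.s1 160 (Ok.lf S169_183_216_364_ok (bl (br c3)))
  (Ok.lf S169_183_216_364_ok (bl (br (br c2)))))
  (Ok.lf S183_198_216_364_ok c0))))))

end Vale.Agent.P098.Ck
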