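import Vale.Agent.P098.CkGd
import Vale.Agent.P098.CkOk
import Vale.Agent.P098.Sh.A10
import Vale.Agent.P098.Sh.A11
import Vale.Agent.P098.Sh.A18
import Vale.Agent.P098.Sh.A19
import Vale.Agent.P098.Sh.A25
import Vale.Agent.P098.Sh.A36
import Vale.Agent.P098.Sh.A9

namespace Vale.Agent.P098.Ck

theorem r684 :
    Ok Gd mult 384 512 128 192 0 128 140 198 364 512 ∧
    Ok Gd mult 384 512 128 192 0 128 140 198 512 808 ∧
    Ok Gd mult 384 512 128 192 0 128 198 256 216 364 :=
  have c0 : (band (go 16 Gd mult S198_227_216_364 (Tr.lf 17725687876 99174603 0) 384 512 128 160 0 128)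
  (band (go 16 Gd mult S140_198_660_808 (Tr.lf 4296311330 103910469 0) 384 512 128 160 0 128)
  (band (go 16 Gd mult S169_198_364_512 (Tr.lf 4296164386 108104901 0) 384 512 128 160 0 128)
  (go 16 Gd mult S140_169_364_512 (Tr.lf 4296163874 103910469 0) 384 512 128 160 0 128)))) = true := by decide +kernel
  have c1 : (go 16 Gd mult S198_227_216_290 (Tr.lf 22012266562 94968139 0) 384 416 160 192 0 128) = true := by decide +kernel
  have c2 : (go 16 Gd mult S227_256_216_364 (Tr.lf 13440157762 107846345 0) 448 512 128 192 0 128) = true := by decide +kernel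
  have c3 : (go 16 Gd mult S227_256_216_290 (Tr.lf 22012265540 94841163 0) 384 448 160 192 0 64) = true := by decide +kernel
  have c4 : (go 16 Gd mult S227_256_216_364 (Tr.lf 17725671490 99043786 0) 384 448 128 160 0 128) = true := by decide +kernel
  have c5 : (go 16 Gd mult S198_227_216_364 (Tr.lf 13440156706 107846600 0) 448 512 160 192 0 128) = true := by decide +kernel
  have c6 : (go 16 Gd mult S227_256_216_290 (Tr.lf 17734861890 103517001 0) 384 448 160 192 64 128) = true := by decide +kernel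
  have c7 : (go 16 Gd mult S198_227_216_290 (Tr.lf 17717020706 99564105 0) 416 448 160 192 0 128) = true := by decide +kernel
  have c8 : (band (go 16 Gd mult S140_198_660_808 (Tr.lf 4295262754 108239940 0) 384 512 160 192 0 128)
  (band (go 16 Gd mult S169_198_364_512 (Tr.lf 8590214178 103902150 0) 384 512 160 192 0 128)
  (band (go 16 Gd mult S140_169_364_512 (Tr.lf 8590082594 99580742 0) 384 512 160 192 0 128)
  (band (go 16 Gd mult S169_198_512_660 (Tr.lf 4295107106 104049732 0) 384 512 160 192 0 128)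
  (band (go 16 Gd mult S140_169_512_660 (Tr.lf 4296155666 104045637 0) 384 512 160 192 0 128)
  (band (go 16 Gd mult S140_169_512_660 (Tr.lf 4296155682 103910469 0) 384 512 128 160 0 128)
  (go 16 Gd mult S169_198_512_660 (Tr.lf 4295107090 103914309 0) 384 512 128 160 0 128))))))) = true := by decide +kernel
  have c9 : (band (go 16 Gd mult S198_227_290_364 (Tr.lf 17716889634 99305802 0) 384 448 160 192 0 128)
  (go 16 Gd mult S227_256_290_364 (Tr.lf 17716888610 99305802 0) 384 448 160 192 0 128)) = true := by decide +kernel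
  (And.intro (Ok.s1 160 (Ok.s3 169 (Ok.lf S140_169_364_512_ok (br (br (br c0))))
  (Ok.lf S169_198_364_512_ok (bl (br (br c0)))))
  (Ok.s3 169 (Ok.lf S140_169_364_512_ok (bl (br (br c8))))
  (Ok.lf S169_198_364_512_ok (bl (br c8)))))
  (And.intro (Ok.s4 660 (Ok.s1 160 (Ok.s3 169 (Ok.lf S140_169_512_660_ok (bl (br (br (br (br (br c8)))))))
  (Ok.lf S169_198_512_660_ok (br (br (br (br (br (br c8))))))))
  (Ok.s3 169 (Ok.lf S140_169_512_660_ok (bl (br (br (br (br c8))))))
  (Ok.lf S169_198_512_660_ok (bl (br (br (br c8)))))))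
  (Ok.s1 160 (Ok.lf S140_198_660_808_ok (bl (br c0)))
  (Ok.lf S140_198_660_808_ok (bl c8))))
  (Ok.s3 227 (Ok.s1 160 (Ok.lf S198_227_216_364_ok (bl c0))
  (Ok.s0 448 (Ok.s4 290 (Ok.s0 416 (Ok.lf S198_227_216_290_ok c1)
  (Ok.lf S198_227_216_290_ok c7))
  (Ok.lf S198_227_290_364_ok (bl c9)))
  (Ok.lf S198_227_216_364_ok c5)))
  (Ok.s0 448 (Ok.s1 160 (Ok.lf S227_256_216_364_ok c4)
  (Ok.s4 290 (Ok.s2 64 (Ok.lf S227_256_216_290_ok c3)
  (Ok.lf S227_256_216_290_ok c6))
  (Ok.lf S227_256_290_364_ok (br c9))))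
  (Ok.lf S227_256_216_364_ok c2)))))

end Vale.Agent.P098.Ck
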