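import Vale.Agent.P098.CkGd
import Vale.Agent.P098.CkOk
import Vale.Agent.P098.Sh.A26
import Vale.Agent.P098.Sh.A27
import Vale.Agent.P098.Sh.A29
import Vale.Agent.P098.Sh.A37
import Vale.Agent.P098.Sh.A38
import Vale.Agent.P098.Sh.A41
import Vale.Agent.P098.Sh.A42
import Vale.Agent.P098.Sh.A44
import Vale.Agent.P098.Sh.A45
import Vale.Agent.P098.Sh.A46
import Vale.Agent.P098.Sh.A49

namespace Vale.Agent.P098.Ck

theorem r685 :
    Ok Gd mult 384 512 128 192 0 128 198 256 364 512 ∧
    Ok Gd mult 384 512 128 192 0 128 198 256 512 808 ∧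
    Ok Gd mult 384 512 128 192 0 128 256 314 216 808 ∧
    Ok Gd mult 384 512 128 192 0 128 314 372 216 512 :=
  have c0 : (band (go 16 Gd mult S256_285_216_364 (Tr.lf 13430703172 103643593 0) 384 512 128 192 0 128)
  (band (go 16 Gd mult S198_227_364_512 (Tr.lf 8590214212 99711687 0) 384 512 128 192 0 128)
  (band (go 16 Gd mult S256_285_660_808 (Tr.lf 8590214178 99576646 0) 384 512 128 192 0 128)
  (band (go 16 Gd mult S285_314_660_808 (Tr.lf 8590214178 95382342 0) 384 512 128 192 0 128)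
  (band (go 16 Gd mult S227_256_660_808 (Tr.lf 8590205476 95255366 0) 384 512 128 192 0 128)
  (go 16 Gd mult S285_314_216_364 (Tr.lf 13497541666 103778633 0) 384 512 128 192 0 128)))))) = true := by decide +kernel
  have c1 : (band (go 16 Gd mult S198_256_512_660 (Tr.lf 4295263268 104041668 0) 384 512 160 192 0 128)
  (band (go 16 Gd mult S256_314_512_660 (Tr.lf 8590230564 95386438 0) 384 512 160 192 0 128)
  (band (go 16 Gd mult S227_256_364_512 (Tr.lf 13430432804 103512776 0) 384 512 160 192 0 128)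
  (band (go 16 Gd mult S314_372_364_512 (Tr.lf 8590083108 99449798 0) 384 512 160 192 0 128)
  (band (go 16 Gd mult S314_372_216_364 (Tr.lf 8590083106 103644102 0) 384 512 160 192 0 128)
  (band (go 16 Gd mult S256_285_364_438 (Tr.lf 13497410066 103901896 0) 384 512 160 192 0 128)
  (go 16 Gd mult S256_285_438_512 (Tr.lf 9202377234 104041414 0) 384 512 160 192 0 128))))))) = true := by decide +kernel
  have c2 : (band (go 16 Gd mult S256_314_512_660 (Tr.lf 8590230564 91056711 0) 384 512 128 160 0 128)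
  (band (go 16 Gd mult S198_256_512_660 (Tr.lf 4295263266 103906245 0) 384 512 128 160 0 128)
  (band (go 16 Gd mult S314_372_216_364 (Tr.lf 4295115810 103910341 0) 384 512 128 160 0 128)
  (band (go 16 Gd mult S314_372_364_512 (Tr.lf 4295115810 103910341 0) 384 512 128 160 0 128)
  (band (go 16 Gd mult S227_256_364_512 (Tr.lf 13497541154 99576265 0) 384 512 128 160 0 128)
  (go 16 Gd mult S256_285_364_512 (Tr.lf 9202573842 103910087 0) 384 512 128 160 0 128)))))) = true := by decide +kernel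
  have c3 : (band (go 16 Gd mult S198_227_660_808 (Tr.lf 4295238178 104045636 0) 384 512 128 192 0 128)
  (go 16 Gd mult S285_314_364_512 (Tr.lf 4295238178 104049477 0) 384 512 128 192 0 128)) = true := by decide +kernel
  (And.intro (Ok.s3 227 (Ok.lf S198_227_364_512_ok (bl (br c0)))
  (Ok.s1 160 (Ok.lf S227_256_364_512_ok (bl (br (br (br (br c2))))))
  (Ok.lf S227_256_364_512_ok (bl (br (br c1))))))
  (And.intro (Ok.s4 660 (Ok.s1 160 (Ok.lf S198_256_512_660_ok (bl (br c2)))
  (Ok.lf S198_256_512_660_ok (bl c1)))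
  (Ok.s3 227 (Ok.lf S198_227_660_808_ok (bl c3))
  (Ok.lf S227_256_660_808_ok (bl (br (br (br (br c0))))))))
  (And.intro (Ok.s4 512 (Ok.s4 364 (Ok.s3 285 (Ok.lf S256_285_216_364_ok (bl c0))
  (Ok.lf S285_314_216_364_ok (br (br (br (br (br c0)))))))
  (Ok.s3 285 (Ok.s1 160 (Ok.lf S256_285_364_512_ok (br (br (br (br (br c2))))))
  (Ok.s4 438 (Ok.lf S256_285_364_438_ok (bl (br (br (br (br (br c1)))))))
  (Ok.lf S256_285_438_512_ok (br (br (br (br (br (br c1)))))))))
  (Ok.lf S285_314_364_512_ok (br c3))))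
  (Ok.s4 660 (Ok.s1 160 (Ok.lf S256_314_512_660_ok (bl c2))
  (Ok.lf S256_314_512_660_ok (bl (br c1))))
  (Ok.s3 285 (Ok.lf S256_285_660_808_ok (bl (br (br c0))))
  (Ok.lf S285_314_660_808_ok (bl (br (br (br c0))))))))
  (Ok.s4 364 (Ok.s1 160 (Ok.lf S314_372_216_364_ok (bl (br (br c2))))
  (Ok.lf S314_372_216_364_ok (bl (br (br (br (br c1)))))))
  (Ok.s1 160 (Ok.lf S314_372_364_512_ok (bl (br (br (br c2)))))
  (Ok.lf S314_372_364_512_ok (bl (br (br (br c1))))))))))

end Vale.Agent.P098.Ck
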