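import Vale.Agent.P098.CkGd
import Vale.Agent.P098.CkOk
import Vale.Agent.P098.Sh.A48
import Vale.Agent.P098.Sh.A49
import Vale.Agent.P098.Sh.A52
import Vale.Agent.P098.Sh.A54
import Vale.Agent.P098.Sh.A55
import Vale.Agent.P098.Sh.A58
import Vale.Agent.P098.Sh.A59

namespace Vale.Agent.P098.Ck

theorem r686 :
    Ok Gd mult 384 512 128 192 0 128 314 372 512 660 ∧
    Ok Gd mult 384 512 128 192 0 128 314 372 660 808 ∧
    Ok Gd mult 384 512 128 192 0 128 372 430 216 808 ∧
    Ok Gd mult 384 512 128 192 0 128 430 488 216 512 :=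
  have c0 : (go 16 Gd mult S372_430_512_660 (Tr.lf 13431376008 103643849 0) 384 512 128 192 0 128) = true := by decide +kernel
  have c1 : (band (go 16 Gd mult S459_488_216_364 (Tr.lf 22011807880 90777931 0) 384 512 128 192 0 64)
  (go 16 Gd mult S459_488_364_512 (Tr.lf 22011806856 90777931 0) 384 512 128 192 0 64)) = true := by decide +kernel
  have c2 : (band (go 16 Gd mult S459_488_216_364 (Tr.lf 22550775944 94972492 0) 384 512 128 192 64 128)
  (go 16 Gd mult S459_488_364_512 (Tr.lf 22550775944 94972492 0) 384 512 128 192 64 128)) = true := by decide +kernel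
  have c3 : (band (go 16 Gd mult S372_430_216_364 (Tr.lf 13432424580 107838409 0) 384 512 128 192 0 128)
  (go 16 Gd mult S372_430_364_512 (Tr.lf 13431376004 107838153 0) 384 512 128 192 0 128)) = true := by decide +kernel
  have c4 : (band (go 16 Gd mult S430_459_216_364 (Tr.lf 18264246408 99310538 0) 384 512 128 192 0 128)
  (go 16 Gd mult S430_459_364_512 (Tr.lf 18264246408 99310538 0) 384 512 128 192 0 128)) = true := by decide +kernel
  have c5 : (band (go 16 Gd mult S372_430_660_808 (Tr.lf 13431375940 103644104 0) 384 512 160 192 0 128)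
  (band (go 16 Gd mult S314_343_660_808 (Tr.lf 8590205972 95386438 0) 384 512 160 192 0 128)
  (band (go 16 Gd mult S314_343_512_660 (Tr.lf 8590074386 95251398 0) 384 512 160 192 0 128)
  (band (go 16 Gd mult S343_372_512_660 (Tr.lf 4295107090 108108996 0) 384 512 160 192 0 128)
  (band (go 16 Gd mult S343_372_660_808 (Tr.lf 4295107090 104172740 0) 384 512 160 192 0 128)
  (band (go 16 Gd mult S372_430_660_808 (Tr.lf 8590099492 99449543 0) 384 512 128 160 0 128)
  (go 16 Gd mult S314_343_512_660 (Tr.lf 4303495714 103783620 0) 384 512 128 160 0 128))))))) = true := by decide +kernel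
  have c6 : (band (go 16 Gd mult S314_343_660_808 (Tr.lf 8598471202 95259462 0) 384 512 128 160 0 128)
  (band (go 16 Gd mult S343_372_660_808 (Tr.lf 4303495714 103787461 0) 384 512 128 160 0 128)
  (go 16 Gd mult S343_372_512_660 (Tr.lf 4303495698 99724229 0) 384 512 128 160 0 128))) = true := by decide +kernel
  (And.intro (Ok.s1 160 (Ok.s3 343 (Ok.lf S314_343_512_660_ok (br (br (br (br (br (br c5)))))))
  (Ok.lf S343_372_512_660_ok (br (br c6))))
  (Ok.s3 343 (Ok.lf S314_343_512_660_ok (bl (br (br c5))))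
  (Ok.lf S343_372_512_660_ok (bl (br (br (br c5)))))))
  (And.intro (Ok.s1 160 (Ok.s3 343 (Ok.lf S314_343_660_808_ok (bl c6))
  (Ok.lf S343_372_660_808_ok (bl (br c6))))
  (Ok.s3 343 (Ok.lf S314_343_660_808_ok (bl (br c5)))
  (Ok.lf S343_372_660_808_ok (bl (br (br (br (br c5))))))))
  (And.intro (Ok.s4 512 (Ok.s4 364 (Ok.lf S372_430_216_364_ok (bl c3))
  (Ok.lf S372_430_364_512_ok (br c3)))
  (Ok.s4 660 (Ok.lf S372_430_512_660_ok c0)
  (Ok.s1 160 (Ok.lf S372_430_660_808_ok (bl (br (br (br (br (br c5)))))))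
  (Ok.lf S372_430_660_808_ok (bl c5)))))
  (Ok.s4 364 (Ok.s3 459 (Ok.lf S430_459_216_364_ok (bl c4))
  (Ok.s2 64 (Ok.lf S459_488_216_364_ok (bl c1))
  (Ok.lf S459_488_216_364_ok (bl c2))))
  (Ok.s3 459 (Ok.lf S430_459_364_512_ok (br c4))
  (Ok.s2 64 (Ok.lf S459_488_364_512_ok (br c1))
  (Ok.lf S459_488_364_512_ok (br c2))))))))

end Vale.Agent.P098.Ck
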