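import Vale.Agent.P098.CkGd
import Vale.Agent.P098.CkOk
import Vale.Agent.P098.Sh.A0
import Vale.Agent.P098.Sh.A1
import Vale.Agent.P098.Sh.A2
import Vale.Agent.P098.Sh.A5
import Vale.Agent.P098.Sh.A58
import Vale.Agent.P098.Sh.A59

namespace Vale.Agent.P098.Ck

theorem r687 :
    Ok Gd mult 384 512 128 192 0 128 430 488 512 660 ∧
    Ok Gd mult 384 512 128 192 0 128 430 488 660 808 ∧
    Ok Gd mult 384 512 128 192 128 256 24 82 216 808 ∧
    Ok Gd mult 384 512 128 192 128 256 82 140 216 364 :=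
  have c0 : (go 16 Gd mult S111_140_216_364 (Tr.lf 9137588356 103910471 0) 384 512 128 192 128 256) = true := by decide +kernel
  have c1 : (band (go 16 Gd mult S430_459_512_660 (Tr.lf 18264197256 99310538 0) 384 512 128 192 0 128)
  (go 16 Gd mult S430_459_660_808 (Tr.lf 18264246408 99310538 0) 384 512 128 192 0 128)) = true := by decide +kernel
  have c2 : (band (go 16 Gd mult S459_488_512_660 (Tr.lf 22550775944 94972492 0) 384 512 128 192 64 128)
  (go 16 Gd mult S459_488_660_808 (Tr.lf 22550775944 94972492 0) 384 512 128 192 64 128)) = true := by decide +kernel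
  have c3 : (band (go 16 Gd mult S459_488_660_808 (Tr.lf 22011807880 90777931 0) 384 512 128 192 0 64)
  (go 16 Gd mult S459_488_512_660 (Tr.lf 22011806856 90777931 0) 384 512 128 192 0 64)) = true := by decide +kernel
  have c4 : (band (go 16 Gd mult S53_82_216_364 (Tr.lf 9674311748 103509191 0) 384 512 128 160 128 256)
  (band (go 16 Gd mult S82_111_216_364 (Tr.lf 9137440836 107846854 0) 384 512 128 160 128 256)
  (band (go 16 Gd mult S24_53_216_364 (Tr.lf 13961873476 103374024 0) 384 512 128 160 128 256)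
  (band (go 16 Gd mult S24_53_364_512 (Tr.lf 13961873476 103374024 0) 384 512 128 160 128 256)
  (band (go 16 Gd mult S53_82_364_512 (Tr.lf 9674246212 103509191 0) 384 512 128 160 128 256)
  (go 16 Gd mult S82_111_216_364 (Tr.lf 9136391204 107973702 0) 384 512 160 192 128 256)))))) = true := by decide +kernel
  have c5 : (band (go 16 Gd mult S24_53_512_660 (Tr.lf 13961873476 103374024 0) 384 512 128 160 128 256)
  (band (go 16 Gd mult S53_82_512_660 (Tr.lf 9674246212 103509191 0) 384 512 128 160 128 256)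
  (band (go 16 Gd mult S24_53_660_808 (Tr.lf 13961873476 103374024 0) 384 512 128 160 128 256)
  (go 16 Gd mult S53_82_660_808 (Tr.lf 9674246212 103517255 0) 384 512 128 160 128 256)))) = true := by decide +kernel
  have c6 : (band (go 16 Gd mult S24_82_216_364 (Tr.lf 9127937060 103771206 0) 384 512 160 192 128 256)
  (band (go 16 Gd mult S24_82_364_512 (Tr.lf 9127937060 107707462 0) 384 512 160 192 128 256)
  (band (go 16 Gd mult S24_82_512_660 (Tr.lf 9127937058 103771206 0) 384 512 160 192 128 256)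
  (go 16 Gd mult S24_82_660_808 (Tr.lf 9127937058 103771206 0) 384 512 160 192 128 256)))) = true := by decide +kernel
  (And.intro (Ok.s3 459 (Ok.lf S430_459_512_660_ok (bl c1))
  (Ok.s2 64 (Ok.lf S459_488_512_660_ok (br c3))
  (Ok.lf S459_488_512_660_ok (bl c2))))
  (And.intro (Ok.s3 459 (Ok.lf S430_459_660_808_ok (br c1))
  (Ok.s2 64 (Ok.lf S459_488_660_808_ok (bl c3))
  (Ok.lf S459_488_660_808_ok (br c2))))
  (And.intro (Ok.s4 512 (Ok.s4 364 (Ok.s1 160 (Ok.s3 53 (Ok.lf S24_53_216_364_ok (bl (br (br c4))))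
  (Ok.lf S53_82_216_364_ok (bl c4)))
  (Ok.lf S24_82_216_364_ok (bl c6)))
  (Ok.s1 160 (Ok.s3 53 (Ok.lf S24_53_364_512_ok (bl (br (br (br c4)))))
  (Ok.lf S53_82_364_512_ok (bl (br (br (br (br c4)))))))
  (Ok.lf S24_82_364_512_ok (bl (br c6)))))
  (Ok.s4 660 (Ok.s1 160 (Ok.s3 53 (Ok.lf S24_53_512_660_ok (bl c5))
  (Ok.lf S53_82_512_660_ok (bl (br c5))))
  (Ok.lf S24_82_512_660_ok (bl (br (br c6)))))
  (Ok.s1 160 (Ok.s3 53 (Ok.lf S24_53_660_808_ok (bl (br (br c5))))
  (Ok.lf S53_82_660_808_ok (br (br (br c5)))))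
  (Ok.lf S24_82_660_808_ok (br (br (br c6)))))))
  (Ok.s3 111 (Ok.s1 160 (Ok.lf S82_111_216_364_ok (bl (br c4)))
  (Ok.lf S82_111_216_364_ok (br (br (br (br (br c4)))))))
  (Ok.lf S111_140_216_364_ok c0)))))

end Vale.Agent.P098.Ck
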