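import Vale.Agent.P098.CkGd
import Vale.Agent.P098.CkOk
import Vale.Agent.P098.Sh.A12
import Vale.Agent.P098.Sh.A14
import Vale.Agent.P098.Sh.A2
import Vale.Agent.P098.Sh.A20
import Vale.Agent.P098.Sh.A21
import Vale.Agent.P098.Sh.A3
import Vale.Agent.P098.Sh.A5
import Vale.Agent.P098.Sh.A6
import Vale.Agent.P098.Sh.A7
import Vale.Agent.P098.Sh.A8

namespace Vale.Agent.P098.Ck

theorem r688 :
    Ok Gd mult 384 512 128 192 128 256 82 140 364 512 ∧
    Ok Gd mult 384 512 128 192 128 256 82 140 512 808 ∧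
    Ok Gd mult 384 512 128 192 128 256 140 198 216 364 :=
  have c0 : (band (go 16 Gd mult S140_169_216_364 (Tr.lf 9146239044 107842759 0) 384 512 128 160 128 256)
  (band (go 16 Gd mult S82_111_364_512 (Tr.lf 9137439812 107846854 0) 384 512 128 160 128 256)
  (go 16 Gd mult S82_111_512_660 (Tr.lf 9137439812 107846854 0) 384 512 128 160 128 256))) = true := by decide +kernel
  have c1 : (go 16 Gd mult S183_198_216_364 (Tr.lf 12903269512 95259337 0) 384 512 128 192 128 192) = true := by decide +kernel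
  have c2 : (band (go 16 Gd mult S111_140_512_660 (Tr.lf 9136523396 107846726 0) 384 512 128 192 128 256)
  (go 16 Gd mult S111_140_660_808 (Tr.lf 9136523396 107846726 0) 384 512 128 192 128 256)) = true := by decide +kernel
  have c3 : (band (go 16 Gd mult S154_169_216_364 (Tr.lf 9146222660 112163912 0) 384 512 160 192 128 256)
  (band (go 16 Gd mult S140_154_216_364 (Tr.lf 9145960516 107846855 0) 384 512 160 192 128 256)
  (band (go 16 Gd mult S82_111_364_512 (Tr.lf 9136325668 107973702 0) 384 512 160 192 128 256)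
  (band (go 16 Gd mult S82_111_660_808 (Tr.lf 9136383012 107973702 0) 384 512 160 192 128 256)
  (go 16 Gd mult S82_111_512_660 (Tr.lf 9136325666 107973702 0) 384 512 160 192 128 256))))) = true := by decide +kernel
  have c4 : (band (go 16 Gd mult S169_183_216_364 (Tr.lf 9146222660 107846855 0) 384 512 128 160 128 256)
  (band (go 16 Gd mult S82_111_660_808 (Tr.lf 9137439812 107846854 0) 384 512 128 160 128 256)
  (go 16 Gd mult S169_183_216_364 (Tr.lf 13441188936 99449801 0) 384 512 160 192 192 256))) = true := by decide +kernel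
  have c5 : (go 16 Gd mult S111_140_364_512 (Tr.lf 9137440900 103652423 0) 384 512 128 192 128 256) = true := by decide +kernel
  have c6 : (go 16 Gd mult S183_198_216_290 (Tr.lf 13440943172 103902408 0) 384 448 160 192 192 256) = true := by decide +kernel
  have c7 : (go 16 Gd mult S183_198_216_364 (Tr.lf 9144910916 107969607 0) 384 512 128 160 192 256) = true := by decide +kernel
  have c8 : (go 16 Gd mult S183_198_290_364 (Tr.lf 13439878212 103516873 0) 384 512 160 192 192 256) = true := by decide +kernel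
  have c9 : (go 16 Gd mult S169_183_216_364 (Tr.lf 8599650884 95390918 0) 384 512 160 192 128 192) = true := by decide +kernel
  have c10 : (go 16 Gd mult S183_198_216_290 (Tr.lf 8608039970 104029128 0) 448 512 160 192 192 256) = true := by decide +kernel
  (And.intro (Ok.s3 111 (Ok.s1 160 (Ok.lf S82_111_364_512_ok (bl (br c0)))
  (Ok.lf S82_111_364_512_ok (bl (br (br c3)))))
  (Ok.lf S111_140_364_512_ok c5))
  (And.intro (Ok.s4 660 (Ok.s3 111 (Ok.s1 160 (Ok.lf S82_111_512_660_ok (br (br c0)))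
  (Ok.lf S82_111_512_660_ok (br (br (br (br c3))))))
  (Ok.lf S111_140_512_660_ok (bl c2)))
  (Ok.s3 111 (Ok.s1 160 (Ok.lf S82_111_660_808_ok (bl (br c4)))
  (Ok.lf S82_111_660_808_ok (bl (br (br (br c3))))))
  (Ok.lf S111_140_660_808_ok (br c2))))
  (Ok.s3 169 (Ok.s1 160 (Ok.lf S140_169_216_364_ok (bl c0))
  (Ok.s3 154 (Ok.lf S140_154_216_364_ok (bl (br c3)))
  (Ok.lf S154_169_216_364_ok (bl c3))))
  (Ok.s3 183 (Ok.s1 160 (Ok.lf S169_183_216_364_ok (bl c4))
  (Ok.s2 192 (Ok.lf S169_183_216_364_ok c9)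
  (Ok.lf S169_183_216_364_ok (br (br c4)))))
  (Ok.s2 192 (Ok.lf S183_198_216_364_ok c1)
  (Ok.s1 160 (Ok.lf S183_198_216_364_ok c7)
  (Ok.s4 290 (Ok.s0 448 (Ok.lf S183_198_216_290_ok c6)
  (Ok.lf S183_198_216_290_ok c10))
  (Ok.lf S183_198_290_364_ok c8))))))))

end Vale.Agent.P098.Ck
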