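import Vale.Agent.P098.CkGd
import Vale.Agent.P098.CkOk
import Vale.Agent.P098.Sh.A10
import Vale.Agent.P098.Sh.A15
import Vale.Agent.P098.Sh.A19
import Vale.Agent.P098.Sh.A21
import Vale.Agent.P098.Sh.A23
import Vale.Agent.P098.Sh.A25
import Vale.Agent.P098.Sh.A30
import Vale.Agent.P098.Sh.A36
import Vale.Agent.P098.Sh.A9

namespace Vale.Agent.P098.Ck

theorem r689 :
    Ok Gd mult 384 512 128 192 128 256 140 198 364 512 ∧
    Ok Gd mult 384 512 128 192 128 256 140 198 512 808 ∧
    Ok Gd mult 384 512 128 192 128 256 198 256 216 290 :=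
  have c0 : (go 16 Gd mult S227_256_216_290 (Tr.lf 13440157764 107973576 0) 384 448 160 192 128 256) = true := by decide +kernel
  have c1 : (go 16 Gd mult S227_256_216_290 (Tr.lf 13440157762 103652041 0) 448 512 160 192 128 256) = true := by decide +kernel
  have c2 : (band (go 16 Gd mult S183_198_364_512 (Tr.lf 8599652484 99716039 0) 384 512 128 192 128 256)
  (band (go 16 Gd mult S169_183_364_512 (Tr.lf 9136522372 112036807 0) 384 512 128 192 128 256)
  (band (go 16 Gd mult S169_198_512_660 (Tr.lf 8599651396 95390663 0) 384 512 128 192 128 256)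
  (go 16 Gd mult S169_198_660_808 (Tr.lf 8599651394 99589190 0) 384 512 128 192 128 256)))) = true := by decide +kernel
  have c3 : (band (go 16 Gd mult S198_212_216_290 (Tr.lf 17744545860 99576778 0) 384 448 176 192 192 256)
  (go 16 Gd mult S212_227_216_290 (Tr.lf 17744545860 95255498 0) 384 448 176 192 192 256)) = true := by decide +kernel
  have c4 : (go 16 Gd mult S198_227_216_290 (Tr.lf 13440156740 108100297 0) 448 512 160 192 192 256) = true := by decide +kernel
  have c5 : (band (go 16 Gd mult S140_169_364_512 (Tr.lf 9137571970 108104775 0) 384 448 128 192 128 256)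
  (go 16 Gd mult S140_169_512_660 (Tr.lf 9136522306 108104774 0) 384 448 128 192 128 256)) = true := by decide +kernel
  have c6 : (band (go 16 Gd mult S198_227_216_290 (Tr.lf 8608056388 99708103 0) 384 512 128 160 128 256)
  (band (go 16 Gd mult S227_256_216_290 (Tr.lf 4303504418 108108869 0) 384 512 128 160 128 256)
  (band (go 16 Gd mult S198_227_216_290 (Tr.lf 18281169986 103775178 0) 384 448 160 192 128 192)
  (band (go 16 Gd mult S198_227_216_290 (Tr.lf 13439894564 103775176 0) 384 448 160 176 192 256)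
  (go 16 Gd mult S198_227_216_290 (Tr.lf 17734861858 99314378 0) 448 512 160 192 128 192))))) = true := by decide +kernel
  have c7 : (go 16 Gd mult S140_169_660_808 (Tr.lf 9136522308 103783494 0) 384 512 128 192 128 256) = true := by decide +kernel
  have c8 : (band (go 16 Gd mult S140_169_364_512 (Tr.lf 4304553026 108232005 0) 448 512 128 192 128 256)
  (go 16 Gd mult S140_169_512_660 (Tr.lf 4304552513 104037701 0) 448 512 128 192 128 256)) = true := by decide +kernel
  (And.intro (Ok.s3 169 (Ok.s0 448 (Ok.lf S140_169_364_512_ok (bl c5))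
  (Ok.lf S140_169_364_512_ok (bl c8)))
  (Ok.s3 183 (Ok.lf S169_183_364_512_ok (bl (br c2)))
  (Ok.lf S183_198_364_512_ok (bl c2))))
  (And.intro (Ok.s4 660 (Ok.s3 169 (Ok.s0 448 (Ok.lf S140_169_512_660_ok (br c5))
  (Ok.lf S140_169_512_660_ok (br c8)))
  (Ok.lf S169_198_512_660_ok (bl (br (br c2)))))
  (Ok.s3 169 (Ok.lf S140_169_660_808_ok c7)
  (Ok.lf S169_198_660_808_ok (br (br (br c2))))))
  (Ok.s1 160 (Ok.s3 227 (Ok.lf S198_227_216_290_ok (bl c6))
  (Ok.lf S227_256_216_290_ok (bl (br c6))))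
  (Ok.s0 448 (Ok.s3 227 (Ok.s2 192 (Ok.lf S198_227_216_290_ok (bl (br (br c6))))
  (Ok.s1 176 (Ok.lf S198_227_216_290_ok (bl (br (br (br c6)))))
  (Ok.s3 212 (Ok.lf S198_212_216_290_ok (bl c3))
  (Ok.lf S212_227_216_290_ok (br c3)))))
  (Ok.lf S227_256_216_290_ok c0))
  (Ok.s3 227 (Ok.s2 192 (Ok.lf S198_227_216_290_ok (br (br (br (br c6)))))
  (Ok.lf S198_227_216_290_ok c4))
  (Ok.lf S227_256_216_290_ok c1))))))

end Vale.Agent.P098.Ck
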