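import Vale.Agent.P098.CkGd
import Vale.Agent.P098.CkOk
import Vale.Agent.P098.Sh.A2
import Vale.Agent.P098.Sh.A5

namespace Vale.Agent.P098.Ck

theorem r69 :
    Ok Gd mult 0 128 128 160 448 512 82 140 290 364 ∧
    Ok Gd mult 0 128 160 192 448 512 82 140 290 364 ∧
    Ok Gd mult 0 128 128 192 384 448 82 140 364 512 ∧
    Ok Gd mult 0 128 128 192 448 480 82 140 364 512 :=
  have c0 : (band (go 16 Gd mult S111_140_290_364 (Tr.lf 13978732680 99192008 35509982341890886860829) 0 128 128 160 448 480)
  (go 16 Gd mult S82_111_290_364 (Tr.lf 13432341640 86596552 28555573238456322621440) 0 128 128 160 448 480)) = true := by decide +kernel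
  have c1 : (band (go 16 Gd mult S111_140_290_364 (Tr.lf 13978732680 103644360 1114665115675437027670622208) 0 64 160 192 448 480)
  (band (go 16 Gd mult S111_140_290_364 (Tr.lf 9674327108 99445831 2860440901801885763939336192) 0 128 128 160 480 512)
  (go 16 Gd mult S82_111_290_364 (Tr.lf 9137374276 99449799 2579976180630092045851885568) 0 128 128 160 480 512))) = true := by decide +kernel
  have c2 : (go 16 Gd mult S82_111_364_512 (Tr.lf 13432424584 94993224 294977899985969518628306944) 0 128 160 192 384 448) = true := by decide +kernel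
  have c3 : (go 16 Gd mult S111_140_364_512 (Tr.lf 13432555652 95116487 1088060354380205116960538624) 0 64 160 192 448 480) = true := by decide +kernel
  have c4 : (band (go 16 Gd mult S82_111_290_364 (Tr.lf 13432423560 95382344 761651821917323386196852736) 0 128 160 192 448 480)
  (go 16 Gd mult S82_111_364_512 (Tr.lf 13432423560 99445576 745930934781764466821300224) 0 128 160 192 448 480)) = true := by decide +kernel
  have c5 : (band (go 16 Gd mult S111_140_364_512 (Tr.lf 9137457224 95124551 0) 0 128 128 160 384 448)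
  (band (go 16 Gd mult S82_111_364_512 (Tr.lf 9137440836 95120455 0) 0 128 128 160 384 448)
  (go 16 Gd mult S82_111_364_512 (Tr.lf 13432407112 90790856 23925435253335122771968) 0 128 128 160 448 480))) = true := by decide +kernel
  have c6 : (band (go 16 Gd mult S111_140_364_512 (Tr.lf 13432424520 94989256 0) 0 128 160 176 384 448)
  (go 16 Gd mult S111_140_364_512 (Tr.lf 13969294472 99183560 26028355888004177330205) 0 128 128 160 448 480)) = true := by decide +kernel
  have c7 : (go 16 Gd mult S111_140_364_512 (Tr.lf 13969295432 103644231 465436440551632232261877760) 0 128 176 192 384 448) = true := by decide +kernel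
  have c8 : (band (go 16 Gd mult S111_140_290_364 (Tr.lf 13440795716 94993352 73744474996492379657076736) 64 128 160 192 448 480)
  (go 16 Gd mult S111_140_364_512 (Tr.lf 9137439812 103644358 39894552047282762765303808) 64 128 160 192 448 480)) = true := by decide +kernel
  have c9 : (band (go 16 Gd mult S111_140_290_364 (Tr.lf 4841357858 103902405 16876177860863518745517096960) 0 128 160 192 480 512)
  (go 16 Gd mult S82_111_290_364 (Tr.lf 4834009634 103771206 14339989768105603263782453248) 0 128 160 192 480 512)) = true := by decide +kernel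
  (And.intro (Ok.s3 111 (Ok.s2 480 (Ok.lf S82_111_290_364_ok (br c0))
  (Ok.lf S82_111_290_364_ok (br (br c1))))
  (Ok.s2 480 (Ok.lf S111_140_290_364_ok (bl c0))
  (Ok.lf S111_140_290_364_ok (bl (br c1)))))
  (And.intro (Ok.s3 111 (Ok.s2 480 (Ok.lf S82_111_290_364_ok (bl c4))
  (Ok.lf S82_111_290_364_ok (br c9)))
  (Ok.s2 480 (Ok.s0 64 (Ok.lf S111_140_290_364_ok (bl c1))
  (Ok.lf S111_140_290_364_ok (bl c8)))
  (Ok.lf S111_140_290_364_ok (bl c9))))
  (And.intro (Ok.s3 111 (Ok.s1 160 (Ok.lf S82_111_364_512_ok (bl (br c5)))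
  (Ok.lf S82_111_364_512_ok c2))
  (Ok.s1 160 (Ok.lf S111_140_364_512_ok (bl c5))
  (Ok.s1 176 (Ok.lf S111_140_364_512_ok (bl c6))
  (Ok.lf S111_140_364_512_ok c7))))
  (Ok.s3 111 (Ok.s1 160 (Ok.lf S82_111_364_512_ok (br (br c5)))
  (Ok.lf S82_111_364_512_ok (br c4)))
  (Ok.s1 160 (Ok.lf S111_140_364_512_ok (br c6))
  (Ok.s0 64 (Ok.lf S111_140_364_512_ok c3)
  (Ok.lf S111_140_364_512_ok (br c8))))))))

end Vale.Agent.P098.Ck
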