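import Vale.Agent.P098.CkGd
import Vale.Agent.P098.CkOk
import Vale.Agent.P098.Sh.A25
import Vale.Agent.P098.Sh.A26
import Vale.Agent.P098.Sh.A27
import Vale.Agent.P098.Sh.A36
import Vale.Agent.P098.Sh.A37
import Vale.Agent.P098.Sh.A38
import Vale.Agent.P098.Sh.A41
import Vale.Agent.P098.Sh.A45

namespace Vale.Agent.P098.Ck

theorem r690 :
    Ok Gd mult 384 512 128 192 128 256 198 256 290 364 ∧
    Ok Gd mult 384 512 128 192 128 256 198 256 364 512 ∧
    Ok Gd mult 384 512 128 192 128 256 198 256 512 808 ∧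
    Ok Gd mult 384 512 128 192 128 256 256 314 216 512 :=
  have c0 : (band (go 16 Gd mult S198_227_290_364 (Tr.lf 13439894600 107842249 0) 384 512 160 192 192 256)
  (go 16 Gd mult S198_227_290_364 (Tr.lf 12893586468 99318472 0) 384 512 160 192 128 192)) = true := by decide +kernel
  have c1 : (band (go 16 Gd mult S227_256_290_364 (Tr.lf 12901976132 91068873 0) 384 512 160 192 128 256)
  (band (go 16 Gd mult S198_227_364_512 (Tr.lf 8599929924 103783367 0) 384 512 160 192 128 256)
  (band (go 16 Gd mult S227_256_512_660 (Tr.lf 4303627298 112299077 0) 384 512 160 192 128 256)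
  (go 16 Gd mult S256_285_364_438 (Tr.lf 13497410578 95513033 0) 384 512 160 192 128 256)))) = true := by decide +kernel
  have c2 : (band (go 16 Gd mult S227_256_364_512 (Tr.lf 8598865988 103783111 0) 384 512 128 192 128 256)
  (band (go 16 Gd mult S256_285_216_364 (Tr.lf 13430703172 103770569 0) 384 512 128 192 128 256)
  (band (go 16 Gd mult S198_227_512_660 (Tr.lf 8598602820 99584711 0) 384 512 128 192 128 256)
  (go 16 Gd mult S198_227_660_808 (Tr.lf 4303635522 108239813 0) 384 512 128 192 128 256)))) = true := by decide +kernel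
  have c3 : (band (go 16 Gd mult S198_227_290_364 (Tr.lf 8599536708 99716039 0) 384 512 128 160 128 256)
  (band (go 16 Gd mult S198_227_364_512 (Tr.lf 8599651364 99584967 0) 384 512 128 160 128 256)
  (band (go 16 Gd mult S227_256_290_364 (Tr.lf 4303504418 108366917 0) 384 512 128 160 128 256)
  (band (go 16 Gd mult S227_256_512_660 (Tr.lf 4303626786 103914437 0) 384 512 128 160 128 256)
  (band (go 16 Gd mult S285_314_364_512 (Tr.lf 4303626786 99720133 0) 384 512 128 160 128 256)
  (band (go 16 Gd mult S256_285_364_512 (Tr.lf 4295238162 108231621 0) 384 512 128 160 128 256)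
  (band (go 16 Gd mult S285_314_364_512 (Tr.lf 4295238674 108104645 0) 384 512 160 192 128 256)
  (go 16 Gd mult S256_285_438_512 (Tr.lf 9202442770 108104391 0) 384 512 160 192 128 256)))))))) = true := by decide +kernel
  have c4 : (band (go 16 Gd mult S285_314_216_364 (Tr.lf 8590206018 99576519 0) 384 512 128 192 128 256)
  (go 16 Gd mult S227_256_660_808 (Tr.lf 8590205506 99576646 0) 384 512 128 192 128 256)) = true := by decide +kernel
  (And.intro (Ok.s3 227 (Ok.s1 160 (Ok.lf S198_227_290_364_ok (bl c3))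
  (Ok.s2 192 (Ok.lf S198_227_290_364_ok (br c0))
  (Ok.lf S198_227_290_364_ok (bl c0))))
  (Ok.s1 160 (Ok.lf S227_256_290_364_ok (bl (br (br c3))))
  (Ok.lf S227_256_290_364_ok (bl c1))))
  (And.intro (Ok.s3 227 (Ok.s1 160 (Ok.lf S198_227_364_512_ok (bl (br c3)))
  (Ok.lf S198_227_364_512_ok (bl (br c1))))
  (Ok.lf S227_256_364_512_ok (bl c2)))
  (And.intro (Ok.s4 660 (Ok.s3 227 (Ok.lf S198_227_512_660_ok (bl (br (br c2))))
  (Ok.s1 160 (Ok.lf S227_256_512_660_ok (bl (br (br (br c3)))))
  (Ok.lf S227_256_512_660_ok (bl (br (br c1))))))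
  (Ok.s3 227 (Ok.lf S198_227_660_808_ok (br (br (br c2))))
  (Ok.lf S227_256_660_808_ok (br c4))))
  (Ok.s4 364 (Ok.s3 285 (Ok.lf S256_285_216_364_ok (bl (br c2)))
  (Ok.lf S285_314_216_364_ok (bl c4)))
  (Ok.s3 285 (Ok.s1 160 (Ok.lf S256_285_364_512_ok (bl (br (br (br (br (br c3)))))))
  (Ok.s4 438 (Ok.lf S256_285_364_438_ok (br (br (br c1))))
  (Ok.lf S256_285_438_512_ok (br (br (br (br (br (br (br c3))))))))))
  (Ok.s1 160 (Ok.lf S285_314_364_512_ok (bl (br (br (br (br c3))))))
  (Ok.lf S285_314_364_512_ok (bl (br (br (br (br (br (br c3))))))))))))))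

end Vale.Agent.P098.Ck
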