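import Vale.Agent.P098.CkGd
import Vale.Agent.P098.CkOk
import Vale.Agent.P098.Sh.A42
import Vale.Agent.P098.Sh.A46
import Vale.Agent.P098.Sh.A47
import Vale.Agent.P098.Sh.A48
import Vale.Agent.P098.Sh.A49
import Vale.Agent.P098.Sh.A51
import Vale.Agent.P098.Sh.A52
import Vale.Agent.P098.Sh.A54
import Vale.Agent.P098.Sh.A56
import Vale.Agent.P098.Sh.A57

namespace Vale.Agent.P098.Ck

theorem r691 :
    Ok Gd mult 384 512 128 192 128 256 256 314 512 808 ∧
    Ok Gd mult 384 512 128 192 128 256 314 372 216 808 ∧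
    Ok Gd mult 384 512 128 192 128 256 372 430 216 512 ∧
    Ok Gd mult 384 512 128 192 128 256 372 430 512 660 :=
  have c0 : (band (go 16 Gd mult S401_430_216_364 (Tr.lf 9129052292 108100552 0) 384 512 128 192 128 256)
  (band (go 16 Gd mult S401_430_364_512 (Tr.lf 9129052292 108100552 0) 384 512 128 192 128 256)
  (band (go 16 Gd mult S401_430_512_660 (Tr.lf 9128003716 108100551 0) 384 512 128 192 128 256)
  (go 16 Gd mult S314_343_512_660 (Tr.lf 4304684098 108104774 0) 384 512 128 192 128 256)))) = true := by decide +kernel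
  have c1 : (band (go 16 Gd mult S372_401_216_364 (Tr.lf 9128003652 103906247 0) 384 512 128 192 128 256)
  (band (go 16 Gd mult S285_314_660_808 (Tr.lf 8590214212 95382342 0) 384 512 128 192 128 256)
  (band (go 16 Gd mult S314_343_660_808 (Tr.lf 4304684100 108240069 0) 384 512 128 192 128 256)
  (band (go 16 Gd mult S372_401_364_512 (Tr.lf 9128002628 112163783 0) 384 512 128 192 128 256)
  (band (go 16 Gd mult S256_285_512_660 (Tr.lf 4295238722 108231621 0) 384 512 128 192 128 256)
  (go 16 Gd mult S285_314_512_660 (Tr.lf 4303627330 108108741 0) 384 512 128 192 128 256)))))) = true := by decide +kernel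
  have c2 : (band (go 16 Gd mult S256_285_660_808 (Tr.lf 8590214178 103639878 0) 384 512 128 192 128 256)
  (band (go 16 Gd mult S314_343_216_364 (Tr.lf 4295238722 108235717 0) 384 512 128 192 128 256)
  (band (go 16 Gd mult S343_372_216_364 (Tr.lf 8591123524 103644103 0) 384 512 128 192 128 256)
  (go 16 Gd mult S314_343_364_512 (Tr.lf 4304675906 108235846 0) 384 512 128 192 128 256)))) = true := by decide +kernel
  have c3 : (band (go 16 Gd mult S343_372_660_808 (Tr.lf 4304684066 104045765 0) 384 512 128 160 128 256)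
  (band (go 16 Gd mult S343_372_512_660 (Tr.lf 4304552994 107982021 0) 384 512 128 160 128 256)
  (band (go 16 Gd mult S372_401_512_660 (Tr.lf 4841423906 108108870 0) 384 512 128 160 128 256)
  (band (go 16 Gd mult S343_372_364_512 (Tr.lf 4304544802 103918789 0) 384 512 128 160 128 256)
  (band (go 16 Gd mult S343_372_660_808 (Tr.lf 4304684066 104172614 0) 384 512 160 192 128 256)
  (band (go 16 Gd mult S372_401_512_660 (Tr.lf 9136391204 103914439 0) 384 512 160 192 128 256)
  (band (go 16 Gd mult S343_372_512_660 (Tr.lf 4304552994 108108870 0) 384 512 160 192 128 256)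
  (go 16 Gd mult S343_372_364_512 (Tr.lf 4304552994 112303174 0) 384 512 160 192 128 256)))))))) = true := by decide +kernel
  (And.intro (Ok.s4 660 (Ok.s3 285 (Ok.lf S256_285_512_660_ok (bl (br (br (br (br c1))))))
  (Ok.lf S285_314_512_660_ok (br (br (br (br (br c1)))))))
  (Ok.s3 285 (Ok.lf S256_285_660_808_ok (bl c2))
  (Ok.lf S285_314_660_808_ok (bl (br c1)))))
  (And.intro (Ok.s4 512 (Ok.s4 364 (Ok.s3 343 (Ok.lf S314_343_216_364_ok (bl (br c2)))
  (Ok.lf S343_372_216_364_ok (bl (br (br c2)))))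
  (Ok.s3 343 (Ok.lf S314_343_364_512_ok (br (br (br c2))))
  (Ok.s1 160 (Ok.lf S343_372_364_512_ok (bl (br (br (br c3)))))
  (Ok.lf S343_372_364_512_ok (br (br (br (br (br (br (br c3)))))))))))
  (Ok.s4 660 (Ok.s3 343 (Ok.lf S314_343_512_660_ok (br (br (br c0))))
  (Ok.s1 160 (Ok.lf S343_372_512_660_ok (bl (br c3)))
  (Ok.lf S343_372_512_660_ok (bl (br (br (br (br (br (br c3))))))))))
  (Ok.s3 343 (Ok.lf S314_343_660_808_ok (bl (br (br c1))))
  (Ok.s1 160 (Ok.lf S343_372_660_808_ok (bl c3))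
  (Ok.lf S343_372_660_808_ok (bl (br (br (br (br c3))))))))))
  (And.intro (Ok.s4 364 (Ok.s3 401 (Ok.lf S372_401_216_364_ok (bl c1))
  (Ok.lf S401_430_216_364_ok (bl c0)))
  (Ok.s3 401 (Ok.lf S372_401_364_512_ok (bl (br (br (br c1)))))
  (Ok.lf S401_430_364_512_ok (bl (br c0)))))
  (Ok.s3 401 (Ok.s1 160 (Ok.lf S372_401_512_660_ok (bl (br (br c3))))
  (Ok.lf S372_401_512_660_ok (bl (br (br (br (br (br c3))))))))
  (Ok.lf S401_430_512_660_ok (bl (br (br c0))))))))

end Vale.Agent.P098.Ck
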