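import Vale.Agent.P098.CkGd
import Vale.Agent.P098.CkOk
import Vale.Agent.P098.Sh.A54
import Vale.Agent.P098.Sh.A57
import Vale.Agent.P098.Sh.A58
import Vale.Agent.P098.Sh.A59

namespace Vale.Agent.P098.Ck

theorem r692 :
    Ok Gd mult 384 512 128 192 128 256 372 430 660 808 ∧
    Ok Gd mult 384 512 128 192 128 256 430 488 216 808 :=
  have c0 : (band (go 16 Gd mult S459_488_660_808 (Tr.lf 18256857224 107695178 0) 384 512 128 192 128 192)
  (band (go 16 Gd mult S459_488_216_364 (Tr.lf 18256840840 107695178 0) 384 512 128 192 128 192)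
  (go 16 Gd mult S430_459_216_364 (Tr.lf 18264245380 99179466 0) 384 512 128 192 128 192))) = true := by decide +kernel
  have c1 : (band (go 16 Gd mult S430_459_660_808 (Tr.lf 18265294984 103500747 0) 384 512 128 192 192 256)
  (band (go 16 Gd mult S459_488_216_364 (Tr.lf 18793711752 99179339 0) 384 512 128 192 192 256)
  (go 16 Gd mult S430_459_364_512 (Tr.lf 18265228424 99306443 0) 384 512 128 192 192 256))) = true := by decide +kernel
  have c2 : (band (go 16 Gd mult S459_488_364_512 (Tr.lf 18256840840 107695178 0) 384 512 128 192 128 192)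
  (band (go 16 Gd mult S459_488_512_660 (Tr.lf 18256840840 107695178 0) 384 512 128 192 128 192)
  (band (go 16 Gd mult S430_459_512_660 (Tr.lf 18264179848 99179466 0) 384 512 128 192 128 192)
  (go 16 Gd mult S430_459_364_512 (Tr.lf 18264179844 99179466 0) 384 512 128 192 128 192)))) = true := by decide +kernel
  have c3 : (band (go 16 Gd mult S459_488_364_512 (Tr.lf 18793711752 99179339 0) 384 512 128 192 192 256)
  (band (go 16 Gd mult S459_488_512_660 (Tr.lf 18793711752 99179339 0) 384 512 128 192 192 256)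
  (go 16 Gd mult S459_488_660_808 (Tr.lf 18793711752 99179339 0) 384 512 128 192 192 256))) = true := by decide +kernel
  have c4 : (go 16 Gd mult S401_430_660_808 (Tr.lf 9128003716 108100551 0) 384 512 128 192 128 256) = true := by decide +kernel
  have c5 : (band (go 16 Gd mult S430_459_512_660 (Tr.lf 18265228424 99306443 0) 384 512 128 192 192 256)
  (go 16 Gd mult S430_459_216_364 (Tr.lf 18265293956 99306443 0) 384 512 128 192 192 256)) = true := by decide +kernel
  have c6 : (go 16 Gd mult S430_459_660_808 (Tr.lf 18264245380 99179466 0) 384 512 128 192 128 192) = true := by decide +kernel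
  have c7 : (band (go 16 Gd mult S372_401_660_808 (Tr.lf 4841423908 103914566 0) 384 512 128 160 128 256)
  (go 16 Gd mult S372_401_660_808 (Tr.lf 9136391204 112171975 0) 384 512 160 192 128 256)) = true := by decide +kernel
  (And.intro (Ok.s3 401 (Ok.s1 160 (Ok.lf S372_401_660_808_ok (bl c7))
  (Ok.lf S372_401_660_808_ok (br c7)))
  (Ok.lf S401_430_660_808_ok c4))
  (Ok.s4 512 (Ok.s4 364 (Ok.s2 192 (Ok.s3 459 (Ok.lf S430_459_216_364_ok (br (br c0)))
  (Ok.lf S459_488_216_364_ok (bl (br c0))))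
  (Ok.s3 459 (Ok.lf S430_459_216_364_ok (br c5))
  (Ok.lf S459_488_216_364_ok (bl (br c1)))))
  (Ok.s3 459 (Ok.s2 192 (Ok.lf S430_459_364_512_ok (br (br (br c2))))
  (Ok.lf S430_459_364_512_ok (br (br c1))))
  (Ok.s2 192 (Ok.lf S459_488_364_512_ok (bl c2))
  (Ok.lf S459_488_364_512_ok (bl c3)))))
  (Ok.s4 660 (Ok.s3 459 (Ok.s2 192 (Ok.lf S430_459_512_660_ok (bl (br (br c2))))
  (Ok.lf S430_459_512_660_ok (bl c5)))
  (Ok.s2 192 (Ok.lf S459_488_512_660_ok (bl (br c2)))
  (Ok.lf S459_488_512_660_ok (bl (br c3)))))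
  (Ok.s3 459 (Ok.s2 192 (Ok.lf S430_459_660_808_ok c6)
  (Ok.lf S430_459_660_808_ok (bl c1)))
  (Ok.s2 192 (Ok.lf S459_488_660_808_ok (bl c0))
  (Ok.lf S459_488_660_808_ok (br (br c3))))))))

end Vale.Agent.P098.Ck
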