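import Vale.Agent.P098.CkGd
import Vale.Agent.P098.CkOk
import Vale.Agent.P098.Sh.A0
import Vale.Agent.P098.Sh.A1

namespace Vale.Agent.P098.Ck

theorem r693 :
    Ok Gd mult 384 512 128 144 256 384 24 82 216 364 ∧
    Ok Gd mult 384 512 144 160 256 384 24 82 216 364 ∧
    Ok Gd mult 384 512 160 192 256 384 24 82 216 364 ∧
    Ok Gd mult 384 512 128 192 256 384 24 82 364 512 ∧
    Ok Gd mult 384 512 128 192 256 384 24 82 512 660 :=
  have c0 : (band (go 16 Gd mult S53_82_512_660 (Tr.lf 13970262152 99044553 0) 384 512 128 160 320 384)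
  (band (go 16 Gd mult S24_53_512_660 (Tr.lf 13970262088 99044553 0) 384 512 128 160 320 384)
  (band (go 16 Gd mult S24_53_512_660 (Tr.lf 13961872520 107560264 0) 384 512 128 160 256 320)
  (go 16 Gd mult S53_82_512_660 (Tr.lf 13970261128 107568456 0) 384 512 128 160 256 320)))) = true := by decide +kernel
  have c1 : (band (go 16 Gd mult S53_82_364_512 (Tr.lf 13970262088 103242825 0) 384 512 128 144 320 384)
  (band (go 16 Gd mult S53_82_216_364 (Tr.lf 13970327592 103242825 0) 384 512 128 144 320 384)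
  (band (go 16 Gd mult S24_53_216_364 (Tr.lf 13970262052 103242825 0) 384 512 128 144 320 384)
  (band (go 16 Gd mult S24_53_364_512 (Tr.lf 13970262052 103242825 0) 384 512 128 144 320 384)
  (go 16 Gd mult S53_82_216_364 (Tr.lf 13970326600 107572424 0) 384 512 128 144 256 320))))) = true := by decide +kernel
  have c2 : (band (go 16 Gd mult S24_82_216_364 (Tr.lf 9127954468 107699143 0) 384 512 160 192 256 384)
  (band (go 16 Gd mult S24_82_364_512 (Tr.lf 9127954468 99441607 0) 384 512 160 192 256 384)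
  (band (go 16 Gd mult S24_82_216_364 (Tr.lf 9129002020 103636294 0) 384 512 144 160 256 320)
  (band (go 16 Gd mult S24_82_364_512 (Tr.lf 9129002020 103636294 0) 384 512 144 160 256 320)
  (band (go 16 Gd mult S24_82_216_364 (Tr.lf 9137390628 99314887 0) 384 512 144 160 320 384)
  (go 16 Gd mult S24_82_364_512 (Tr.lf 9137390612 99314887 0) 384 512 144 160 320 384)))))) = true := by decide +kernel
  have c3 : (band (go 16 Gd mult S24_53_216_364 (Tr.lf 13961872456 107564232 0) 384 512 128 144 256 320)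
  (band (go 16 Gd mult S24_53_364_512 (Tr.lf 13961872456 107564232 0) 384 512 128 144 256 320)
  (go 16 Gd mult S53_82_364_512 (Tr.lf 13970261064 107572424 0) 384 512 128 144 256 320))) = true := by decide +kernel
  have c4 : (band (go 16 Gd mult S24_82_512_660 (Tr.lf 9127936548 103504839 0) 384 512 160 192 256 320)
  (go 16 Gd mult S24_82_512_660 (Tr.lf 4296098338 103775429 0) 384 512 160 192 320 384)) = true := by decide +kernel
  (And.intro (Ok.s3 53 (Ok.s2 320 (Ok.lf S24_53_216_364_ok (bl c3))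
  (Ok.lf S24_53_216_364_ok (bl (br (br c1)))))
  (Ok.s2 320 (Ok.lf S53_82_216_364_ok (br (br (br (br c1)))))
  (Ok.lf S53_82_216_364_ok (bl (br c1)))))
  (And.intro (Ok.s2 320 (Ok.lf S24_82_216_364_ok (bl (br (br c2))))
  (Ok.lf S24_82_216_364_ok (bl (br (br (br (br c2)))))))
  (And.intro (Ok.lf S24_82_216_364_ok (bl c2))
  (And.intro (Ok.s1 160 (Ok.s1 144 (Ok.s3 53 (Ok.s2 320 (Ok.lf S24_53_364_512_ok (bl (br c3)))
  (Ok.lf S24_53_364_512_ok (bl (br (br (br c1))))))
  (Ok.s2 320 (Ok.lf S53_82_364_512_ok (br (br c3)))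
  (Ok.lf S53_82_364_512_ok (bl c1))))
  (Ok.s2 320 (Ok.lf S24_82_364_512_ok (bl (br (br (br c2)))))
  (Ok.lf S24_82_364_512_ok (br (br (br (br (br c2))))))))
  (Ok.lf S24_82_364_512_ok (bl (br c2))))
  (Ok.s2 320 (Ok.s1 160 (Ok.s3 53 (Ok.lf S24_53_512_660_ok (bl (br (br c0))))
  (Ok.lf S53_82_512_660_ok (br (br (br c0)))))
  (Ok.lf S24_82_512_660_ok (bl c4)))
  (Ok.s1 160 (Ok.s3 53 (Ok.lf S24_53_512_660_ok (bl (br c0)))
  (Ok.lf S53_82_512_660_ok (bl c0)))
  (Ok.lf S24_82_512_660_ok (br c4))))))))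

end Vale.Agent.P098.Ck
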