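import Vale.Agent.P098.CkGd
import Vale.Agent.P098.CkOk
import Vale.Agent.P098.Sh.A0
import Vale.Agent.P098.Sh.A1
import Vale.Agent.P098.Sh.A2
import Vale.Agent.P098.Sh.A4
import Vale.Agent.P098.Sh.A5
import Vale.Agent.P098.Sh.A6

namespace Vale.Agent.P098.Ck

theorem r694 :
    Ok Gd mult 384 512 128 160 256 384 24 82 660 808 ∧
    Ok Gd mult 384 512 160 192 256 384 24 82 660 808 ∧
    Ok Gd mult 384 512 128 192 256 384 82 140 216 364 ∧
    Ok Gd mult 384 512 128 192 256 384 82 111 364 512 :=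
  have c0 : (go 16 Gd mult S82_111_364_512 (Tr.lf 13978732680 99060809 0) 384 512 128 160 320 384) = true := by decide +kernel
  have c1 : (go 16 Gd mult S111_140_216_364 (Tr.lf 9145975944 107846727 0) 384 512 128 160 256 320) = true := by decide +kernel
  have c2 : (go 16 Gd mult S111_125_216_364 (Tr.lf 13978847368 103255368 0) 384 512 128 160 320 384) = true := by decide +kernel
  have c3 : (go 16 Gd mult S125_140_216_364 (Tr.lf 13978847368 99319112 0) 384 512 128 160 320 384) = true := by decide +kernel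
  have c4 : (go 16 Gd mult S24_82_660_808 (Tr.lf 9129068616 99306695 0) 384 512 144 160 256 384) = true := by decide +kernel
  have c5 : (band (go 16 Gd mult S82_111_216_364 (Tr.lf 13970343048 107568456 0) 384 512 128 160 256 320)
  (go 16 Gd mult S82_111_364_512 (Tr.lf 13970343048 107568456 0) 384 512 128 160 256 320)) = true := by decide +kernel
  have c6 : (band (go 16 Gd mult S82_111_216_364 (Tr.lf 13978862664 99061064 0) 384 512 128 160 320 352)
  (go 16 Gd mult S82_111_216_364 (Tr.lf 13978862664 103255113 0) 384 512 128 160 352 384)) = true := by decide +kernel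
  have c7 : (band (go 16 Gd mult S53_82_660_808 (Tr.lf 13970327592 103242825 0) 384 512 128 144 320 384)
  (band (go 16 Gd mult S24_53_660_808 (Tr.lf 13970262052 103242825 0) 384 512 128 144 320 384)
  (band (go 16 Gd mult S24_53_660_808 (Tr.lf 13961872456 107564232 0) 384 512 128 144 256 320)
  (go 16 Gd mult S53_82_660_808 (Tr.lf 13970326596 107572424 0) 384 512 128 144 256 320)))) = true := by decide +kernel
  have c8 : (band (go 16 Gd mult S111_140_216_364 (Tr.lf 9145959492 111910087 0) 384 512 160 192 256 320)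
  (band (go 16 Gd mult S82_111_216_364 (Tr.lf 9136390692 107707590 0) 384 512 160 192 256 320)
  (band (go 16 Gd mult S82_111_364_512 (Tr.lf 9136325156 107707590 0) 384 512 160 192 256 320)
  (band (go 16 Gd mult S111_140_216_364 (Tr.lf 9145959492 99458247 0) 384 512 160 192 320 384)
  (band (go 16 Gd mult S82_111_216_364 (Tr.lf 9136325668 99449799 0) 384 512 160 192 320 384)
  (go 16 Gd mult S82_111_364_512 (Tr.lf 9136317476 107707335 0) 384 512 160 192 320 384)))))) = true := by decide +kernel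
  have c9 : (go 16 Gd mult S24_82_660_808 (Tr.lf 9127938116 103504839 0) 384 512 160 192 256 384) = true := by decide +kernel
  (And.intro (Ok.s1 144 (Ok.s3 53 (Ok.s2 320 (Ok.lf S24_53_660_808_ok (bl (br (br c7))))
  (Ok.lf S24_53_660_808_ok (bl (br c7))))
  (Ok.s2 320 (Ok.lf S53_82_660_808_ok (br (br (br c7))))
  (Ok.lf S53_82_660_808_ok (bl c7))))
  (Ok.lf S24_82_660_808_ok c4))
  (And.intro (Ok.lf S24_82_660_808_ok c9)
  (And.intro (Ok.s3 111 (Ok.s2 320 (Ok.s1 160 (Ok.lf S82_111_216_364_ok (bl c5))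
  (Ok.lf S82_111_216_364_ok (bl (br c8))))
  (Ok.s1 160 (Ok.s2 352 (Ok.lf S82_111_216_364_ok (bl c6))
  (Ok.lf S82_111_216_364_ok (br c6)))
  (Ok.lf S82_111_216_364_ok (bl (br (br (br (br c8))))))))
  (Ok.s2 320 (Ok.s1 160 (Ok.lf S111_140_216_364_ok c1)
  (Ok.lf S111_140_216_364_ok (bl c8)))
  (Ok.s1 160 (Ok.s3 125 (Ok.lf S111_125_216_364_ok c2)
  (Ok.lf S125_140_216_364_ok c3))
  (Ok.lf S111_140_216_364_ok (bl (br (br (br c8))))))))
  (Ok.s2 320 (Ok.s1 160 (Ok.lf S82_111_364_512_ok (br c5))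
  (Ok.lf S82_111_364_512_ok (bl (br (br c8)))))
  (Ok.s1 160 (Ok.lf S82_111_364_512_ok c0)
  (Ok.lf S82_111_364_512_ok (br (br (br (br (br c8)))))))))))

end Vale.Agent.P098.Ck
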