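import Vale.Agent.P098.CkGd
import Vale.Agent.P098.CkOk
import Vale.Agent.P098.Sh.A3
import Vale.Agent.P098.Sh.A5

namespace Vale.Agent.P098.Ck

theorem r695 :
    Ok Gd mult 384 512 128 192 256 320 111 140 364 512 ∧
    Ok Gd mult 384 512 128 192 320 384 111 140 364 512 ∧
    Ok Gd mult 384 512 128 192 256 384 82 140 512 660 ∧
    Ok Gd mult 384 512 128 192 256 384 82 111 660 808 :=
  have c0 : (go 16 Gd mult S82_111_512_660 (Tr.lf 13978732680 103255113 0) 384 512 128 160 320 384) = true := by decide +kernel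
  have c1 : (go 16 Gd mult S82_111_660_808 (Tr.lf 13978732680 99060809 0) 384 512 128 160 320 384) = true := by decide +kernel
  have c2 : (band (go 16 Gd mult S111_140_364_512 (Tr.lf 9145975944 107846982 0) 384 512 128 160 256 320)
  (go 16 Gd mult S111_140_512_660 (Tr.lf 13432554564 99187656 0) 384 512 128 160 256 320)) = true := by decide +kernel
  have c3 : (go 16 Gd mult S111_140_364_512 (Tr.lf 13978862728 107576648 0) 384 512 128 160 320 352) = true := by decide +kernel
  have c4 : (go 16 Gd mult S111_140_364_512 (Tr.lf 13978862728 103255368 0) 384 512 128 160 352 384) = true := by decide +kernel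
  have c5 : (band (go 16 Gd mult S82_111_512_660 (Tr.lf 13970343048 107568456 0) 384 512 128 160 256 320)
  (go 16 Gd mult S82_111_660_808 (Tr.lf 13970327688 107568456 0) 384 512 128 160 256 320)) = true := by decide +kernel
  have c6 : (go 16 Gd mult S111_140_512_660 (Tr.lf 13978863684 107453640 0) 384 448 128 160 320 384) = true := by decide +kernel
  have c7 : (band (go 16 Gd mult S111_140_364_512 (Tr.lf 9137439812 111909959 0) 384 512 160 192 256 320)
  (band (go 16 Gd mult S111_140_512_660 (Tr.lf 9137439780 111909959 0) 384 512 160 192 256 320)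
  (band (go 16 Gd mult S82_111_512_660 (Tr.lf 9136325156 107707590 0) 384 512 160 192 256 320)
  (band (go 16 Gd mult S82_111_660_808 (Tr.lf 9136382500 107707590 0) 384 512 160 192 256 320)
  (band (go 16 Gd mult S111_140_364_512 (Tr.lf 9137439812 99450055 0) 384 512 160 192 320 384)
  (band (go 16 Gd mult S111_140_512_660 (Tr.lf 9137439812 99450055 0) 384 512 160 192 320 384)
  (band (go 16 Gd mult S82_111_512_660 (Tr.lf 9136317476 99449799 0) 384 512 160 192 320 384)
  (go 16 Gd mult S82_111_660_808 (Tr.lf 9136317476 99449799 0) 384 512 160 192 320 384)))))))) = true := by decide +kernel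
  have c8 : (go 16 Gd mult S111_140_512_660 (Tr.lf 9137439810 99323206 0) 448 512 128 160 320 384) = true := by decide +kernel
  (And.intro (Ok.s1 160 (Ok.lf S111_140_364_512_ok (bl c2))
  (Ok.lf S111_140_364_512_ok (bl c7)))
  (And.intro (Ok.s1 160 (Ok.s2 352 (Ok.lf S111_140_364_512_ok c3)
  (Ok.lf S111_140_364_512_ok c4))
  (Ok.lf S111_140_364_512_ok (bl (br (br (br (br c7)))))))
  (And.intro (Ok.s3 111 (Ok.s2 320 (Ok.s1 160 (Ok.lf S82_111_512_660_ok (bl c5))
  (Ok.lf S82_111_512_660_ok (bl (br (br c7)))))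
  (Ok.s1 160 (Ok.lf S82_111_512_660_ok c0)
  (Ok.lf S82_111_512_660_ok (bl (br (br (br (br (br (br c7))))))))))
  (Ok.s2 320 (Ok.s1 160 (Ok.lf S111_140_512_660_ok (br c2))
  (Ok.lf S111_140_512_660_ok (bl (br c7))))
  (Ok.s1 160 (Ok.s0 448 (Ok.lf S111_140_512_660_ok c6)
  (Ok.lf S111_140_512_660_ok c8))
  (Ok.lf S111_140_512_660_ok (bl (br (br (br (br (br c7))))))))))
  (Ok.s2 320 (Ok.s1 160 (Ok.lf S82_111_660_808_ok (br c5))
  (Ok.lf S82_111_660_808_ok (bl (br (br (br c7))))))
  (Ok.s1 160 (Ok.lf S82_111_660_808_ok c1)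
  (Ok.lf S82_111_660_808_ok (br (br (br (br (br (br (br c7)))))))))))))

end Vale.Agent.P098.Ck
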