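import Vale.Agent.P098.CkGd
import Vale.Agent.P098.CkOk
import Vale.Agent.P098.Sh.A12
import Vale.Agent.P098.Sh.A14
import Vale.Agent.P098.Sh.A15
import Vale.Agent.P098.Sh.A6
import Vale.Agent.P098.Sh.A7

namespace Vale.Agent.P098.Ck

theorem r696 :
    Ok Gd mult 384 512 128 192 256 384 111 140 660 808 ∧
    Ok Gd mult 384 512 128 192 256 384 140 169 216 364 ∧
    Ok Gd mult 384 448 128 160 256 384 169 183 216 364 :=
  have c0 : (go 16 Gd mult S154_169_216_290 (Tr.lf 13987235976 107576521 0) 384 512 128 160 320 384) = true := by decide +kernel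
  have c1 : (band (go 16 Gd mult S154_169_216_364 (Tr.lf 13449578568 99195849 0) 384 512 160 192 320 384)
  (band (go 16 Gd mult S140_154_216_364 (Tr.lf 9145959492 103652551 0) 384 512 160 192 320 384)
  (go 16 Gd mult S111_140_660_808 (Tr.lf 9137439780 99450055 0) 384 512 160 192 320 384))) = true := by decide +kernel
  have c2 : (go 16 Gd mult S169_183_216_364 (Tr.lf 13986449540 103644105 0) 384 448 128 160 256 320) = true := by decide +kernel
  have c3 : (band (go 16 Gd mult S140_154_216_364 (Tr.lf 13987498114 107711561 0) 384 448 128 160 320 384)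
  (go 16 Gd mult S111_140_660_808 (Tr.lf 13978847364 107453640 0) 384 448 128 160 320 384)) = true := by decide +kernel
  have c4 : (band (go 16 Gd mult S154_169_216_364 (Tr.lf 13449578626 103644105 0) 384 416 128 192 256 320)
  (band (go 16 Gd mult S154_169_216_364 (Tr.lf 9146221698 112291143 0) 448 512 128 192 256 320)
  (go 16 Gd mult S154_169_216_364 (Tr.lf 9146221697 107973831 0) 416 448 128 192 256 320))) = true := by decide +kernel
  have c5 : (go 16 Gd mult S154_169_290_364 (Tr.lf 13987235972 111770825 0) 384 512 128 160 320 384) = true := by decide +kernel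
  have c6 : (go 16 Gd mult S169_183_290_364 (Tr.lf 13986187394 99318729 0) 384 448 128 160 320 384) = true := by decide +kernel
  have c7 : (band (go 16 Gd mult S111_140_660_808 (Tr.lf 13432554564 99187656 0) 384 512 128 160 256 320)
  (go 16 Gd mult S140_154_216_364 (Tr.lf 9146221636 107846727 0) 384 512 128 160 256 320)) = true := by decide +kernel
  have c8 : (band (go 16 Gd mult S169_183_216_290 (Tr.lf 13987234948 99318985 0) 384 448 128 160 320 352)
  (go 16 Gd mult S169_183_216_290 (Tr.lf 13987234948 103640265 0) 384 448 128 160 352 384)) = true := by decide +kernel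
  have c9 : (band (go 16 Gd mult S140_154_216_364 (Tr.lf 9145959492 103910599 0) 384 512 160 192 256 320)
  (band (go 16 Gd mult S111_140_660_808 (Tr.lf 9137439268 111909959 0) 384 512 160 192 256 320)
  (band (go 16 Gd mult S140_154_216_364 (Tr.lf 9145959490 107846727 0) 448 512 128 160 320 384)
  (go 16 Gd mult S111_140_660_808 (Tr.lf 9137439810 99323206 0) 448 512 128 160 320 384)))) = true := by decide +kernel
  (And.intro (Ok.s2 320 (Ok.s1 160 (Ok.lf S111_140_660_808_ok (bl c7))
  (Ok.lf S111_140_660_808_ok (bl (br c9))))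
  (Ok.s1 160 (Ok.s0 448 (Ok.lf S111_140_660_808_ok (br c3))
  (Ok.lf S111_140_660_808_ok (br (br (br c9)))))
  (Ok.lf S111_140_660_808_ok (br (br c1)))))
  (And.intro (Ok.s3 154 (Ok.s2 320 (Ok.s1 160 (Ok.lf S140_154_216_364_ok (br c7))
  (Ok.lf S140_154_216_364_ok (bl c9)))
  (Ok.s1 160 (Ok.s0 448 (Ok.lf S140_154_216_364_ok (bl c3))
  (Ok.lf S140_154_216_364_ok (bl (br (br c9)))))
  (Ok.lf S140_154_216_364_ok (bl (br c1)))))
  (Ok.s2 320 (Ok.s0 448 (Ok.s0 416 (Ok.lf S154_169_216_364_ok (bl c4))
  (Ok.lf S154_169_216_364_ok (br (br c4))))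
  (Ok.lf S154_169_216_364_ok (bl (br c4))))
  (Ok.s1 160 (Ok.s4 290 (Ok.lf S154_169_216_290_ok c0)
  (Ok.lf S154_169_290_364_ok c5))
  (Ok.lf S154_169_216_364_ok (bl c1)))))
  (Ok.s2 320 (Ok.lf S169_183_216_364_ok c2)
  (Ok.s4 290 (Ok.s2 352 (Ok.lf S169_183_216_290_ok (bl c8))
  (Ok.lf S169_183_216_290_ok (br c8)))
  (Ok.lf S169_183_290_364_ok c6)))))

end Vale.Agent.P098.Ck
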