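import Vale.Agent.P098.CkGd
import Vale.Agent.P098.CkOk
import Vale.Agent.P098.Sh.A14
import Vale.Agent.P098.Sh.A15
import Vale.Agent.P098.Sh.A20
import Vale.Agent.P098.Sh.A21

namespace Vale.Agent.P098.Ck

theorem r697 :
    Ok Gd mult 384 448 128 160 256 320 183 198 216 364 ∧
    Ok Gd mult 384 448 128 160 320 384 183 198 216 364 ∧
    Ok Gd mult 448 512 128 160 256 384 169 198 216 364 ∧
    Ok Gd mult 384 512 160 192 256 384 169 183 216 364 ∧
    Ok Gd mult 384 448 160 192 256 384 183 198 216 364 :=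
  have c0 : (go 16 Gd mult S183_198_216_364 (Tr.lf 13986465860 99453897 0) 384 448 144 160 256 320) = true := by decide +kernel
  have c1 : (band (go 16 Gd mult S183_198_216_364 (Tr.lf 13449578628 103517129 0) 448 512 128 160 256 320)
  (go 16 Gd mult S169_183_216_364 (Tr.lf 9146221634 108100807 0) 448 512 128 160 256 320)) = true := by decide +kernel
  have c2 : (band (go 16 Gd mult S183_198_216_290 (Tr.lf 13449332868 103513033 0) 448 512 128 160 320 384)
  (go 16 Gd mult S169_183_290_364 (Tr.lf 13449316418 99318729 0) 448 512 128 160 320 384)) = true := by decide +kernel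
  have c3 : (band (go 16 Gd mult S169_183_216_364 (Tr.lf 13986449540 103771209 0) 384 448 160 192 256 320)
  (go 16 Gd mult S183_198_290_364 (Tr.lf 13449315396 103771209 0) 384 448 160 192 256 320)) = true := by decide +kernel
  have c4 : (band (go 16 Gd mult S169_183_216_364 (Tr.lf 13986449540 107842505 0) 384 448 160 192 320 384)
  (go 16 Gd mult S183_198_290_364 (Tr.lf 13449316420 103640137 0) 384 448 160 192 320 384)) = true := by decide +kernel
  have c5 : (go 16 Gd mult S183_198_216_290 (Tr.lf 13449332868 103771209 0) 384 448 160 192 256 320) = true := by decide +kernel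
  have c6 : (go 16 Gd mult S183_198_216_290 (Tr.lf 13986449540 103513161 0) 384 448 160 192 320 384) = true := by decide +kernel
  have c7 : (band (go 16 Gd mult S183_198_216_290 (Tr.lf 13986202756 99449801 0) 384 448 128 160 320 352)
  (go 16 Gd mult S183_198_216_290 (Tr.lf 13986202756 95255497 0) 384 448 128 160 352 384)) = true := by decide +kernel
  have c8 : (band (go 16 Gd mult S183_198_290_364 (Tr.lf 13986187396 103644105 0) 384 448 128 160 320 384)
  (band (go 16 Gd mult S183_198_290_364 (Tr.lf 9154349122 108092361 0) 448 512 128 160 320 384)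
  (go 16 Gd mult S169_183_216_290 (Tr.lf 13986187396 103513033 0) 448 512 128 160 320 384))) = true := by decide +kernel
  have c9 : (band (go 16 Gd mult S169_183_216_364 (Tr.lf 9146221634 112164167 0) 448 512 160 192 256 320)
  (go 16 Gd mult S169_183_216_364 (Tr.lf 9146221634 112033095 0) 448 512 160 192 320 384)) = true := by decide +kernel
  have c10 : (go 16 Gd mult S183_198_216_364 (Tr.lf 9145959458 108100807 0) 384 448 128 144 256 320) = true := by decide +kernel
  (And.intro (Ok.s1 144 (Ok.lf S183_198_216_364_ok c10)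
  (Ok.lf S183_198_216_364_ok c0))
  (And.intro (Ok.s4 290 (Ok.s2 352 (Ok.lf S183_198_216_290_ok (bl c7))
  (Ok.lf S183_198_216_290_ok (br c7)))
  (Ok.lf S183_198_290_364_ok (bl c8)))
  (And.intro (Ok.s3 183 (Ok.s2 320 (Ok.lf S169_183_216_364_ok (br c1))
  (Ok.s4 290 (Ok.lf S169_183_216_290_ok (br (br c8)))
  (Ok.lf S169_183_290_364_ok (br c2))))
  (Ok.s2 320 (Ok.lf S183_198_216_364_ok (bl c1))
  (Ok.s4 290 (Ok.lf S183_198_216_290_ok (bl c2))
  (Ok.lf S183_198_290_364_ok (bl (br c8))))))
  (And.intro (Ok.s2 320 (Ok.s0 448 (Ok.lf S169_183_216_364_ok (bl c3))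
  (Ok.lf S169_183_216_364_ok (bl c9)))
  (Ok.s0 448 (Ok.lf S169_183_216_364_ok (bl c4))
  (Ok.lf S169_183_216_364_ok (br c9))))
  (Ok.s4 290 (Ok.s2 320 (Ok.lf S183_198_216_290_ok c5)
  (Ok.lf S183_198_216_290_ok c6))
  (Ok.s2 320 (Ok.lf S183_198_290_364_ok (br c3))
  (Ok.lf S183_198_290_364_ok (br c4))))))))

end Vale.Agent.P098.Ck
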