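import Vale.Agent.P098.CkGd
import Vale.Agent.P098.CkOk
import Vale.Agent.P098.Sh.A10
import Vale.Agent.P098.Sh.A12
import Vale.Agent.P098.Sh.A15
import Vale.Agent.P098.Sh.A18
import Vale.Agent.P098.Sh.A19
import Vale.Agent.P098.Sh.A20
import Vale.Agent.P098.Sh.A21
import Vale.Agent.P098.Sh.A7
import Vale.Agent.P098.Sh.A9

namespace Vale.Agent.P098.Ck

theorem r698 :
    Ok Gd mult 448 512 160 192 256 384 183 198 216 364 ∧
    Ok Gd mult 384 512 128 192 256 384 140 198 364 512 ∧
    Ok Gd mult 384 512 128 192 256 320 140 198 512 660 ∧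
    Ok Gd mult 384 512 128 192 320 384 140 169 512 660 :=
  have c0 : (go 16 Gd mult S140_169_512_660 (Tr.lf 13987514498 103648584 0) 384 448 128 160 320 384) = true := by decide +kernel
  have c1 : (go 16 Gd mult S183_198_216_364 (Tr.lf 13449594948 103644233 0) 448 512 160 192 256 320) = true := by decide +kernel
  have c2 : (go 16 Gd mult S140_169_364_512 (Tr.lf 9146238084 107969735 0) 384 512 128 160 256 320) = true := by decide +kernel
  have c3 : (go 16 Gd mult S140_154_364_512 (Tr.lf 13987235976 107584840 0) 384 512 128 160 320 384) = true := by decide +kernel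
  have c4 : (go 16 Gd mult S154_169_364_512 (Tr.lf 13987498116 111778889 0) 384 512 128 160 320 384) = true := by decide +kernel
  have c5 : (go 16 Gd mult S169_198_364_512 (Tr.lf 9146238084 103906631 0) 384 448 128 192 256 320) = true := by decide +kernel
  have c6 : (go 16 Gd mult S169_183_364_512 (Tr.lf 13449578628 99318729 0) 384 512 128 160 320 384) = true := by decide +kernel
  have c7 : (go 16 Gd mult S183_198_364_512 (Tr.lf 13449578628 99449801 0) 384 512 128 160 320 384) = true := by decide +kernel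
  have c8 : (band (go 16 Gd mult S169_198_364_512 (Tr.lf 9146239044 107969863 0) 384 512 160 192 320 384)
  (band (go 16 Gd mult S140_169_512_660 (Tr.lf 9145959492 107846855 0) 384 512 160 192 320 384)
  (go 16 Gd mult S140_169_512_660 (Tr.lf 9145959490 112041031 0) 448 512 128 160 320 384))) = true := by decide +kernel
  have c9 : (go 16 Gd mult S140_169_512_660 (Tr.lf 9146238084 112041159 0) 384 512 128 192 256 320) = true := by decide +kernel
  have c10 : (go 16 Gd mult S183_198_216_364 (Tr.lf 13449578564 99318857 0) 448 512 160 192 320 384) = true := by decide +kernel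
  have c11 : (go 16 Gd mult S140_169_364_512 (Tr.lf 9146238020 112033095 0) 384 512 160 192 256 320) = true := by decide +kernel
  have c12 : (go 16 Gd mult S140_169_364_512 (Tr.lf 9145976900 107846855 0) 384 512 160 192 320 384) = true := by decide +kernel
  have c13 : (go 16 Gd mult S169_198_512_660 (Tr.lf 9145975940 112164167 0) 384 512 128 192 256 320) = true := by decide +kernel
  have c14 : (go 16 Gd mult S169_198_364_512 (Tr.lf 8608040066 99712071 0) 448 512 128 192 256 320) = true := by decide +kernel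
  (And.intro (Ok.s2 320 (Ok.lf S183_198_216_364_ok c1)
  (Ok.lf S183_198_216_364_ok c10))
  (And.intro (Ok.s3 169 (Ok.s2 320 (Ok.s1 160 (Ok.lf S140_169_364_512_ok c2)
  (Ok.lf S140_169_364_512_ok c11))
  (Ok.s1 160 (Ok.s3 154 (Ok.lf S140_154_364_512_ok c3)
  (Ok.lf S154_169_364_512_ok c4))
  (Ok.lf S140_169_364_512_ok c12)))
  (Ok.s2 320 (Ok.s0 448 (Ok.lf S169_198_364_512_ok c5)
  (Ok.lf S169_198_364_512_ok c14))
  (Ok.s1 160 (Ok.s3 183 (Ok.lf S169_183_364_512_ok c6)
  (Ok.lf S183_198_364_512_ok c7))
  (Ok.lf S169_198_364_512_ok (bl c8)))))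
  (And.intro (Ok.s3 169 (Ok.lf S140_169_512_660_ok c9)
  (Ok.lf S169_198_512_660_ok c13))
  (Ok.s1 160 (Ok.s0 448 (Ok.lf S140_169_512_660_ok c0)
  (Ok.lf S140_169_512_660_ok (br (br c8))))
  (Ok.lf S140_169_512_660_ok (bl (br c8)))))))

end Vale.Agent.P098.Ck
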