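import Vale.Agent.P098.CkGd
import Vale.Agent.P098.CkOk
import Vale.Agent.P098.Sh.A10
import Vale.Agent.P098.Sh.A16
import Vale.Agent.P098.Sh.A19
import Vale.Agent.P098.Sh.A22
import Vale.Agent.P098.Sh.A23
import Vale.Agent.P098.Sh.A30

namespace Vale.Agent.P098.Ck

theorem r699 :
    Ok Gd mult 384 512 128 192 320 384 169 198 512 660 ∧
    Ok Gd mult 384 512 128 192 256 384 140 198 660 808 ∧
    Ok Gd mult 384 512 128 192 256 320 198 227 216 290 :=
  have c0 : (go 16 Gd mult S140_169_660_808 (Tr.lf 13442254978 103517384 0) 384 448 128 160 320 384) = true := by decide +kernel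
  have c1 : (band (go 16 Gd mult S169_183_512_660 (Tr.lf 9146222724 107969735 0) 384 512 128 160 320 384)
  (go 16 Gd mult S183_198_512_660 (Tr.lf 9146221636 112164039 0) 384 512 128 160 320 384)) = true := by decide +kernel
  have c2 : (go 16 Gd mult S169_198_660_808 (Tr.lf 9146239044 107977799 0) 384 512 128 160 320 384) = true := by decide +kernel
  have c3 : (go 16 Gd mult S198_212_216_290 (Tr.lf 13449577608 103509065 0) 384 512 128 160 288 320) = true := by decide +kernel
  have c4 : (go 16 Gd mult S212_227_216_290 (Tr.lf 13449577608 103640137 0) 384 512 128 160 288 320) = true := by decide +kernel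
  have c5 : (go 16 Gd mult S198_212_216_290 (Tr.lf 17744545924 95251147 0) 384 448 160 192 256 320) = true := by decide +kernel
  have c6 : (go 16 Gd mult S198_212_216_290 (Tr.lf 13449578628 107830473 0) 448 512 160 192 256 320) = true := by decide +kernel
  have c7 : (go 16 Gd mult S212_227_216_290 (Tr.lf 17744545924 99445451 0) 384 448 160 192 256 320) = true := by decide +kernel
  have c8 : (go 16 Gd mult S212_227_216_290 (Tr.lf 13449578628 103767241 0) 448 512 160 192 256 320) = true := by decide +kernel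
  have c9 : (band (go 16 Gd mult S169_198_512_660 (Tr.lf 9144927300 112040903 0) 384 512 160 192 320 384)
  (band (go 16 Gd mult S169_198_660_808 (Tr.lf 9136522308 103644358 0) 384 512 160 192 320 384)
  (band (go 16 Gd mult S140_169_660_808 (Tr.lf 9137570852 103644359 0) 384 512 160 192 320 384)
  (band (go 16 Gd mult S169_198_660_808 (Tr.lf 9136522372 112041030 0) 384 512 128 192 256 320)
  (go 16 Gd mult S140_169_660_808 (Tr.lf 9137570433 108104775 0) 448 512 128 192 256 320))))) = true := by decide +kernel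
  have c10 : (band (go 16 Gd mult S140_169_660_808 (Tr.lf 9137570946 107973703 0) 384 448 128 192 256 320)
  (go 16 Gd mult S140_169_660_808 (Tr.lf 9145959489 107846727 0) 448 512 128 160 320 384)) = true := by decide +kernel
  have c11 : (band (go 16 Gd mult S198_212_216_290 (Tr.lf 9144910404 103775303 0) 384 512 128 160 256 288)
  (go 16 Gd mult S212_227_216_290 (Tr.lf 9144910404 103906375 0) 384 512 128 160 256 288)) = true := by decide +kernel
  (And.intro (Ok.s1 160 (Ok.s3 183 (Ok.lf S169_183_512_660_ok (bl c1))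
  (Ok.lf S183_198_512_660_ok (br c1)))
  (Ok.lf S169_198_512_660_ok (bl c9)))
  (And.intro (Ok.s2 320 (Ok.s3 169 (Ok.s0 448 (Ok.lf S140_169_660_808_ok (bl c10))
  (Ok.lf S140_169_660_808_ok (br (br (br (br c9))))))
  (Ok.lf S169_198_660_808_ok (bl (br (br (br c9))))))
  (Ok.s3 169 (Ok.s1 160 (Ok.s0 448 (Ok.lf S140_169_660_808_ok c0)
  (Ok.lf S140_169_660_808_ok (br c10)))
  (Ok.lf S140_169_660_808_ok (bl (br (br c9)))))
  (Ok.s1 160 (Ok.lf S169_198_660_808_ok c2)
  (Ok.lf S169_198_660_808_ok (bl (br c9))))))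
  (Ok.s1 160 (Ok.s3 212 (Ok.s2 288 (Ok.lf S198_212_216_290_ok (bl c11))
  (Ok.lf S198_212_216_290_ok c3))
  (Ok.s2 288 (Ok.lf S212_227_216_290_ok (br c11))
  (Ok.lf S212_227_216_290_ok c4)))
  (Ok.s3 212 (Ok.s0 448 (Ok.lf S198_212_216_290_ok c5)
  (Ok.lf S198_212_216_290_ok c6))
  (Ok.s0 448 (Ok.lf S212_227_216_290_ok c7)
  (Ok.lf S212_227_216_290_ok c8))))))

end Vale.Agent.P098.Ck
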