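import Vale.Agent.P098.CkGd
import Vale.Agent.P098.CkOk
import Vale.Agent.P098.Sh.A0
import Vale.Agent.P098.Sh.A1
import Vale.Agent.P098.Sh.A3
import Vale.Agent.P098.Sh.A4
import Vale.Agent.P098.Sh.A55
import Vale.Agent.P098.Sh.A58
import Vale.Agent.P098.Sh.A59

namespace Vale.Agent.P098.Ck

theorem r7 :
    Ok Gd mult 0 128 0 64 128 256 372 430 512 808 ∧
    Ok Gd mult 0 128 0 64 128 256 430 488 216 808 ∧
    Ok Gd mult 0 128 0 64 256 384 24 140 216 808 :=
  have c0 : (band (go 16 Gd mult S430_488_512_660 (Tr.lf 1152682116 95652935 0) 0 128 0 32 128 256)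
  (band (go 16 Gd mult S372_430_660_808 (Tr.lf 614761538 104176582 0) 0 128 0 32 128 256)
  (go 16 Gd mult S372_430_512_660 (Tr.lf 614630466 104176582 0) 0 128 0 32 128 256))) = true := by decide +kernel
  have c1 : (go 16 Gd mult S430_488_660_808 (Tr.lf 1152682116 95652935 0) 0 128 0 32 128 256) = true := by decide +kernel
  have c2 : (band (go 16 Gd mult S430_488_216_364 (Tr.lf 1152551044 95652935 0) 0 128 0 32 128 256)
  (go 16 Gd mult S430_488_364_512 (Tr.lf 1152551044 95652935 0) 0 128 0 32 128 256)) = true := by decide +kernel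
  have c3 : (band (go 16 Gd mult S24_82_364_512 (Tr.lf 1153534082 108231497 0) 0 128 0 64 256 384)
  (band (go 16 Gd mult S24_82_512_660 (Tr.lf 1153534082 108231497 0) 0 128 0 64 256 384)
  (band (go 16 Gd mult S24_82_660_808 (Tr.lf 1153534082 108231497 0) 0 128 0 64 256 384)
  (go 16 Gd mult S82_140_216_364 (Tr.lf 1160938626 103783368 0) 0 128 0 64 256 384)))) = true := by decide +kernel
  have c4 : (band (go 16 Gd mult S82_140_364_512 (Tr.lf 1160938626 103783368 0) 0 128 0 64 256 384)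
  (band (go 16 Gd mult S82_140_512_660 (Tr.lf 547521665 112163910 0) 0 128 0 64 256 384)
  (go 16 Gd mult S82_140_660_808 (Tr.lf 547505282 112164165 0) 0 128 0 64 256 384))) = true := by decide +kernel
  have c5 : (band (go 16 Gd mult S372_430_512_660 (Tr.lf 1160938530 95652936 0) 0 128 32 64 128 256)
  (band (go 16 Gd mult S372_430_660_808 (Tr.lf 1160938530 95652936 0) 0 128 32 64 128 256)
  (band (go 16 Gd mult S430_488_216_364 (Tr.lf 539051042 103910342 0) 0 128 32 64 128 256)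
  (band (go 16 Gd mult S430_488_364_512 (Tr.lf 539051042 108104646 0) 0 128 32 64 128 256)
  (band (go 16 Gd mult S430_488_512_660 (Tr.lf 539051042 108104646 0) 0 128 32 64 128 256)
  (go 16 Gd mult S430_488_660_808 (Tr.lf 539051042 103910342 0) 0 128 32 64 128 256)))))) = true := by decide +kernel
  have c6 : (go 16 Gd mult S24_82_216_364 (Tr.lf 1153532993 108231497 0) 0 128 0 32 256 384) = true := by decide +kernel
  have c7 : (go 16 Gd mult S24_82_216_364 (Tr.lf 540099650 107838407 0) 0 128 32 64 256 384) = true := by decide +kernel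
  (And.intro (Ok.s4 660 (Ok.s1 32 (Ok.lf S372_430_512_660_ok (br (br c0)))
  (Ok.lf S372_430_512_660_ok (bl c5)))
  (Ok.s1 32 (Ok.lf S372_430_660_808_ok (bl (br c0)))
  (Ok.lf S372_430_660_808_ok (bl (br c5)))))
  (And.intro (Ok.s4 512 (Ok.s4 364 (Ok.s1 32 (Ok.lf S430_488_216_364_ok (bl c2))
  (Ok.lf S430_488_216_364_ok (bl (br (br c5)))))
  (Ok.s1 32 (Ok.lf S430_488_364_512_ok (br c2))
  (Ok.lf S430_488_364_512_ok (bl (br (br (br c5)))))))
  (Ok.s4 660 (Ok.s1 32 (Ok.lf S430_488_512_660_ok (bl c0))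
  (Ok.lf S430_488_512_660_ok (bl (br (br (br (br c5)))))))
  (Ok.s1 32 (Ok.lf S430_488_660_808_ok c1)
  (Ok.lf S430_488_660_808_ok (br (br (br (br (br c5)))))))))
  (Ok.s3 82 (Ok.s4 512 (Ok.s4 364 (Ok.s1 32 (Ok.lf S24_82_216_364_ok c6)
  (Ok.lf S24_82_216_364_ok c7))
  (Ok.lf S24_82_364_512_ok (bl c3)))
  (Ok.s4 660 (Ok.lf S24_82_512_660_ok (bl (br c3)))
  (Ok.lf S24_82_660_808_ok (bl (br (br c3))))))
  (Ok.s4 512 (Ok.s4 364 (Ok.lf S82_140_216_364_ok (br (br (br c3))))
  (Ok.lf S82_140_364_512_ok (bl c4)))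
  (Ok.s4 660 (Ok.lf S82_140_512_660_ok (bl (br c4)))
  (Ok.lf S82_140_660_808_ok (br (br c4))))))))

end Vale.Agent.P098.Ck
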