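import Vale.Agent.P098.CkGd
import Vale.Agent.P098.CkOk
import Vale.Agent.P098.Sh.A2
import Vale.Agent.P098.Sh.A3
import Vale.Agent.P098.Sh.A5
import Vale.Agent.P098.Sh.A6

namespace Vale.Agent.P098.Ck

theorem r70 :
    Ok Gd mult 0 128 128 192 480 512 82 140 364 512 ∧
    Ok Gd mult 0 128 128 192 384 512 82 140 512 808 :=
  have c0 : (band (go 16 Gd mult S111_140_364_512 (Tr.lf 9137456264 99314759 2454196502761181256869740544) 0 128 128 192 480 512)
  (band (go 16 Gd mult S82_111_364_512 (Tr.lf 9137439876 99449799 2098798008108974956911525888) 0 128 128 192 480 512)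
  (band (go 16 Gd mult S111_140_512_660 (Tr.lf 9137439876 99580871 2342973888518760397776355328) 0 128 128 192 480 512)
  (go 16 Gd mult S82_111_660_808 (Tr.lf 9137439876 107707590 2014174639581988664027119616) 0 128 128 192 480 512)))) = true := by decide +kernel
  have c1 : (band (go 16 Gd mult S111_140_512_660 (Tr.lf 13432539208 94989256 294977899985969518628306944) 0 128 160 192 384 448)
  (band (go 16 Gd mult S82_111_512_660 (Tr.lf 13432408136 94993224 291351122527125631104188416) 0 128 160 192 384 448)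
  (go 16 Gd mult S111_140_660_808 (Tr.lf 9137570888 103648454 301022529084042664501837824) 0 128 160 192 384 448))) = true := by decide +kernel
  have c2 : (band (go 16 Gd mult S82_111_660_808 (Tr.lf 9137439880 103644358 651639904373504554324459520) 0 128 128 192 448 480)
  (band (go 16 Gd mult S111_140_660_808 (Tr.lf 9137439880 95259846 904283117019361424210657280) 0 128 128 192 448 480)
  (band (go 16 Gd mult S82_111_660_808 (Tr.lf 9137439816 103652422 285306493429052485230657536) 0 128 160 192 384 448)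
  (go 16 Gd mult S111_140_660_808 (Tr.lf 9137439876 107838662 2240205380175506930122162176) 0 128 128 192 480 512)))) = true := by decide +kernel
  have c3 : (band (go 16 Gd mult S111_140_512_660 (Tr.lf 9137440836 95124551 0) 0 128 128 160 384 448)
  (band (go 16 Gd mult S82_111_512_660 (Tr.lf 9137439812 95120455 0) 0 128 128 160 384 448)
  (band (go 16 Gd mult S82_111_660_808 (Tr.lf 9137439812 95120455 0) 0 128 128 160 384 448)
  (band (go 16 Gd mult S111_140_660_808 (Tr.lf 9137439812 95124551 0) 0 128 128 160 384 448)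
  (band (go 16 Gd mult S111_140_512_660 (Tr.lf 9137439816 112032966 1001002163196191246255128576) 0 128 160 192 448 480)
  (go 16 Gd mult S82_111_512_660 (Tr.lf 9137439812 107973702 697572684498666885748883456) 0 128 160 192 448 480)))))) = true := by decide +kernel
  have c4 : (go 16 Gd mult S82_111_512_660 (Tr.lf 9137374340 107707335 2056489349119672673160396800) 0 128 128 192 480 512) = true := by decide +kernel
  have c5 : (band (go 16 Gd mult S82_111_512_660 (Tr.lf 9137439812 103644358 22486581025851943419904) 0 128 128 160 448 480)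
  (go 16 Gd mult S111_140_512_660 (Tr.lf 9137439812 99454150 11584555278289598414848) 0 128 128 160 448 480)) = true := by decide +kernel
  (And.intro (Ok.s3 111 (Ok.lf S82_111_364_512_ok (bl (br c0)))
  (Ok.lf S111_140_364_512_ok (bl c0)))
  (Ok.s4 660 (Ok.s2 448 (Ok.s3 111 (Ok.s1 160 (Ok.lf S82_111_512_660_ok (bl (br c3)))
  (Ok.lf S82_111_512_660_ok (bl (br c1))))
  (Ok.s1 160 (Ok.lf S111_140_512_660_ok (bl c3))
  (Ok.lf S111_140_512_660_ok (bl c1))))
  (Ok.s3 111 (Ok.s2 480 (Ok.s1 160 (Ok.lf S82_111_512_660_ok (bl c5))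
  (Ok.lf S82_111_512_660_ok (br (br (br (br (br c3)))))))
  (Ok.lf S82_111_512_660_ok c4))
  (Ok.s2 480 (Ok.s1 160 (Ok.lf S111_140_512_660_ok (br c5))
  (Ok.lf S111_140_512_660_ok (bl (br (br (br (br c3)))))))
  (Ok.lf S111_140_512_660_ok (bl (br (br c0)))))))
  (Ok.s2 448 (Ok.s3 111 (Ok.s1 160 (Ok.lf S82_111_660_808_ok (bl (br (br c3))))
  (Ok.lf S82_111_660_808_ok (bl (br (br c2)))))
  (Ok.s1 160 (Ok.lf S111_140_660_808_ok (bl (br (br (br c3)))))
  (Ok.lf S111_140_660_808_ok (br (br c1)))))
  (Ok.s3 111 (Ok.s2 480 (Ok.lf S82_111_660_808_ok (bl c2))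
  (Ok.lf S82_111_660_808_ok (br (br (br c0)))))
  (Ok.s2 480 (Ok.lf S111_140_660_808_ok (bl (br c2)))
  (Ok.lf S111_140_660_808_ok (br (br (br c2)))))))))

end Vale.Agent.P098.Ck
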