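import Vale.Agent.P098.CkGd
import Vale.Agent.P098.CkOk
import Vale.Agent.P098.Sh.A23
import Vale.Agent.P098.Sh.A26
import Vale.Agent.P098.Sh.A27
import Vale.Agent.P098.Sh.A31
import Vale.Agent.P098.Sh.A34
import Vale.Agent.P098.Sh.A37
import Vale.Agent.P098.Sh.A38
import Vale.Agent.P098.Sh.A39

namespace Vale.Agent.P098.Ck

theorem r701 :
    Ok Gd mult 384 512 128 192 256 320 227 256 216 364 ∧
    Ok Gd mult 384 512 128 192 320 384 227 256 216 364 ∧
    Ok Gd mult 384 512 128 192 256 384 198 256 364 512 ∧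
    Ok Gd mult 384 512 128 192 256 384 198 256 512 808 :=
  have c0 : (go 16 Gd mult S198_227_364_512 (Tr.lf 9145190530 108100679 0) 448 512 128 192 320 384) = true := by decide +kernel
  have c1 : (band (go 16 Gd mult S227_241_216_290 (Tr.lf 13439879304 99449545 0) 384 512 128 192 320 384)
  (go 16 Gd mult S241_256_216_364 (Tr.lf 8607245444 99711815 0) 384 512 128 192 320 384)) = true := by decide +kernel
  have c2 : (band (go 16 Gd mult S198_212_364_512 (Tr.lf 9146222724 107969863 0) 384 448 128 192 320 384)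
  (go 16 Gd mult S198_212_364_512 (Tr.lf 9145173122 103779399 0) 384 448 128 192 256 320)) = true := by decide +kernel
  have c3 : (go 16 Gd mult S212_227_364_512 (Tr.lf 9145174146 103779399 0) 384 448 128 192 256 384) = true := by decide +kernel
  have c4 : (band (go 16 Gd mult S227_241_216_290 (Tr.lf 13448529988 107961289 0) 384 512 160 192 256 320)
  (go 16 Gd mult S227_241_290_364 (Tr.lf 13439870020 103516873 0) 384 512 160 192 256 320)) = true := by decide +kernel
  have c5 : (band (go 16 Gd mult S227_256_364_438 (Tr.lf 8606992516 99584839 0) 384 512 128 192 256 384)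
  (band (go 16 Gd mult S198_227_660_808 (Tr.lf 8599652484 99449799 0) 384 512 128 192 256 384)
  (go 16 Gd mult S227_256_438_512 (Tr.lf 8598472770 99711687 0) 384 512 128 192 256 384))) = true := by decide +kernel
  have c6 : (band (go 16 Gd mult S198_227_512_660 (Tr.lf 9145173124 103783367 0) 384 512 128 192 320 384)
  (go 16 Gd mult S227_241_290_364 (Tr.lf 9144910980 99843143 0) 384 512 128 192 320 384)) = true := by decide +kernel
  have c7 : (band (go 16 Gd mult S241_256_216_364 (Tr.lf 8607245444 103771079 0) 384 512 128 192 256 320)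
  (go 16 Gd mult S198_227_512_660 (Tr.lf 8599651396 95517639 0) 384 512 128 192 256 320)) = true := by decide +kernel
  have c8 : (go 16 Gd mult S227_241_216_364 (Tr.lf 8608293956 103775303 0) 384 512 128 160 256 320) = true := by decide +kernel
  have c9 : (go 16 Gd mult S198_227_364_512 (Tr.lf 8608040066 99585095 0) 448 512 128 192 256 320) = true := by decide +kernel
  have c10 : (band (go 16 Gd mult S227_256_512_660 (Tr.lf 4303635522 108231749 0) 384 512 128 192 256 384)
  (go 16 Gd mult S227_256_660_808 (Tr.lf 4303627330 108235717 0) 384 512 128 192 256 384)) = true := by decide +kernel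
  (And.intro (Ok.s3 241 (Ok.s1 160 (Ok.lf S227_241_216_364_ok c8)
  (Ok.s4 290 (Ok.lf S227_241_216_290_ok (bl c4))
  (Ok.lf S227_241_290_364_ok (br c4))))
  (Ok.lf S241_256_216_364_ok (bl c7)))
  (And.intro (Ok.s3 241 (Ok.s4 290 (Ok.lf S227_241_216_290_ok (bl c1))
  (Ok.lf S227_241_290_364_ok (br c6)))
  (Ok.lf S241_256_216_364_ok (br c1)))
  (And.intro (Ok.s3 227 (Ok.s0 448 (Ok.s3 212 (Ok.s2 320 (Ok.lf S198_212_364_512_ok (br c2))
  (Ok.lf S198_212_364_512_ok (bl c2)))
  (Ok.lf S212_227_364_512_ok c3))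
  (Ok.s2 320 (Ok.lf S198_227_364_512_ok c9)
  (Ok.lf S198_227_364_512_ok c0)))
  (Ok.s4 438 (Ok.lf S227_256_364_438_ok (bl c5))
  (Ok.lf S227_256_438_512_ok (br (br c5)))))
  (Ok.s4 660 (Ok.s3 227 (Ok.s2 320 (Ok.lf S198_227_512_660_ok (br c7))
  (Ok.lf S198_227_512_660_ok (bl c6)))
  (Ok.lf S227_256_512_660_ok (bl c10)))
  (Ok.s3 227 (Ok.lf S198_227_660_808_ok (bl (br c5)))
  (Ok.lf S227_256_660_808_ok (br c10)))))))

end Vale.Agent.P098.Ck
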