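import Vale.Agent.P098.CkGd
import Vale.Agent.P098.CkOk
import Vale.Agent.P098.Sh.A41
import Vale.Agent.P098.Sh.A42
import Vale.Agent.P098.Sh.A45
import Vale.Agent.P098.Sh.A46
import Vale.Agent.P098.Sh.A47
import Vale.Agent.P098.Sh.A48
import Vale.Agent.P098.Sh.A49
import Vale.Agent.P098.Sh.A50
import Vale.Agent.P098.Sh.A51
import Vale.Agent.P098.Sh.A52

namespace Vale.Agent.P098.Ck

theorem r702 :
    Ok Gd mult 384 512 128 192 256 384 256 314 216 512 ∧
    Ok Gd mult 384 512 128 192 256 384 256 314 512 808 ∧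
    Ok Gd mult 384 512 128 192 256 384 314 372 216 512 ∧
    Ok Gd mult 384 512 128 192 256 384 314 372 512 660 ∧
    Ok Gd mult 384 512 128 192 256 384 314 343 660 808 :=
  have c0 : (band (go 16 Gd mult S314_343_512_660 (Tr.lf 4850993284 99589319 0) 384 512 128 192 256 384)
  (band (go 16 Gd mult S343_372_364_512 (Tr.lf 4842604674 95398728 0) 384 512 128 192 256 384)
  (go 16 Gd mult S256_285_216_364 (Tr.lf 13505939524 108099786 0) 384 512 128 192 256 384))) = true := by decide +kernel
  have c1 : (band (go 16 Gd mult S314_343_660_808 (Tr.lf 4851008644 99716295 0) 384 512 128 192 256 320)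
  (band (go 16 Gd mult S343_372_512_660 (Tr.lf 4841554500 103914566 0) 384 512 128 192 256 320)
  (band (go 16 Gd mult S343_372_512_660 (Tr.lf 4850992258 99581255 0) 384 512 128 192 320 384)
  (go 16 Gd mult S314_328_660_808 (Tr.lf 4850992194 99585223 0) 384 512 128 192 320 384)))) = true := by decide +kernel
  have c2 : (go 16 Gd mult S328_343_660_808 (Tr.lf 9684142148 103390153 0) 384 512 128 160 320 384) = true := by decide +kernel
  have c3 : (band (go 16 Gd mult S285_314_660_808 (Tr.lf 4304685122 95526085 0) 384 512 128 192 256 384)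
  (band (go 16 Gd mult S314_343_216_364 (Tr.lf 9717826 99974469 0) 384 512 128 192 256 384)
  (band (go 16 Gd mult S343_372_216_364 (Tr.lf 4842604610 95398728 0) 384 512 128 192 256 384)
  (band (go 16 Gd mult S314_343_364_512 (Tr.lf 9717826 104037701 0) 384 512 128 192 256 384)
  (go 16 Gd mult S256_285_364_512 (Tr.lf 4303635522 112556870 0) 384 512 128 192 256 384))))) = true := by decide +kernel
  have c4 : (band (go 16 Gd mult S285_314_512_660 (Tr.lf 4303635522 103914182 0) 384 512 128 192 256 384)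
  (band (go 16 Gd mult S285_314_216_364 (Tr.lf 4303627330 104168262 0) 384 512 128 192 256 384)
  (band (go 16 Gd mult S285_314_364_512 (Tr.lf 4303627330 108231494 0) 384 512 128 192 256 384)
  (band (go 16 Gd mult S256_285_660_808 (Tr.lf 4303635490 103783365 0) 384 512 128 192 256 384)
  (go 16 Gd mult S256_285_512_660 (Tr.lf 4303627298 104172485 0) 384 512 128 192 256 384))))) = true := by decide +kernel
  have c5 : (go 16 Gd mult S328_343_660_808 (Tr.lf 4842595362 103787463 0) 384 512 160 192 320 384) = true := by decide +kernel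
  (And.intro (Ok.s4 364 (Ok.s3 285 (Ok.lf S256_285_216_364_ok (br (br c0)))
  (Ok.lf S285_314_216_364_ok (bl (br c4))))
  (Ok.s3 285 (Ok.lf S256_285_364_512_ok (br (br (br (br c3)))))
  (Ok.lf S285_314_364_512_ok (bl (br (br c4))))))
  (And.intro (Ok.s4 660 (Ok.s3 285 (Ok.lf S256_285_512_660_ok (br (br (br (br c4)))))
  (Ok.lf S285_314_512_660_ok (bl c4)))
  (Ok.s3 285 (Ok.lf S256_285_660_808_ok (bl (br (br (br c4)))))
  (Ok.lf S285_314_660_808_ok (bl c3))))
  (And.intro (Ok.s4 364 (Ok.s3 343 (Ok.lf S314_343_216_364_ok (bl (br c3)))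
  (Ok.lf S343_372_216_364_ok (bl (br (br c3)))))
  (Ok.s3 343 (Ok.lf S314_343_364_512_ok (bl (br (br (br c3)))))
  (Ok.lf S343_372_364_512_ok (bl (br c0)))))
  (And.intro (Ok.s3 343 (Ok.lf S314_343_512_660_ok (bl c0))
  (Ok.s2 320 (Ok.lf S343_372_512_660_ok (bl (br c1)))
  (Ok.lf S343_372_512_660_ok (bl (br (br c1))))))
  (Ok.s2 320 (Ok.lf S314_343_660_808_ok (bl c1))
  (Ok.s3 328 (Ok.lf S314_328_660_808_ok (br (br (br c1))))
  (Ok.s1 160 (Ok.lf S328_343_660_808_ok c2)
  (Ok.lf S328_343_660_808_ok c5))))))))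

end Vale.Agent.P098.Ck
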