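import Vale.Agent.P098.CkGd
import Vale.Agent.P098.CkOk
import Vale.Agent.P098.Sh.A51
import Vale.Agent.P098.Sh.A52
import Vale.Agent.P098.Sh.A53
import Vale.Agent.P098.Sh.A54
import Vale.Agent.P098.Sh.A56
import Vale.Agent.P098.Sh.A57

namespace Vale.Agent.P098.Ck

theorem r703 :
    Ok Gd mult 384 512 128 192 256 384 343 372 660 808 ∧
    Ok Gd mult 384 512 128 192 256 384 372 430 216 808 :=
  have c0 : (go 16 Gd mult S372_401_364_512 (Tr.lf 9137588356 103910344 0) 384 512 128 192 256 384) = true := by decide +kernel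
  have c1 : (go 16 Gd mult S372_401_660_808 (Tr.lf 9682847876 99458120 0) 384 512 128 192 320 384) = true := by decide +kernel
  have c2 : (go 16 Gd mult S401_430_660_808 (Tr.lf 9675507844 99449674 0) 384 512 128 192 320 384) = true := by decide +kernel
  have c3 : (band (go 16 Gd mult S401_430_364_512 (Tr.lf 9675376772 99449674 0) 384 512 128 192 320 384)
  (go 16 Gd mult S401_430_512_660 (Tr.lf 9675376772 99449674 0) 384 512 128 192 320 384)) = true := by decide +kernel
  have c4 : (band (go 16 Gd mult S343_357_660_808 (Tr.lf 9692530756 99327049 0) 384 512 128 160 320 384)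
  (go 16 Gd mult S357_372_660_808 (Tr.lf 9683878980 99457993 0) 384 512 128 160 320 384)) = true := by decide +kernel
  have c5 : (go 16 Gd mult S372_401_216_364 (Tr.lf 4842604676 95529800 0) 384 512 128 192 256 384) = true := by decide +kernel
  have c6 : (band (go 16 Gd mult S401_430_216_364 (Tr.lf 9675506820 99449674 0) 384 512 128 192 320 384)
  (go 16 Gd mult S372_401_512_660 (Tr.lf 9145975940 107842632 0) 384 512 128 192 320 384)) = true := by decide +kernel
  have c7 : (band (go 16 Gd mult S343_372_660_808 (Tr.lf 4851008132 99712072 0) 384 512 128 192 256 320)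
  (band (go 16 Gd mult S401_430_364_512 (Tr.lf 9137456260 108104648 0) 384 512 128 192 256 320)
  (band (go 16 Gd mult S401_430_216_364 (Tr.lf 9137439876 108104648 0) 384 512 128 192 256 320)
  (go 16 Gd mult S401_430_512_660 (Tr.lf 9137439876 108104648 0) 384 512 128 192 256 320)))) = true := by decide +kernel
  have c8 : (band (go 16 Gd mult S372_401_660_808 (Tr.lf 9137439876 103910344 0) 384 512 128 192 256 320)
  (band (go 16 Gd mult S401_430_660_808 (Tr.lf 9137439876 108104648 0) 384 512 128 192 256 320)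
  (go 16 Gd mult S372_401_512_660 (Tr.lf 9137439364 103910344 0) 384 512 128 192 256 320))) = true := by decide +kernel
  have c9 : (go 16 Gd mult S343_372_660_808 (Tr.lf 4850992196 99589319 0) 384 512 160 192 320 384) = true := by decide +kernel
  (And.intro (Ok.s2 320 (Ok.lf S343_372_660_808_ok (bl c7))
  (Ok.s1 160 (Ok.s3 357 (Ok.lf S343_357_660_808_ok (bl c4))
  (Ok.lf S357_372_660_808_ok (br c4)))
  (Ok.lf S343_372_660_808_ok c9)))
  (Ok.s4 512 (Ok.s4 364 (Ok.s3 401 (Ok.lf S372_401_216_364_ok c5)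
  (Ok.s2 320 (Ok.lf S401_430_216_364_ok (bl (br (br c7))))
  (Ok.lf S401_430_216_364_ok (bl c6))))
  (Ok.s3 401 (Ok.lf S372_401_364_512_ok c0)
  (Ok.s2 320 (Ok.lf S401_430_364_512_ok (bl (br c7)))
  (Ok.lf S401_430_364_512_ok (bl c3)))))
  (Ok.s4 660 (Ok.s3 401 (Ok.s2 320 (Ok.lf S372_401_512_660_ok (br (br c8)))
  (Ok.lf S372_401_512_660_ok (br c6)))
  (Ok.s2 320 (Ok.lf S401_430_512_660_ok (br (br (br c7))))
  (Ok.lf S401_430_512_660_ok (br c3))))
  (Ok.s3 401 (Ok.s2 320 (Ok.lf S372_401_660_808_ok (bl c8))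
  (Ok.lf S372_401_660_808_ok c1))
  (Ok.s2 320 (Ok.lf S401_430_660_808_ok (bl (br c8)))
  (Ok.lf S401_430_660_808_ok c2))))))

end Vale.Agent.P098.Ck
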