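import Vale.Agent.P098.CkGd
import Vale.Agent.P098.CkOk
import Vale.Agent.P098.Sh.A58
import Vale.Agent.P098.Sh.A59

namespace Vale.Agent.P098.Ck

theorem r704 :
    Ok Gd mult 384 512 128 192 256 320 430 488 216 364 ∧
    Ok Gd mult 384 512 128 192 320 384 430 488 216 364 ∧
    Ok Gd mult 384 512 128 192 256 384 430 488 364 512 ∧
    Ok Gd mult 384 512 128 192 256 384 430 488 512 660 :=
  have c0 : (go 16 Gd mult S430_459_364_512 (Tr.lf 9675376776 103513161 0) 384 512 128 160 256 384) = true := by decide +kernel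
  have c1 : (go 16 Gd mult S459_488_364_512 (Tr.lf 9666988168 99310665 0) 384 512 128 160 256 384) = true := by decide +kernel
  have c2 : (go 16 Gd mult S430_459_512_660 (Tr.lf 13424035976 99437513 0) 384 512 128 192 256 320) = true := by decide +kernel
  have c3 : (go 16 Gd mult S430_459_512_660 (Tr.lf 9675376776 99449674 0) 384 512 128 192 320 384) = true := by decide +kernel
  have c4 : (band (go 16 Gd mult S459_488_216_364 (Tr.lf 13961873544 103635786 0) 384 512 160 192 320 384)
  (band (go 16 Gd mult S459_488_364_512 (Tr.lf 13961873544 103635786 0) 384 512 160 192 320 384)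
  (go 16 Gd mult S459_488_512_660 (Tr.lf 13961873544 103635786 0) 384 512 160 192 320 384))) = true := by decide +kernel
  have c5 : (band (go 16 Gd mult S430_488_216_364 (Tr.lf 9666987140 99310665 0) 384 512 128 160 256 320)
  (band (go 16 Gd mult S459_488_512_660 (Tr.lf 9666905156 99310665 0) 384 512 128 160 256 320)
  (band (go 16 Gd mult S459_488_512_660 (Tr.lf 13961873476 103639882 0) 384 512 160 192 256 320)
  (band (go 16 Gd mult S430_459_216_364 (Tr.lf 9666970756 99445578 0) 384 512 160 192 256 320)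
  (go 16 Gd mult S430_459_364_512 (Tr.lf 9666970756 99445578 0) 384 512 160 192 256 320))))) = true := by decide +kernel
  have c6 : (band (go 16 Gd mult S430_459_216_364 (Tr.lf 9675359364 103517129 0) 384 512 128 160 320 384)
  (band (go 16 Gd mult S459_488_216_364 (Tr.lf 9666906180 86862793 0) 384 512 128 160 320 384)
  (band (go 16 Gd mult S459_488_512_660 (Tr.lf 9666906180 86862793 0) 384 512 128 160 320 384)
  (band (go 16 Gd mult S430_459_216_364 (Tr.lf 9675360324 99449674 0) 384 512 160 192 320 384)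
  (go 16 Gd mult S430_459_364_512 (Tr.lf 9675360324 99449674 0) 384 512 160 192 320 384))))) = true := by decide +kernel
  have c7 : (band (go 16 Gd mult S459_488_216_364 (Tr.lf 13961873476 99445578 0) 384 512 160 192 256 320)
  (go 16 Gd mult S459_488_364_512 (Tr.lf 13961873476 103639882 0) 384 512 160 192 256 320)) = true := by decide +kernel
  (And.intro (Ok.s1 160 (Ok.lf S430_488_216_364_ok (bl c5))
  (Ok.s3 459 (Ok.lf S430_459_216_364_ok (bl (br (br (br c5)))))
  (Ok.lf S459_488_216_364_ok (bl c7))))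
  (And.intro (Ok.s1 160 (Ok.s3 459 (Ok.lf S430_459_216_364_ok (bl c6))
  (Ok.lf S459_488_216_364_ok (bl (br c6))))
  (Ok.s3 459 (Ok.lf S430_459_216_364_ok (bl (br (br (br c6)))))
  (Ok.lf S459_488_216_364_ok (bl c4))))
  (And.intro (Ok.s1 160 (Ok.s3 459 (Ok.lf S430_459_364_512_ok c0)
  (Ok.lf S459_488_364_512_ok c1))
  (Ok.s3 459 (Ok.s2 320 (Ok.lf S430_459_364_512_ok (br (br (br (br c5)))))
  (Ok.lf S430_459_364_512_ok (br (br (br (br c6))))))
  (Ok.s2 320 (Ok.lf S459_488_364_512_ok (br c7))
  (Ok.lf S459_488_364_512_ok (bl (br c4))))))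
  (Ok.s2 320 (Ok.s3 459 (Ok.lf S430_459_512_660_ok c2)
  (Ok.s1 160 (Ok.lf S459_488_512_660_ok (bl (br c5)))
  (Ok.lf S459_488_512_660_ok (bl (br (br c5))))))
  (Ok.s3 459 (Ok.lf S430_459_512_660_ok c3)
  (Ok.s1 160 (Ok.lf S459_488_512_660_ok (bl (br (br c6))))
  (Ok.lf S459_488_512_660_ok (br (br c4)))))))))

end Vale.Agent.P098.Ck
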