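import Vale.Agent.P098.CkGd
import Vale.Agent.P098.CkOk
import Vale.Agent.P098.Sh.A0
import Vale.Agent.P098.Sh.A1
import Vale.Agent.P098.Sh.A2
import Vale.Agent.P098.Sh.A3
import Vale.Agent.P098.Sh.A4
import Vale.Agent.P098.Sh.A5
import Vale.Agent.P098.Sh.A58
import Vale.Agent.P098.Sh.A59
import Vale.Agent.P098.Sh.A6

namespace Vale.Agent.P098.Ck

theorem r705 :
    Ok Gd mult 384 512 128 192 256 320 430 488 660 808 ∧
    Ok Gd mult 384 512 128 192 320 384 430 488 660 808 ∧
    Ok Gd mult 384 512 128 192 384 512 24 82 216 808 ∧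
    Ok Gd mult 384 512 128 192 384 512 82 140 216 364 :=
  have c0 : (go 16 Gd mult S430_459_660_808 (Tr.lf 13424035976 99437513 0) 384 512 128 192 256 320) = true := by decide +kernel
  have c1 : (go 16 Gd mult S430_459_660_808 (Tr.lf 9675376776 99449674 0) 384 512 128 192 320 384) = true := by decide +kernel
  have c2 : (band (go 16 Gd mult S459_488_660_808 (Tr.lf 13961873544 103635786 0) 384 512 160 192 320 384)
  (band (go 16 Gd mult S459_488_660_808 (Tr.lf 13961873476 103639882 0) 384 512 160 192 256 320)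
  (band (go 16 Gd mult S459_488_660_808 (Tr.lf 9666906180 86862793 0) 384 512 128 160 320 384)
  (go 16 Gd mult S459_488_660_808 (Tr.lf 9666905156 99310665 0) 384 512 128 160 256 320)))) = true := by decide +kernel
  have c3 : (band (go 16 Gd mult S125_140_216_364 (Tr.lf 13978846280 103247049 0) 384 512 128 160 384 416)
  (go 16 Gd mult S111_125_216_364 (Tr.lf 9145828420 103517383 0) 384 512 128 160 384 416)) = true := by decide +kernel
  have c4 : (band (go 16 Gd mult S24_82_216_364 (Tr.lf 4841374852 103648326 0) 384 512 128 192 384 448)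
  (band (go 16 Gd mult S24_82_364_512 (Tr.lf 4841358468 103648326 0) 384 512 128 192 384 448)
  (band (go 16 Gd mult S24_82_512_660 (Tr.lf 4841358468 103648326 0) 384 512 128 192 384 448)
  (band (go 16 Gd mult S24_82_660_808 (Tr.lf 4841358468 103648326 0) 384 512 128 192 384 448)
  (band (go 16 Gd mult S24_82_216_364 (Tr.lf 622953540 104172615 393801092579937709195264) 384 512 128 192 448 512)
  (go 16 Gd mult S24_82_364_512 (Tr.lf 622937156 108367174 389503001124309988868096) 384 512 128 192 448 512)))))) = true := by decide +kernel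
  have c5 : (go 16 Gd mult S82_111_216_364 (Tr.lf 9137440836 99056584 0) 384 512 128 160 384 448) = true := by decide +kernel
  have c6 : (band (go 16 Gd mult S82_140_216_364 (Tr.lf 4304569412 99314631 0) 384 512 128 192 448 512)
  (band (go 16 Gd mult S24_82_512_660 (Tr.lf 622937156 108367174 380224288867741027270656) 384 512 128 192 448 512)
  (band (go 16 Gd mult S24_82_660_808 (Tr.lf 622937156 108367174 368990221730545582211072) 384 512 128 192 448 512)
  (go 16 Gd mult S82_140_216_364 (Tr.lf 4304569380 103517254 0) 384 512 160 192 384 448)))) = true := by decide +kernel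
  have c7 : (go 16 Gd mult S111_140_216_364 (Tr.lf 9137439300 99056584 0) 384 512 128 160 416 448) = true := by decide +kernel
  (And.intro (Ok.s3 459 (Ok.lf S430_459_660_808_ok c0)
  (Ok.s1 160 (Ok.lf S459_488_660_808_ok (br (br (br c2))))
  (Ok.lf S459_488_660_808_ok (bl (br c2)))))
  (And.intro (Ok.s3 459 (Ok.lf S430_459_660_808_ok c1)
  (Ok.s1 160 (Ok.lf S459_488_660_808_ok (bl (br (br c2))))
  (Ok.lf S459_488_660_808_ok (bl c2))))
  (And.intro (Ok.s4 512 (Ok.s4 364 (Ok.s2 448 (Ok.lf S24_82_216_364_ok (bl c4))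
  (Ok.lf S24_82_216_364_ok (bl (br (br (br (br c4)))))))
  (Ok.s2 448 (Ok.lf S24_82_364_512_ok (bl (br c4)))
  (Ok.lf S24_82_364_512_ok (br (br (br (br (br c4))))))))
  (Ok.s4 660 (Ok.s2 448 (Ok.lf S24_82_512_660_ok (bl (br (br c4))))
  (Ok.lf S24_82_512_660_ok (bl (br c6))))
  (Ok.s2 448 (Ok.lf S24_82_660_808_ok (bl (br (br (br c4)))))
  (Ok.lf S24_82_660_808_ok (bl (br (br c6)))))))
  (Ok.s2 448 (Ok.s1 160 (Ok.s3 111 (Ok.lf S82_111_216_364_ok c5)
  (Ok.s2 416 (Ok.s3 125 (Ok.lf S111_125_216_364_ok (br c3))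
  (Ok.lf S125_140_216_364_ok (bl c3)))
  (Ok.lf S111_140_216_364_ok c7)))
  (Ok.lf S82_140_216_364_ok (br (br (br c6)))))
  (Ok.lf S82_140_216_364_ok (bl c6))))))

end Vale.Agent.P098.Ck
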