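import Vale.Agent.P098.CkGd
import Vale.Agent.P098.CkOk
import Vale.Agent.P098.Sh.A12
import Vale.Agent.P098.Sh.A2
import Vale.Agent.P098.Sh.A3
import Vale.Agent.P098.Sh.A4
import Vale.Agent.P098.Sh.A5
import Vale.Agent.P098.Sh.A6
import Vale.Agent.P098.Sh.A7
import Vale.Agent.P098.Sh.A8

namespace Vale.Agent.P098.Ck

theorem r706 :
    Ok Gd mult 384 512 128 192 384 512 82 140 364 512 ∧
    Ok Gd mult 384 512 128 192 384 512 82 140 512 808 ∧
    Ok Gd mult 384 512 128 192 384 448 140 169 216 364 :=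
  have c0 : (go 16 Gd mult S111_140_364_512 (Tr.lf 13441991816 94858441 0) 384 512 128 160 384 416) = true := by decide +kernel
  have c1 : (go 16 Gd mult S154_169_216_364 (Tr.lf 13987497096 99060937 0) 384 512 128 160 384 416) = true := by decide +kernel
  have c2 : (band (go 16 Gd mult S140_169_216_364 (Tr.lf 9146238024 99323079 0) 384 512 128 160 416 448)
  (band (go 16 Gd mult S111_140_364_512 (Tr.lf 9137439268 99056584 0) 384 512 128 160 416 448)
  (go 16 Gd mult S111_140_512_660 (Tr.lf 9136390692 99056328 0) 384 512 128 160 416 448))) = true := by decide +kernel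
  have c3 : (band (go 16 Gd mult S111_140_512_660 (Tr.lf 13440943176 94858185 0) 384 512 128 160 384 416)
  (go 16 Gd mult S140_154_216_364 (Tr.lf 13987497092 99060937 0) 384 512 128 160 384 416)) = true := by decide +kernel
  have c4 : (band (go 16 Gd mult S82_111_364_512 (Tr.lf 9137440900 99183688 0) 384 512 128 192 384 448)
  (go 16 Gd mult S82_111_512_660 (Tr.lf 9137440900 99183688 0) 384 512 128 192 384 448)) = true := by decide +kernel
  have c5 : (go 16 Gd mult S82_140_660_808 (Tr.lf 4841440388 103648326 0) 384 512 128 192 416 448) = true := by decide +kernel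
  have c6 : (go 16 Gd mult S111_140_660_808 (Tr.lf 13440926852 98925513 0) 384 448 128 192 384 416) = true := by decide +kernel
  have c7 : (band (go 16 Gd mult S140_169_216_364 (Tr.lf 9144910916 99449672 0) 384 512 160 192 384 448)
  (band (go 16 Gd mult S111_140_364_512 (Tr.lf 4304544802 103517254 0) 384 512 160 192 384 448)
  (go 16 Gd mult S111_140_512_660 (Tr.lf 4304479266 103517254 0) 384 512 160 192 384 448))) = true := by decide +kernel
  have c8 : (band (go 16 Gd mult S82_140_364_512 (Tr.lf 4304569410 95128391 0) 384 512 128 192 448 512)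
  (band (go 16 Gd mult S82_140_512_660 (Tr.lf 4304569410 99314631 0) 384 512 128 192 448 512)
  (go 16 Gd mult S82_140_660_808 (Tr.lf 4304553026 95128391 0) 384 512 128 192 448 512))) = true := by decide +kernel
  have c9 : (go 16 Gd mult S82_111_660_808 (Tr.lf 9137439364 99183688 0) 384 512 128 192 384 416) = true := by decide +kernel
  have c10 : (go 16 Gd mult S111_140_660_808 (Tr.lf 9137431170 99450055 0) 448 512 128 192 384 416) = true := by decide +kernel
  (And.intro (Ok.s2 448 (Ok.s3 111 (Ok.lf S82_111_364_512_ok (bl c4))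
  (Ok.s1 160 (Ok.s2 416 (Ok.lf S111_140_364_512_ok c0)
  (Ok.lf S111_140_364_512_ok (bl (br c2))))
  (Ok.lf S111_140_364_512_ok (bl (br c7)))))
  (Ok.lf S82_140_364_512_ok (bl c8)))
  (And.intro (Ok.s4 660 (Ok.s2 448 (Ok.s3 111 (Ok.lf S82_111_512_660_ok (br c4))
  (Ok.s1 160 (Ok.s2 416 (Ok.lf S111_140_512_660_ok (bl c3))
  (Ok.lf S111_140_512_660_ok (br (br c2))))
  (Ok.lf S111_140_512_660_ok (br (br c7)))))
  (Ok.lf S82_140_512_660_ok (bl (br c8))))
  (Ok.s2 448 (Ok.s2 416 (Ok.s3 111 (Ok.lf S82_111_660_808_ok c9)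
  (Ok.s0 448 (Ok.lf S111_140_660_808_ok c6)
  (Ok.lf S111_140_660_808_ok c10)))
  (Ok.lf S82_140_660_808_ok c5))
  (Ok.lf S82_140_660_808_ok (br (br c8)))))
  (Ok.s1 160 (Ok.s2 416 (Ok.s3 154 (Ok.lf S140_154_216_364_ok (br c3))
  (Ok.lf S154_169_216_364_ok c1))
  (Ok.lf S140_169_216_364_ok (bl c2)))
  (Ok.lf S140_169_216_364_ok (bl c7)))))

end Vale.Agent.P098.Ck
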