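import Vale.Agent.P098.CkGd
import Vale.Agent.P098.CkOk
import Vale.Agent.P098.Sh.A12
import Vale.Agent.P098.Sh.A14
import Vale.Agent.P098.Sh.A17
import Vale.Agent.P098.Sh.A20
import Vale.Agent.P098.Sh.A21
import Vale.Agent.P098.Sh.A7
import Vale.Agent.P098.Sh.A8
import Vale.Agent.P098.Sh.A9

namespace Vale.Agent.P098.Ck

theorem r707 :
    Ok Gd mult 384 512 128 160 384 448 169 183 216 364 ∧
    Ok Gd mult 384 512 160 192 384 448 169 183 216 364 ∧
    Ok Gd mult 384 512 128 192 384 448 183 198 216 364 ∧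
    Ok Gd mult 384 512 128 192 448 512 140 198 216 364 ∧
    Ok Gd mult 384 512 128 192 384 448 140 169 364 512 :=
  have c0 : (go 16 Gd mult S169_183_216_364 (Tr.lf 13987513476 103390281 0) 384 448 128 160 384 416) = true := by decide +kernel
  have c1 : (band (go 16 Gd mult S183_198_216_290 (Tr.lf 13987251336 107707593 0) 384 512 128 160 384 416)
  (go 16 Gd mult S140_154_364_512 (Tr.lf 13987234948 99060937 0) 384 512 128 160 384 416)) = true := by decide +kernel
  have c2 : (go 16 Gd mult S183_198_216_290 (Tr.lf 13987251336 103255241 0) 384 512 128 160 416 448) = true := by decide +kernel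
  have c3 : (band (go 16 Gd mult S169_183_216_364 (Tr.lf 13987498052 103382217 0) 384 448 128 160 416 448)
  (go 16 Gd mult S169_183_216_364 (Tr.lf 13986448516 103513033 0) 448 512 128 160 384 416)) = true := by decide +kernel
  have c4 : (band (go 16 Gd mult S183_198_290_364 (Tr.lf 13986202756 107707337 0) 384 512 128 160 384 416)
  (go 16 Gd mult S154_169_364_512 (Tr.lf 13987497092 99060937 0) 384 512 128 160 384 416)) = true := by decide +kernel
  have c5 : (band (go 16 Gd mult S183_198_290_364 (Tr.lf 13986186376 103254985 0) 384 512 128 160 416 448)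
  (go 16 Gd mult S140_169_364_512 (Tr.lf 9145975880 99323079 0) 384 512 128 160 416 448)) = true := by decide +kernel
  have c6 : (band (go 16 Gd mult S183_198_216_364 (Tr.lf 9146222660 99589319 0) 384 512 160 192 384 448)
  (band (go 16 Gd mult S169_183_216_364 (Tr.lf 9144910916 103652295 0) 384 512 160 192 384 448)
  (band (go 16 Gd mult S140_169_364_512 (Tr.lf 9136522276 99441480 0) 384 512 160 192 384 448)
  (go 16 Gd mult S169_183_216_364 (Tr.lf 9145959490 99323079 0) 448 512 128 160 416 448)))) = true := by decide +kernel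
  have c7 : (band (go 16 Gd mult S169_198_216_364 (Tr.lf 9144927364 99318600 0) 384 512 128 192 448 480)
  (band (go 16 Gd mult S140_169_216_364 (Tr.lf 4841554498 107969606 0) 384 512 128 192 448 480)
  (go 16 Gd mult S140_169_216_364 (Tr.lf 1160004162 95390919 565540280014174882365440) 384 512 128 192 480 512))) = true := by decide +kernel
  have c8 : (go 16 Gd mult S169_198_216_364 (Tr.lf 1161331780 103652424 456778285100284468264960) 384 512 128 160 480 512) = true := by decide +kernel
  have c9 : (go 16 Gd mult S169_198_216_364 (Tr.lf 1160004132 95390919 490568210903925180428451840) 384 512 160 192 480 512) = true := by decide +kernel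
  (And.intro (Ok.s0 448 (Ok.s2 416 (Ok.lf S169_183_216_364_ok c0)
  (Ok.lf S169_183_216_364_ok (bl c3)))
  (Ok.s2 416 (Ok.lf S169_183_216_364_ok (br c3))
  (Ok.lf S169_183_216_364_ok (br (br (br c6))))))
  (And.intro (Ok.lf S169_183_216_364_ok (bl (br c6)))
  (And.intro (Ok.s1 160 (Ok.s4 290 (Ok.s2 416 (Ok.lf S183_198_216_290_ok (bl c1))
  (Ok.lf S183_198_216_290_ok c2))
  (Ok.s2 416 (Ok.lf S183_198_290_364_ok (bl c4))
  (Ok.lf S183_198_290_364_ok (bl c5))))
  (Ok.lf S183_198_216_364_ok (bl c6)))
  (And.intro (Ok.s2 480 (Ok.s3 169 (Ok.lf S140_169_216_364_ok (bl (br c7)))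
  (Ok.lf S169_198_216_364_ok (bl c7)))
  (Ok.s3 169 (Ok.lf S140_169_216_364_ok (br (br c7)))
  (Ok.s1 160 (Ok.lf S169_198_216_364_ok c8)
  (Ok.lf S169_198_216_364_ok c9))))
  (Ok.s1 160 (Ok.s2 416 (Ok.s3 154 (Ok.lf S140_154_364_512_ok (br c1))
  (Ok.lf S154_169_364_512_ok (br c4)))
  (Ok.lf S140_169_364_512_ok (br c5)))
  (Ok.lf S140_169_364_512_ok (bl (br (br c6)))))))))

end Vale.Agent.P098.Ck
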