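import Vale.Agent.P098.CkGd
import Vale.Agent.P098.CkOk
import Vale.Agent.P098.Sh.A10
import Vale.Agent.P098.Sh.A11
import Vale.Agent.P098.Sh.A15
import Vale.Agent.P098.Sh.A16
import Vale.Agent.P098.Sh.A18
import Vale.Agent.P098.Sh.A19
import Vale.Agent.P098.Sh.A21
import Vale.Agent.P098.Sh.A22
import Vale.Agent.P098.Sh.A9

namespace Vale.Agent.P098.Ck

theorem r708 :
    Ok Gd mult 384 512 128 160 384 448 169 198 364 512 ∧
    Ok Gd mult 384 512 160 192 384 448 169 198 364 512 ∧
    Ok Gd mult 384 512 128 192 448 512 140 198 364 512 ∧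
    Ok Gd mult 384 512 128 192 384 512 140 198 512 660 :=
  have c0 : (band (go 16 Gd mult S169_183_364_512 (Tr.lf 13987497092 103513289 0) 384 512 128 160 384 416)
  (go 16 Gd mult S183_198_364_512 (Tr.lf 13449577604 99318729 0) 384 512 128 160 384 416)) = true := by decide +kernel
  have c1 : (band (go 16 Gd mult S169_183_364_512 (Tr.lf 13449578564 90672073 0) 384 512 128 160 416 448)
  (go 16 Gd mult S183_198_364_512 (Tr.lf 13449577604 94866377 0) 384 512 128 160 416 448)) = true := by decide +kernel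
  have c2 : (band (go 16 Gd mult S169_198_364_512 (Tr.lf 9144928324 107846599 0) 384 512 160 192 384 448)
  (band (go 16 Gd mult S169_198_512_660 (Tr.lf 9144910916 103652295 0) 384 512 160 192 384 448)
  (band (go 16 Gd mult S140_169_512_660 (Tr.lf 9136522276 107699271 0) 384 512 160 192 384 448)
  (go 16 Gd mult S140_169_512_660 (Tr.lf 9145958978 99331143 0) 448 512 128 160 384 416)))) = true := by decide +kernel
  have c3 : (go 16 Gd mult S140_198_364_512 (Tr.lf 4304700548 99449671 0) 384 512 128 192 480 512) = true := by decide +kernel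
  have c4 : (go 16 Gd mult S140_169_512_660 (Tr.lf 13987513412 103390536 0) 384 448 128 160 384 416) = true := by decide +kernel
  have c5 : (band (go 16 Gd mult S169_198_512_660 (Tr.lf 9144912004 99318600 0) 384 512 128 192 448 512)
  (go 16 Gd mult S140_169_512_660 (Tr.lf 4841424962 107969351 0) 384 512 128 192 448 512)) = true := by decide +kernel
  have c6 : (band (go 16 Gd mult S169_183_512_660 (Tr.lf 13441189954 94993225 0) 384 448 128 160 384 448)
  (go 16 Gd mult S183_198_512_660 (Tr.lf 8599914562 99449671 0) 384 448 128 160 384 448)) = true := by decide +kernel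
  have c7 : (go 16 Gd mult S169_198_512_660 (Tr.lf 9145976898 103517383 0) 448 512 128 160 384 448) = true := by decide +kernel
  have c8 : (band (go 16 Gd mult S169_198_364_512 (Tr.lf 9144910980 99318600 0) 384 512 128 192 448 480)
  (go 16 Gd mult S140_169_364_512 (Tr.lf 4841423426 107969606 0) 384 512 128 192 448 480)) = true := by decide +kernel
  have c9 : (go 16 Gd mult S140_169_512_660 (Tr.lf 9145975876 99323079 0) 384 512 128 160 416 448) = true := by decide +kernel
  (And.intro (Ok.s2 416 (Ok.s3 183 (Ok.lf S169_183_364_512_ok (bl c0))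
  (Ok.lf S183_198_364_512_ok (br c0)))
  (Ok.s3 183 (Ok.lf S169_183_364_512_ok (bl c1))
  (Ok.lf S183_198_364_512_ok (br c1))))
  (And.intro (Ok.lf S169_198_364_512_ok (bl c2))
  (And.intro (Ok.s2 480 (Ok.s3 169 (Ok.lf S140_169_364_512_ok (br c8))
  (Ok.lf S169_198_364_512_ok (bl c8)))
  (Ok.lf S140_198_364_512_ok c3))
  (Ok.s2 448 (Ok.s3 169 (Ok.s1 160 (Ok.s2 416 (Ok.s0 448 (Ok.lf S140_169_512_660_ok c4)
  (Ok.lf S140_169_512_660_ok (br (br (br c2)))))
  (Ok.lf S140_169_512_660_ok c9))
  (Ok.lf S140_169_512_660_ok (bl (br (br c2)))))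
  (Ok.s1 160 (Ok.s0 448 (Ok.s3 183 (Ok.lf S169_183_512_660_ok (bl c6))
  (Ok.lf S183_198_512_660_ok (br c6)))
  (Ok.lf S169_198_512_660_ok c7))
  (Ok.lf S169_198_512_660_ok (bl (br c2)))))
  (Ok.s3 169 (Ok.lf S140_169_512_660_ok (br c5))
  (Ok.lf S169_198_512_660_ok (bl c5)))))))

end Vale.Agent.P098.Ck
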