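import Vale.Agent.P098.CkGd
import Vale.Agent.P098.CkOk
import Vale.Agent.P098.Sh.A10
import Vale.Agent.P098.Sh.A13
import Vale.Agent.P098.Sh.A16
import Vale.Agent.P098.Sh.A19
import Vale.Agent.P098.Sh.A22
import Vale.Agent.P098.Sh.A23
import Vale.Agent.P098.Sh.A30
import Vale.Agent.P098.Sh.A31
import Vale.Agent.P098.Sh.A8

namespace Vale.Agent.P098.Ck

theorem r709 :
    Ok Gd mult 384 512 128 192 384 448 140 169 660 808 ∧
    Ok Gd mult 384 512 128 192 384 448 169 198 660 808 ∧
    Ok Gd mult 384 512 128 192 448 512 140 198 660 808 ∧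
    Ok Gd mult 384 512 128 192 384 448 198 227 216 364 :=
  have c0 : (band (go 16 Gd mult S198_212_216_290 (Tr.lf 13986448520 99449801 0) 384 512 128 160 384 416)
  (go 16 Gd mult S140_154_660_808 (Tr.lf 13441975428 94866505 0) 384 512 128 160 384 416)) = true := by decide +kernel
  have c1 : (band (go 16 Gd mult S198_212_216_290 (Tr.lf 13986448520 107449289 0) 384 512 128 160 416 448)
  (go 16 Gd mult S212_227_216_290 (Tr.lf 13449315400 99318729 0) 384 512 128 160 416 448)) = true := by decide +kernel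
  have c2 : (band (go 16 Gd mult S198_212_290_364 (Tr.lf 13449316488 99060681 0) 384 512 128 160 384 448)
  (go 16 Gd mult S169_183_660_808 (Tr.lf 9145960516 99323079 0) 384 512 128 160 384 448)) = true := by decide +kernel
  have c3 : (go 16 Gd mult S212_227_290_364 (Tr.lf 13449316488 95132617 0) 384 512 128 192 384 448) = true := by decide +kernel
  have c4 : (band (go 16 Gd mult S198_212_216_290 (Tr.lf 13449316424 95132617 0) 384 512 160 192 384 448)
  (band (go 16 Gd mult S212_227_216_290 (Tr.lf 13449316424 95124553 0) 384 512 160 192 384 448)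
  (go 16 Gd mult S169_198_660_808 (Tr.lf 9136522306 107707335 0) 384 512 160 192 384 448))) = true := by decide +kernel
  have c5 : (band (go 16 Gd mult S212_227_216_290 (Tr.lf 13449315464 103513033 0) 384 512 128 160 384 416)
  (go 16 Gd mult S154_169_660_808 (Tr.lf 13442237508 90672201 0) 384 512 128 160 384 416)) = true := by decide +kernel
  have c6 : (band (go 16 Gd mult S198_212_290_364 (Tr.lf 13449316420 95132617 0) 384 512 160 192 384 448)
  (band (go 16 Gd mult S140_169_660_808 (Tr.lf 9136522274 107699271 0) 384 512 160 192 384 448)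
  (go 16 Gd mult S140_169_660_808 (Tr.lf 9145959492 99323079 0) 384 512 128 160 416 448))) = true := by decide +kernel
  have c7 : (go 16 Gd mult S183_198_660_808 (Tr.lf 9145952324 99331143 0) 384 512 128 160 384 448) = true := by decide +kernel
  have c8 : (band (go 16 Gd mult S169_198_660_808 (Tr.lf 4304685122 99580998 0) 384 512 128 192 448 512)
  (go 16 Gd mult S140_169_660_808 (Tr.lf 4304553026 99580743 0) 384 512 128 192 448 512)) = true := by decide +kernel
  (And.intro (Ok.s1 160 (Ok.s2 416 (Ok.s3 154 (Ok.lf S140_154_660_808_ok (br c0))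
  (Ok.lf S154_169_660_808_ok (br c5)))
  (Ok.lf S140_169_660_808_ok (br (br c6))))
  (Ok.lf S140_169_660_808_ok (bl (br c6))))
  (And.intro (Ok.s1 160 (Ok.s3 183 (Ok.lf S169_183_660_808_ok (br c2))
  (Ok.lf S183_198_660_808_ok c7))
  (Ok.lf S169_198_660_808_ok (br (br c4))))
  (And.intro (Ok.s3 169 (Ok.lf S140_169_660_808_ok (br c8))
  (Ok.lf S169_198_660_808_ok (bl c8)))
  (Ok.s3 212 (Ok.s1 160 (Ok.s4 290 (Ok.s2 416 (Ok.lf S198_212_216_290_ok (bl c0))
  (Ok.lf S198_212_216_290_ok (bl c1)))
  (Ok.lf S198_212_290_364_ok (bl c2)))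
  (Ok.s4 290 (Ok.lf S198_212_216_290_ok (bl c4))
  (Ok.lf S198_212_290_364_ok (bl c6))))
  (Ok.s4 290 (Ok.s1 160 (Ok.s2 416 (Ok.lf S212_227_216_290_ok (bl c5))
  (Ok.lf S212_227_216_290_ok (br c1)))
  (Ok.lf S212_227_216_290_ok (bl (br c4))))
  (Ok.lf S212_227_290_364_ok c3))))))

end Vale.Agent.P098.Ck
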