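import Vale.Agent.P098.CkGd
import Vale.Agent.P098.CkOk
import Vale.Agent.P098.Sh.A12
import Vale.Agent.P098.Sh.A7
import Vale.Agent.P098.Sh.A8

namespace Vale.Agent.P098.Ck

theorem r71 :
    Ok Gd mult 0 32 128 192 384 448 140 169 216 364 ∧
    Ok Gd mult 0 32 128 192 448 512 140 169 216 364 ∧
    Ok Gd mult 32 64 128 192 384 448 140 169 216 364 ∧
    Ok Gd mult 32 64 128 192 448 512 140 154 216 364 :=
  have c0 : (go 16 Gd mult S154_169_216_364 (Tr.lf 13978077314 107580360 60652907743680911114240) 16 32 128 160 448 480) = true := by decide +kernel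
  have c1 : (go 16 Gd mult S140_169_216_364 (Tr.lf 13441205380 95128775 453354671733579866592772125) 0 32 160 192 416 448) = true := by decide +kernel
  have c2 : (go 16 Gd mult S140_154_216_364 (Tr.lf 13979109508 103386312 52813036445804770885632) 0 32 128 160 448 480) = true := by decide +kernel
  have c3 : (go 16 Gd mult S140_154_216_364 (Tr.lf 13979109508 103513288 729015786974832646508511232) 32 64 160 192 448 480) = true := by decide +kernel
  have c4 : (band (go 16 Gd mult S154_169_216_364 (Tr.lf 13978060930 99314760 87234652724572469592064) 0 16 128 160 448 480)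
  (go 16 Gd mult S154_169_216_364 (Tr.lf 13978060930 107707336 1241654051396948734892834816) 0 16 160 192 448 480)) = true := by decide +kernel
  have c5 : (band (go 16 Gd mult S140_169_216_364 (Tr.lf 13440944258 94727113 0) 32 64 128 160 384 448)
  (band (go 16 Gd mult S140_169_216_364 (Tr.lf 13977815106 107711687 6935975771714791407616) 32 64 176 192 384 448)
  (go 16 Gd mult S140_169_216_364 (Tr.lf 9137586818 95120583 168040688926433455284158464) 0 32 128 192 384 416))) = true := by decide +kernel
  have c6 : (go 16 Gd mult S140_169_216_364 (Tr.lf 13979125826 103382344 0) 32 64 160 176 384 448) = true := by decide +kernel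
  have c7 : (band (go 16 Gd mult S140_154_216_364 (Tr.lf 9674442882 103640135 2721377483717823768616239104) 0 32 128 192 480 512)
  (band (go 16 Gd mult S140_154_216_364 (Tr.lf 9137571970 99314759 2421500903269128088879890432) 32 64 128 192 480 512)
  (go 16 Gd mult S140_154_216_364 (Tr.lf 13978847362 99192008 33517747211254160687104) 32 64 128 160 448 480))) = true := by decide +kernel
  have c8 : (go 16 Gd mult S140_154_216_364 (Tr.sp 1 176 (Tr.lf 13978847300 103521352 998600194203609451829657600) Tr.skip) 0 32 160 192 448 480) = true := by decide +kernel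
  have c9 : (band (go 16 Gd mult S154_169_216_364 (Tr.lf 9674442881 107965511 2850794306116028773634670592) 0 16 128 192 480 512)
  (go 16 Gd mult S154_169_216_364 (Tr.sp 1 160 (Tr.lf 13977798785 99052616 2966883817089018662857211904) Tr.skip) 16 32 128 192 480 512)) = true := by decide +kernel
  have c10 : (go 16 Gd mult S154_169_216_364 (Tr.sp 2 464 (Tr.lf 13979108481 107715656 1023989942258525878192439296) Tr.skip) 16 32 160 192 448 480) = true := by decide +kernel
  have c11 : (go 16 Gd mult S140_169_216_364 (Tr.lf 13440943170 90798921 0) 0 32 128 160 416 448) = true := by decide +kernel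
  (And.intro (Ok.s2 416 (Ok.lf S140_169_216_364_ok (br (br c5)))
  (Ok.s1 160 (Ok.lf S140_169_216_364_ok c11)
  (Ok.lf S140_169_216_364_ok c1)))
  (And.intro (Ok.s3 154 (Ok.s2 480 (Ok.s1 160 (Ok.lf S140_154_216_364_ok c2)
  (Ok.lf S140_154_216_364_ok c8))
  (Ok.lf S140_154_216_364_ok (bl c7)))
  (Ok.s0 16 (Ok.s2 480 (Ok.s1 160 (Ok.lf S154_169_216_364_ok (bl c4))
  (Ok.lf S154_169_216_364_ok (br c4)))
  (Ok.lf S154_169_216_364_ok (bl c9)))
  (Ok.s2 480 (Ok.s1 160 (Ok.lf S154_169_216_364_ok c0)
  (Ok.lf S154_169_216_364_ok c10))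
  (Ok.lf S154_169_216_364_ok (br c9)))))
  (And.intro (Ok.s1 160 (Ok.lf S140_169_216_364_ok (bl c5))
  (Ok.s1 176 (Ok.lf S140_169_216_364_ok c6)
  (Ok.lf S140_169_216_364_ok (bl (br c5)))))
  (Ok.s2 480 (Ok.s1 160 (Ok.lf S140_154_216_364_ok (br (br c7)))
  (Ok.lf S140_154_216_364_ok c3))
  (Ok.lf S140_154_216_364_ok (bl (br c7)))))))

end Vale.Agent.P098.Ck
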