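import Vale.Agent.P098.CkGd
import Vale.Agent.P098.CkOk
import Vale.Agent.P098.Sh.A23
import Vale.Agent.P098.Sh.A25
import Vale.Agent.P098.Sh.A26
import Vale.Agent.P098.Sh.A27
import Vale.Agent.P098.Sh.A30
import Vale.Agent.P098.Sh.A31
import Vale.Agent.P098.Sh.A34
import Vale.Agent.P098.Sh.A36
import Vale.Agent.P098.Sh.A37
import Vale.Agent.P098.Sh.A38
import Vale.Agent.P098.Sh.A39

namespace Vale.Agent.P098.Ck

theorem r710 :
    Ok Gd mult 384 512 128 192 384 448 227 256 216 364 ∧
    Ok Gd mult 384 512 128 192 448 512 198 256 216 364 ∧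
    Ok Gd mult 384 512 128 192 384 512 198 256 364 512 ∧
    Ok Gd mult 384 512 128 192 384 512 198 256 512 808 :=
  have c0 : (band (go 16 Gd mult S227_241_216_364 (Tr.lf 9145174148 112032839 0) 384 512 128 192 384 448)
  (go 16 Gd mult S241_256_216_364 (Tr.lf 8607245444 99457735 0) 384 512 128 192 384 448)) = true := by decide +kernel
  have c1 : (band (go 16 Gd mult S198_227_512_660 (Tr.lf 9145189508 103652295 0) 384 512 128 192 384 448)
  (go 16 Gd mult S227_256_364_512 (Tr.lf 8606991492 99457735 0) 384 512 128 192 384 448)) = true := by decide +kernel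
  have c2 : (band (go 16 Gd mult S198_212_216_364 (Tr.lf 9145173124 103521223 0) 384 512 128 192 448 480)
  (go 16 Gd mult S198_227_364_512 (Tr.lf 9144927364 99326919 0) 384 512 128 192 448 480)) = true := by decide +kernel
  have c3 : (band (go 16 Gd mult S212_227_216_364 (Tr.lf 9145173124 103521223 0) 384 512 128 192 448 480)
  (go 16 Gd mult S227_256_216_364 (Tr.lf 8608318532 95390663 0) 384 512 128 192 448 480)) = true := by decide +kernel
  have c4 : (go 16 Gd mult S198_212_364_512 (Tr.lf 13449578564 99060681 0) 384 512 128 160 384 448) = true := by decide +kernel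
  have c5 : (band (go 16 Gd mult S212_227_364_512 (Tr.lf 9145173124 112040903 0) 384 512 128 192 384 448)
  (band (go 16 Gd mult S198_227_660_808 (Tr.lf 8599651460 99318727 0) 384 512 128 192 384 448)
  (go 16 Gd mult S198_227_660_808 (Tr.lf 4304685122 99589062 0) 384 512 128 192 448 512))) = true := by decide +kernel
  have c6 : (band (go 16 Gd mult S198_227_512_660 (Tr.lf 9144912004 99326664 0) 384 512 128 192 448 512)
  (go 16 Gd mult S227_256_364_512 (Tr.lf 4313073732 99839174 0) 384 512 128 192 448 512)) = true := by decide +kernel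
  have c7 : (go 16 Gd mult S198_212_364_512 (Tr.lf 9144911940 107846599 0) 384 512 160 192 384 448) = true := by decide +kernel
  have c8 : (band (go 16 Gd mult S227_256_512_660 (Tr.lf 4303636548 107977669 0) 384 512 128 192 384 512)
  (go 16 Gd mult S227_256_660_808 (Tr.lf 8669252 104168644 15882646647463923941423) 384 512 128 192 384 512)) = true := by decide +kernel
  have c9 : (band (go 16 Gd mult S198_227_216_364 (Tr.lf 4303635010 99584710 2236512766287063973206425600) 384 512 128 192 480 512)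
  (band (go 16 Gd mult S227_256_216_364 (Tr.lf 4303635010 99584965 2240139543745907860730544128) 384 512 128 192 480 512)
  (go 16 Gd mult S198_227_364_512 (Tr.lf 4303503938 99584710 0) 384 512 128 192 480 512))) = true := by decide +kernel
  (And.intro (Ok.s3 241 (Ok.lf S227_241_216_364_ok (bl c0))
  (Ok.lf S241_256_216_364_ok (br c0)))
  (And.intro (Ok.s2 480 (Ok.s3 227 (Ok.s3 212 (Ok.lf S198_212_216_364_ok (bl c2))
  (Ok.lf S212_227_216_364_ok (bl c3)))
  (Ok.lf S227_256_216_364_ok (br c3)))
  (Ok.s3 227 (Ok.lf S198_227_216_364_ok (bl c9))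
  (Ok.lf S227_256_216_364_ok (bl (br c9)))))
  (And.intro (Ok.s3 227 (Ok.s2 448 (Ok.s3 212 (Ok.s1 160 (Ok.lf S198_212_364_512_ok c4)
  (Ok.lf S198_212_364_512_ok c7))
  (Ok.lf S212_227_364_512_ok (bl c5)))
  (Ok.s2 480 (Ok.lf S198_227_364_512_ok (br c2))
  (Ok.lf S198_227_364_512_ok (br (br c9)))))
  (Ok.s2 448 (Ok.lf S227_256_364_512_ok (br c1))
  (Ok.lf S227_256_364_512_ok (br c6))))
  (Ok.s4 660 (Ok.s3 227 (Ok.s2 448 (Ok.lf S198_227_512_660_ok (bl c1))
  (Ok.lf S198_227_512_660_ok (bl c6)))
  (Ok.lf S227_256_512_660_ok (bl c8)))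
  (Ok.s3 227 (Ok.s2 448 (Ok.lf S198_227_660_808_ok (bl (br c5)))
  (Ok.lf S198_227_660_808_ok (br (br c5))))
  (Ok.lf S227_256_660_808_ok (br c8)))))))

end Vale.Agent.P098.Ck
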