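import Vale.Agent.P098.CkGd
import Vale.Agent.P098.CkOk
import Vale.Agent.P098.Sh.A41
import Vale.Agent.P098.Sh.A42
import Vale.Agent.P098.Sh.A45
import Vale.Agent.P098.Sh.A46
import Vale.Agent.P098.Sh.A47
import Vale.Agent.P098.Sh.A48
import Vale.Agent.P098.Sh.A50
import Vale.Agent.P098.Sh.A51
import Vale.Agent.P098.Sh.A52

namespace Vale.Agent.P098.Ck

theorem r711 :
    Ok Gd mult 384 512 128 192 384 512 256 314 216 512 ∧
    Ok Gd mult 384 512 128 192 384 512 256 314 512 808 ∧
    Ok Gd mult 384 512 128 192 384 512 314 372 216 512 ∧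
    Ok Gd mult 384 512 128 192 384 512 314 372 512 660 ∧
    Ok Gd mult 384 512 128 192 384 448 314 343 660 808 :=
  have c0 : (band (go 16 Gd mult S256_285_660_808 (Tr.lf 545818692 95525829 146135106551927067904989) 384 512 128 192 384 512)
  (go 16 Gd mult S285_314_660_808 (Tr.lf 546605122 99589317 64065542215388236873728) 384 512 128 192 384 512)) = true := by decide +kernel
  have c1 : (band (go 16 Gd mult S256_285_216_364 (Tr.lf 4303898692 103914182 0) 384 512 128 192 384 512)
  (band (go 16 Gd mult S285_314_216_364 (Tr.lf 9717828 99847365 47647939991453183246336) 384 512 128 192 384 512)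
  (band (go 16 Gd mult S256_285_364_512 (Tr.lf 4303636546 112171718 0) 384 512 128 192 384 512)
  (go 16 Gd mult S285_314_512_660 (Tr.lf 9716802 99974341 9260265528700161753088) 384 512 128 192 384 512)))) = true := by decide +kernel
  have c2 : (band (go 16 Gd mult S343_372_512_660 (Tr.lf 4851009604 103783495 0) 384 512 128 192 448 512)
  (band (go 16 Gd mult S343_372_364_512 (Tr.lf 4850992196 103783495 0) 384 512 128 192 448 512)
  (band (go 16 Gd mult S343_372_216_364 (Tr.lf 547636290 91200455 0) 384 512 128 192 448 512)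
  (go 16 Gd mult S314_343_512_660 (Tr.lf 546587714 95395013 0) 384 512 128 192 448 512)))) = true := by decide +kernel
  have c3 : (go 16 Gd mult S328_343_660_808 (Tr.lf 9684142148 99445833 0) 384 512 128 160 384 448) = true := by decide +kernel
  have c4 : (band (go 16 Gd mult S314_343_512_660 (Tr.lf 4850992260 99585223 0) 384 512 128 192 384 448)
  (band (go 16 Gd mult S343_372_512_660 (Tr.lf 4850992260 99585223 0) 384 512 128 192 384 448)
  (band (go 16 Gd mult S343_372_216_364 (Tr.lf 547636354 87133255 0) 384 512 128 192 384 448)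
  (band (go 16 Gd mult S343_372_364_512 (Tr.lf 4850992194 99585223 0) 384 512 128 192 384 448)
  (go 16 Gd mult S314_328_660_808 (Tr.lf 4842595394 103906375 0) 384 512 128 192 384 448))))) = true := by decide +kernel
  have c5 : (band (go 16 Gd mult S285_314_364_512 (Tr.lf 9717826 104041669 11234067141090980397056) 384 512 128 192 384 512)
  (band (go 16 Gd mult S256_285_512_660 (Tr.lf 8669250 103910341 51392672618100756906013) 384 512 128 192 384 512)
  (band (go 16 Gd mult S314_343_216_364 (Tr.lf 9717826 104041669 0) 384 512 128 192 384 512)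
  (go 16 Gd mult S314_343_364_512 (Tr.lf 9717826 99847365 0) 384 512 128 192 384 512)))) = true := by decide +kernel
  have c6 : (go 16 Gd mult S328_343_660_808 (Tr.lf 4842595364 103906375 0) 384 512 160 192 384 448) = true := by decide +kernel
  (And.intro (Ok.s4 364 (Ok.s3 285 (Ok.lf S256_285_216_364_ok (bl c1))
  (Ok.lf S285_314_216_364_ok (bl (br c1))))
  (Ok.s3 285 (Ok.lf S256_285_364_512_ok (bl (br (br c1))))
  (Ok.lf S285_314_364_512_ok (bl c5))))
  (And.intro (Ok.s4 660 (Ok.s3 285 (Ok.lf S256_285_512_660_ok (bl (br c5)))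
  (Ok.lf S285_314_512_660_ok (br (br (br c1)))))
  (Ok.s3 285 (Ok.lf S256_285_660_808_ok (bl c0))
  (Ok.lf S285_314_660_808_ok (br c0))))
  (And.intro (Ok.s4 364 (Ok.s3 343 (Ok.lf S314_343_216_364_ok (bl (br (br c5))))
  (Ok.s2 448 (Ok.lf S343_372_216_364_ok (bl (br (br c4))))
  (Ok.lf S343_372_216_364_ok (bl (br (br c2))))))
  (Ok.s3 343 (Ok.lf S314_343_364_512_ok (br (br (br c5))))
  (Ok.s2 448 (Ok.lf S343_372_364_512_ok (bl (br (br (br c4)))))
  (Ok.lf S343_372_364_512_ok (bl (br c2))))))
  (And.intro (Ok.s3 343 (Ok.s2 448 (Ok.lf S314_343_512_660_ok (bl c4))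
  (Ok.lf S314_343_512_660_ok (br (br (br c2)))))
  (Ok.s2 448 (Ok.lf S343_372_512_660_ok (bl (br c4)))
  (Ok.lf S343_372_512_660_ok (bl c2))))
  (Ok.s3 328 (Ok.lf S314_328_660_808_ok (br (br (br (br c4)))))
  (Ok.s1 160 (Ok.lf S328_343_660_808_ok c3)
  (Ok.lf S328_343_660_808_ok c6)))))))

end Vale.Agent.P098.Ck
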