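import Vale.Agent.P098.CkGd
import Vale.Agent.P098.CkOk
import Vale.Agent.P098.Sh.A49
import Vale.Agent.P098.Sh.A51
import Vale.Agent.P098.Sh.A52
import Vale.Agent.P098.Sh.A53
import Vale.Agent.P098.Sh.A54
import Vale.Agent.P098.Sh.A56
import Vale.Agent.P098.Sh.A57

namespace Vale.Agent.P098.Ck

theorem r712 :
    Ok Gd mult 384 512 128 192 384 448 343 372 660 808 ∧
    Ok Gd mult 384 512 128 192 448 512 314 372 660 808 ∧
    Ok Gd mult 384 512 128 192 384 512 372 430 216 512 ∧
    Ok Gd mult 384 512 128 192 384 448 372 430 512 660 :=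
  have c0 : (band (go 16 Gd mult S401_430_364_512 (Tr.lf 5388798088 86871113 0) 384 512 128 192 384 448)
  (go 16 Gd mult S372_401_364_512 (Tr.lf 4850862212 95521991 0) 384 512 128 192 384 448)) = true := by decide +kernel
  have c1 : (band (go 16 Gd mult S343_357_660_808 (Tr.lf 9692530820 99454025 0) 384 512 128 160 384 448)
  (go 16 Gd mult S401_430_512_660 (Tr.lf 9683765316 95132617 0) 384 512 128 160 384 448)) = true := by decide +kernel
  have c2 : (band (go 16 Gd mult S401_430_216_364 (Tr.lf 5380540548 86735817 0) 384 512 128 192 448 512)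
  (go 16 Gd mult S372_401_216_364 (Tr.lf 4842603652 95394759 0) 384 512 128 192 448 512)) = true := by decide +kernel
  have c3 : (band (go 16 Gd mult S401_430_364_512 (Tr.lf 5388798084 82549705 0) 384 512 128 192 448 512)
  (go 16 Gd mult S372_401_364_512 (Tr.lf 4850993284 99589191 0) 384 512 128 192 448 512)) = true := by decide +kernel
  have c4 : (band (go 16 Gd mult S401_430_216_364 (Tr.lf 9675491460 95259593 0) 384 512 128 192 384 448)
  (go 16 Gd mult S372_401_216_364 (Tr.lf 4842472580 95521863 0) 384 512 128 192 384 448)) = true := by decide +kernel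
  have c5 : (band (go 16 Gd mult S372_401_512_660 (Tr.lf 9682716740 95259720 0) 384 512 160 192 384 448)
  (band (go 16 Gd mult S401_430_512_660 (Tr.lf 9683765316 95259721 0) 384 512 160 192 384 448)
  (band (go 16 Gd mult S343_372_660_808 (Tr.lf 4851008580 99585223 0) 384 512 160 192 384 448)
  (go 16 Gd mult S372_401_512_660 (Tr.lf 4850877508 95386823 0) 384 512 128 160 384 448)))) = true := by decide +kernel
  have c6 : (go 16 Gd mult S357_372_660_808 (Tr.lf 9683880004 99195849 0) 384 512 128 160 384 448) = true := by decide +kernel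
  have c7 : (band (go 16 Gd mult S343_372_660_808 (Tr.lf 4851008580 103783495 0) 384 512 128 192 448 480)
  (go 16 Gd mult S314_343_660_808 (Tr.lf 547652162 99589063 0) 384 512 128 192 448 480)) = true := by decide +kernel
  have c8 : (band (go 16 Gd mult S314_343_660_808 (Tr.lf 1161053250 95398729 579135530421091804643328) 384 512 128 192 480 512)
  (go 16 Gd mult S343_372_660_808 (Tr.lf 547636290 99593286 0) 384 512 128 192 480 512)) = true := by decide +kernel
  (And.intro (Ok.s1 160 (Ok.s3 357 (Ok.lf S343_357_660_808_ok (bl c1))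
  (Ok.lf S357_372_660_808_ok c6))
  (Ok.lf S343_372_660_808_ok (bl (br (br c5)))))
  (And.intro (Ok.s2 480 (Ok.s3 343 (Ok.lf S314_343_660_808_ok (br c7))
  (Ok.lf S343_372_660_808_ok (bl c7)))
  (Ok.s3 343 (Ok.lf S314_343_660_808_ok (bl c8))
  (Ok.lf S343_372_660_808_ok (br c8))))
  (And.intro (Ok.s4 364 (Ok.s2 448 (Ok.s3 401 (Ok.lf S372_401_216_364_ok (br c4))
  (Ok.lf S401_430_216_364_ok (bl c4)))
  (Ok.s3 401 (Ok.lf S372_401_216_364_ok (br c2))
  (Ok.lf S401_430_216_364_ok (bl c2))))
  (Ok.s2 448 (Ok.s3 401 (Ok.lf S372_401_364_512_ok (br c0))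
  (Ok.lf S401_430_364_512_ok (bl c0)))
  (Ok.s3 401 (Ok.lf S372_401_364_512_ok (br c3))
  (Ok.lf S401_430_364_512_ok (bl c3)))))
  (Ok.s3 401 (Ok.s1 160 (Ok.lf S372_401_512_660_ok (br (br (br c5))))
  (Ok.lf S372_401_512_660_ok (bl c5)))
  (Ok.s1 160 (Ok.lf S401_430_512_660_ok (br c1))
  (Ok.lf S401_430_512_660_ok (bl (br c5))))))))

end Vale.Agent.P098.Ck
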