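import Vale.Agent.P098.CkGd
import Vale.Agent.P098.CkOk
import Vale.Agent.P098.Sh.A58
import Vale.Agent.P098.Sh.A59

namespace Vale.Agent.P098.Ck

theorem r714 :
    Ok Gd mult 384 512 128 192 480 512 430 488 216 364 ∧
    Ok Gd mult 384 512 128 192 384 512 430 488 364 512 ∧
    Ok Gd mult 384 512 128 192 384 448 430 488 512 660 ∧
    Ok Gd mult 384 512 128 192 448 480 430 488 512 660 :=
  have c0 : (band (go 16 Gd mult S430_459_364_512 (Tr.lf 9675376772 95124425 0) 384 512 128 160 384 448)
  (band (go 16 Gd mult S430_459_512_660 (Tr.lf 9675376708 95124425 0) 384 512 128 160 384 448)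
  (go 16 Gd mult S459_488_364_512 (Tr.lf 5371938948 78339017 0) 384 512 128 160 384 448))) = true := by decide +kernel
  have c1 : (band (go 16 Gd mult S430_459_364_512 (Tr.lf 5380408456 91057097 0) 384 512 128 192 448 480)
  (band (go 16 Gd mult S430_459_512_660 (Tr.lf 5380408452 91057097 0) 384 512 128 192 448 480)
  (band (go 16 Gd mult S459_488_364_512 (Tr.lf 5371937924 91056969 0) 384 512 128 192 448 480)
  (go 16 Gd mult S459_488_364_512 (Tr.lf 5371937412 91053128 0) 384 512 128 192 480 496)))) = true := by decide +kernel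
  have c2 : (band (go 16 Gd mult S459_488_364_512 (Tr.lf 13961873544 90913738 0) 384 512 160 192 384 448)
  (band (go 16 Gd mult S459_488_512_660 (Tr.lf 13961873544 90913738 0) 384 512 160 192 384 448)
  (go 16 Gd mult S430_459_364_512 (Tr.lf 9675360328 95259593 0) 384 512 160 192 384 448))) = true := by decide +kernel
  have c3 : (go 16 Gd mult S430_459_512_660 (Tr.lf 9675376708 95259593 0) 384 512 160 192 384 448) = true := by decide +kernel
  have c4 : (band (go 16 Gd mult S459_488_216_364 (Tr.lf 10204840584 94981066 2615843623978643276438765568) 384 512 128 192 496 512)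
  (band (go 16 Gd mult S459_488_364_512 (Tr.lf 5909873288 86592458 2615843956020036603173928960) 384 512 128 192 496 512)
  (band (go 16 Gd mult S430_459_216_364 (Tr.lf 5380391556 95251528 2194596451089302643584008192) 384 512 128 192 496 512)
  (go 16 Gd mult S430_459_364_512 (Tr.lf 5380391556 95251528 2188542580172448569225117696) 384 512 128 192 496 512)))) = true := by decide +kernel
  have c5 : (band (go 16 Gd mult S459_488_512_660 (Tr.lf 5371938948 78339017 0) 384 512 128 160 384 448)
  (go 16 Gd mult S459_488_512_660 (Tr.lf 5371937924 91056969 0) 384 512 128 192 448 480)) = true := by decide +kernel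
  have c6 : (band (go 16 Gd mult S430_459_216_364 (Tr.lf 5380326020 91061320 0) 384 512 128 192 480 496)
  (band (go 16 Gd mult S459_488_216_364 (Tr.lf 5371937412 91053128 0) 384 512 128 192 480 496)
  (go 16 Gd mult S430_459_364_512 (Tr.lf 5380326020 91061320 0) 384 512 128 192 480 496))) = true := by decide +kernel
  (And.intro (Ok.s2 496 (Ok.s3 459 (Ok.lf S430_459_216_364_ok (bl c6))
  (Ok.lf S459_488_216_364_ok (bl (br c6))))
  (Ok.s3 459 (Ok.lf S430_459_216_364_ok (bl (br (br c4))))
  (Ok.lf S459_488_216_364_ok (bl c4))))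
  (And.intro (Ok.s2 448 (Ok.s3 459 (Ok.s1 160 (Ok.lf S430_459_364_512_ok (bl c0))
  (Ok.lf S430_459_364_512_ok (br (br c2))))
  (Ok.s1 160 (Ok.lf S459_488_364_512_ok (br (br c0)))
  (Ok.lf S459_488_364_512_ok (bl c2))))
  (Ok.s2 480 (Ok.s3 459 (Ok.lf S430_459_364_512_ok (bl c1))
  (Ok.lf S459_488_364_512_ok (bl (br (br c1)))))
  (Ok.s2 496 (Ok.s3 459 (Ok.lf S430_459_364_512_ok (br (br c6)))
  (Ok.lf S459_488_364_512_ok (br (br (br c1)))))
  (Ok.s3 459 (Ok.lf S430_459_364_512_ok (br (br (br c4))))
  (Ok.lf S459_488_364_512_ok (bl (br c4)))))))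
  (And.intro (Ok.s3 459 (Ok.s1 160 (Ok.lf S430_459_512_660_ok (bl (br c0)))
  (Ok.lf S430_459_512_660_ok c3))
  (Ok.s1 160 (Ok.lf S459_488_512_660_ok (bl c5))
  (Ok.lf S459_488_512_660_ok (bl (br c2)))))
  (Ok.s3 459 (Ok.lf S430_459_512_660_ok (bl (br c1)))
  (Ok.lf S459_488_512_660_ok (br c5))))))

end Vale.Agent.P098.Ck
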