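import Vale.Agent.P098.CkGd
import Vale.Agent.P098.CkOk
import Vale.Agent.P098.Sh.A0
import Vale.Agent.P098.Sh.A1
import Vale.Agent.P098.Sh.A58
import Vale.Agent.P098.Sh.A59

namespace Vale.Agent.P098.Ck

theorem r715 :
    Ok Gd mult 384 512 128 192 480 512 430 488 512 660 ∧
    Ok Gd mult 384 512 128 192 384 512 430 488 660 808 ∧
    Ok Gd mult 384 512 192 256 0 128 24 82 216 808 :=
  have c0 : (band (go 16 Gd mult S430_459_660_808 (Tr.lf 9683765380 95132617 0) 384 512 128 160 384 448)
  (band (go 16 Gd mult S459_488_660_808 (Tr.lf 5371955332 82533321 0) 384 512 128 160 384 448)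
  (go 16 Gd mult S459_488_660_808 (Tr.lf 10204840584 94981066 2615843623978643276441911296) 384 512 128 192 496 512))) = true := by decide +kernel
  have c1 : (band (go 16 Gd mult S430_459_660_808 (Tr.lf 9675376712 95259593 0) 384 512 160 192 384 448)
  (band (go 16 Gd mult S459_488_660_808 (Tr.lf 13961873544 90913738 0) 384 512 160 192 384 448)
  (go 16 Gd mult S430_459_660_808 (Tr.lf 5380407940 95251528 2163130327090043120955424768) 384 512 128 192 496 512))) = true := by decide +kernel
  have c2 : (band (go 16 Gd mult S430_459_660_808 (Tr.lf 5388797064 91065289 0) 384 512 128 192 448 480)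
  (band (go 16 Gd mult S459_488_660_808 (Tr.lf 5371937924 91056969 0) 384 512 128 192 448 480)
  (band (go 16 Gd mult S459_488_660_808 (Tr.lf 5371937412 95116360 0) 384 512 128 192 480 496)
  (band (go 16 Gd mult S430_459_660_808 (Tr.lf 5380391556 91061320 0) 384 512 128 192 480 496)
  (go 16 Gd mult S430_459_512_660 (Tr.lf 5380326020 91061320 0) 384 512 128 192 480 496))))) = true := by decide +kernel
  have c3 : (band (go 16 Gd mult S459_488_512_660 (Tr.lf 5909873288 86592458 2615843956020036603173928960) 384 512 128 192 496 512)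
  (go 16 Gd mult S430_459_512_660 (Tr.lf 5380407940 99445832 2176439210217085889671069696) 384 512 128 192 496 512)) = true := by decide +kernel
  have c4 : (go 16 Gd mult S459_488_512_660 (Tr.lf 5371937412 91053128 0) 384 512 128 192 480 496) = true := by decide +kernel
  have c5 : (band (go 16 Gd mult S24_82_216_364 (Tr.lf 8590017602 99585093 0) 384 512 192 256 0 128)
  (band (go 16 Gd mult S24_82_512_660 (Tr.lf 8590017570 99585093 0) 384 512 192 256 0 128)
  (band (go 16 Gd mult S24_82_364_512 (Tr.lf 8590017570 99585093 0) 384 512 192 256 0 128)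
  (go 16 Gd mult S24_82_660_808 (Tr.lf 8590009378 95648837 0) 384 512 192 256 0 128)))) = true := by decide +kernel
  (And.intro (Ok.s2 496 (Ok.s3 459 (Ok.lf S430_459_512_660_ok (br (br (br (br c2)))))
  (Ok.lf S459_488_512_660_ok c4))
  (Ok.s3 459 (Ok.lf S430_459_512_660_ok (br c3))
  (Ok.lf S459_488_512_660_ok (bl c3))))
  (And.intro (Ok.s2 448 (Ok.s3 459 (Ok.s1 160 (Ok.lf S430_459_660_808_ok (bl c0))
  (Ok.lf S430_459_660_808_ok (bl c1)))
  (Ok.s1 160 (Ok.lf S459_488_660_808_ok (bl (br c0)))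
  (Ok.lf S459_488_660_808_ok (bl (br c1)))))
  (Ok.s2 480 (Ok.s3 459 (Ok.lf S430_459_660_808_ok (bl c2))
  (Ok.lf S459_488_660_808_ok (bl (br c2))))
  (Ok.s2 496 (Ok.s3 459 (Ok.lf S430_459_660_808_ok (bl (br (br (br c2)))))
  (Ok.lf S459_488_660_808_ok (bl (br (br c2)))))
  (Ok.s3 459 (Ok.lf S430_459_660_808_ok (br (br c1)))
  (Ok.lf S459_488_660_808_ok (br (br c0)))))))
  (Ok.s4 512 (Ok.s4 364 (Ok.lf S24_82_216_364_ok (bl c5))
  (Ok.lf S24_82_364_512_ok (bl (br (br c5)))))
  (Ok.s4 660 (Ok.lf S24_82_512_660_ok (bl (br c5)))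
  (Ok.lf S24_82_660_808_ok (br (br (br c5))))))))

end Vale.Agent.P098.Ck
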