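import Vale.Agent.P098.CkGd
import Vale.Agent.P098.CkOk
import Vale.Agent.P098.Sh.A10
import Vale.Agent.P098.Sh.A11
import Vale.Agent.P098.Sh.A14
import Vale.Agent.P098.Sh.A18
import Vale.Agent.P098.Sh.A19
import Vale.Agent.P098.Sh.A20
import Vale.Agent.P098.Sh.A25
import Vale.Agent.P098.Sh.A3
import Vale.Agent.P098.Sh.A36
import Vale.Agent.P098.Sh.A4
import Vale.Agent.P098.Sh.A8
import Vale.Agent.P098.Sh.A9

namespace Vale.Agent.P098.Ck

theorem r716 :
    Ok Gd mult 384 512 192 256 0 128 82 140 216 808 ∧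
    Ok Gd mult 384 512 192 256 0 128 140 198 216 808 ∧
    Ok Gd mult 384 512 192 256 0 64 198 256 216 364 :=
  have c0 : (band (go 16 Gd mult S198_227_216_290 (Tr.lf 22012003460 90921418 0) 384 448 192 256 0 64)
  (go 16 Gd mult S227_256_216_290 (Tr.lf 22012003460 95107658 0) 384 448 192 256 0 64)) = true := by decide +kernel
  have c1 : (band (go 16 Gd mult S82_140_216_364 (Tr.lf 8590099588 99715910 0) 384 512 192 256 0 128)
  (band (go 16 Gd mult S82_140_512_660 (Tr.lf 8590099588 103910214 0) 384 512 192 256 0 128)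
  (band (go 16 Gd mult S183_198_216_364 (Tr.lf 17735100484 95128266 0) 384 512 192 256 0 128)
  (go 16 Gd mult S169_183_216_364 (Tr.lf 13431481412 103775176 0) 384 512 192 256 0 128)))) = true := by decide +kernel
  have c2 : (band (go 16 Gd mult S140_198_660_808 (Tr.lf 13497566276 99711688 0) 384 512 224 256 0 128)
  (band (go 16 Gd mult S140_169_216_364 (Tr.lf 13431489572 99457864 0) 384 512 224 256 0 128)
  (band (go 16 Gd mult S169_198_364_512 (Tr.lf 13431358500 107842504 0) 384 512 224 256 0 128)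
  (band (go 16 Gd mult S169_198_364_512 (Tr.lf 13431358500 107838408 0) 384 512 192 224 0 128)
  (band (go 16 Gd mult S140_198_660_808 (Tr.lf 4295131682 112438340 0) 384 512 192 224 0 128)
  (go 16 Gd mult S140_169_216_364 (Tr.lf 8590083106 95521606 0) 384 512 192 224 0 128)))))) = true := by decide +kernel
  have c3 : (band (go 16 Gd mult S82_140_364_512 (Tr.lf 8590034052 99715910 0) 384 512 192 256 0 128)
  (band (go 16 Gd mult S82_140_660_808 (Tr.lf 8590083204 103910214 0) 384 512 192 256 0 128)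
  (band (go 16 Gd mult S140_169_364_512 (Tr.lf 13422969988 99449672 0) 384 512 192 256 0 128)
  (band (go 16 Gd mult S140_169_512_660 (Tr.lf 13422969988 99449672 0) 384 512 192 256 0 128)
  (go 16 Gd mult S169_198_512_660 (Tr.lf 13422052420 99445448 0) 384 512 192 256 0 128))))) = true := by decide +kernel
  have c4 : (band (go 16 Gd mult S198_227_290_364 (Tr.lf 17725277252 95251145 0) 384 512 192 256 0 64)
  (go 16 Gd mult S227_256_290_364 (Tr.lf 17725407812 99445194 0) 384 512 192 256 0 64)) = true := by decide +kernel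
  have c5 : (band (go 16 Gd mult S198_227_216_290 (Tr.lf 17725276738 95517257 0) 448 512 192 256 0 64)
  (go 16 Gd mult S227_256_216_290 (Tr.lf 17725276738 95259209 0) 448 512 192 256 0 64)) = true := by decide +kernel
  (And.intro (Ok.s4 512 (Ok.s4 364 (Ok.lf S82_140_216_364_ok (bl c1))
  (Ok.lf S82_140_364_512_ok (bl c3)))
  (Ok.s4 660 (Ok.lf S82_140_512_660_ok (bl (br c1)))
  (Ok.lf S82_140_660_808_ok (bl (br c3)))))
  (And.intro (Ok.s4 512 (Ok.s4 364 (Ok.s3 169 (Ok.s1 224 (Ok.lf S140_169_216_364_ok (br (br (br (br (br c2))))))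
  (Ok.lf S140_169_216_364_ok (bl (br c2))))
  (Ok.s3 183 (Ok.lf S169_183_216_364_ok (br (br (br c1))))
  (Ok.lf S183_198_216_364_ok (bl (br (br c1))))))
  (Ok.s3 169 (Ok.lf S140_169_364_512_ok (bl (br (br c3))))
  (Ok.s1 224 (Ok.lf S169_198_364_512_ok (bl (br (br (br c2)))))
  (Ok.lf S169_198_364_512_ok (bl (br (br c2)))))))
  (Ok.s4 660 (Ok.s3 169 (Ok.lf S140_169_512_660_ok (bl (br (br (br c3)))))
  (Ok.lf S169_198_512_660_ok (br (br (br (br c3))))))
  (Ok.s1 224 (Ok.lf S140_198_660_808_ok (bl (br (br (br (br c2))))))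
  (Ok.lf S140_198_660_808_ok (bl c2)))))
  (Ok.s4 290 (Ok.s3 227 (Ok.s0 448 (Ok.lf S198_227_216_290_ok (bl c0))
  (Ok.lf S198_227_216_290_ok (bl c5)))
  (Ok.s0 448 (Ok.lf S227_256_216_290_ok (br c0))
  (Ok.lf S227_256_216_290_ok (br c5))))
  (Ok.s3 227 (Ok.lf S198_227_290_364_ok (bl c4))
  (Ok.lf S227_256_290_364_ok (br c4))))))

end Vale.Agent.P098.Ck
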