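import Vale.Agent.P098.CkGd
import Vale.Agent.P098.CkOk
import Vale.Agent.P098.Sh.A25
import Vale.Agent.P098.Sh.A26
import Vale.Agent.P098.Sh.A27
import Vale.Agent.P098.Sh.A36
import Vale.Agent.P098.Sh.A37
import Vale.Agent.P098.Sh.A38
import Vale.Agent.P098.Sh.A41
import Vale.Agent.P098.Sh.A42
import Vale.Agent.P098.Sh.A44
import Vale.Agent.P098.Sh.A45
import Vale.Agent.P098.Sh.A46

namespace Vale.Agent.P098.Ck

theorem r717 :
    Ok Gd mult 384 512 192 256 64 128 198 256 216 364 ∧
    Ok Gd mult 384 512 192 256 0 128 198 256 364 512 ∧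
    Ok Gd mult 384 512 192 256 0 128 198 256 512 808 ∧
    Ok Gd mult 384 512 192 256 0 128 256 314 216 808 :=
  have c0 : (band (go 16 Gd mult S198_227_216_364 (Tr.lf 17735124100 99580873 0) 384 448 192 256 64 128)
  (go 16 Gd mult S198_227_216_364 (Tr.lf 17734075458 95259082 0) 448 512 192 256 64 128)) = true := by decide +kernel
  have c1 : (band (go 16 Gd mult S227_256_216_290 (Tr.lf 17734861960 99453897 0) 384 512 192 256 64 128)
  (go 16 Gd mult S227_256_290_364 (Tr.lf 17734845508 95259338 0) 384 512 192 256 64 128)) = true := by decide +kernel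
  have c2 : (band (go 16 Gd mult S256_314_660_808 (Tr.lf 8590493764 104037445 0) 384 512 192 256 0 128)
  (go 16 Gd mult S198_227_512_660 (Tr.lf 13422052484 99445448 0) 384 512 192 256 0 128)) = true := by decide +kernel
  have c3 : (band (go 16 Gd mult S227_256_512_660 (Tr.lf 13430703236 99453640 0) 384 512 192 256 0 128)
  (band (go 16 Gd mult S256_285_512_660 (Tr.lf 8590476420 99843014 0) 384 512 192 256 0 128)
  (go 16 Gd mult S198_227_364_512 (Tr.lf 13431489604 99716040 0) 384 512 192 256 0 128))) = true := by decide +kernel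
  have c4 : (band (go 16 Gd mult S198_227_660_808 (Tr.lf 13497549956 103905992 0) 384 512 192 256 0 128)
  (band (go 16 Gd mult S227_256_660_808 (Tr.lf 8590214276 99711942 0) 384 512 192 256 0 128)
  (band (go 16 Gd mult S256_285_216_364 (Tr.lf 13430703172 103910088 0) 384 512 192 256 0 128)
  (go 16 Gd mult S227_256_364_512 (Tr.lf 13430441028 99715784 0) 384 512 192 256 0 128)))) = true := by decide +kernel
  have c5 : (band (go 16 Gd mult S285_314_364_512 (Tr.lf 13422052484 99445448 0) 384 512 192 256 0 128)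
  (band (go 16 Gd mult S285_314_512_660 (Tr.lf 8590214276 99711942 0) 384 512 192 256 0 128)
  (go 16 Gd mult S285_314_216_364 (Tr.lf 13422043716 103897800 0) 384 512 192 256 0 128))) = true := by decide +kernel
  have c6 : (go 16 Gd mult S256_285_364_512 (Tr.lf 13430441028 103779016 0) 384 512 224 256 0 128) = true := by decide +kernel
  have c7 : (go 16 Gd mult S256_285_364_512 (Tr.lf 13430432292 99580616 0) 384 512 192 224 0 128) = true := by decide +kernel
  (And.intro (Ok.s3 227 (Ok.s0 448 (Ok.lf S198_227_216_364_ok (bl c0))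
  (Ok.lf S198_227_216_364_ok (br c0)))
  (Ok.s4 290 (Ok.lf S227_256_216_290_ok (bl c1))
  (Ok.lf S227_256_290_364_ok (br c1))))
  (And.intro (Ok.s3 227 (Ok.lf S198_227_364_512_ok (br (br c3)))
  (Ok.lf S227_256_364_512_ok (br (br (br c4)))))
  (And.intro (Ok.s4 660 (Ok.s3 227 (Ok.lf S198_227_512_660_ok (br c2))
  (Ok.lf S227_256_512_660_ok (bl c3)))
  (Ok.s3 227 (Ok.lf S198_227_660_808_ok (bl c4))
  (Ok.lf S227_256_660_808_ok (bl (br c4)))))
  (Ok.s4 512 (Ok.s4 364 (Ok.s3 285 (Ok.lf S256_285_216_364_ok (bl (br (br c4))))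
  (Ok.lf S285_314_216_364_ok (br (br c5))))
  (Ok.s3 285 (Ok.s1 224 (Ok.lf S256_285_364_512_ok c7)
  (Ok.lf S256_285_364_512_ok c6))
  (Ok.lf S285_314_364_512_ok (bl c5))))
  (Ok.s4 660 (Ok.s3 285 (Ok.lf S256_285_512_660_ok (bl (br c3)))
  (Ok.lf S285_314_512_660_ok (bl (br c5))))
  (Ok.lf S256_314_660_808_ok (bl c2)))))))

end Vale.Agent.P098.Ck
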