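import Vale.Agent.P098.CkGd
import Vale.Agent.P098.CkOk
import Vale.Agent.P098.Sh.A48
import Vale.Agent.P098.Sh.A49
import Vale.Agent.P098.Sh.A52
import Vale.Agent.P098.Sh.A54
import Vale.Agent.P098.Sh.A55
import Vale.Agent.P098.Sh.A58
import Vale.Agent.P098.Sh.A59

namespace Vale.Agent.P098.Ck

theorem r718 :
    Ok Gd mult 384 512 192 256 0 128 314 372 216 512 ∧
    Ok Gd mult 384 512 192 256 0 128 314 372 512 808 ∧
    Ok Gd mult 384 512 192 256 0 128 372 430 216 808 ∧
    Ok Gd mult 384 512 192 256 0 128 430 488 216 512 ∧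
    Ok Gd mult 384 512 192 256 0 128 430 488 512 660 :=
  have c0 : (band (go 16 Gd mult S430_459_216_364 (Tr.lf 17716889736 95251017 0) 384 512 192 256 0 128)
  (band (go 16 Gd mult S430_459_512_660 (Tr.lf 17716889736 95251017 0) 384 512 192 256 0 128)
  (go 16 Gd mult S314_372_216_364 (Tr.lf 13421921348 103639752 0) 384 512 192 256 0 128))) = true := by decide +kernel
  have c1 : (band (go 16 Gd mult S430_459_364_512 (Tr.lf 17716824200 95251017 0) 384 512 192 256 0 128)
  (band (go 16 Gd mult S372_430_216_364 (Tr.lf 13422986372 103902152 0) 384 512 192 256 0 128)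
  (go 16 Gd mult S372_430_364_512 (Tr.lf 13422987332 103902152 0) 384 512 192 256 0 128))) = true := by decide +kernel
  have c2 : (band (go 16 Gd mult S372_430_512_660 (Tr.lf 13422987332 103902152 0) 384 512 192 256 0 128)
  (band (go 16 Gd mult S372_430_660_808 (Tr.lf 13422987332 99707848 0) 384 512 192 256 0 128)
  (band (go 16 Gd mult S314_343_512_660 (Tr.lf 13497549956 104037064 0) 384 512 192 256 0 128)
  (go 16 Gd mult S343_372_512_660 (Tr.lf 13430310020 99584712 0) 384 512 192 256 0 128)))) = true := by decide +kernel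
  have c3 : (go 16 Gd mult S314_372_364_512 (Tr.lf 13422068804 99576520 0) 384 512 224 256 0 128) = true := by decide +kernel
  have c4 : (band (go 16 Gd mult S314_343_660_808 (Tr.lf 13497549956 103905992 0) 384 512 192 256 0 128)
  (go 16 Gd mult S343_372_660_808 (Tr.lf 13430441092 95390408 0) 384 512 192 256 0 128)) = true := by decide +kernel
  have c5 : (band (go 16 Gd mult S459_488_216_364 (Tr.lf 22011790472 95115722 0) 384 512 192 256 0 64)
  (band (go 16 Gd mult S459_488_512_660 (Tr.lf 22011790472 95115722 0) 384 512 192 256 0 64)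
  (band (go 16 Gd mult S459_488_364_512 (Tr.lf 22011790472 95115722 0) 384 512 192 256 0 64)
  (go 16 Gd mult S459_488_216_364 (Tr.lf 22550758536 99310283 0) 384 512 192 256 64 128)))) = true := by decide +kernel
  have c6 : (band (go 16 Gd mult S459_488_364_512 (Tr.lf 22550758536 99310283 0) 384 512 192 256 64 128)
  (go 16 Gd mult S459_488_512_660 (Tr.lf 22550758536 99310283 0) 384 512 192 256 64 128)) = true := by decide +kernel
  have c7 : (go 16 Gd mult S314_372_364_512 (Tr.lf 13431358500 95386568 0) 384 512 192 224 0 128) = true := by decide +kernel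
  (And.intro (Ok.s4 364 (Ok.lf S314_372_216_364_ok (br (br c0)))
  (Ok.s1 224 (Ok.lf S314_372_364_512_ok c7)
  (Ok.lf S314_372_364_512_ok c3)))
  (And.intro (Ok.s4 660 (Ok.s3 343 (Ok.lf S314_343_512_660_ok (bl (br (br c2))))
  (Ok.lf S343_372_512_660_ok (br (br (br c2)))))
  (Ok.s3 343 (Ok.lf S314_343_660_808_ok (bl c4))
  (Ok.lf S343_372_660_808_ok (br c4))))
  (And.intro (Ok.s4 512 (Ok.s4 364 (Ok.lf S372_430_216_364_ok (bl (br c1)))
  (Ok.lf S372_430_364_512_ok (br (br c1))))
  (Ok.s4 660 (Ok.lf S372_430_512_660_ok (bl c2))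
  (Ok.lf S372_430_660_808_ok (bl (br c2)))))
  (And.intro (Ok.s4 364 (Ok.s3 459 (Ok.lf S430_459_216_364_ok (bl c0))
  (Ok.s2 64 (Ok.lf S459_488_216_364_ok (bl c5))
  (Ok.lf S459_488_216_364_ok (br (br (br c5))))))
  (Ok.s3 459 (Ok.lf S430_459_364_512_ok (bl c1))
  (Ok.s2 64 (Ok.lf S459_488_364_512_ok (bl (br (br c5))))
  (Ok.lf S459_488_364_512_ok (bl c6)))))
  (Ok.s3 459 (Ok.lf S430_459_512_660_ok (bl (br c0)))
  (Ok.s2 64 (Ok.lf S459_488_512_660_ok (bl (br c5)))
  (Ok.lf S459_488_512_660_ok (br c6))))))))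

end Vale.Agent.P098.Ck
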