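import Vale.Agent.P098.CkGd
import Vale.Agent.P098.CkOk
import Vale.Agent.P098.Sh.A0
import Vale.Agent.P098.Sh.A1
import Vale.Agent.P098.Sh.A14
import Vale.Agent.P098.Sh.A20
import Vale.Agent.P098.Sh.A21
import Vale.Agent.P098.Sh.A3
import Vale.Agent.P098.Sh.A4
import Vale.Agent.P098.Sh.A58
import Vale.Agent.P098.Sh.A59
import Vale.Agent.P098.Sh.A8

namespace Vale.Agent.P098.Ck

theorem r719 :
    Ok Gd mult 384 512 192 256 0 128 430 488 660 808 ∧
    Ok Gd mult 384 512 192 256 128 256 24 140 216 808 ∧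
    Ok Gd mult 384 512 192 256 128 256 140 198 216 364 :=
  have c0 : (go 16 Gd mult S430_459_660_808 (Tr.lf 17716889736 95242953 0) 384 512 192 256 0 128) = true := by decide +kernel
  have c1 : (band (go 16 Gd mult S140_169_216_364 (Tr.lf 8599668804 99720390 0) 384 512 192 256 128 256)
  (band (go 16 Gd mult S82_140_216_364 (Tr.lf 8591279172 99708102 0) 384 512 192 256 128 256)
  (band (go 16 Gd mult S82_140_364_512 (Tr.lf 4304569412 112295110 0) 384 512 192 256 128 256)
  (go 16 Gd mult S82_140_512_660 (Tr.lf 4296180802 108108742 0) 384 512 192 256 128 256)))) = true := by decide +kernel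
  have c2 : (band (go 16 Gd mult S169_183_216_364 (Tr.lf 9145173124 108223560 0) 384 512 192 256 192 256)
  (band (go 16 Gd mult S183_198_290_364 (Tr.lf 13439878276 103648328 0) 384 512 192 256 192 256)
  (go 16 Gd mult S169_183_216_364 (Tr.lf 8599913540 104037702 0) 384 512 192 256 128 192))) = true := by decide +kernel
  have c3 : (go 16 Gd mult S183_198_216_290 (Tr.lf 13440943176 107973832 0) 384 512 192 224 192 256) = true := by decide +kernel
  have c4 : (band (go 16 Gd mult S183_198_216_290 (Tr.lf 12903007364 99712072 0) 384 512 192 256 128 192)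
  (go 16 Gd mult S183_198_290_364 (Tr.lf 8599520324 108105030 0) 384 512 192 256 128 192)) = true := by decide +kernel
  have c5 : (band (go 16 Gd mult S459_488_660_808 (Tr.lf 22011790472 95115722 0) 384 512 192 256 0 64)
  (go 16 Gd mult S459_488_660_808 (Tr.lf 22550758536 99310283 0) 384 512 192 256 64 128)) = true := by decide +kernel
  have c6 : (band (go 16 Gd mult S82_140_660_808 (Tr.lf 4296180802 112303046 0) 384 512 192 256 128 256)
  (band (go 16 Gd mult S24_82_216_364 (Tr.lf 8590017090 99576774 0) 384 512 192 256 128 256)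
  (band (go 16 Gd mult S24_82_364_512 (Tr.lf 8590017090 99576774 0) 384 512 192 256 128 256)
  (band (go 16 Gd mult S24_82_512_660 (Tr.lf 8590017090 99576774 0) 384 512 192 256 128 256)
  (go 16 Gd mult S24_82_660_808 (Tr.lf 8590017090 99576774 0) 384 512 192 256 128 256))))) = true := by decide +kernel
  have c7 : (go 16 Gd mult S183_198_216_290 (Tr.lf 13439738916 99712072 0) 384 512 224 256 192 256) = true := by decide +kernel
  (And.intro (Ok.s3 459 (Ok.lf S430_459_660_808_ok c0)
  (Ok.s2 64 (Ok.lf S459_488_660_808_ok (bl c5))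
  (Ok.lf S459_488_660_808_ok (br c5))))
  (And.intro (Ok.s3 82 (Ok.s4 512 (Ok.s4 364 (Ok.lf S24_82_216_364_ok (bl (br c6)))
  (Ok.lf S24_82_364_512_ok (bl (br (br c6)))))
  (Ok.s4 660 (Ok.lf S24_82_512_660_ok (bl (br (br (br c6)))))
  (Ok.lf S24_82_660_808_ok (br (br (br (br c6)))))))
  (Ok.s4 512 (Ok.s4 364 (Ok.lf S82_140_216_364_ok (bl (br c1)))
  (Ok.lf S82_140_364_512_ok (bl (br (br c1)))))
  (Ok.s4 660 (Ok.lf S82_140_512_660_ok (br (br (br c1))))
  (Ok.lf S82_140_660_808_ok (bl c6)))))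
  (Ok.s3 169 (Ok.lf S140_169_216_364_ok (bl c1))
  (Ok.s3 183 (Ok.s2 192 (Ok.lf S169_183_216_364_ok (br (br c2)))
  (Ok.lf S169_183_216_364_ok (bl c2)))
  (Ok.s2 192 (Ok.s4 290 (Ok.lf S183_198_216_290_ok (bl c4))
  (Ok.lf S183_198_290_364_ok (br c4)))
  (Ok.s4 290 (Ok.s1 224 (Ok.lf S183_198_216_290_ok c3)
  (Ok.lf S183_198_216_290_ok c7))
  (Ok.lf S183_198_290_364_ok (bl (br c2)))))))))

end Vale.Agent.P098.Ck
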