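import Vale.Agent.P098.CkGd
import Vale.Agent.P098.CkOk
import Vale.Agent.P098.Sh.A12
import Vale.Agent.P098.Sh.A14
import Vale.Agent.P098.Sh.A7
import Vale.Agent.P098.Sh.A8

namespace Vale.Agent.P098.Ck

theorem r72 :
    Ok Gd mult 32 48 128 192 448 512 154 169 216 364 ∧
    Ok Gd mult 48 64 128 192 448 512 154 169 216 364 ∧
    Ok Gd mult 64 128 128 192 384 512 140 169 216 364 ∧
    Ok Gd mult 0 128 128 160 384 448 169 183 216 364 :=
  have c0 : (band (go 16 Gd mult S154_169_216_364 (Tr.lf 13441190018 90798921 0) 64 96 128 192 384 448)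
  (band (go 16 Gd mult S140_154_216_364 (Tr.lf 13440927874 90667849 0) 64 96 128 192 384 448)
  (go 16 Gd mult S154_169_216_364 (Tr.sp 1 160 (Tr.lf 13978060929 99183688 2983746705278259116732579840) Tr.skip) 32 48 128 192 480 512))) = true := by decide +kernel
  have c1 : (band (go 16 Gd mult S140_169_216_364 (Tr.lf 13977815170 99191752 0) 64 96 128 160 448 480)
  (go 16 Gd mult S140_169_216_364 (Tr.lf 13977815170 103513032 600836132348470699828969472) 64 96 160 192 448 480)) = true := by decide +kernel
  have c2 : (band (go 16 Gd mult S140_169_216_364 (Tr.lf 13440944258 94862153 0) 96 128 128 192 384 448)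
  (band (go 16 Gd mult S140_169_216_364 (Tr.sp 1 160 (Tr.lf 13977815106 94858312 2218378878992844535585832960) Tr.skip) 64 96 128 192 480 512)
  (go 16 Gd mult S140_169_216_364 (Tr.lf 13440943234 95124424 395318743013983740128919552) 96 128 128 192 448 480))) = true := by decide +kernel
  have c3 : (go 16 Gd mult S169_183_216_364 (Tr.lf 13978060868 99052489 0) 0 128 144 160 384 448) = true := by decide +kernel
  have c4 : (band (go 16 Gd mult S154_169_216_364 (Tr.lf 9683093633 99454023 2602833707232522214643335168) 48 64 128 192 480 512)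
  (band (go 16 Gd mult S154_169_216_364 (Tr.lf 13978060865 103386056 62645142874317637287936) 32 48 128 144 448 480)
  (band (go 16 Gd mult S154_169_216_364 (Tr.lf 13979109441 99450056 26028355888004177330223) 32 48 144 160 448 480)
  (go 16 Gd mult S154_169_216_364 (Tr.lf 13979109441 103521352 754397713605195394996568093) 32 48 160 176 448 480)))) = true := by decide +kernel
  have c5 : (go 16 Gd mult S140_169_216_364 (Tr.lf 9682846850 95259719 2451701562178467966304124928) 96 128 128 192 480 512) = true := by decide +kernel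
  have c6 : (band (go 16 Gd mult S154_169_216_364 (Tr.lf 13977798785 103386056 0) 48 64 128 160 448 480)
  (go 16 Gd mult S154_169_216_364 (Tr.lf 13977798785 103513287 743489379062996942444298240) 48 64 160 192 448 480)) = true := by decide +kernel
  have c7 : (go 16 Gd mult S169_183_216_364 (Tr.lf 9145960484 99323079 0) 0 128 128 144 384 448) = true := by decide +kernel
  have c8 : (go 16 Gd mult S154_169_216_364 (Tr.lf 13440918561 103382215 10761892270748055266062761984) 32 48 176 192 448 480) = true := by decide +kernel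
  (And.intro (Ok.s2 480 (Ok.s1 160 (Ok.s1 144 (Ok.lf S154_169_216_364_ok (bl (br c4)))
  (Ok.lf S154_169_216_364_ok (bl (br (br c4)))))
  (Ok.s1 176 (Ok.lf S154_169_216_364_ok (br (br (br c4))))
  (Ok.lf S154_169_216_364_ok c8)))
  (Ok.lf S154_169_216_364_ok (br (br c0))))
  (And.intro (Ok.s2 480 (Ok.s1 160 (Ok.lf S154_169_216_364_ok (bl c6))
  (Ok.lf S154_169_216_364_ok (br c6)))
  (Ok.lf S154_169_216_364_ok (bl c4)))
  (And.intro (Ok.s0 96 (Ok.s2 448 (Ok.s3 154 (Ok.lf S140_154_216_364_ok (bl (br c0)))
  (Ok.lf S154_169_216_364_ok (bl c0)))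
  (Ok.s2 480 (Ok.s1 160 (Ok.lf S140_169_216_364_ok (bl c1))
  (Ok.lf S140_169_216_364_ok (br c1)))
  (Ok.lf S140_169_216_364_ok (bl (br c2)))))
  (Ok.s2 448 (Ok.lf S140_169_216_364_ok (bl c2))
  (Ok.s2 480 (Ok.lf S140_169_216_364_ok (br (br c2)))
  (Ok.lf S140_169_216_364_ok c5))))
  (Ok.s1 144 (Ok.lf S169_183_216_364_ok c7)
  (Ok.lf S169_183_216_364_ok c3)))))

end Vale.Agent.P098.Ck
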