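import Vale.Agent.P098.CkGd
import Vale.Agent.P098.CkOk
import Vale.Agent.P098.Sh.A10
import Vale.Agent.P098.Sh.A11
import Vale.Agent.P098.Sh.A18
import Vale.Agent.P098.Sh.A19
import Vale.Agent.P098.Sh.A23
import Vale.Agent.P098.Sh.A25
import Vale.Agent.P098.Sh.A30
import Vale.Agent.P098.Sh.A34
import Vale.Agent.P098.Sh.A36
import Vale.Agent.P098.Sh.A39
import Vale.Agent.P098.Sh.A9

namespace Vale.Agent.P098.Ck

theorem r720 :
    Ok Gd mult 384 512 192 256 128 256 140 198 364 512 ∧
    Ok Gd mult 384 512 192 256 128 256 140 198 512 808 ∧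
    Ok Gd mult 384 512 192 256 128 256 198 256 216 290 :=
  have c0 : (go 16 Gd mult S198_227_216_290 (Tr.lf 22576400452 103377612 0) 384 448 192 224 128 192) = true := by decide +kernel
  have c1 : (go 16 Gd mult S198_212_216_290 (Tr.lf 17744545924 99322826 0) 384 448 192 224 192 256) = true := by decide +kernel
  have c2 : (go 16 Gd mult S212_227_216_290 (Tr.lf 17744562244 103509066 0) 384 448 192 224 192 256) = true := by decide +kernel
  have c3 : (band (go 16 Gd mult S227_256_216_290 (Tr.lf 13439895684 112159944 0) 448 512 192 256 128 256)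
  (go 16 Gd mult S227_256_216_290 (Tr.lf 17743250498 103643978 0) 384 448 224 256 128 192)) = true := by decide +kernel
  have c4 : (go 16 Gd mult S227_256_216_290 (Tr.lf 18281432132 103771210 0) 384 448 192 224 128 192) = true := by decide +kernel
  have c5 : (band (go 16 Gd mult S227_241_216_290 (Tr.lf 18280106116 107838282 0) 384 448 192 256 192 256)
  (go 16 Gd mult S241_256_216_290 (Tr.lf 17734837314 95255242 0) 384 448 192 256 192 256)) = true := by decide +kernel
  have c6 : (go 16 Gd mult S198_227_216_290 (Tr.lf 13440156740 108096584 0) 448 512 192 224 192 256) = true := by decide +kernel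
  have c7 : (band (go 16 Gd mult S169_198_364_512 (Tr.lf 8599668772 103914694 0) 384 512 192 224 128 256)
  (go 16 Gd mult S140_198_660_808 (Tr.lf 8599667748 103779526 0) 384 512 192 224 128 256)) = true := by decide +kernel
  have c8 : (band (go 16 Gd mult S198_227_216_290 (Tr.lf 17734861954 99580618 0) 448 512 192 256 128 192)
  (band (go 16 Gd mult S198_227_216_290 (Tr.lf 18280121412 107838282 0) 384 448 224 256 192 256)
  (go 16 Gd mult S198_227_216_290 (Tr.lf 17743250498 103643978 0) 384 448 224 256 128 192))) = true := by decide +kernel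
  have c9 : (band (go 16 Gd mult S140_169_364_512 (Tr.lf 8599651396 99720390 0) 384 512 192 256 128 256)
  (band (go 16 Gd mult S169_198_512_660 (Tr.lf 8599651394 104045766 0) 384 512 192 256 128 256)
  (go 16 Gd mult S140_169_512_660 (Tr.lf 8599520322 99720390 0) 384 512 192 256 128 256))) = true := by decide +kernel
  have c10 : (band (go 16 Gd mult S169_198_364_512 (Tr.lf 13439878180 103906376 0) 384 512 224 256 128 256)
  (go 16 Gd mult S140_198_660_808 (Tr.lf 4295115812 112434372 0) 384 512 224 256 128 256)) = true := by decide +kernel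
  have c11 : (go 16 Gd mult S198_227_216_290 (Tr.lf 17734845474 99441482 0) 448 512 224 256 192 256) = true := by decide +kernel
  (And.intro (Ok.s3 169 (Ok.lf S140_169_364_512_ok (bl c9))
  (Ok.s1 224 (Ok.lf S169_198_364_512_ok (bl c7))
  (Ok.lf S169_198_364_512_ok (bl c10))))
  (And.intro (Ok.s4 660 (Ok.s3 169 (Ok.lf S140_169_512_660_ok (br (br c9)))
  (Ok.lf S169_198_512_660_ok (bl (br c9))))
  (Ok.s1 224 (Ok.lf S140_198_660_808_ok (br c7))
  (Ok.lf S140_198_660_808_ok (br c10))))
  (Ok.s0 448 (Ok.s2 192 (Ok.s3 227 (Ok.s1 224 (Ok.lf S198_227_216_290_ok c0)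
  (Ok.lf S198_227_216_290_ok (br (br c8))))
  (Ok.s1 224 (Ok.lf S227_256_216_290_ok c4)
  (Ok.lf S227_256_216_290_ok (br c3))))
  (Ok.s3 227 (Ok.s1 224 (Ok.s3 212 (Ok.lf S198_212_216_290_ok c1)
  (Ok.lf S212_227_216_290_ok c2))
  (Ok.lf S198_227_216_290_ok (bl (br c8))))
  (Ok.s3 241 (Ok.lf S227_241_216_290_ok (bl c5))
  (Ok.lf S241_256_216_290_ok (br c5)))))
  (Ok.s3 227 (Ok.s2 192 (Ok.lf S198_227_216_290_ok (bl c8))
  (Ok.s1 224 (Ok.lf S198_227_216_290_ok c6)
  (Ok.lf S198_227_216_290_ok c11)))
  (Ok.lf S227_256_216_290_ok (bl c3))))))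

end Vale.Agent.P098.Ck
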