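import Vale.Agent.P098.CkGd
import Vale.Agent.P098.CkOk
import Vale.Agent.P098.Sh.A25
import Vale.Agent.P098.Sh.A26
import Vale.Agent.P098.Sh.A27
import Vale.Agent.P098.Sh.A36
import Vale.Agent.P098.Sh.A37
import Vale.Agent.P098.Sh.A38
import Vale.Agent.P098.Sh.A41
import Vale.Agent.P098.Sh.A43
import Vale.Agent.P098.Sh.A45

namespace Vale.Agent.P098.Ck

theorem r721 :
    Ok Gd mult 384 512 192 256 128 256 198 256 290 364 ∧
    Ok Gd mult 384 512 192 256 128 256 198 256 364 512 ∧
    Ok Gd mult 384 512 192 256 128 256 198 256 512 808 ∧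
    Ok Gd mult 384 512 192 256 128 256 256 314 216 512 :=
  have c0 : (band (go 16 Gd mult S198_227_290_364 (Tr.lf 17734861956 99322570 0) 384 512 192 256 128 192)
  (band (go 16 Gd mult S227_256_290_364 (Tr.lf 17734861892 99322570 0) 384 512 192 256 128 192)
  (go 16 Gd mult S198_227_364_512 (Tr.lf 13439877700 103779400 0) 384 512 192 256 128 192))) = true := by decide +kernel
  have c1 : (go 16 Gd mult S198_227_290_364 (Tr.lf 13439894660 108100680 0) 384 448 192 256 192 256) = true := by decide +kernel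
  have c2 : (band (go 16 Gd mult S227_256_290_364 (Tr.lf 17734861956 95120202 0) 384 512 192 256 192 256)
  (go 16 Gd mult S198_227_364_512 (Tr.lf 8599929924 99847494 0) 384 512 192 256 192 256)) = true := by decide +kernel
  have c3 : (band (go 16 Gd mult S227_256_364_512 (Tr.lf 13440141380 103779400 0) 384 512 192 256 128 256)
  (band (go 16 Gd mult S256_285_216_364 (Tr.lf 13430704196 107973320 0) 384 512 192 256 128 256)
  (go 16 Gd mult S198_227_512_660 (Tr.lf 8598602820 103787462 0) 384 512 192 256 128 256))) = true := by decide +kernel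
  have c4 : (band (go 16 Gd mult S256_314_364_512 (Tr.lf 13430458404 103774920 0) 384 512 224 256 128 256)
  (band (go 16 Gd mult S227_256_512_660 (Tr.lf 13430432292 99580616 0) 384 512 224 256 128 256)
  (band (go 16 Gd mult S227_256_512_660 (Tr.lf 4303627298 108231877 0) 384 512 192 224 128 256)
  (band (go 16 Gd mult S256_285_364_512 (Tr.lf 13430432802 99449544 0) 384 512 192 224 128 256)
  (go 16 Gd mult S285_314_364_512 (Tr.lf 13497541666 103901896 0) 384 512 192 224 128 256))))) = true := by decide +kernel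
  have c5 : (go 16 Gd mult S198_227_290_364 (Tr.lf 8606876738 108096328 0) 448 512 192 256 192 256) = true := by decide +kernel
  have c6 : (band (go 16 Gd mult S198_227_660_808 (Tr.lf 4303635012 108104646 0) 384 512 192 256 128 256)
  (band (go 16 Gd mult S285_314_216_364 (Tr.lf 13430432834 103774920 0) 384 512 192 256 128 256)
  (go 16 Gd mult S227_256_660_808 (Tr.lf 8590205506 95644614 0) 384 512 192 256 128 256))) = true := by decide +kernel
  (And.intro (Ok.s3 227 (Ok.s2 192 (Ok.lf S198_227_290_364_ok (bl c0))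
  (Ok.s0 448 (Ok.lf S198_227_290_364_ok c1)
  (Ok.lf S198_227_290_364_ok c5)))
  (Ok.s2 192 (Ok.lf S227_256_290_364_ok (bl (br c0)))
  (Ok.lf S227_256_290_364_ok (bl c2))))
  (And.intro (Ok.s3 227 (Ok.s2 192 (Ok.lf S198_227_364_512_ok (br (br c0)))
  (Ok.lf S198_227_364_512_ok (br c2)))
  (Ok.lf S227_256_364_512_ok (bl c3)))
  (And.intro (Ok.s4 660 (Ok.s3 227 (Ok.lf S198_227_512_660_ok (br (br c3)))
  (Ok.s1 224 (Ok.lf S227_256_512_660_ok (bl (br (br c4))))
  (Ok.lf S227_256_512_660_ok (bl (br c4)))))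
  (Ok.s3 227 (Ok.lf S198_227_660_808_ok (bl c6))
  (Ok.lf S227_256_660_808_ok (br (br c6)))))
  (Ok.s4 364 (Ok.s3 285 (Ok.lf S256_285_216_364_ok (bl (br c3)))
  (Ok.lf S285_314_216_364_ok (bl (br c6))))
  (Ok.s1 224 (Ok.s3 285 (Ok.lf S256_285_364_512_ok (bl (br (br (br c4)))))
  (Ok.lf S285_314_364_512_ok (br (br (br (br c4))))))
  (Ok.lf S256_314_364_512_ok (bl c4)))))))

end Vale.Agent.P098.Ck
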