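import Vale.Agent.P098.CkGd
import Vale.Agent.P098.CkOk
import Vale.Agent.P098.Sh.A42
import Vale.Agent.P098.Sh.A44
import Vale.Agent.P098.Sh.A46
import Vale.Agent.P098.Sh.A47
import Vale.Agent.P098.Sh.A48
import Vale.Agent.P098.Sh.A49
import Vale.Agent.P098.Sh.A51
import Vale.Agent.P098.Sh.A52
import Vale.Agent.P098.Sh.A54
import Vale.Agent.P098.Sh.A56
import Vale.Agent.P098.Sh.A57

namespace Vale.Agent.P098.Ck

theorem r722 :
    Ok Gd mult 384 512 192 256 128 256 256 314 512 808 ∧
    Ok Gd mult 384 512 192 256 128 256 314 372 216 808 ∧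
    Ok Gd mult 384 512 192 256 128 256 372 430 216 808 :=
  have c0 : (band (go 16 Gd mult S401_430_216_364 (Tr.lf 9129052292 108108489 0) 384 512 192 256 128 256)
  (band (go 16 Gd mult S401_430_364_512 (Tr.lf 9129052292 108108489 0) 384 512 192 256 128 256)
  (band (go 16 Gd mult S401_430_512_660 (Tr.lf 9128003716 108108743 0) 384 512 192 256 128 256)
  (go 16 Gd mult S314_343_364_512 (Tr.lf 13430432836 103774920 0) 384 512 192 256 128 256)))) = true := by decide +kernel
  have c1 : (band (go 16 Gd mult S401_430_660_808 (Tr.lf 9128003716 108108743 0) 384 512 192 256 128 256)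
  (band (go 16 Gd mult S314_343_216_364 (Tr.lf 13430441028 107969224 0) 384 512 192 256 128 256)
  (band (go 16 Gd mult S343_372_660_808 (Tr.lf 4304553028 108108743 0) 384 512 192 256 128 256)
  (band (go 16 Gd mult S372_401_216_364 (Tr.lf 9128002628 104172487 0) 384 512 192 256 128 256)
  (go 16 Gd mult S372_401_364_512 (Tr.lf 9128002628 104172487 0) 384 512 192 256 128 256))))) = true := by decide +kernel
  have c2 : (band (go 16 Gd mult S256_314_512_660 (Tr.lf 4295263298 104045764 0) 384 448 192 256 128 256)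
  (go 16 Gd mult S256_314_512_660 (Tr.lf 4295262753 108235972 0) 448 512 192 224 128 256)) = true := by decide +kernel
  have c3 : (band (go 16 Gd mult S372_401_512_660 (Tr.lf 9128002628 104172487 0) 384 512 192 256 128 256)
  (band (go 16 Gd mult S372_401_660_808 (Tr.lf 9128002628 112430023 0) 384 512 192 256 128 256)
  (band (go 16 Gd mult S343_372_216_364 (Tr.lf 8591123524 103910598 0) 384 512 192 256 128 256)
  (band (go 16 Gd mult S343_372_364_512 (Tr.lf 8591131714 103910343 0) 384 512 192 256 128 256)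
  (band (go 16 Gd mult S314_343_512_660 (Tr.lf 4303504450 112299205 0) 384 512 192 256 128 256)
  (band (go 16 Gd mult S343_372_512_660 (Tr.lf 4296164418 112302919 0) 384 512 192 256 128 256)
  (go 16 Gd mult S314_343_660_808 (Tr.lf 4303504450 112426181 0) 384 512 192 256 128 256))))))) = true := by decide +kernel
  have c4 : (band (go 16 Gd mult S256_285_660_808 (Tr.lf 8590205506 103771078 0) 384 512 192 256 128 256)
  (go 16 Gd mult S285_314_660_808 (Tr.lf 8590205506 103771078 0) 384 512 192 256 128 256)) = true := by decide +kernel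
  have c5 : (go 16 Gd mult S256_314_512_660 (Tr.lf 9202450978 108108742 0) 448 512 224 256 128 256) = true := by decide +kernel
  (And.intro (Ok.s4 660 (Ok.s0 448 (Ok.lf S256_314_512_660_ok (bl c2))
  (Ok.s1 224 (Ok.lf S256_314_512_660_ok (br c2))
  (Ok.lf S256_314_512_660_ok c5)))
  (Ok.s3 285 (Ok.lf S256_285_660_808_ok (bl c4))
  (Ok.lf S285_314_660_808_ok (br c4))))
  (And.intro (Ok.s4 512 (Ok.s4 364 (Ok.s3 343 (Ok.lf S314_343_216_364_ok (bl (br c1)))
  (Ok.lf S343_372_216_364_ok (bl (br (br c3)))))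
  (Ok.s3 343 (Ok.lf S314_343_364_512_ok (br (br (br c0))))
  (Ok.lf S343_372_364_512_ok (bl (br (br (br c3)))))))
  (Ok.s4 660 (Ok.s3 343 (Ok.lf S314_343_512_660_ok (bl (br (br (br (br c3))))))
  (Ok.lf S343_372_512_660_ok (bl (br (br (br (br (br c3))))))))
  (Ok.s3 343 (Ok.lf S314_343_660_808_ok (br (br (br (br (br (br c3)))))))
  (Ok.lf S343_372_660_808_ok (bl (br (br c1)))))))
  (Ok.s4 512 (Ok.s4 364 (Ok.s3 401 (Ok.lf S372_401_216_364_ok (bl (br (br (br c1)))))
  (Ok.lf S401_430_216_364_ok (bl c0)))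
  (Ok.s3 401 (Ok.lf S372_401_364_512_ok (br (br (br (br c1)))))
  (Ok.lf S401_430_364_512_ok (bl (br c0)))))
  (Ok.s4 660 (Ok.s3 401 (Ok.lf S372_401_512_660_ok (bl c3))
  (Ok.lf S401_430_512_660_ok (bl (br (br c0)))))
  (Ok.s3 401 (Ok.lf S372_401_660_808_ok (bl (br c3)))
  (Ok.lf S401_430_660_808_ok (bl c1)))))))

end Vale.Agent.P098.Ck
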