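import Vale.Agent.P098.CkGd
import Vale.Agent.P098.CkOk
import Vale.Agent.P098.Sh.A0
import Vale.Agent.P098.Sh.A1
import Vale.Agent.P098.Sh.A58
import Vale.Agent.P098.Sh.A59

namespace Vale.Agent.P098.Ck

theorem r723 :
    Ok Gd mult 384 512 192 256 128 256 430 488 216 364 ∧
    Ok Gd mult 384 512 192 256 128 256 430 488 364 512 ∧
    Ok Gd mult 384 512 192 256 128 256 430 488 512 808 ∧
    Ok Gd mult 384 512 192 256 256 384 24 82 216 808 :=
  have c0 : (band (go 16 Gd mult S459_488_216_364 (Tr.lf 18256839816 103774923 0) 384 512 192 256 128 192)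
  (band (go 16 Gd mult S459_488_364_512 (Tr.lf 18256839816 103774923 0) 384 512 192 256 128 192)
  (band (go 16 Gd mult S459_488_512_660 (Tr.lf 18256839816 103774923 0) 384 512 192 256 128 192)
  (go 16 Gd mult S459_488_660_808 (Tr.lf 18256839816 103774923 0) 384 512 192 256 128 192)))) = true := by decide +kernel
  have c1 : (band (go 16 Gd mult S459_488_216_364 (Tr.lf 18793710728 99437770 0) 384 512 192 256 192 256)
  (band (go 16 Gd mult S459_488_364_512 (Tr.lf 18793710728 99437770 0) 384 512 192 256 192 256)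
  (band (go 16 Gd mult S459_488_512_660 (Tr.lf 18793710728 99437770 0) 384 512 192 256 192 256)
  (go 16 Gd mult S459_488_660_808 (Tr.lf 18793710728 99437770 0) 384 512 192 256 192 256)))) = true := by decide +kernel
  have c2 : (band (go 16 Gd mult S430_459_216_364 (Tr.lf 18265293956 107838283 0) 384 512 192 256 192 256)
  (band (go 16 Gd mult S430_459_660_808 (Tr.lf 18265293956 107838283 0) 384 512 192 256 192 256)
  (band (go 16 Gd mult S430_459_364_512 (Tr.lf 18265228420 107838283 0) 384 512 192 256 192 256)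
  (band (go 16 Gd mult S430_459_512_660 (Tr.lf 18265228420 107838283 0) 384 512 192 256 192 256)
  (go 16 Gd mult S430_459_364_512 (Tr.lf 18264179844 107711306 0) 384 512 192 256 128 192))))) = true := by decide +kernel
  have c3 : (band (go 16 Gd mult S430_459_216_364 (Tr.lf 18264179844 107711306 0) 384 512 192 256 128 192)
  (band (go 16 Gd mult S430_459_512_660 (Tr.lf 18264179844 107711306 0) 384 512 192 256 128 192)
  (go 16 Gd mult S430_459_660_808 (Tr.lf 18264179844 107711306 0) 384 512 192 256 128 192))) = true := by decide +kernel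
  have c4 : (band (go 16 Gd mult S24_82_216_364 (Tr.lf 4296098882 104033605 0) 384 512 192 256 256 384)
  (band (go 16 Gd mult S24_82_364_512 (Tr.lf 4296098882 108227909 0) 384 512 192 256 256 384)
  (band (go 16 Gd mult S24_82_512_660 (Tr.lf 4296098882 108227909 0) 384 512 192 256 256 384)
  (go 16 Gd mult S24_82_660_808 (Tr.lf 4296098882 108227909 0) 384 512 192 256 256 384)))) = true := by decide +kernel
  (And.intro (Ok.s2 192 (Ok.s3 459 (Ok.lf S430_459_216_364_ok (bl c3))
  (Ok.lf S459_488_216_364_ok (bl c0)))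
  (Ok.s3 459 (Ok.lf S430_459_216_364_ok (bl c2))
  (Ok.lf S459_488_216_364_ok (bl c1))))
  (And.intro (Ok.s2 192 (Ok.s3 459 (Ok.lf S430_459_364_512_ok (br (br (br (br c2)))))
  (Ok.lf S459_488_364_512_ok (bl (br c0))))
  (Ok.s3 459 (Ok.lf S430_459_364_512_ok (bl (br (br c2))))
  (Ok.lf S459_488_364_512_ok (bl (br c1)))))
  (And.intro (Ok.s4 660 (Ok.s2 192 (Ok.s3 459 (Ok.lf S430_459_512_660_ok (bl (br c3)))
  (Ok.lf S459_488_512_660_ok (bl (br (br c0)))))
  (Ok.s3 459 (Ok.lf S430_459_512_660_ok (bl (br (br (br c2)))))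
  (Ok.lf S459_488_512_660_ok (bl (br (br c1))))))
  (Ok.s2 192 (Ok.s3 459 (Ok.lf S430_459_660_808_ok (br (br c3)))
  (Ok.lf S459_488_660_808_ok (br (br (br c0)))))
  (Ok.s3 459 (Ok.lf S430_459_660_808_ok (bl (br c2)))
  (Ok.lf S459_488_660_808_ok (br (br (br c1)))))))
  (Ok.s4 512 (Ok.s4 364 (Ok.lf S24_82_216_364_ok (bl c4))
  (Ok.lf S24_82_364_512_ok (bl (br c4))))
  (Ok.s4 660 (Ok.lf S24_82_512_660_ok (bl (br (br c4))))
  (Ok.lf S24_82_660_808_ok (br (br (br c4)))))))))

end Vale.Agent.P098.Ck
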