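import Vale.Agent.P098.CkGd
import Vale.Agent.P098.CkOk
import Vale.Agent.P098.Sh.A10
import Vale.Agent.P098.Sh.A14
import Vale.Agent.P098.Sh.A17
import Vale.Agent.P098.Sh.A18
import Vale.Agent.P098.Sh.A19
import Vale.Agent.P098.Sh.A20
import Vale.Agent.P098.Sh.A3
import Vale.Agent.P098.Sh.A4
import Vale.Agent.P098.Sh.A8
import Vale.Agent.P098.Sh.A9

namespace Vale.Agent.P098.Ck

theorem r724 :
    Ok Gd mult 384 512 192 256 256 384 82 140 216 808 ∧
    Ok Gd mult 384 512 192 256 256 384 140 198 216 808 :=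
  have c0 : (band (go 16 Gd mult S82_140_216_364 (Tr.lf 8599668868 99457991 0) 384 512 192 256 256 384)
  (go 16 Gd mult S82_140_512_660 (Tr.lf 4296181828 108100678 0) 384 512 192 256 256 384)) = true := by decide +kernel
  have c1 : (band (go 16 Gd mult S169_198_216_364 (Tr.lf 9145189508 103779272 0) 384 512 192 256 320 384)
  (go 16 Gd mult S140_169_216_364 (Tr.lf 4304683588 108231878 0) 384 512 192 256 320 384)) = true := by decide +kernel
  have c2 : (band (go 16 Gd mult S82_140_364_512 (Tr.lf 4304570500 108108870 0) 384 512 192 256 256 384)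
  (band (go 16 Gd mult S140_169_364_512 (Tr.lf 8599652484 95517767 0) 384 512 192 256 256 384)
  (go 16 Gd mult S169_198_512_660 (Tr.lf 8599651396 103906375 0) 384 512 192 256 256 384))) = true := by decide +kernel
  have c3 : (band (go 16 Gd mult S169_183_216_364 (Tr.lf 9145173124 107973576 0) 384 512 192 256 256 320)
  (go 16 Gd mult S140_169_216_364 (Tr.lf 8599651460 95517767 0) 384 512 192 256 256 320)) = true := by decide +kernel
  have c4 : (band (go 16 Gd mult S183_198_216_364 (Tr.lf 13441189956 103648201 0) 384 448 192 224 256 320)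
  (go 16 Gd mult S183_198_216_364 (Tr.lf 8608302146 95513672 0) 448 512 192 256 256 320)) = true := by decide +kernel
  have c5 : (go 16 Gd mult S169_198_364_512 (Tr.lf 8599668804 99839047 0) 384 512 192 224 256 384) = true := by decide +kernel
  have c6 : (band (go 16 Gd mult S82_140_660_808 (Tr.lf 4296181828 108100678 0) 384 512 192 256 256 384)
  (band (go 16 Gd mult S140_169_512_660 (Tr.lf 8599521348 99580999 0) 384 512 192 256 256 384)
  (band (go 16 Gd mult S169_198_660_808 (Tr.lf 4304684098 112426182 0) 384 512 192 256 256 384)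
  (go 16 Gd mult S140_169_660_808 (Tr.lf 8599520322 95394759 0) 384 512 192 256 256 384)))) = true := by decide +kernel
  have c7 : (go 16 Gd mult S169_198_364_512 (Tr.lf 8598602788 99842887 0) 384 512 224 256 256 384) = true := by decide +kernel
  have c8 : (go 16 Gd mult S183_198_216_364 (Tr.lf 13439869473 103643977 0) 384 448 224 256 256 320) = true := by decide +kernel
  (And.intro (Ok.s4 512 (Ok.s4 364 (Ok.lf S82_140_216_364_ok (bl c0))
  (Ok.lf S82_140_364_512_ok (bl c2)))
  (Ok.s4 660 (Ok.lf S82_140_512_660_ok (br c0))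
  (Ok.lf S82_140_660_808_ok (bl c6))))
  (Ok.s4 512 (Ok.s4 364 (Ok.s3 169 (Ok.s2 320 (Ok.lf S140_169_216_364_ok (br c3))
  (Ok.lf S140_169_216_364_ok (br c1)))
  (Ok.s2 320 (Ok.s3 183 (Ok.lf S169_183_216_364_ok (bl c3))
  (Ok.s0 448 (Ok.s1 224 (Ok.lf S183_198_216_364_ok (bl c4))
  (Ok.lf S183_198_216_364_ok c8))
  (Ok.lf S183_198_216_364_ok (br c4))))
  (Ok.lf S169_198_216_364_ok (bl c1))))
  (Ok.s3 169 (Ok.lf S140_169_364_512_ok (bl (br c2)))
  (Ok.s1 224 (Ok.lf S169_198_364_512_ok c5)
  (Ok.lf S169_198_364_512_ok c7))))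
  (Ok.s4 660 (Ok.s3 169 (Ok.lf S140_169_512_660_ok (bl (br c6)))
  (Ok.lf S169_198_512_660_ok (br (br c2))))
  (Ok.s3 169 (Ok.lf S140_169_660_808_ok (br (br (br c6))))
  (Ok.lf S169_198_660_808_ok (bl (br (br c6))))))))

end Vale.Agent.P098.Ck
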