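import Vale.Agent.P098.CkGd
import Vale.Agent.P098.CkOk
import Vale.Agent.P098.Sh.A23
import Vale.Agent.P098.Sh.A25
import Vale.Agent.P098.Sh.A26
import Vale.Agent.P098.Sh.A30
import Vale.Agent.P098.Sh.A36
import Vale.Agent.P098.Sh.A37

namespace Vale.Agent.P098.Ck

theorem r725 :
    Ok Gd mult 384 448 192 224 256 320 198 256 216 290 ∧
    Ok Gd mult 384 448 192 224 320 384 198 256 216 290 ∧
    Ok Gd mult 448 512 192 224 256 384 198 256 216 290 ∧
    Ok Gd mult 384 512 224 256 256 384 198 256 216 290 ∧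
    Ok Gd mult 384 512 192 256 256 384 198 256 290 364 ∧
    Ok Gd mult 384 512 192 256 256 384 198 256 364 512 :=
  have c0 : (go 16 Gd mult S198_212_216_290 (Tr.lf 17744545924 95120203 0) 384 448 192 224 256 320) = true := by decide +kernel
  have c1 : (go 16 Gd mult S212_227_216_290 (Tr.lf 17744545924 95120203 0) 384 448 192 224 256 320) = true := by decide +kernel
  have c2 : (go 16 Gd mult S227_256_216_290 (Tr.lf 13440157764 99707721 0) 448 512 192 224 256 384) = true := by decide +kernel
  have c3 : (go 16 Gd mult S227_256_364_512 (Tr.lf 8598882372 99715911 0) 384 512 192 256 256 384) = true := by decide +kernel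
  have c4 : (band (go 16 Gd mult S198_227_290_364 (Tr.lf 8607008898 103902024 0) 448 512 192 256 256 384)
  (band (go 16 Gd mult S227_256_290_364 (Tr.lf 8598603842 104168263 0) 448 512 192 256 256 384)
  (go 16 Gd mult S198_227_364_512 (Tr.lf 4303635522 108100678 0) 448 512 192 256 256 384))) = true := by decide +kernel
  have c5 : (go 16 Gd mult S198_227_364_512 (Tr.lf 8599668866 104037447 0) 384 448 192 256 256 384) = true := by decide +kernel
  have c6 : (band (go 16 Gd mult S227_256_216_290 (Tr.lf 18281171012 103517130 0) 384 448 192 224 256 320)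
  (go 16 Gd mult S227_256_216_290 (Tr.lf 17743251524 94997067 0) 384 512 224 256 256 384)) = true := by decide +kernel
  have c7 : (band (go 16 Gd mult S198_227_216_290 (Tr.lf 13439895620 107965257 0) 448 512 192 224 256 320)
  (band (go 16 Gd mult S198_227_216_290 (Tr.lf 17743251524 94997067 0) 384 512 224 256 256 384)
  (go 16 Gd mult S198_227_216_290 (Tr.lf 8607007778 99580871 0) 448 512 192 224 320 384))) = true := by decide +kernel
  have c8 : (band (go 16 Gd mult S198_227_290_364 (Tr.lf 13439894660 107969353 0) 384 448 192 256 256 320)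
  (go 16 Gd mult S198_227_290_364 (Tr.lf 9144927362 108231624 0) 384 448 192 256 320 384)) = true := by decide +kernel
  have c9 : (band (go 16 Gd mult S198_227_216_290 (Tr.lf 13439895618 103639881 0) 384 448 192 224 320 384)
  (go 16 Gd mult S227_256_216_290 (Tr.lf 13439895618 103647945 0) 384 448 192 224 320 384)) = true := by decide +kernel
  have c10 : (go 16 Gd mult S227_256_290_364 (Tr.lf 13438847042 103778761 0) 384 448 192 224 256 384) = true := by decide +kernel
  have c11 : (go 16 Gd mult S227_256_290_364 (Tr.lf 13439764514 107969608 0) 384 448 224 256 256 384) = true := by decide +kernel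
  (And.intro (Ok.s3 227 (Ok.s3 212 (Ok.lf S198_212_216_290_ok c0)
  (Ok.lf S212_227_216_290_ok c1))
  (Ok.lf S227_256_216_290_ok (bl c6)))
  (And.intro (Ok.s3 227 (Ok.lf S198_227_216_290_ok (bl c9))
  (Ok.lf S227_256_216_290_ok (br c9)))
  (And.intro (Ok.s3 227 (Ok.s2 320 (Ok.lf S198_227_216_290_ok (bl c7))
  (Ok.lf S198_227_216_290_ok (br (br c7))))
  (Ok.lf S227_256_216_290_ok c2))
  (And.intro (Ok.s3 227 (Ok.lf S198_227_216_290_ok (bl (br c7)))
  (Ok.lf S227_256_216_290_ok (br c6)))
  (And.intro (Ok.s0 448 (Ok.s3 227 (Ok.s2 320 (Ok.lf S198_227_290_364_ok (bl c8))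
  (Ok.lf S198_227_290_364_ok (br c8)))
  (Ok.s1 224 (Ok.lf S227_256_290_364_ok c10)
  (Ok.lf S227_256_290_364_ok c11)))
  (Ok.s3 227 (Ok.lf S198_227_290_364_ok (bl c4))
  (Ok.lf S227_256_290_364_ok (bl (br c4)))))
  (Ok.s3 227 (Ok.s0 448 (Ok.lf S198_227_364_512_ok c5)
  (Ok.lf S198_227_364_512_ok (br (br c4))))
  (Ok.lf S227_256_364_512_ok c3)))))))

end Vale.Agent.P098.Ck
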