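import Vale.Agent.P098.CkGd
import Vale.Agent.P098.CkOk
import Vale.Agent.P098.Sh.A27
import Vale.Agent.P098.Sh.A37
import Vale.Agent.P098.Sh.A38
import Vale.Agent.P098.Sh.A41
import Vale.Agent.P098.Sh.A42
import Vale.Agent.P098.Sh.A45
import Vale.Agent.P098.Sh.A46
import Vale.Agent.P098.Sh.A47
import Vale.Agent.P098.Sh.A48
import Vale.Agent.P098.Sh.A49
import Vale.Agent.P098.Sh.A51
import Vale.Agent.P098.Sh.A52

namespace Vale.Agent.P098.Ck

theorem r726 :
    Ok Gd mult 384 512 192 256 256 384 198 256 512 808 ∧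
    Ok Gd mult 384 512 192 256 256 384 256 372 216 808 :=
  have c0 : (band (go 16 Gd mult S256_285_216_364 (Tr.lf 13439092804 107969097 0) 384 512 192 256 256 384)
  (band (go 16 Gd mult S198_227_512_660 (Tr.lf 8599652420 103906375 0) 384 512 192 256 256 384)
  (go 16 Gd mult S343_372_660_808 (Tr.lf 4841556036 99851462 0) 384 512 192 256 256 384))) = true := by decide +kernel
  have c1 : (band (go 16 Gd mult S343_372_216_364 (Tr.lf 4841424964 99851462 0) 384 512 192 256 256 384)
  (band (go 16 Gd mult S343_372_364_512 (Tr.lf 4841424964 99851462 0) 384 512 192 256 256 384)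
  (band (go 16 Gd mult S343_372_512_660 (Tr.lf 4841424964 99851462 0) 384 512 192 256 256 384)
  (band (go 16 Gd mult S227_256_512_660 (Tr.lf 4303635522 112298950 0) 384 512 192 256 256 384)
  (band (go 16 Gd mult S198_227_660_808 (Tr.lf 4303635522 108231877 0) 384 512 192 256 256 384)
  (go 16 Gd mult S285_314_216_364 (Tr.lf 4295238722 104049605 0) 384 512 192 256 256 384)))))) = true := by decide +kernel
  have c2 : (band (go 16 Gd mult S256_285_364_512 (Tr.lf 13505938498 108108233 0) 384 512 192 256 256 384)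
  (band (go 16 Gd mult S314_343_512_660 (Tr.lf 4303635522 112426181 0) 384 512 192 256 256 384)
  (band (go 16 Gd mult S314_343_660_808 (Tr.lf 4304684098 108231878 0) 384 512 192 256 256 384)
  (band (go 16 Gd mult S285_314_364_512 (Tr.lf 9135465538 103914183 0) 384 512 192 256 256 384)
  (band (go 16 Gd mult S285_314_512_660 (Tr.lf 4303627330 112295109 0) 384 512 192 256 256 384)
  (band (go 16 Gd mult S285_314_660_808 (Tr.lf 4303635490 108235845 0) 384 512 192 256 256 384)
  (go 16 Gd mult S314_343_216_364 (Tr.lf 4295238722 108112837 0) 384 512 192 256 256 384))))))) = true := by decide +kernel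
  have c3 : (band (go 16 Gd mult S314_343_364_512 (Tr.lf 4295115842 108112837 0) 384 512 192 256 256 384)
  (band (go 16 Gd mult S227_256_660_808 (Tr.lf 4303627298 108366917 0) 384 512 192 256 256 384)
  (band (go 16 Gd mult S256_285_512_660 (Tr.lf 4295238690 108239813 0) 384 512 192 256 256 384)
  (go 16 Gd mult S256_285_660_808 (Tr.lf 4303627298 108235845 0) 384 512 192 256 256 384)))) = true := by decide +kernel
  (And.intro (Ok.s4 660 (Ok.s3 227 (Ok.lf S198_227_512_660_ok (bl (br c0)))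
  (Ok.lf S227_256_512_660_ok (bl (br (br (br c1))))))
  (Ok.s3 227 (Ok.lf S198_227_660_808_ok (bl (br (br (br (br c1))))))
  (Ok.lf S227_256_660_808_ok (bl (br c3)))))
  (Ok.s3 314 (Ok.s4 512 (Ok.s4 364 (Ok.s3 285 (Ok.lf S256_285_216_364_ok (bl c0))
  (Ok.lf S285_314_216_364_ok (br (br (br (br (br c1)))))))
  (Ok.s3 285 (Ok.lf S256_285_364_512_ok (bl c2))
  (Ok.lf S285_314_364_512_ok (bl (br (br (br c2)))))))
  (Ok.s4 660 (Ok.s3 285 (Ok.lf S256_285_512_660_ok (bl (br (br c3))))
  (Ok.lf S285_314_512_660_ok (bl (br (br (br (br c2)))))))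
  (Ok.s3 285 (Ok.lf S256_285_660_808_ok (br (br (br c3))))
  (Ok.lf S285_314_660_808_ok (bl (br (br (br (br (br c2))))))))))
  (Ok.s4 512 (Ok.s4 364 (Ok.s3 343 (Ok.lf S314_343_216_364_ok (br (br (br (br (br (br c2)))))))
  (Ok.lf S343_372_216_364_ok (bl c1)))
  (Ok.s3 343 (Ok.lf S314_343_364_512_ok (bl c3))
  (Ok.lf S343_372_364_512_ok (bl (br c1)))))
  (Ok.s4 660 (Ok.s3 343 (Ok.lf S314_343_512_660_ok (bl (br c2)))
  (Ok.lf S343_372_512_660_ok (bl (br (br c1)))))
  (Ok.s3 343 (Ok.lf S314_343_660_808_ok (bl (br (br c2))))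
  (Ok.lf S343_372_660_808_ok (br (br c0))))))))

end Vale.Agent.P098.Ck
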