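import Vale.Agent.P098.CkGd
import Vale.Agent.P098.CkOk
import Vale.Agent.P098.Sh.A54
import Vale.Agent.P098.Sh.A56
import Vale.Agent.P098.Sh.A57
import Vale.Agent.P098.Sh.A58
import Vale.Agent.P098.Sh.A59

namespace Vale.Agent.P098.Ck

theorem r727 :
    Ok Gd mult 384 512 192 256 256 384 372 430 216 364 ∧
    Ok Gd mult 384 512 192 256 256 384 372 430 364 512 ∧
    Ok Gd mult 384 512 192 256 256 384 372 430 512 808 ∧
    Ok Gd mult 384 512 192 256 256 384 430 488 216 364 :=
  have c0 : (go 16 Gd mult S401_430_512_660 (Tr.lf 9137457288 108104776 0) 384 512 192 256 256 384) = true := by decide +kernel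
  have c1 : (go 16 Gd mult S430_488_216_364 (Tr.lf 13960906888 103770698 0) 384 512 192 224 320 384) = true := by decide +kernel
  have c2 : (go 16 Gd mult S401_430_216_364 (Tr.lf 9129183368 108104648 0) 384 512 192 256 256 384) = true := by decide +kernel
  have c3 : (band (go 16 Gd mult S459_488_216_364 (Tr.lf 13960823944 107842377 0) 384 512 192 256 256 320)
  (go 16 Gd mult S430_459_216_364 (Tr.lf 13424018564 107969353 0) 384 512 192 256 256 320)) = true := by decide +kernel
  have c4 : (band (go 16 Gd mult S401_430_364_512 (Tr.lf 9137440836 108108744 0) 384 512 192 224 256 384)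
  (band (go 16 Gd mult S372_401_512_660 (Tr.lf 9137440836 108108744 0) 384 512 192 224 256 384)
  (band (go 16 Gd mult S372_401_660_808 (Tr.lf 9137440836 108108744 0) 384 512 192 224 256 384)
  (band (go 16 Gd mult S401_430_660_808 (Tr.lf 9137440836 108108744 0) 384 512 192 224 256 384)
  (go 16 Gd mult S372_401_216_364 (Tr.lf 4842473508 99720136 0) 384 512 192 224 256 384))))) = true := by decide +kernel
  have c5 : (go 16 Gd mult S372_401_364_512 (Tr.lf 4842473508 99720136 0) 384 512 192 224 256 384) = true := by decide +kernel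
  have c6 : (band (go 16 Gd mult S401_430_364_512 (Tr.lf 13432334372 103775177 0) 384 512 224 256 256 384)
  (band (go 16 Gd mult S401_430_660_808 (Tr.lf 13432341540 103775177 0) 384 512 224 256 256 384)
  (band (go 16 Gd mult S372_401_660_808 (Tr.lf 8591131682 104037319 0) 384 512 224 256 256 384)
  (band (go 16 Gd mult S372_401_512_660 (Tr.lf 8591066146 104037319 0) 384 512 224 256 256 384)
  (band (go 16 Gd mult S372_401_216_364 (Tr.lf 8591123490 104037319 0) 384 512 224 256 256 384)
  (go 16 Gd mult S372_401_364_512 (Tr.lf 8591123490 104037319 0) 384 512 224 256 256 384)))))) = true := by decide +kernel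
  have c7 : (go 16 Gd mult S430_488_216_364 (Tr.lf 8591066148 99978055 0) 384 512 224 256 320 384) = true := by decide +kernel
  (And.intro (Ok.s3 401 (Ok.s1 224 (Ok.lf S372_401_216_364_ok (br (br (br (br c4)))))
  (Ok.lf S372_401_216_364_ok (bl (br (br (br (br c6)))))))
  (Ok.lf S401_430_216_364_ok c2))
  (And.intro (Ok.s3 401 (Ok.s1 224 (Ok.lf S372_401_364_512_ok c5)
  (Ok.lf S372_401_364_512_ok (br (br (br (br (br c6)))))))
  (Ok.s1 224 (Ok.lf S401_430_364_512_ok (bl c4))
  (Ok.lf S401_430_364_512_ok (bl c6))))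
  (And.intro (Ok.s4 660 (Ok.s3 401 (Ok.s1 224 (Ok.lf S372_401_512_660_ok (bl (br c4)))
  (Ok.lf S372_401_512_660_ok (bl (br (br (br c6))))))
  (Ok.lf S401_430_512_660_ok c0))
  (Ok.s3 401 (Ok.s1 224 (Ok.lf S372_401_660_808_ok (bl (br (br c4))))
  (Ok.lf S372_401_660_808_ok (bl (br (br c6)))))
  (Ok.s1 224 (Ok.lf S401_430_660_808_ok (bl (br (br (br c4)))))
  (Ok.lf S401_430_660_808_ok (bl (br c6))))))
  (Ok.s2 320 (Ok.s3 459 (Ok.lf S430_459_216_364_ok (br c3))
  (Ok.lf S459_488_216_364_ok (bl c3)))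
  (Ok.s1 224 (Ok.lf S430_488_216_364_ok c1)
  (Ok.lf S430_488_216_364_ok c7))))))

end Vale.Agent.P098.Ck
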