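import Vale.Agent.P098.CkGd
import Vale.Agent.P098.CkOk
import Vale.Agent.P098.Sh.A0
import Vale.Agent.P098.Sh.A1
import Vale.Agent.P098.Sh.A3
import Vale.Agent.P098.Sh.A4
import Vale.Agent.P098.Sh.A58
import Vale.Agent.P098.Sh.A59

namespace Vale.Agent.P098.Ck

theorem r728 :
    Ok Gd mult 384 512 192 256 256 384 430 488 364 512 ∧
    Ok Gd mult 384 512 192 256 256 384 430 488 512 808 ∧
    Ok Gd mult 384 512 192 256 384 512 24 82 216 808 ∧
    Ok Gd mult 384 512 192 256 384 512 82 140 216 512 :=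
  have c0 : (band (go 16 Gd mult S459_488_364_512 (Tr.lf 13960824968 103774794 0) 384 512 192 256 320 384)
  (band (go 16 Gd mult S430_459_364_512 (Tr.lf 9665856648 95386696 0) 384 512 192 256 320 384)
  (band (go 16 Gd mult S430_459_364_512 (Tr.lf 13423953032 107969353 0) 384 512 192 256 256 320)
  (go 16 Gd mult S459_488_364_512 (Tr.lf 13960823944 107842377 0) 384 512 192 256 256 320)))) = true := by decide +kernel
  have c1 : (band (go 16 Gd mult S459_488_660_808 (Tr.lf 13960824968 107842377 0) 384 512 192 256 256 320)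
  (band (go 16 Gd mult S430_459_660_808 (Tr.lf 13424018568 99711817 0) 384 512 192 256 256 320)
  (band (go 16 Gd mult S430_459_512_660 (Tr.lf 13423953032 107969353 0) 384 512 192 256 256 320)
  (go 16 Gd mult S459_488_660_808 (Tr.lf 13960824900 99576394 0) 384 512 192 224 320 384)))) = true := by decide +kernel
  have c2 : (band (go 16 Gd mult S459_488_512_660 (Tr.lf 13960823944 107842377 0) 384 512 192 256 256 320)
  (band (go 16 Gd mult S459_488_512_660 (Tr.lf 13960824900 99576394 0) 384 512 192 224 320 384)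
  (band (go 16 Gd mult S430_459_660_808 (Tr.lf 9665922116 95382600 0) 384 512 192 224 320 384)
  (go 16 Gd mult S430_459_512_660 (Tr.lf 9665856580 95382600 0) 384 512 192 224 320 384)))) = true := by decide +kernel
  have c3 : (band (go 16 Gd mult S82_140_216_364 (Tr.lf 623019076 99978439 813556754067461588910080) 384 512 192 256 448 512)
  (go 16 Gd mult S82_140_364_512 (Tr.lf 622953540 99978439 791309993759650562965504) 384 512 192 256 448 512)) = true := by decide +kernel
  have c4 : (band (go 16 Gd mult S24_82_364_512 (Tr.lf 614549570 103914567 139715647783157912043520) 384 512 192 256 384 512)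
  (band (go 16 Gd mult S24_82_512_660 (Tr.lf 614549570 103914567 127928178324090482851840) 384 512 192 256 384 512)
  (band (go 16 Gd mult S24_82_660_808 (Tr.lf 614549570 103914567 114572740683842741796864) 384 512 192 256 384 512)
  (go 16 Gd mult S24_82_216_364 (Tr.lf 4295050306 95513159 144364232350174861393920) 384 512 192 256 384 512)))) = true := by decide +kernel
  have c5 : (band (go 16 Gd mult S430_488_512_660 (Tr.lf 8591066148 103914311 0) 384 512 224 256 320 384)
  (go 16 Gd mult S430_488_660_808 (Tr.lf 8591066148 99720007 0) 384 512 224 256 320 384)) = true := by decide +kernel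
  have c6 : (band (go 16 Gd mult S82_140_216_364 (Tr.lf 4295115330 99838790 0) 384 512 192 256 384 448)
  (go 16 Gd mult S82_140_364_512 (Tr.lf 4295049794 99838790 0) 384 512 192 256 384 448)) = true := by decide +kernel
  (And.intro (Ok.s2 320 (Ok.s3 459 (Ok.lf S430_459_364_512_ok (bl (br (br c0))))
  (Ok.lf S459_488_364_512_ok (br (br (br c0)))))
  (Ok.s3 459 (Ok.lf S430_459_364_512_ok (bl (br c0)))
  (Ok.lf S459_488_364_512_ok (bl c0))))
  (And.intro (Ok.s4 660 (Ok.s2 320 (Ok.s3 459 (Ok.lf S430_459_512_660_ok (bl (br (br c1))))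
  (Ok.lf S459_488_512_660_ok (bl c2)))
  (Ok.s1 224 (Ok.s3 459 (Ok.lf S430_459_512_660_ok (br (br (br c2))))
  (Ok.lf S459_488_512_660_ok (bl (br c2))))
  (Ok.lf S430_488_512_660_ok (bl c5))))
  (Ok.s2 320 (Ok.s3 459 (Ok.lf S430_459_660_808_ok (bl (br c1)))
  (Ok.lf S459_488_660_808_ok (bl c1)))
  (Ok.s1 224 (Ok.s3 459 (Ok.lf S430_459_660_808_ok (bl (br (br c2))))
  (Ok.lf S459_488_660_808_ok (br (br (br c1)))))
  (Ok.lf S430_488_660_808_ok (br c5)))))
  (And.intro (Ok.s4 512 (Ok.s4 364 (Ok.lf S24_82_216_364_ok (br (br (br c4))))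
  (Ok.lf S24_82_364_512_ok (bl c4)))
  (Ok.s4 660 (Ok.lf S24_82_512_660_ok (bl (br c4)))
  (Ok.lf S24_82_660_808_ok (bl (br (br c4))))))
  (Ok.s4 364 (Ok.s2 448 (Ok.lf S82_140_216_364_ok (bl c6))
  (Ok.lf S82_140_216_364_ok (bl c3)))
  (Ok.s2 448 (Ok.lf S82_140_364_512_ok (br c6))
  (Ok.lf S82_140_364_512_ok (br c3)))))))

end Vale.Agent.P098.Ck
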