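import Vale.Agent.P098.CkGd
import Vale.Agent.P098.CkOk
import Vale.Agent.P098.Sh.A11
import Vale.Agent.P098.Sh.A17
import Vale.Agent.P098.Sh.A25
import Vale.Agent.P098.Sh.A36
import Vale.Agent.P098.Sh.A4
import Vale.Agent.P098.Sh.A8

namespace Vale.Agent.P098.Ck

theorem r729 :
    Ok Gd mult 384 512 192 256 384 512 82 140 512 808 ∧
    Ok Gd mult 384 512 192 256 384 512 140 198 216 808 ∧
    Ok Gd mult 384 512 192 256 384 512 198 256 216 364 :=
  have c0 : (band (go 16 Gd mult S140_198_364_512 (Tr.lf 4303652996 104045382 0) 384 512 192 256 384 448)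
  (band (go 16 Gd mult S140_198_512_660 (Tr.lf 4303651908 103914565 0) 384 512 192 256 384 448)
  (go 16 Gd mult S140_169_216_364 (Tr.lf 4303495746 99720261 0) 384 512 192 256 384 448))) = true := by decide +kernel
  have c1 : (go 16 Gd mult S140_198_364_512 (Tr.lf 623150148 104168647 14116623457369893332950583346) 384 512 192 256 480 512) = true := by decide +kernel
  have c2 : (band (go 16 Gd mult S198_227_216_364 (Tr.lf 8598864964 91065159 0) 384 512 192 256 384 448)
  (band (go 16 Gd mult S140_198_660_808 (Tr.lf 4303651906 108235845 0) 384 512 192 256 384 448)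
  (band (go 16 Gd mult S227_256_216_364 (Tr.lf 8598602820 91323207 0) 384 512 192 256 384 448)
  (band (go 16 Gd mult S169_198_216_364 (Tr.lf 4303635522 104045637 0) 384 512 192 256 384 448)
  (band (go 16 Gd mult S82_140_512_660 (Tr.lf 4295049762 103902022 0) 384 512 192 256 384 448)
  (go 16 Gd mult S82_140_660_808 (Tr.lf 4295049762 103902022 0) 384 512 192 256 384 448)))))) = true := by decide +kernel
  have c3 : (band (go 16 Gd mult S140_198_512_660 (Tr.lf 8553538 108366789 0) 384 512 192 256 448 512)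
  (band (go 16 Gd mult S82_140_512_660 (Tr.lf 623002692 99978439 755799998188435770703872) 384 512 192 256 448 512)
  (band (go 16 Gd mult S140_169_216_364 (Tr.lf 623002692 104172743 643717581225417240477696) 384 512 192 256 448 512)
  (band (go 16 Gd mult S169_198_216_364 (Tr.lf 546587714 103918789 3983764236629454474105061405) 384 512 192 256 448 512)
  (band (go 16 Gd mult S198_227_216_364 (Tr.lf 4303635522 103910214 6466544209118651455503335424) 384 512 192 256 448 512)
  (band (go 16 Gd mult S82_140_660_808 (Tr.lf 623002690 104041671 712745305690825633562624) 384 512 192 256 448 512)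
  (go 16 Gd mult S140_198_660_808 (Tr.lf 8537154 112430021 0) 384 512 192 256 448 512))))))) = true := by decide +kernel
  have c4 : (go 16 Gd mult S140_198_364_512 (Tr.lf 8552994 104172485 980438839707464260686708736) 384 512 192 256 448 480) = true := by decide +kernel
  have c5 : (go 16 Gd mult S227_256_216_364 (Tr.lf 4303627298 99724229 6471379912397109972202160128) 384 512 192 256 448 512) = true := by decide +kernel
  (And.intro (Ok.s4 660 (Ok.s2 448 (Ok.lf S82_140_512_660_ok (bl (br (br (br (br c2))))))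
  (Ok.lf S82_140_512_660_ok (bl (br c3))))
  (Ok.s2 448 (Ok.lf S82_140_660_808_ok (br (br (br (br (br c2))))))
  (Ok.lf S82_140_660_808_ok (bl (br (br (br (br (br c3)))))))))
  (And.intro (Ok.s4 512 (Ok.s4 364 (Ok.s3 169 (Ok.s2 448 (Ok.lf S140_169_216_364_ok (br (br c0)))
  (Ok.lf S140_169_216_364_ok (bl (br (br c3)))))
  (Ok.s2 448 (Ok.lf S169_198_216_364_ok (bl (br (br (br c2)))))
  (Ok.lf S169_198_216_364_ok (bl (br (br (br c3)))))))
  (Ok.s2 448 (Ok.lf S140_198_364_512_ok (bl c0))
  (Ok.s2 480 (Ok.lf S140_198_364_512_ok c4)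
  (Ok.lf S140_198_364_512_ok c1))))
  (Ok.s4 660 (Ok.s2 448 (Ok.lf S140_198_512_660_ok (bl (br c0)))
  (Ok.lf S140_198_512_660_ok (bl c3)))
  (Ok.s2 448 (Ok.lf S140_198_660_808_ok (bl (br c2)))
  (Ok.lf S140_198_660_808_ok (br (br (br (br (br (br c3))))))))))
  (Ok.s3 227 (Ok.s2 448 (Ok.lf S198_227_216_364_ok (bl c2))
  (Ok.lf S198_227_216_364_ok (bl (br (br (br (br c3)))))))
  (Ok.s2 448 (Ok.lf S227_256_216_364_ok (bl (br (br c2))))
  (Ok.lf S227_256_216_364_ok c5)))))

end Vale.Agent.P098.Ck
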