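import Vale.Agent.P098.CkGd
import Vale.Agent.P098.CkOk
import Vale.Agent.P098.Sh.A14
import Vale.Agent.P098.Sh.A15
import Vale.Agent.P098.Sh.A19
import Vale.Agent.P098.Sh.A20
import Vale.Agent.P098.Sh.A21

namespace Vale.Agent.P098.Ck

theorem r73 :
    Ok Gd mult 0 128 128 160 384 448 183 198 216 364 ∧
    Ok Gd mult 0 128 160 192 384 448 169 198 216 364 ∧
    Ok Gd mult 0 128 128 160 448 480 169 198 216 364 :=
  have c0 : (go 16 Gd mult S183_198_216_364 (Tr.lf 13986449540 99195721 0) 64 128 128 160 416 448) = true := by decide +kernel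
  have c1 : (go 16 Gd mult S169_183_216_364 (Tr.lf 13978060872 99318856 0) 0 128 160 176 384 448) = true := by decide +kernel
  have c2 : (go 16 Gd mult S183_198_216_364 (Tr.lf 13441190020 99322824 459391811453559086388346880) 0 64 160 192 416 448) = true := by decide +kernel
  have c3 : (go 16 Gd mult S183_198_216_364 (Tr.lf 13986449540 103517256 0) 64 128 160 192 416 448) = true := by decide +kernel
  have c4 : (go 16 Gd mult S169_183_216_364 (Tr.lf 13978060872 99056712 8374821809464136433693) 0 128 128 144 448 480) = true := by decide +kernel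
  have c5 : (band (go 16 Gd mult S183_198_216_364 (Tr.lf 13441189956 86342601 0) 0 64 128 160 384 448)
  (go 16 Gd mult S183_198_216_364 (Tr.lf 13986448516 99327048 0) 64 128 160 192 384 416)) = true := by decide +kernel
  have c6 : (go 16 Gd mult S169_183_216_364 (Tr.lf 13440927816 99454151 236949460644467318242410496) 0 128 176 192 384 448) = true := by decide +kernel
  have c7 : (band (go 16 Gd mult S169_176_216_290 (Tr.lf 13977798728 103386311 6935975771714791407616) 0 128 144 160 448 480)
  (band (go 16 Gd mult S176_183_216_290 (Tr.lf 13977790536 103386311 0) 0 128 144 160 448 480)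
  (go 16 Gd mult S169_183_290_364 (Tr.lf 13977666632 107580615 0) 0 128 144 160 448 480))) = true := by decide +kernel
  have c8 : (band (go 16 Gd mult S183_198_290_364 (Tr.lf 13977798788 99056712 0) 0 64 128 160 448 480)
  (go 16 Gd mult S183_198_290_364 (Tr.lf 13986187396 103394248 0) 64 128 128 160 448 480)) = true := by decide +kernel
  have c9 : (band (go 16 Gd mult S183_198_216_290 (Tr.lf 13986187396 103394248 0) 64 128 128 160 448 480)
  (band (go 16 Gd mult S183_198_216_290 (Tr.lf 13977798724 99314760 7489378093926077956096) 0 64 128 144 448 480)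
  (go 16 Gd mult S183_198_216_290 (Tr.lf 13977798724 103386311 0) 0 64 144 160 448 480))) = true := by decide +kernel
  have c10 : (go 16 Gd mult S183_198_216_364 (Tr.lf 13440926852 94866504 37476700408053504415891456) 0 64 160 192 384 416) = true := by decide +kernel
  have c11 : (go 16 Gd mult S183_198_216_364 (Tr.lf 9144902178 99322823 0) 64 128 128 160 384 416) = true := by decide +kernel
  (And.intro (Ok.s0 64 (Ok.lf S183_198_216_364_ok (bl c5))
  (Ok.s2 416 (Ok.lf S183_198_216_364_ok c11)
  (Ok.lf S183_198_216_364_ok c0)))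
  (And.intro (Ok.s3 183 (Ok.s1 176 (Ok.lf S169_183_216_364_ok c1)
  (Ok.lf S169_183_216_364_ok c6))
  (Ok.s0 64 (Ok.s2 416 (Ok.lf S183_198_216_364_ok c10)
  (Ok.lf S183_198_216_364_ok c2))
  (Ok.s2 416 (Ok.lf S183_198_216_364_ok (br c5))
  (Ok.lf S183_198_216_364_ok c3))))
  (Ok.s3 183 (Ok.s1 144 (Ok.lf S169_183_216_364_ok c4)
  (Ok.s4 290 (Ok.s3 176 (Ok.lf S169_176_216_290_ok (bl c7))
  (Ok.lf S176_183_216_290_ok (bl (br c7))))
  (Ok.lf S169_183_290_364_ok (br (br c7)))))
  (Ok.s0 64 (Ok.s4 290 (Ok.s1 144 (Ok.lf S183_198_216_290_ok (bl (br c9)))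
  (Ok.lf S183_198_216_290_ok (br (br c9))))
  (Ok.lf S183_198_290_364_ok (bl c8)))
  (Ok.s4 290 (Ok.lf S183_198_216_290_ok (bl c9))
  (Ok.lf S183_198_290_364_ok (br c8)))))))

end Vale.Agent.P098.Ck
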