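import Vale.Agent.P098.CkGd
import Vale.Agent.P098.CkOk
import Vale.Agent.P098.Sh.A26
import Vale.Agent.P098.Sh.A27
import Vale.Agent.P098.Sh.A37
import Vale.Agent.P098.Sh.A38
import Vale.Agent.P098.Sh.A41
import Vale.Agent.P098.Sh.A42
import Vale.Agent.P098.Sh.A43
import Vale.Agent.P098.Sh.A44
import Vale.Agent.P098.Sh.A45
import Vale.Agent.P098.Sh.A46

namespace Vale.Agent.P098.Ck

theorem r730 :
    Ok Gd mult 384 512 192 256 384 512 198 256 364 512 ∧
    Ok Gd mult 384 512 192 256 384 512 198 256 512 808 ∧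
    Ok Gd mult 384 512 192 256 384 512 256 314 216 512 ∧
    Ok Gd mult 384 512 192 256 384 512 256 314 512 660 :=
  have c0 : (band (go 16 Gd mult S256_314_364_512 (Tr.lf 4303651908 104172613 0) 384 512 192 256 384 448)
  (band (go 16 Gd mult S256_314_512_660 (Tr.lf 4303651906 104041541 0) 384 512 192 256 384 448)
  (band (go 16 Gd mult S198_227_364_512 (Tr.lf 4303635522 108231877 0) 384 512 192 256 384 448)
  (band (go 16 Gd mult S227_256_364_512 (Tr.lf 4303635522 108231877 0) 384 512 192 256 384 448)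
  (band (go 16 Gd mult S198_227_512_660 (Tr.lf 4303635010 108108869 0) 384 512 192 256 384 448)
  (go 16 Gd mult S256_285_216_364 (Tr.lf 4303635010 112295109 0) 384 512 192 256 384 448)))))) = true := by decide +kernel
  have c1 : (band (go 16 Gd mult S198_227_660_808 (Tr.lf 4303636546 108235590 0) 384 512 192 256 384 512)
  (go 16 Gd mult S227_256_660_808 (Tr.lf 4303635522 104041541 0) 384 512 192 256 384 512)) = true := by decide +kernel
  have c2 : (band (go 16 Gd mult S256_314_364_512 (Tr.lf 4303651394 99847109 13915945109583996430042791936) 384 512 192 256 480 512)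
  (band (go 16 Gd mult S198_227_364_512 (Tr.lf 9576994 104168645 14335785662905647262746017821) 384 512 192 256 480 512)
  (band (go 16 Gd mult S198_227_364_512 (Tr.lf 4303495458 103787461 2342898238413151340580569088) 384 512 192 256 448 480)
  (go 16 Gd mult S256_314_364_512 (Tr.lf 4303635010 108108741 1208925819614629174706176) 384 512 192 256 448 480)))) = true := by decide +kernel
  have c3 : (band (go 16 Gd mult S227_256_364_512 (Tr.lf 4303627298 99724229 2691068874462164542895947776) 384 512 192 256 448 512)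
  (band (go 16 Gd mult S256_285_216_364 (Tr.lf 4303627298 104045509 4213106481356982673851023360) 384 512 192 256 448 512)
  (band (go 16 Gd mult S285_314_512_660 (Tr.lf 9585698 104172741 155948774400218586152960) 384 512 192 256 448 512)
  (band (go 16 Gd mult S198_227_512_660 (Tr.lf 4303496226 103787206 0) 384 512 192 256 448 512)
  (band (go 16 Gd mult S227_256_512_660 (Tr.lf 4303626786 104045509 0) 384 512 192 256 448 512)
  (band (go 16 Gd mult S285_314_216_364 (Tr.lf 4303496226 104045509 249038718840613609989472256) 384 512 192 256 448 512)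
  (band (go 16 Gd mult S256_285_512_660 (Tr.lf 4303495714 99851205 0) 384 512 192 256 448 512)
  (go 16 Gd mult S285_314_216_364 (Tr.lf 4303495714 108235845 0) 384 512 192 256 384 448)))))))) = true := by decide +kernel
  have c4 : (go 16 Gd mult S227_256_512_660 (Tr.lf 4303634978 104172613 0) 384 512 192 256 384 448) = true := by decide +kernel
  (And.intro (Ok.s3 227 (Ok.s2 448 (Ok.lf S198_227_364_512_ok (bl (br (br c0))))
  (Ok.s2 480 (Ok.lf S198_227_364_512_ok (bl (br (br c2))))
  (Ok.lf S198_227_364_512_ok (bl (br c2)))))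
  (Ok.s2 448 (Ok.lf S227_256_364_512_ok (bl (br (br (br c0)))))
  (Ok.lf S227_256_364_512_ok (bl c3))))
  (And.intro (Ok.s4 660 (Ok.s3 227 (Ok.s2 448 (Ok.lf S198_227_512_660_ok (bl (br (br (br (br c0))))))
  (Ok.lf S198_227_512_660_ok (bl (br (br (br c3))))))
  (Ok.s2 448 (Ok.lf S227_256_512_660_ok c4)
  (Ok.lf S227_256_512_660_ok (bl (br (br (br (br c3))))))))
  (Ok.s3 227 (Ok.lf S198_227_660_808_ok (bl c1))
  (Ok.lf S227_256_660_808_ok (br c1))))
  (And.intro (Ok.s4 364 (Ok.s3 285 (Ok.s2 448 (Ok.lf S256_285_216_364_ok (br (br (br (br (br c0))))))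
  (Ok.lf S256_285_216_364_ok (bl (br c3))))
  (Ok.s2 448 (Ok.lf S285_314_216_364_ok (br (br (br (br (br (br (br c3))))))))
  (Ok.lf S285_314_216_364_ok (bl (br (br (br (br (br c3)))))))))
  (Ok.s2 448 (Ok.lf S256_314_364_512_ok (bl c0))
  (Ok.s2 480 (Ok.lf S256_314_364_512_ok (br (br (br c2))))
  (Ok.lf S256_314_364_512_ok (bl c2)))))
  (Ok.s2 448 (Ok.lf S256_314_512_660_ok (bl (br c0)))
  (Ok.s3 285 (Ok.lf S256_285_512_660_ok (bl (br (br (br (br (br (br c3))))))))
  (Ok.lf S285_314_512_660_ok (bl (br (br c3)))))))))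

end Vale.Agent.P098.Ck
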