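import Vale.Agent.P098.CkGd
import Vale.Agent.P098.CkOk
import Vale.Agent.P098.Sh.A42
import Vale.Agent.P098.Sh.A46
import Vale.Agent.P098.Sh.A47
import Vale.Agent.P098.Sh.A48
import Vale.Agent.P098.Sh.A49
import Vale.Agent.P098.Sh.A51
import Vale.Agent.P098.Sh.A52

namespace Vale.Agent.P098.Ck

theorem r731 :
    Ok Gd mult 384 512 192 256 384 512 256 314 660 808 ∧
    Ok Gd mult 384 512 192 256 384 512 314 372 216 808 :=
  have c0 : (band (go 16 Gd mult S314_343_660_808 (Tr.lf 546867268 95525958 6050540341078452600832) 384 512 192 256 384 512)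
  (band (go 16 Gd mult S285_314_660_808 (Tr.lf 546588738 95395141 58347051611164579463168) 384 512 192 256 384 512)
  (go 16 Gd mult S256_285_660_808 (Tr.lf 4303627298 108231494 0) 384 512 192 256 384 512))) = true := by decide +kernel
  have c1 : (band (go 16 Gd mult S343_372_660_808 (Tr.lf 4841555012 103787590 0) 384 512 192 256 384 448)
  (band (go 16 Gd mult S343_372_512_660 (Tr.lf 4841423940 103787590 0) 384 512 192 256 384 448)
  (band (go 16 Gd mult S343_372_216_364 (Tr.lf 4841415748 99724358 0) 384 512 192 256 384 448)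
  (band (go 16 Gd mult S343_372_364_512 (Tr.lf 4841423938 95530054 0) 384 512 192 256 384 448)
  (band (go 16 Gd mult S314_343_512_660 (Tr.lf 4304552514 108235846 0) 384 512 192 256 384 448)
  (band (go 16 Gd mult S314_343_216_364 (Tr.lf 4304544322 112430150 0) 384 512 192 256 384 448)
  (go 16 Gd mult S314_343_364_512 (Tr.lf 4304544322 108235846 0) 384 512 192 256 384 448))))))) = true := by decide +kernel
  have c2 : (band (go 16 Gd mult S343_372_660_808 (Tr.lf 4304684100 103783366 9124123425543365929050570752) 384 512 192 256 480 512)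
  (band (go 16 Gd mult S343_372_216_364 (Tr.lf 4304553028 104041669 13213910858670174004720959488) 384 512 192 256 480 512)
  (band (go 16 Gd mult S343_372_364_512 (Tr.lf 4304553028 104041669 12943143258816536071144210432) 384 512 192 256 480 512)
  (band (go 16 Gd mult S343_372_512_660 (Tr.lf 8591131716 91179720 12260113710657650551022419968) 384 512 192 256 480 512)
  (band (go 16 Gd mult S343_372_660_808 (Tr.lf 4304683588 104045510 0) 384 512 192 256 448 480)
  (go 16 Gd mult S343_372_512_660 (Tr.lf 4304552516 104045510 0) 384 512 192 256 448 480)))))) = true := by decide +kernel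
  have c3 : (band (go 16 Gd mult S314_343_364_512 (Tr.lf 9716802 99851461 0) 384 512 192 256 448 512)
  (band (go 16 Gd mult S314_343_216_364 (Tr.lf 9708610 108108997 0) 384 512 192 256 448 512)
  (go 16 Gd mult S314_343_512_660 (Tr.lf 9585730 104172741 14443800610792615706624) 384 512 192 256 448 512))) = true := by decide +kernel
  have c4 : (band (go 16 Gd mult S343_372_364_512 (Tr.lf 4304552514 104045765 0) 384 512 192 256 448 480)
  (go 16 Gd mult S343_372_216_364 (Tr.lf 4304544322 104045765 0) 384 512 192 256 448 480)) = true := by decide +kernel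
  (And.intro (Ok.s3 285 (Ok.lf S256_285_660_808_ok (br (br c0)))
  (Ok.lf S285_314_660_808_ok (bl (br c0))))
  (Ok.s4 512 (Ok.s4 364 (Ok.s2 448 (Ok.s3 343 (Ok.lf S314_343_216_364_ok (bl (br (br (br (br (br c1)))))))
  (Ok.lf S343_372_216_364_ok (bl (br (br c1)))))
  (Ok.s3 343 (Ok.lf S314_343_216_364_ok (bl (br c3)))
  (Ok.s2 480 (Ok.lf S343_372_216_364_ok (br c4))
  (Ok.lf S343_372_216_364_ok (bl (br c2))))))
  (Ok.s2 448 (Ok.s3 343 (Ok.lf S314_343_364_512_ok (br (br (br (br (br (br c1)))))))
  (Ok.lf S343_372_364_512_ok (bl (br (br (br c1))))))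
  (Ok.s3 343 (Ok.lf S314_343_364_512_ok (bl c3))
  (Ok.s2 480 (Ok.lf S343_372_364_512_ok (bl c4))
  (Ok.lf S343_372_364_512_ok (bl (br (br c2))))))))
  (Ok.s4 660 (Ok.s3 343 (Ok.s2 448 (Ok.lf S314_343_512_660_ok (bl (br (br (br (br c1))))))
  (Ok.lf S314_343_512_660_ok (br (br c3))))
  (Ok.s2 448 (Ok.lf S343_372_512_660_ok (bl (br c1)))
  (Ok.s2 480 (Ok.lf S343_372_512_660_ok (br (br (br (br (br c2))))))
  (Ok.lf S343_372_512_660_ok (bl (br (br (br c2))))))))
  (Ok.s3 343 (Ok.lf S314_343_660_808_ok (bl c0))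
  (Ok.s2 448 (Ok.lf S343_372_660_808_ok (bl c1))
  (Ok.s2 480 (Ok.lf S343_372_660_808_ok (bl (br (br (br (br c2))))))
  (Ok.lf S343_372_660_808_ok (bl c2))))))))

end Vale.Agent.P098.Ck
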