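import Vale.Agent.P098.CkGd
import Vale.Agent.P098.CkOk
import Vale.Agent.P098.Sh.A54
import Vale.Agent.P098.Sh.A56
import Vale.Agent.P098.Sh.A57

namespace Vale.Agent.P098.Ck

theorem r732 :
    Ok Gd mult 384 512 192 256 384 448 372 430 216 364 ∧
    Ok Gd mult 384 512 192 256 448 512 372 430 216 364 ∧
    Ok Gd mult 384 512 192 256 384 512 372 430 364 512 ∧
    Ok Gd mult 384 512 192 256 384 448 372 430 512 660 ∧
    Ok Gd mult 384 448 192 256 448 512 372 430 512 660 ∧
    Ok Gd mult 448 512 192 256 448 480 372 430 512 660 :=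
  have c0 : (band (go 16 Gd mult S372_430_216_364 (Tr.lf 4842620040 103918535 3690850527283462870377955328) 384 512 192 256 448 480)
  (go 16 Gd mult S401_430_364_512 (Tr.lf 4842472584 99724231 3607434645730053457323229184) 384 512 192 256 448 480)) = true := by decide +kernel
  have c1 : (go 16 Gd mult S372_401_216_364 (Tr.lf 9129198728 103639880 14049344989855805376559054848) 384 512 192 256 480 512) = true := by decide +kernel
  have c2 : (go 16 Gd mult S401_430_216_364 (Tr.lf 4842620040 103783367 14478483901220806508633128960) 384 512 192 256 480 512) = true := by decide +kernel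
  have c3 : (band (go 16 Gd mult S372_401_512_660 (Tr.lf 9137587332 112040776 0) 448 512 192 256 448 480)
  (go 16 Gd mult S401_430_512_660 (Tr.lf 9137456260 103783240 3295531784269479130249035776) 448 512 192 256 448 480)) = true := by decide +kernel
  have c4 : (go 16 Gd mult S372_401_364_512 (Tr.lf 9137455752 103906120 13986370591046514766044463104) 384 512 192 256 480 496) = true := by decide +kernel
  have c5 : (go 16 Gd mult S401_430_364_512 (Tr.lf 9137456200 103648327 17904721160535710942011326464) 384 512 224 256 480 512) = true := by decide +kernel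
  have c6 : (band (go 16 Gd mult S372_401_512_660 (Tr.lf 4842473604 99724104 0) 384 512 192 256 384 448)
  (band (go 16 Gd mult S401_430_512_660 (Tr.lf 9137440900 108104648 0) 384 512 192 256 384 448)
  (band (go 16 Gd mult S372_401_216_364 (Tr.lf 4842472580 99724104 0) 384 512 192 256 384 448)
  (go 16 Gd mult S401_430_216_364 (Tr.lf 9137439876 108104648 0) 384 512 192 256 384 448)))) = true := by decide +kernel
  have c7 : (band (go 16 Gd mult S372_401_512_660 (Tr.lf 4842473602 99724231 368722374982461898285383680) 384 448 192 256 448 512)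
  (go 16 Gd mult S401_430_512_660 (Tr.lf 4842472578 99724231 3681179120726545836980305920) 384 448 192 256 448 512)) = true := by decide +kernel
  have c8 : (band (go 16 Gd mult S372_401_364_512 (Tr.lf 4842472580 99724104 0) 384 512 192 256 384 448)
  (band (go 16 Gd mult S401_430_364_512 (Tr.lf 9137439876 108104648 0) 384 512 192 256 384 448)
  (band (go 16 Gd mult S372_401_364_512 (Tr.lf 9137439876 112040776 401363372112056886002450432) 384 512 192 256 448 480)
  (band (go 16 Gd mult S401_430_364_512 (Tr.lf 9137439812 95386440 1990152938961066685431283712) 384 512 192 224 480 512)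
  (go 16 Gd mult S372_401_364_512 (Tr.lf 4842472004 103779526 20950486483464124546750087168) 384 512 192 256 496 512))))) = true := by decide +kernel
  (And.intro (Ok.s3 401 (Ok.lf S372_401_216_364_ok (bl (br (br c6))))
  (Ok.lf S401_430_216_364_ok (br (br (br c6)))))
  (And.intro (Ok.s2 480 (Ok.lf S372_430_216_364_ok (bl c0))
  (Ok.s3 401 (Ok.lf S372_401_216_364_ok c1)
  (Ok.lf S401_430_216_364_ok c2)))
  (And.intro (Ok.s2 448 (Ok.s3 401 (Ok.lf S372_401_364_512_ok (bl c8))
  (Ok.lf S401_430_364_512_ok (bl (br c8))))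
  (Ok.s2 480 (Ok.s3 401 (Ok.lf S372_401_364_512_ok (bl (br (br c8))))
  (Ok.lf S401_430_364_512_ok (br c0)))
  (Ok.s3 401 (Ok.s2 496 (Ok.lf S372_401_364_512_ok c4)
  (Ok.lf S372_401_364_512_ok (br (br (br (br c8))))))
  (Ok.s1 224 (Ok.lf S401_430_364_512_ok (bl (br (br (br c8)))))
  (Ok.lf S401_430_364_512_ok c5)))))
  (And.intro (Ok.s3 401 (Ok.lf S372_401_512_660_ok (bl c6))
  (Ok.lf S401_430_512_660_ok (bl (br c6))))
  (And.intro (Ok.s3 401 (Ok.lf S372_401_512_660_ok (bl c7))
  (Ok.lf S401_430_512_660_ok (br c7)))
  (Ok.s3 401 (Ok.lf S372_401_512_660_ok (bl c3))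
  (Ok.lf S401_430_512_660_ok (br c3))))))))

end Vale.Agent.P098.Ck
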