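import Vale.Agent.P098.CkGd
import Vale.Agent.P098.CkOk
import Vale.Agent.P098.Sh.A54
import Vale.Agent.P098.Sh.A56
import Vale.Agent.P098.Sh.A57

namespace Vale.Agent.P098.Ck

theorem r733 :
    Ok Gd mult 448 512 192 256 480 496 372 430 512 660 ∧
    Ok Gd mult 448 512 192 256 496 512 372 430 512 660 ∧
    Ok Gd mult 384 448 192 256 384 512 372 430 660 808 ∧
    Ok Gd mult 448 512 192 256 384 448 372 430 660 808 ∧
    Ok Gd mult 448 512 192 256 448 480 372 430 660 808 ∧
    Ok Gd mult 448 480 192 256 480 512 372 430 660 808 :=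
  have c0 : (band (go 16 Gd mult S372_401_512_660 (Tr.lf 13433603208 95247433 13001202559560873587609960448) 448 512 224 256 480 496)
  (band (go 16 Gd mult S401_430_512_660 (Tr.lf 13433472068 94989385 12152536283711429280809353216) 448 512 224 256 480 496)
  (go 16 Gd mult S401_430_512_660 (Tr.lf 9138504260 95386696 1391717336767394828976652288) 448 512 192 224 480 496))) = true := by decide +kernel
  have c1 : (band (go 16 Gd mult S372_401_660_808 (Tr.lf 13433604228 103640137 204998693631257034620928) 480 512 224 256 448 480)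
  (go 16 Gd mult S372_401_660_808 (Tr.lf 4842620033 103783367 11786183614358001484619055104) 448 480 192 256 480 512)) = true := by decide +kernel
  have c2 : (band (go 16 Gd mult S401_415_660_808 (Tr.lf 13424150660 99179082 1156962190109216758443278336) 448 512 192 256 448 480)
  (go 16 Gd mult S415_430_660_808 (Tr.lf 9137431170 99588936 3117819688786128641567227904) 448 512 192 256 448 480)) = true := by decide +kernel
  have c3 : (band (go 16 Gd mult S372_401_660_808 (Tr.lf 4842604674 99724231 0) 384 448 192 256 448 512)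
  (band (go 16 Gd mult S401_430_660_808 (Tr.lf 4842472578 99724231 3514347357619727010870853632) 384 448 192 256 448 512)
  (band (go 16 Gd mult S401_430_660_808 (Tr.lf 9137439874 103918408 0) 384 448 192 256 384 448)
  (band (go 16 Gd mult S372_401_660_808 (Tr.lf 9137439874 103918408 0) 384 448 192 256 384 448)
  (go 16 Gd mult S372_401_660_808 (Tr.lf 9137440898 108104648 0) 448 512 192 256 384 448))))) = true := by decide +kernel
  have c4 : (go 16 Gd mult S372_401_512_660 (Tr.lf 9138635332 103775304 243939756978905056018432) 448 512 192 224 480 496) = true := by decide +kernel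
  have c5 : (go 16 Gd mult S401_430_660_808 (Tr.lf 4842488961 99589063 10232674109632747856199680000) 448 480 192 256 480 512) = true := by decide +kernel
  have c6 : (go 16 Gd mult S372_401_660_808 (Tr.lf 9137587265 103779144 0) 480 512 192 224 448 480) = true := by decide +kernel
  have c7 : (go 16 Gd mult S401_430_660_808 (Tr.lf 4842472578 99716040 0) 448 512 192 256 384 448) = true := by decide +kernel
  have c8 : (band (go 16 Gd mult S401_430_512_660 (Tr.lf 4842472066 103787590 15462981946961690556152938496) 448 512 192 256 496 512)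
  (go 16 Gd mult S372_401_512_660 (Tr.lf 4842472002 107973830 17658776661916556877562184637) 448 512 192 256 496 512)) = true := by decide +kernel
  have c9 : (go 16 Gd mult S372_401_660_808 (Tr.lf 4842472001 99724231 0) 448 480 192 256 448 480) = true := by decide +kernel
  (And.intro (Ok.s3 401 (Ok.s1 224 (Ok.lf S372_401_512_660_ok c4)
  (Ok.lf S372_401_512_660_ok (bl c0)))
  (Ok.s1 224 (Ok.lf S401_430_512_660_ok (br (br c0)))
  (Ok.lf S401_430_512_660_ok (bl (br c0)))))
  (And.intro (Ok.s3 401 (Ok.lf S372_401_512_660_ok (br c8))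
  (Ok.lf S401_430_512_660_ok (bl c8)))
  (And.intro (Ok.s3 401 (Ok.s2 448 (Ok.lf S372_401_660_808_ok (bl (br (br (br c3)))))
  (Ok.lf S372_401_660_808_ok (bl c3)))
  (Ok.s2 448 (Ok.lf S401_430_660_808_ok (bl (br (br c3))))
  (Ok.lf S401_430_660_808_ok (bl (br c3)))))
  (And.intro (Ok.s3 401 (Ok.lf S372_401_660_808_ok (br (br (br (br c3)))))
  (Ok.lf S401_430_660_808_ok c7))
  (And.intro (Ok.s3 401 (Ok.s0 480 (Ok.lf S372_401_660_808_ok c9)
  (Ok.s1 224 (Ok.lf S372_401_660_808_ok c6)
  (Ok.lf S372_401_660_808_ok (bl c1))))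
  (Ok.s3 415 (Ok.lf S401_415_660_808_ok (bl c2))
  (Ok.lf S415_430_660_808_ok (br c2))))
  (Ok.s3 401 (Ok.lf S372_401_660_808_ok (br c1))
  (Ok.lf S401_430_660_808_ok c5)))))))

end Vale.Agent.P098.Ck
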