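import Vale.Agent.P098.CkGd
import Vale.Agent.P098.CkOk
import Vale.Agent.P098.Sh.A53
import Vale.Agent.P098.Sh.A54
import Vale.Agent.P098.Sh.A56
import Vale.Agent.P098.Sh.A57
import Vale.Agent.P098.Sh.A58
import Vale.Agent.P098.Sh.A59

namespace Vale.Agent.P098.Ck

theorem r734 :
    Ok Gd mult 480 512 192 256 480 488 372 401 660 808 ∧
    Ok Gd mult 480 512 192 256 480 488 401 430 660 808 ∧
    Ok Gd mult 480 512 192 256 488 496 372 430 660 808 ∧
    Ok Gd mult 480 512 192 256 496 512 372 430 660 808 ∧
    Ok Gd mult 384 512 192 256 384 512 430 488 216 364 ∧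
    Ok Gd mult 384 512 192 256 384 448 430 488 364 512 :=
  have c0 : (band (go 16 Gd mult S372_401_660_808 (Tr.lf 9138898052 107969608 11338479272576081996558630912) 480 512 192 256 488 496)
  (go 16 Gd mult S401_430_660_808 (Tr.lf 9138635396 103775304 8157794906206251726005075968) 480 512 192 256 488 496)) = true := by decide +kernel
  have c1 : (go 16 Gd mult S430_488_216_364 (Tr.lf 9665939528 99441736 0) 384 512 192 224 384 448) = true := by decide +kernel
  have c2 : (go 16 Gd mult S430_488_216_364 (Tr.lf 5371954312 91057097 6443574618545973501183918080) 384 512 192 256 448 480) = true := by decide +kernel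
  have c3 : (band (go 16 Gd mult S459_488_216_364 (Tr.lf 5371954312 103640136 14592943568568188767878250496) 384 512 192 256 480 496)
  (band (go 16 Gd mult S430_459_216_364 (Tr.lf 5380391556 91196233 14585690013650500992830013440) 384 512 192 256 480 496)
  (band (go 16 Gd mult S459_488_216_364 (Tr.lf 5371953800 99572808 21564809362988125224633501573) 384 512 192 256 496 512)
  (go 16 Gd mult S430_459_216_364 (Tr.lf 5380391560 99581000 21579323094799011605881684422) 384 512 192 256 496 512)))) = true := by decide +kernel
  have c4 : (go 16 Gd mult S401_430_660_808 (Tr.lf 13978862212 99191881 7464284157859127536102932480) 480 512 224 256 480 488) = true := by decide +kernel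
  have c5 : (band (go 16 Gd mult S430_459_364_512 (Tr.lf 9128986756 108104520 0) 384 512 192 256 384 448)
  (go 16 Gd mult S459_488_364_512 (Tr.lf 9665857668 99445832 0) 384 512 192 256 384 448)) = true := by decide +kernel
  have c6 : (band (go 16 Gd mult S386_401_660_808 (Tr.lf 13970473602 107707337 6938401426326763845105745920) 496 512 224 256 480 488)
  (go 16 Gd mult S372_386_660_808 (Tr.lf 9137430849 103906375 7502976185120499474559401984) 496 512 224 256 480 488)) = true := by decide +kernel
  have c7 : (go 16 Gd mult S372_401_660_808 (Tr.lf 13433602689 95116361 249990288916235748900864) 496 512 192 224 480 488) = true := by decide +kernel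
  have c8 : (go 16 Gd mult S401_430_660_808 (Tr.lf 13433471618 86727498 249436895038273763672064) 480 512 192 224 480 488) = true := by decide +kernel
  have c9 : (band (go 16 Gd mult S401_430_660_808 (Tr.lf 4842472065 99593286 10170440144683833204817264640) 480 512 192 256 496 512)
  (go 16 Gd mult S372_401_660_808 (Tr.lf 4305732161 108108870 14239934444716310601935162721) 480 512 192 256 496 512)) = true := by decide +kernel
  have c10 : (go 16 Gd mult S372_401_660_808 (Tr.lf 9137439105 107969607 9272612890041420547025272832) 480 496 192 256 480 488) = true := by decide +kernel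
  have c11 : (go 16 Gd mult S430_488_216_364 (Tr.lf 4832969762 95521862 0) 384 512 224 256 384 448) = true := by decide +kernel
  (And.intro (Ok.s0 496 (Ok.lf S372_401_660_808_ok c10)
  (Ok.s1 224 (Ok.lf S372_401_660_808_ok c7)
  (Ok.s3 386 (Ok.lf S372_386_660_808_ok (br c6))
  (Ok.lf S386_401_660_808_ok (bl c6)))))
  (And.intro (Ok.s1 224 (Ok.lf S401_430_660_808_ok c8)
  (Ok.lf S401_430_660_808_ok c4))
  (And.intro (Ok.s3 401 (Ok.lf S372_401_660_808_ok (bl c0))
  (Ok.lf S401_430_660_808_ok (br c0)))
  (And.intro (Ok.s3 401 (Ok.lf S372_401_660_808_ok (br c9))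
  (Ok.lf S401_430_660_808_ok (bl c9)))
  (And.intro (Ok.s2 448 (Ok.s1 224 (Ok.lf S430_488_216_364_ok c1)
  (Ok.lf S430_488_216_364_ok c11))
  (Ok.s2 480 (Ok.lf S430_488_216_364_ok c2)
  (Ok.s2 496 (Ok.s3 459 (Ok.lf S430_459_216_364_ok (bl (br c3)))
  (Ok.lf S459_488_216_364_ok (bl c3)))
  (Ok.s3 459 (Ok.lf S430_459_216_364_ok (br (br (br c3))))
  (Ok.lf S459_488_216_364_ok (bl (br (br c3))))))))
  (Ok.s3 459 (Ok.lf S430_459_364_512_ok (bl c5))
  (Ok.lf S459_488_364_512_ok (br c5))))))))

end Vale.Agent.P098.Ck
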