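import Vale.Agent.P098.CkGd
import Vale.Agent.P098.CkOk
import Vale.Agent.P098.Sh.A58
import Vale.Agent.P098.Sh.A59

namespace Vale.Agent.P098.Ck

theorem r735 :
    Ok Gd mult 384 512 192 256 448 512 430 488 364 512 ∧
    Ok Gd mult 384 512 192 256 384 512 430 488 512 808 :=
  have c0 : (band (go 16 Gd mult S430_488_660_808 (Tr.lf 5372019848 91057097 6442365692726358872009211904) 384 512 192 256 448 480)
  (go 16 Gd mult S430_488_364_512 (Tr.lf 5371954312 91057097 6443574618545973501183918080) 384 512 192 256 448 480)) = true := by decide +kernel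
  have c1 : (go 16 Gd mult S430_488_512_660 (Tr.lf 5371954312 91057097 6443574618545973501183918080) 384 512 192 256 448 480) = true := by decide +kernel
  have c2 : (band (go 16 Gd mult S459_488_512_660 (Tr.lf 5371954312 103640136 14592943568568188767878250496) 384 512 192 256 480 496)
  (band (go 16 Gd mult S459_488_660_808 (Tr.lf 5371954312 103640136 14592943568568188767878250496) 384 512 192 256 480 496)
  (band (go 16 Gd mult S430_459_512_660 (Tr.lf 5380391560 95390537 14584481087830886363655307264) 384 512 192 256 480 496)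
  (go 16 Gd mult S459_488_364_512 (Tr.lf 5371937416 103640136 14592943568568188767878250496) 384 512 192 256 480 496)))) = true := by decide +kernel
  have c3 : (band (go 16 Gd mult S430_459_660_808 (Tr.lf 9129052292 108104520 0) 384 512 192 256 384 448)
  (band (go 16 Gd mult S430_459_512_660 (Tr.lf 9128986756 108104520 0) 384 512 192 256 384 448)
  (band (go 16 Gd mult S459_488_512_660 (Tr.lf 9665857668 99445832 0) 384 512 192 256 384 448)
  (go 16 Gd mult S459_488_660_808 (Tr.lf 9665857668 99445832 0) 384 512 192 256 384 448)))) = true := by decide +kernel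
  have c4 : (band (go 16 Gd mult S459_488_364_512 (Tr.lf 9666921096 107695049 21564809916390447435805951877) 384 512 192 256 496 512)
  (band (go 16 Gd mult S459_488_512_660 (Tr.lf 9666921096 107695049 21564809916390447435805951877) 384 512 192 256 496 512)
  (band (go 16 Gd mult S459_488_660_808 (Tr.lf 9666921096 107695049 21564809916390447435805951877) 384 512 192 256 496 512)
  (go 16 Gd mult S430_459_660_808 (Tr.lf 5380391560 95386696 21580532020583158433777582438) 384 512 192 256 496 512)))) = true := by decide +kernel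
  have c5 : (band (go 16 Gd mult S430_459_364_512 (Tr.lf 5380326024 95386696 21579323426831958729142174132) 384 512 192 256 496 512)
  (band (go 16 Gd mult S430_459_512_660 (Tr.lf 5380326024 95386696 21579321655931016854137995670) 384 512 192 256 496 512)
  (band (go 16 Gd mult S430_459_364_512 (Tr.lf 5380326020 91196233 14584481087830886363655307264) 384 512 192 256 480 496)
  (go 16 Gd mult S430_459_660_808 (Tr.lf 5380391556 91196233 14584481087830886363655307264) 384 512 192 256 480 496)))) = true := by decide +kernel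
  (And.intro (Ok.s2 480 (Ok.lf S430_488_364_512_ok (br c0))
  (Ok.s2 496 (Ok.s3 459 (Ok.lf S430_459_364_512_ok (bl (br (br c5))))
  (Ok.lf S459_488_364_512_ok (br (br (br c2)))))
  (Ok.s3 459 (Ok.lf S430_459_364_512_ok (bl c5))
  (Ok.lf S459_488_364_512_ok (bl c4)))))
  (Ok.s4 660 (Ok.s2 448 (Ok.s3 459 (Ok.lf S430_459_512_660_ok (bl (br c3)))
  (Ok.lf S459_488_512_660_ok (bl (br (br c3)))))
  (Ok.s2 480 (Ok.lf S430_488_512_660_ok c1)
  (Ok.s2 496 (Ok.s3 459 (Ok.lf S430_459_512_660_ok (bl (br (br c2))))
  (Ok.lf S459_488_512_660_ok (bl c2)))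
  (Ok.s3 459 (Ok.lf S430_459_512_660_ok (bl (br c5)))
  (Ok.lf S459_488_512_660_ok (bl (br c4)))))))
  (Ok.s2 448 (Ok.s3 459 (Ok.lf S430_459_660_808_ok (bl c3))
  (Ok.lf S459_488_660_808_ok (br (br (br c3)))))
  (Ok.s2 480 (Ok.lf S430_488_660_808_ok (bl c0))
  (Ok.s2 496 (Ok.s3 459 (Ok.lf S430_459_660_808_ok (br (br (br c5))))
  (Ok.lf S459_488_660_808_ok (bl (br c2))))
  (Ok.s3 459 (Ok.lf S430_459_660_808_ok (br (br (br c4))))
  (Ok.lf S459_488_660_808_ok (bl (br (br c4))))))))))

end Vale.Agent.P098.Ck
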