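import Vale.Agent.P098.CkGd
import Vale.Agent.P098.CkOk
import Vale.Agent.P098.Sh.A0
import Vale.Agent.P098.Sh.A1
import Vale.Agent.P098.Sh.A10
import Vale.Agent.P098.Sh.A11
import Vale.Agent.P098.Sh.A17
import Vale.Agent.P098.Sh.A18
import Vale.Agent.P098.Sh.A19
import Vale.Agent.P098.Sh.A3
import Vale.Agent.P098.Sh.A4
import Vale.Agent.P098.Sh.A8
import Vale.Agent.P098.Sh.A9

namespace Vale.Agent.P098.Ck

theorem r736 :
    Ok Gd mult 384 512 256 320 0 128 24 82 216 808 ∧
    Ok Gd mult 384 512 256 320 0 128 82 140 216 808 ∧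
    Ok Gd mult 384 512 256 320 0 128 140 198 216 808 :=
  have c0 : (band (go 16 Gd mult S82_140_364_512 (Tr.lf 13422987400 103644231 0) 384 512 256 320 0 128)
  (go 16 Gd mult S140_169_216_364 (Tr.lf 13422052484 103906119 0) 384 512 256 320 0 128)) = true := by decide +kernel
  have c1 : (band (go 16 Gd mult S82_140_512_660 (Tr.lf 13422987400 103644231 0) 384 512 256 320 0 128)
  (band (go 16 Gd mult S169_198_216_364 (Tr.lf 13422052388 108227527 0) 384 512 256 320 0 128)
  (go 16 Gd mult S169_198_364_512 (Tr.lf 13421921348 104033223 0) 384 512 256 320 0 128))) = true := by decide +kernel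
  have c2 : (band (go 16 Gd mult S82_140_660_808 (Tr.lf 13423117448 103644231 0) 384 512 256 320 0 128)
  (band (go 16 Gd mult S24_82_364_512 (Tr.lf 8590017602 99716165 0) 384 512 256 320 0 128)
  (band (go 16 Gd mult S24_82_512_660 (Tr.lf 8590017602 99716165 0) 384 512 256 320 0 128)
  (go 16 Gd mult S24_82_660_808 (Tr.lf 8590017602 99716165 0) 384 512 256 320 0 128)))) = true := by decide +kernel
  have c3 : (go 16 Gd mult S140_198_660_808 (Tr.lf 13422330952 99703751 0) 384 512 256 288 0 128) = true := by decide +kernel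
  have c4 : (go 16 Gd mult S82_140_216_364 (Tr.lf 8590230600 104041541 0) 384 512 256 288 0 128) = true := by decide +kernel
  have c5 : (band (go 16 Gd mult S140_169_364_512 (Tr.lf 13422052488 107834311 0) 384 512 256 320 0 128)
  (band (go 16 Gd mult S140_169_512_660 (Tr.lf 13422052488 103640007 0) 384 512 256 320 0 128)
  (go 16 Gd mult S24_82_216_364 (Tr.lf 8590017570 95521861 0) 384 512 256 320 0 128))) = true := by decide +kernel
  have c6 : (go 16 Gd mult S169_198_512_660 (Tr.lf 13422052488 108096455 0) 384 512 256 320 0 128) = true := by decide +kernel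
  have c7 : (band (go 16 Gd mult S82_140_216_364 (Tr.lf 13422969892 103771207 0) 384 512 288 320 0 128)
  (go 16 Gd mult S140_198_660_808 (Tr.lf 13422051876 103906119 0) 384 512 288 320 0 128)) = true := by decide +kernel
  (And.intro (Ok.s4 512 (Ok.s4 364 (Ok.lf S24_82_216_364_ok (br (br c5)))
  (Ok.lf S24_82_364_512_ok (bl (br c2))))
  (Ok.s4 660 (Ok.lf S24_82_512_660_ok (bl (br (br c2))))
  (Ok.lf S24_82_660_808_ok (br (br (br c2))))))
  (And.intro (Ok.s4 512 (Ok.s4 364 (Ok.s1 288 (Ok.lf S82_140_216_364_ok c4)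
  (Ok.lf S82_140_216_364_ok (bl c7)))
  (Ok.lf S82_140_364_512_ok (bl c0)))
  (Ok.s4 660 (Ok.lf S82_140_512_660_ok (bl c1))
  (Ok.lf S82_140_660_808_ok (bl c2))))
  (Ok.s4 512 (Ok.s4 364 (Ok.s3 169 (Ok.lf S140_169_216_364_ok (br c0))
  (Ok.lf S169_198_216_364_ok (bl (br c1))))
  (Ok.s3 169 (Ok.lf S140_169_364_512_ok (bl c5))
  (Ok.lf S169_198_364_512_ok (br (br c1)))))
  (Ok.s4 660 (Ok.s3 169 (Ok.lf S140_169_512_660_ok (bl (br c5)))
  (Ok.lf S169_198_512_660_ok c6))
  (Ok.s1 288 (Ok.lf S140_198_660_808_ok c3)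
  (Ok.lf S140_198_660_808_ok (br c7)))))))

end Vale.Agent.P098.Ck
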