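import Vale.Agent.P098.CkGd
import Vale.Agent.P098.CkOk
import Vale.Agent.P098.Sh.A25
import Vale.Agent.P098.Sh.A26
import Vale.Agent.P098.Sh.A27
import Vale.Agent.P098.Sh.A36
import Vale.Agent.P098.Sh.A37
import Vale.Agent.P098.Sh.A38
import Vale.Agent.P098.Sh.A41
import Vale.Agent.P098.Sh.A42
import Vale.Agent.P098.Sh.A45
import Vale.Agent.P098.Sh.A46

namespace Vale.Agent.P098.Ck

theorem r737 :
    Ok Gd mult 384 512 256 320 0 128 198 256 216 512 ∧
    Ok Gd mult 384 512 256 320 0 128 198 256 512 808 ∧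
    Ok Gd mult 384 512 256 320 0 128 256 314 216 808 :=
  have c0 : (band (go 16 Gd mult S198_227_660_808 (Tr.lf 13430703240 103779271 0) 384 512 256 320 0 128)
  (go 16 Gd mult S227_256_216_364 (Tr.lf 17725670468 99580617 0) 384 512 256 320 0 128)) = true := by decide +kernel
  have c1 : (band (go 16 Gd mult S256_285_364_512 (Tr.lf 13422314632 103906247 0) 384 512 256 320 0 128)
  (go 16 Gd mult S227_256_364_512 (Tr.lf 13422052484 104037319 0) 384 512 256 320 0 128)) = true := by decide +kernel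
  have c2 : (band (go 16 Gd mult S285_314_364_512 (Tr.lf 13422314632 99838919 0) 384 512 256 320 0 128)
  (go 16 Gd mult S256_285_660_808 (Tr.lf 13497549956 104045383 0) 384 512 256 320 0 128)) = true := by decide +kernel
  have c3 : (band (go 16 Gd mult S285_314_512_660 (Tr.lf 13430703240 99584967 0) 384 512 256 320 0 128)
  (band (go 16 Gd mult S285_314_660_808 (Tr.lf 13497549892 99851079 0) 384 512 256 320 0 128)
  (go 16 Gd mult S198_227_364_512 (Tr.lf 13422044228 108100551 0) 384 512 256 320 0 128))) = true := by decide +kernel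
  have c4 : (band (go 16 Gd mult S198_227_216_364 (Tr.lf 17725670472 99580617 0) 384 512 256 320 0 128)
  (band (go 16 Gd mult S256_285_216_364 (Tr.lf 13422044228 104037319 0) 384 512 256 320 0 128)
  (go 16 Gd mult S285_314_216_364 (Tr.lf 13422043716 104033223 0) 384 512 256 320 0 128))) = true := by decide +kernel
  have c5 : (band (go 16 Gd mult S198_227_512_660 (Tr.lf 13422314568 99707847 0) 384 512 256 288 0 128)
  (go 16 Gd mult S227_256_512_660 (Tr.lf 13422314568 99707847 0) 384 512 256 288 0 128)) = true := by decide +kernel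
  have c6 : (band (go 16 Gd mult S256_285_512_660 (Tr.lf 13497812040 99847111 0) 384 512 256 288 0 128)
  (go 16 Gd mult S227_256_660_808 (Tr.lf 13497812036 104037319 0) 384 512 256 288 0 128)) = true := by decide +kernel
  have c7 : (band (go 16 Gd mult S198_227_512_660 (Tr.lf 13422043684 103902151 0) 384 512 288 320 0 128)
  (band (go 16 Gd mult S256_285_512_660 (Tr.lf 13430432292 103779271 0) 384 512 288 320 0 128)
  (band (go 16 Gd mult S227_256_660_808 (Tr.lf 13430432292 103914311 0) 384 512 288 320 0 128)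
  (go 16 Gd mult S227_256_512_660 (Tr.lf 13422043684 103902151 0) 384 512 288 320 0 128)))) = true := by decide +kernel
  (And.intro (Ok.s4 364 (Ok.s3 227 (Ok.lf S198_227_216_364_ok (bl c4))
  (Ok.lf S227_256_216_364_ok (br c0)))
  (Ok.s3 227 (Ok.lf S198_227_364_512_ok (br (br c3)))
  (Ok.lf S227_256_364_512_ok (br c1))))
  (And.intro (Ok.s4 660 (Ok.s3 227 (Ok.s1 288 (Ok.lf S198_227_512_660_ok (bl c5))
  (Ok.lf S198_227_512_660_ok (bl c7)))
  (Ok.s1 288 (Ok.lf S227_256_512_660_ok (br c5))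
  (Ok.lf S227_256_512_660_ok (br (br (br c7))))))
  (Ok.s3 227 (Ok.lf S198_227_660_808_ok (bl c0))
  (Ok.s1 288 (Ok.lf S227_256_660_808_ok (br c6))
  (Ok.lf S227_256_660_808_ok (bl (br (br c7)))))))
  (Ok.s4 512 (Ok.s4 364 (Ok.s3 285 (Ok.lf S256_285_216_364_ok (bl (br c4)))
  (Ok.lf S285_314_216_364_ok (br (br c4))))
  (Ok.s3 285 (Ok.lf S256_285_364_512_ok (bl c1))
  (Ok.lf S285_314_364_512_ok (bl c2))))
  (Ok.s4 660 (Ok.s3 285 (Ok.s1 288 (Ok.lf S256_285_512_660_ok (bl c6))
  (Ok.lf S256_285_512_660_ok (bl (br c7))))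
  (Ok.lf S285_314_512_660_ok (bl c3)))
  (Ok.s3 285 (Ok.lf S256_285_660_808_ok (br c2))
  (Ok.lf S285_314_660_808_ok (bl (br c3))))))))

end Vale.Agent.P098.Ck
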