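import Vale.Agent.P098.CkGd
import Vale.Agent.P098.CkOk
import Vale.Agent.P098.Sh.A0
import Vale.Agent.P098.Sh.A1
import Vale.Agent.P098.Sh.A48
import Vale.Agent.P098.Sh.A49
import Vale.Agent.P098.Sh.A52
import Vale.Agent.P098.Sh.A54
import Vale.Agent.P098.Sh.A55
import Vale.Agent.P098.Sh.A58
import Vale.Agent.P098.Sh.A59

namespace Vale.Agent.P098.Ck

theorem r738 :
    Ok Gd mult 384 512 256 320 0 128 314 372 216 512 ∧
    Ok Gd mult 384 512 256 320 0 128 314 372 512 808 ∧
    Ok Gd mult 384 512 256 320 0 128 372 488 216 808 ∧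
    Ok Gd mult 384 512 256 320 128 256 24 82 216 808 :=
  have c0 : (go 16 Gd mult S314_372_364_512 (Tr.lf 13422330952 103902151 0) 384 512 256 288 0 128) = true := by decide +kernel
  have c1 : (band (go 16 Gd mult S314_343_512_660 (Tr.lf 13430703240 99716039 0) 384 512 256 320 0 128)
  (band (go 16 Gd mult S372_430_512_660 (Tr.lf 13421937732 103906247 0) 384 512 256 320 0 128)
  (go 16 Gd mult S314_372_216_364 (Tr.lf 13422051908 108096455 0) 384 512 256 320 0 128))) = true := by decide +kernel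
  have c2 : (band (go 16 Gd mult S314_343_660_808 (Tr.lf 13430457480 99584967 0) 384 512 256 320 0 128)
  (band (go 16 Gd mult S372_430_660_808 (Tr.lf 13421937732 99711943 0) 384 512 256 320 0 128)
  (go 16 Gd mult S372_430_216_364 (Tr.lf 13421921348 107969479 0) 384 512 256 320 0 128))) = true := by decide +kernel
  have c3 : (band (go 16 Gd mult S343_372_660_808 (Tr.lf 13422068872 99580871 0) 384 512 256 320 0 128)
  (band (go 16 Gd mult S372_430_364_512 (Tr.lf 13421921348 107969479 0) 384 512 256 320 0 128)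
  (go 16 Gd mult S430_488_216_364 (Tr.lf 17717871684 95255624 0) 384 512 256 320 0 128))) = true := by decide +kernel
  have c4 : (band (go 16 Gd mult S343_372_512_660 (Tr.lf 13422052488 103775175 0) 384 512 256 320 0 128)
  (band (go 16 Gd mult S430_488_364_512 (Tr.lf 17717871684 95255624 0) 384 512 256 320 0 128)
  (band (go 16 Gd mult S430_488_512_660 (Tr.lf 17717871684 95255624 0) 384 512 256 320 0 128)
  (go 16 Gd mult S430_488_660_808 (Tr.lf 17717871684 95255624 0) 384 512 256 320 0 128)))) = true := by decide +kernel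
  have c5 : (go 16 Gd mult S314_372_364_512 (Tr.lf 13422051876 108096455 0) 384 512 288 320 0 128) = true := by decide +kernel
  have c6 : (band (go 16 Gd mult S24_82_216_364 (Tr.lf 4295049794 108108996 0) 384 512 256 320 128 256)
  (band (go 16 Gd mult S24_82_364_512 (Tr.lf 4295049794 108108996 0) 384 512 256 320 128 256)
  (band (go 16 Gd mult S24_82_512_660 (Tr.lf 4295041602 103914692 0) 384 512 256 320 128 256)
  (go 16 Gd mult S24_82_660_808 (Tr.lf 4295041602 103914692 0) 384 512 256 320 128 256)))) = true := by decide +kernel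
  (And.intro (Ok.s4 364 (Ok.lf S314_372_216_364_ok (br (br c1)))
  (Ok.s1 288 (Ok.lf S314_372_364_512_ok c0)
  (Ok.lf S314_372_364_512_ok c5)))
  (And.intro (Ok.s4 660 (Ok.s3 343 (Ok.lf S314_343_512_660_ok (bl c1))
  (Ok.lf S343_372_512_660_ok (bl c4)))
  (Ok.s3 343 (Ok.lf S314_343_660_808_ok (bl c2))
  (Ok.lf S343_372_660_808_ok (bl c3))))
  (And.intro (Ok.s3 430 (Ok.s4 512 (Ok.s4 364 (Ok.lf S372_430_216_364_ok (br (br c2)))
  (Ok.lf S372_430_364_512_ok (bl (br c3))))
  (Ok.s4 660 (Ok.lf S372_430_512_660_ok (bl (br c1)))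
  (Ok.lf S372_430_660_808_ok (bl (br c2)))))
  (Ok.s4 512 (Ok.s4 364 (Ok.lf S430_488_216_364_ok (br (br c3)))
  (Ok.lf S430_488_364_512_ok (bl (br c4))))
  (Ok.s4 660 (Ok.lf S430_488_512_660_ok (bl (br (br c4))))
  (Ok.lf S430_488_660_808_ok (br (br (br c4)))))))
  (Ok.s4 512 (Ok.s4 364 (Ok.lf S24_82_216_364_ok (bl c6))
  (Ok.lf S24_82_364_512_ok (bl (br c6))))
  (Ok.s4 660 (Ok.lf S24_82_512_660_ok (bl (br (br c6))))
  (Ok.lf S24_82_660_808_ok (br (br (br c6)))))))))

end Vale.Agent.P098.Ck
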