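import Vale.Agent.P098.CkGd
import Vale.Agent.P098.CkOk
import Vale.Agent.P098.Sh.A10
import Vale.Agent.P098.Sh.A11
import Vale.Agent.P098.Sh.A17
import Vale.Agent.P098.Sh.A18
import Vale.Agent.P098.Sh.A19
import Vale.Agent.P098.Sh.A25
import Vale.Agent.P098.Sh.A26
import Vale.Agent.P098.Sh.A27
import Vale.Agent.P098.Sh.A3
import Vale.Agent.P098.Sh.A36
import Vale.Agent.P098.Sh.A37
import Vale.Agent.P098.Sh.A38
import Vale.Agent.P098.Sh.A4
import Vale.Agent.P098.Sh.A8
import Vale.Agent.P098.Sh.A9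

namespace Vale.Agent.P098.Ck

theorem r739 :
    Ok Gd mult 384 512 256 320 128 256 82 140 216 808 ∧
    Ok Gd mult 384 512 256 320 128 256 140 256 216 808 :=
  have c0 : (band (go 16 Gd mult S198_227_216_364 (Tr.lf 17725671496 95377994 0) 384 512 256 320 128 256)
  (go 16 Gd mult S140_198_660_808 (Tr.lf 9127101508 104041414 0) 384 512 256 320 128 256)) = true := by decide +kernel
  have c1 : (band (go 16 Gd mult S227_256_216_364 (Tr.lf 17725671492 95377994 0) 384 512 256 320 128 256)
  (band (go 16 Gd mult S82_140_216_364 (Tr.lf 9136407620 108108998 0) 384 512 256 320 128 256)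
  (band (go 16 Gd mult S169_198_216_364 (Tr.lf 13431489604 103775304 0) 384 512 256 320 128 256)
  (go 16 Gd mult S198_227_364_512 (Tr.lf 13430441028 103906120 0) 384 512 256 320 128 256)))) = true := by decide +kernel
  have c2 : (band (go 16 Gd mult S227_256_364_512 (Tr.lf 13430441028 103906120 0) 384 512 256 320 128 256)
  (band (go 16 Gd mult S198_227_512_660 (Tr.lf 13422052420 103901896 0) 384 512 256 320 128 256)
  (band (go 16 Gd mult S227_256_512_660 (Tr.lf 13422052420 103901896 0) 384 512 256 320 128 256)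
  (band (go 16 Gd mult S198_227_660_808 (Tr.lf 9135473732 108235846 0) 384 512 256 320 128 256)
  (go 16 Gd mult S227_256_660_808 (Tr.lf 13430441028 103647944 0) 384 512 256 320 128 256))))) = true := by decide +kernel
  have c3 : (band (go 16 Gd mult S82_140_364_512 (Tr.lf 4295066692 108113092 0) 384 512 256 320 128 256)
  (band (go 16 Gd mult S82_140_512_660 (Tr.lf 4295066692 108113092 0) 384 512 256 320 128 256)
  (band (go 16 Gd mult S82_140_660_808 (Tr.lf 9128002628 108100806 0) 384 512 256 320 128 256)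
  (band (go 16 Gd mult S140_169_216_364 (Tr.lf 13431358532 103648200 0) 384 512 256 320 128 256)
  (band (go 16 Gd mult S140_169_364_512 (Tr.lf 13431358532 103648200 0) 384 512 256 320 128 256)
  (go 16 Gd mult S169_198_364_512 (Tr.lf 13430309956 99580744 0) 384 512 256 320 128 256)))))) = true := by decide +kernel
  have c4 : (band (go 16 Gd mult S140_169_512_660 (Tr.lf 9136391236 112299334 0) 384 512 256 320 128 256)
  (go 16 Gd mult S169_198_512_660 (Tr.lf 13430440516 99715784 0) 384 512 256 320 128 256)) = true := by decide +kernel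
  (And.intro (Ok.s4 512 (Ok.s4 364 (Ok.lf S82_140_216_364_ok (bl (br c1)))
  (Ok.lf S82_140_364_512_ok (bl c3)))
  (Ok.s4 660 (Ok.lf S82_140_512_660_ok (bl (br c3)))
  (Ok.lf S82_140_660_808_ok (bl (br (br c3))))))
  (Ok.s3 198 (Ok.s4 512 (Ok.s4 364 (Ok.s3 169 (Ok.lf S140_169_216_364_ok (bl (br (br (br c3)))))
  (Ok.lf S169_198_216_364_ok (bl (br (br c1)))))
  (Ok.s3 169 (Ok.lf S140_169_364_512_ok (bl (br (br (br (br c3))))))
  (Ok.lf S169_198_364_512_ok (br (br (br (br (br c3))))))))
  (Ok.s4 660 (Ok.s3 169 (Ok.lf S140_169_512_660_ok (bl c4))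
  (Ok.lf S169_198_512_660_ok (br c4)))
  (Ok.lf S140_198_660_808_ok (br c0))))
  (Ok.s4 512 (Ok.s4 364 (Ok.s3 227 (Ok.lf S198_227_216_364_ok (bl c0))
  (Ok.lf S227_256_216_364_ok (bl c1)))
  (Ok.s3 227 (Ok.lf S198_227_364_512_ok (br (br (br c1))))
  (Ok.lf S227_256_364_512_ok (bl c2))))
  (Ok.s4 660 (Ok.s3 227 (Ok.lf S198_227_512_660_ok (bl (br c2)))
  (Ok.lf S227_256_512_660_ok (bl (br (br c2)))))
  (Ok.s3 227 (Ok.lf S198_227_660_808_ok (bl (br (br (br c2)))))
  (Ok.lf S227_256_660_808_ok (br (br (br (br c2))))))))))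

end Vale.Agent.P098.Ck
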