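import Vale.Agent.P098.CkGd
import Vale.Agent.P098.CkOk
import Vale.Agent.P098.Sh.A12
import Vale.Agent.P098.Sh.A14
import Vale.Agent.P098.Sh.A15
import Vale.Agent.P098.Sh.A17
import Vale.Agent.P098.Sh.A20
import Vale.Agent.P098.Sh.A21
import Vale.Agent.P098.Sh.A7

namespace Vale.Agent.P098.Ck

theorem r74 :
    Ok Gd mult 0 128 160 192 448 480 169 183 216 364 ∧
    Ok Gd mult 0 128 160 192 448 480 183 198 216 364 ∧
    Ok Gd mult 0 128 128 192 480 512 169 198 216 364 ∧
    Ok Gd mult 0 128 128 192 384 512 140 154 364 512 ∧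
    Ok Gd mult 0 128 128 192 384 448 154 169 364 512 :=
  have c0 : (go 16 Gd mult S169_183_216_364 (Tr.sp 2 496 (Tr.lf 13978059912 103513032 3059803922357805079643291648) Tr.skip) 0 128 128 160 480 512) = true := by decide +kernel
  have c1 : (go 16 Gd mult S183_198_216_290 (Tr.lf 13986202760 99326920 3164967795751099179380768768) 0 128 128 160 480 496) = true := by decide +kernel
  have c2 : (band (go 16 Gd mult S169_183_216_290 (Tr.lf 13977798728 99450055 1097710362701027044340269056) 0 128 160 176 448 480)
  (go 16 Gd mult S169_183_290_364 (Tr.lf 13440795720 99318983 1067481498719717561265553408) 0 128 160 176 448 480)) = true := by decide +kernel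
  have c3 : (band (go 16 Gd mult S183_198_216_364 (Tr.lf 13978060868 107715655 1129138467960750651582971951) 0 64 160 176 448 480)
  (band (go 16 Gd mult S183_198_216_364 (Tr.lf 13986449476 103521224 0) 64 128 160 176 448 480)
  (go 16 Gd mult S183_198_216_364 (Tr.lf 13441188900 99318728 1245193594203068049947361280) 64 128 176 192 448 480))) = true := by decide +kernel
  have c4 : (go 16 Gd mult S183_198_290_364 (Tr.lf 13986186376 103521224 3129908946982274933314289664) 0 128 128 160 480 496) = true := by decide +kernel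
  have c5 : (band (go 16 Gd mult S140_154_364_512 (Tr.lf 13440927876 94997448 1212575083654498914173714432) 0 64 128 192 448 480)
  (go 16 Gd mult S140_154_364_512 (Tr.lf 9137571972 103509063 235740534824852689067704320) 64 128 128 192 448 512)) = true := by decide +kernel
  have c6 : (band (go 16 Gd mult S140_154_364_512 (Tr.lf 9137563720 107973830 242994089742540464115941376) 0 128 160 192 384 448)
  (band (go 16 Gd mult S154_169_364_512 (Tr.lf 9145952328 103652423 176503169663735859507101696) 0 128 160 192 384 448)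
  (band (go 16 Gd mult S140_154_364_512 (Tr.lf 9137563716 99441863 0) 0 128 128 160 384 448)
  (go 16 Gd mult S154_169_364_512 (Tr.lf 9145960516 95128775 0) 0 128 128 160 384 448)))) = true := by decide +kernel
  have c7 : (go 16 Gd mult S169_183_216_364 (Tr.lf 13440926792 99318728 10243228469594752997285429248) 0 128 176 192 448 480) = true := by decide +kernel
  have c8 : (go 16 Gd mult S183_198_216_364 (Tr.lf 13441188932 103382215 9097166792600084539663974400) 0 64 176 192 448 480) = true := by decide +kernel
  have c9 : (go 16 Gd mult S140_154_364_512 (Tr.lf 9137570948 103509063 2663302835290579700128153600) 0 64 128 192 480 512) = true := by decide +kernel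
  have c10 : (go 16 Gd mult S169_198_216_364 (Tr.sp 0 64 Tr.skip (Tr.lf 9136522274 99441479 11772647559577410079029198877)) 0 128 160 192 480 512) = true := by decide +kernel
  (And.intro (Ok.s1 176 (Ok.s4 290 (Ok.lf S169_183_216_290_ok (bl c2))
  (Ok.lf S169_183_290_364_ok (br c2)))
  (Ok.lf S169_183_216_364_ok c7))
  (And.intro (Ok.s0 64 (Ok.s1 176 (Ok.lf S183_198_216_364_ok (bl c3))
  (Ok.lf S183_198_216_364_ok c8))
  (Ok.s1 176 (Ok.lf S183_198_216_364_ok (bl (br c3)))
  (Ok.lf S183_198_216_364_ok (br (br c3)))))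
  (And.intro (Ok.s1 160 (Ok.s3 183 (Ok.lf S169_183_216_364_ok c0)
  (Ok.s2 496 (Ok.s4 290 (Ok.lf S183_198_216_290_ok c1)
  (Ok.lf S183_198_290_364_ok c4))
  (Ok.out rfl)))
  (Ok.lf S169_198_216_364_ok c10))
  (And.intro (Ok.s2 448 (Ok.s1 160 (Ok.lf S140_154_364_512_ok (bl (br (br c6))))
  (Ok.lf S140_154_364_512_ok (bl c6)))
  (Ok.s0 64 (Ok.s2 480 (Ok.lf S140_154_364_512_ok (bl c5))
  (Ok.lf S140_154_364_512_ok c9))
  (Ok.lf S140_154_364_512_ok (br c5))))
  (Ok.s1 160 (Ok.lf S154_169_364_512_ok (br (br (br c6))))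
  (Ok.lf S154_169_364_512_ok (bl (br c6))))))))

end Vale.Agent.P098.Ck
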