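import Vale.Agent.P098.CkGd
import Vale.Agent.P098.CkOk
import Vale.Agent.P098.Sh.A41
import Vale.Agent.P098.Sh.A44
import Vale.Agent.P098.Sh.A45
import Vale.Agent.P098.Sh.A49
import Vale.Agent.P098.Sh.A50
import Vale.Agent.P098.Sh.A52
import Vale.Agent.P098.Sh.A54
import Vale.Agent.P098.Sh.A55
import Vale.Agent.P098.Sh.A58
import Vale.Agent.P098.Sh.A59

namespace Vale.Agent.P098.Ck

theorem r740 :
    Ok Gd mult 384 512 256 320 128 256 256 314 216 512 ∧
    Ok Gd mult 384 512 256 320 128 256 256 314 512 808 ∧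
    Ok Gd mult 384 512 256 320 128 256 314 372 216 808 ∧
    Ok Gd mult 384 512 256 320 128 256 372 488 216 808 :=
  have c0 : (band (go 16 Gd mult S256_314_512_660 (Tr.lf 13430719620 103905992 0) 384 512 256 320 128 256)
  (go 16 Gd mult S372_430_512_660 (Tr.lf 13421937736 104032968 0) 384 512 256 320 128 256)) = true := by decide +kernel
  have c1 : (band (go 16 Gd mult S256_314_660_808 (Tr.lf 13497828420 104041032 0) 384 512 256 320 128 256)
  (band (go 16 Gd mult S314_372_512_660 (Tr.lf 13422068868 107965128 0) 384 512 256 320 128 256)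
  (go 16 Gd mult S372_430_216_364 (Tr.lf 13421937732 112290504 0) 384 512 256 320 128 256))) = true := by decide +kernel
  have c2 : (band (go 16 Gd mult S372_430_660_808 (Tr.lf 13421937736 112290504 0) 384 512 256 320 128 256)
  (band (go 16 Gd mult S314_372_364_512 (Tr.lf 13422068804 103901896 0) 384 512 256 320 128 256)
  (band (go 16 Gd mult S372_430_364_512 (Tr.lf 13421937732 112290504 0) 384 512 256 320 128 256)
  (go 16 Gd mult S256_285_216_364 (Tr.lf 13430441028 108108488 0) 384 512 256 320 128 256)))) = true := by decide +kernel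
  have c3 : (band (go 16 Gd mult S256_285_364_512 (Tr.lf 13422052420 107969224 0) 384 512 256 320 128 256)
  (band (go 16 Gd mult S285_314_364_512 (Tr.lf 13422052420 103901896 0) 384 512 256 320 128 256)
  (band (go 16 Gd mult S314_343_660_808 (Tr.lf 13430441028 103905992 0) 384 512 256 320 128 256)
  (band (go 16 Gd mult S430_488_216_364 (Tr.lf 17717871688 103639881 0) 384 512 256 320 128 256)
  (band (go 16 Gd mult S430_488_364_512 (Tr.lf 17717888068 95382345 0) 384 512 256 320 128 256)
  (go 16 Gd mult S285_314_216_364 (Tr.lf 13422043716 108096200 0) 384 512 256 320 128 256)))))) = true := by decide +kernel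
  have c4 : (band (go 16 Gd mult S430_488_512_660 (Tr.lf 17717888068 95382345 0) 384 512 256 320 128 256)
  (band (go 16 Gd mult S430_488_660_808 (Tr.lf 17717888068 95382090 0) 384 512 256 320 128 256)
  (band (go 16 Gd mult S314_372_216_364 (Tr.lf 13421921348 107965128 0) 384 512 256 320 128 256)
  (go 16 Gd mult S343_372_660_808 (Tr.lf 13421921348 103901896 0) 384 512 256 320 128 256)))) = true := by decide +kernel
  (And.intro (Ok.s4 364 (Ok.s3 285 (Ok.lf S256_285_216_364_ok (br (br (br c2))))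
  (Ok.lf S285_314_216_364_ok (br (br (br (br (br c3)))))))
  (Ok.s3 285 (Ok.lf S256_285_364_512_ok (bl c3))
  (Ok.lf S285_314_364_512_ok (bl (br c3)))))
  (And.intro (Ok.s4 660 (Ok.lf S256_314_512_660_ok (bl c0))
  (Ok.lf S256_314_660_808_ok (bl c1)))
  (And.intro (Ok.s4 512 (Ok.s4 364 (Ok.lf S314_372_216_364_ok (bl (br (br c4))))
  (Ok.lf S314_372_364_512_ok (bl (br c2))))
  (Ok.s4 660 (Ok.lf S314_372_512_660_ok (bl (br c1)))
  (Ok.s3 343 (Ok.lf S314_343_660_808_ok (bl (br (br c3))))
  (Ok.lf S343_372_660_808_ok (br (br (br c4)))))))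
  (Ok.s3 430 (Ok.s4 512 (Ok.s4 364 (Ok.lf S372_430_216_364_ok (br (br c1)))
  (Ok.lf S372_430_364_512_ok (bl (br (br c2)))))
  (Ok.s4 660 (Ok.lf S372_430_512_660_ok (br c0))
  (Ok.lf S372_430_660_808_ok (bl c2))))
  (Ok.s4 512 (Ok.s4 364 (Ok.lf S430_488_216_364_ok (bl (br (br (br c3)))))
  (Ok.lf S430_488_364_512_ok (bl (br (br (br (br c3)))))))
  (Ok.s4 660 (Ok.lf S430_488_512_660_ok (bl c4))
  (Ok.lf S430_488_660_808_ok (bl (br c4)))))))))

end Vale.Agent.P098.Ck
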