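import Vale.Agent.P098.CkGd
import Vale.Agent.P098.CkOk
import Vale.Agent.P098.Sh.A0
import Vale.Agent.P098.Sh.A1
import Vale.Agent.P098.Sh.A10
import Vale.Agent.P098.Sh.A11
import Vale.Agent.P098.Sh.A17
import Vale.Agent.P098.Sh.A18
import Vale.Agent.P098.Sh.A19
import Vale.Agent.P098.Sh.A25
import Vale.Agent.P098.Sh.A26
import Vale.Agent.P098.Sh.A27
import Vale.Agent.P098.Sh.A29
import Vale.Agent.P098.Sh.A3
import Vale.Agent.P098.Sh.A36
import Vale.Agent.P098.Sh.A37
import Vale.Agent.P098.Sh.A38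
import Vale.Agent.P098.Sh.A4
import Vale.Agent.P098.Sh.A8
import Vale.Agent.P098.Sh.A9

namespace Vale.Agent.P098.Ck

theorem r741 :
    Ok Gd mult 384 512 256 320 256 384 24 82 216 808 ∧
    Ok Gd mult 384 512 256 320 256 384 82 140 216 808 ∧
    Ok Gd mult 384 512 256 320 256 384 140 256 216 808 :=
  have c0 : (band (go 16 Gd mult S198_227_216_364 (Tr.lf 13430441028 103774793 0) 384 512 256 320 256 384)
  (band (go 16 Gd mult S227_256_216_364 (Tr.lf 13438829636 95517385 0) 384 512 256 320 256 384)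
  (band (go 16 Gd mult S169_198_216_364 (Tr.lf 9136522306 104045639 0) 384 512 256 320 256 384)
  (band (go 16 Gd mult S198_227_364_512 (Tr.lf 13430309956 99580489 0) 384 512 256 320 256 384)
  (band (go 16 Gd mult S227_256_364_512 (Tr.lf 13430440996 99580489 0) 384 512 256 320 256 384)
  (go 16 Gd mult S169_198_364_512 (Tr.lf 9136391234 108108871 0) 384 512 256 320 256 384)))))) = true := by decide +kernel
  have c1 : (go 16 Gd mult S198_256_512_660 (Tr.lf 9202598946 103914566 0) 384 448 256 320 256 384) = true := by decide +kernel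
  have c2 : (band (go 16 Gd mult S140_198_660_808 (Tr.lf 4295115842 107977797 0) 384 512 256 320 256 384)
  (band (go 16 Gd mult S82_140_216_364 (Tr.lf 4295115810 112303045 0) 384 512 256 320 256 384)
  (band (go 16 Gd mult S82_140_364_512 (Tr.lf 4295050274 108108741 0) 384 512 256 320 256 384)
  (band (go 16 Gd mult S82_140_512_660 (Tr.lf 4295050274 112303045 0) 384 512 256 320 256 384)
  (band (go 16 Gd mult S140_169_216_364 (Tr.lf 9136383010 112168007 0) 384 512 256 320 256 384)
  (band (go 16 Gd mult S140_169_364_512 (Tr.lf 9136383010 112168007 0) 384 512 256 320 256 384)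
  (band (go 16 Gd mult S169_198_512_660 (Tr.lf 4295107618 112303173 0) 384 512 256 320 256 384)
  (go 16 Gd mult S198_227_660_808 (Tr.lf 4295107618 112172356 0) 384 512 256 320 256 384)))))))) = true := by decide +kernel
  have c3 : (go 16 Gd mult S198_256_512_660 (Tr.lf 9135359009 104168518 0) 448 512 256 320 256 384) = true := by decide +kernel
  have c4 : (band (go 16 Gd mult S227_256_660_808 (Tr.lf 9202442818 112307142 0) 384 512 256 320 256 384)
  (band (go 16 Gd mult S82_140_660_808 (Tr.lf 4295049762 108108741 0) 384 512 256 320 256 384)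
  (band (go 16 Gd mult S140_169_512_660 (Tr.lf 4295107106 108243909 0) 384 512 256 320 256 384)
  (band (go 16 Gd mult S24_82_216_364 (Tr.lf 4295041570 99847109 0) 384 512 256 320 256 384)
  (band (go 16 Gd mult S24_82_364_512 (Tr.lf 4295041570 99847109 0) 384 512 256 320 256 384)
  (band (go 16 Gd mult S24_82_512_660 (Tr.lf 4295041570 99847109 0) 384 512 256 320 256 384)
  (go 16 Gd mult S24_82_660_808 (Tr.lf 4295041570 99847109 0) 384 512 256 320 256 384))))))) = true := by decide +kernel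
  (And.intro (Ok.s4 512 (Ok.s4 364 (Ok.lf S24_82_216_364_ok (bl (br (br (br c4)))))
  (Ok.lf S24_82_364_512_ok (bl (br (br (br (br c4)))))))
  (Ok.s4 660 (Ok.lf S24_82_512_660_ok (bl (br (br (br (br (br c4)))))))
  (Ok.lf S24_82_660_808_ok (br (br (br (br (br (br c4)))))))))
  (And.intro (Ok.s4 512 (Ok.s4 364 (Ok.lf S82_140_216_364_ok (bl (br c2)))
  (Ok.lf S82_140_364_512_ok (bl (br (br c2)))))
  (Ok.s4 660 (Ok.lf S82_140_512_660_ok (bl (br (br (br c2)))))
  (Ok.lf S82_140_660_808_ok (bl (br c4)))))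
  (Ok.s3 198 (Ok.s4 512 (Ok.s4 364 (Ok.s3 169 (Ok.lf S140_169_216_364_ok (bl (br (br (br (br c2))))))
  (Ok.lf S169_198_216_364_ok (bl (br (br c0)))))
  (Ok.s3 169 (Ok.lf S140_169_364_512_ok (bl (br (br (br (br (br c2)))))))
  (Ok.lf S169_198_364_512_ok (br (br (br (br (br c0))))))))
  (Ok.s4 660 (Ok.s3 169 (Ok.lf S140_169_512_660_ok (bl (br (br c4))))
  (Ok.lf S169_198_512_660_ok (bl (br (br (br (br (br (br c2)))))))))
  (Ok.lf S140_198_660_808_ok (bl c2))))
  (Ok.s4 512 (Ok.s4 364 (Ok.s3 227 (Ok.lf S198_227_216_364_ok (bl c0))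
  (Ok.lf S227_256_216_364_ok (bl (br c0))))
  (Ok.s3 227 (Ok.lf S198_227_364_512_ok (bl (br (br (br c0)))))
  (Ok.lf S227_256_364_512_ok (bl (br (br (br (br c0))))))))
  (Ok.s4 660 (Ok.s0 448 (Ok.lf S198_256_512_660_ok c1)
  (Ok.lf S198_256_512_660_ok c3))
  (Ok.s3 227 (Ok.lf S198_227_660_808_ok (br (br (br (br (br (br (br c2))))))))
  (Ok.lf S227_256_660_808_ok (bl c4))))))))

end Vale.Agent.P098.Ck
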