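import Vale.Agent.P098.CkGd
import Vale.Agent.P098.CkOk
import Vale.Agent.P098.Sh.A41
import Vale.Agent.P098.Sh.A42
import Vale.Agent.P098.Sh.A43
import Vale.Agent.P098.Sh.A44
import Vale.Agent.P098.Sh.A45
import Vale.Agent.P098.Sh.A46
import Vale.Agent.P098.Sh.A49
import Vale.Agent.P098.Sh.A50
import Vale.Agent.P098.Sh.A54
import Vale.Agent.P098.Sh.A55
import Vale.Agent.P098.Sh.A58
import Vale.Agent.P098.Sh.A59

namespace Vale.Agent.P098.Ck

theorem r742 :
    Ok Gd mult 384 512 256 320 256 384 256 314 216 512 ∧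
    Ok Gd mult 384 512 256 320 256 384 256 314 512 808 ∧
    Ok Gd mult 384 512 256 320 256 384 314 372 216 808 ∧
    Ok Gd mult 384 512 256 320 256 384 372 488 216 808 :=
  have c0 : (band (go 16 Gd mult S372_430_660_808 (Tr.lf 13422987332 104029128 0) 384 512 256 320 256 384)
  (band (go 16 Gd mult S372_430_512_660 (Tr.lf 13422921796 104029128 0) 384 512 256 320 256 384)
  (band (go 16 Gd mult S314_372_216_364 (Tr.lf 9136407620 108235847 0) 384 512 256 320 256 384)
  (band (go 16 Gd mult S314_372_364_512 (Tr.lf 9136407620 108235847 0) 384 512 256 320 256 384)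
  (go 16 Gd mult S430_488_216_364 (Tr.lf 13422904388 108100424 0) 384 512 256 320 256 384))))) = true := by decide +kernel
  have c1 : (band (go 16 Gd mult S314_372_512_660 (Tr.lf 9136407620 104041543 0) 384 512 256 320 256 384)
  (band (go 16 Gd mult S314_372_660_808 (Tr.lf 4295132228 108108869 0) 384 512 256 320 256 384)
  (band (go 16 Gd mult S372_430_216_364 (Tr.lf 13422970948 104029128 0) 384 512 256 320 256 384)
  (band (go 16 Gd mult S372_430_364_512 (Tr.lf 13422986308 104029128 0) 384 512 256 320 256 384)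
  (go 16 Gd mult S256_285_216_364 (Tr.lf 13430441028 99846856 0) 384 512 256 320 256 384))))) = true := by decide +kernel
  have c2 : (band (go 16 Gd mult S256_314_660_808 (Tr.lf 9202598946 112303046 0) 384 512 256 320 256 384)
  (band (go 16 Gd mult S430_488_364_512 (Tr.lf 13422904388 112294728 0) 384 512 256 320 256 384)
  (band (go 16 Gd mult S430_488_512_660 (Tr.lf 13422904388 112294728 0) 384 512 256 320 256 384)
  (band (go 16 Gd mult S430_488_660_808 (Tr.lf 13422904388 108100424 0) 384 512 256 320 256 384)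
  (band (go 16 Gd mult S285_314_216_364 (Tr.lf 13430432802 108100296 0) 384 512 256 320 256 384)
  (band (go 16 Gd mult S256_285_512_660 (Tr.lf 9202443298 112172102 0) 384 512 256 320 256 384)
  (go 16 Gd mult S285_314_512_660 (Tr.lf 9135333922 108366790 0) 384 512 256 320 256 384))))))) = true := by decide +kernel
  have c3 : (band (go 16 Gd mult S256_314_364_512 (Tr.lf 9135473700 104172614 0) 384 512 288 320 256 384)
  (go 16 Gd mult S256_314_364_512 (Tr.lf 9202582050 104049606 0) 384 512 256 288 320 384)) = true := by decide +kernel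
  have c4 : (go 16 Gd mult S256_314_364_512 (Tr.lf 13430456866 107969224 0) 384 512 256 288 256 320) = true := by decide +kernel
  (And.intro (Ok.s4 364 (Ok.s3 285 (Ok.lf S256_285_216_364_ok (br (br (br (br c1)))))
  (Ok.lf S285_314_216_364_ok (bl (br (br (br (br c2)))))))
  (Ok.s1 288 (Ok.s2 320 (Ok.lf S256_314_364_512_ok c4)
  (Ok.lf S256_314_364_512_ok (br c3)))
  (Ok.lf S256_314_364_512_ok (bl c3))))
  (And.intro (Ok.s4 660 (Ok.s3 285 (Ok.lf S256_285_512_660_ok (bl (br (br (br (br (br c2)))))))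
  (Ok.lf S285_314_512_660_ok (br (br (br (br (br (br c2))))))))
  (Ok.lf S256_314_660_808_ok (bl c2)))
  (And.intro (Ok.s4 512 (Ok.s4 364 (Ok.lf S314_372_216_364_ok (bl (br (br c0))))
  (Ok.lf S314_372_364_512_ok (bl (br (br (br c0))))))
  (Ok.s4 660 (Ok.lf S314_372_512_660_ok (bl c1))
  (Ok.lf S314_372_660_808_ok (bl (br c1)))))
  (Ok.s3 430 (Ok.s4 512 (Ok.s4 364 (Ok.lf S372_430_216_364_ok (bl (br (br c1))))
  (Ok.lf S372_430_364_512_ok (bl (br (br (br c1))))))
  (Ok.s4 660 (Ok.lf S372_430_512_660_ok (bl (br c0)))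
  (Ok.lf S372_430_660_808_ok (bl c0))))
  (Ok.s4 512 (Ok.s4 364 (Ok.lf S430_488_216_364_ok (br (br (br (br c0)))))
  (Ok.lf S430_488_364_512_ok (bl (br c2))))
  (Ok.s4 660 (Ok.lf S430_488_512_660_ok (bl (br (br c2))))
  (Ok.lf S430_488_660_808_ok (bl (br (br (br c2)))))))))))

end Vale.Agent.P098.Ck
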