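import Vale.Agent.P098.CkGd
import Vale.Agent.P098.CkOk
import Vale.Agent.P098.Sh.A0
import Vale.Agent.P098.Sh.A1
import Vale.Agent.P098.Sh.A17
import Vale.Agent.P098.Sh.A3
import Vale.Agent.P098.Sh.A4
import Vale.Agent.P098.Sh.A8
import Vale.Agent.P098.Sh.A9

namespace Vale.Agent.P098.Ck

theorem r743 :
    Ok Gd mult 384 512 256 320 384 512 24 82 216 808 ∧
    Ok Gd mult 384 512 256 320 384 512 82 140 216 808 ∧
    Ok Gd mult 384 512 256 320 384 512 140 198 216 364 ∧
    Ok Gd mult 384 512 256 320 384 512 140 169 364 512 :=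
  have c0 : (band (go 16 Gd mult S24_82_216_364 (Tr.lf 4295051332 99707463 824458801303947906646045) 384 512 256 320 384 512)
  (band (go 16 Gd mult S24_82_364_512 (Tr.lf 4295051332 99707463 823370451847972900372509) 384 512 256 320 384 512)
  (go 16 Gd mult S24_82_660_808 (Tr.lf 4295051332 99707463 822485008132434841894941) 384 512 256 320 384 512))) = true := by decide +kernel
  have c1 : (band (go 16 Gd mult S82_140_216_364 (Tr.lf 546391074 99724485 7884610325808068139104942283) 384 512 256 320 448 512)
  (band (go 16 Gd mult S82_140_364_512 (Tr.lf 613499938 103914821 6655131881837985974742235465) 384 512 256 320 448 512)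
  (band (go 16 Gd mult S82_140_512_660 (Tr.lf 613499426 99720517 4077702569432330337038973400) 384 512 256 320 448 512)
  (band (go 16 Gd mult S82_140_660_808 (Tr.lf 613499426 99720517 1924606570177865094822902369) 384 512 256 320 448 512)
  (band (go 16 Gd mult S140_169_364_512 (Tr.lf 613556770 99982661 16389404001303101936933745265) 384 512 256 320 448 512)
  (band (go 16 Gd mult S24_82_512_660 (Tr.lf 613491234 103918789 1198658176649841631060919) 384 512 256 320 448 512)
  (band (go 16 Gd mult S82_140_216_364 (Tr.lf 82466 103918660 0) 384 512 256 320 384 448)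
  (go 16 Gd mult S82_140_364_512 (Tr.lf 82466 108112964 0) 384 512 256 320 384 448)))))))) = true := by decide +kernel
  have c2 : (band (go 16 Gd mult S169_198_216_364 (Tr.lf 139812 108113092 12445891312932607353600081920) 384 512 256 320 384 448)
  (band (go 16 Gd mult S24_82_512_660 (Tr.lf 536945186 99851332 537538135537220253974557) 384 512 256 320 384 448)
  (band (go 16 Gd mult S82_140_512_660 (Tr.lf 74274 103787588 0) 384 512 256 320 384 448)
  (band (go 16 Gd mult S82_140_660_808 (Tr.lf 4295041570 104168134 0) 384 512 256 320 384 448)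
  (band (go 16 Gd mult S140_169_216_364 (Tr.lf 74018 99720388 5220143994938977990075219997) 384 512 256 320 384 448)
  (band (go 16 Gd mult S140_169_364_512 (Tr.lf 74018 103914692 1017915540115517765102600192) 384 512 256 320 384 448)
  (band (go 16 Gd mult S169_198_216_364 (Tr.lf 139554 108113219 22801445198478902562427764765) 384 512 256 320 448 480)
  (go 16 Gd mult S140_169_216_364 (Tr.lf 74018 108239940 17875174384240627303467125832) 384 512 256 320 448 480)))))))) = true := by decide +kernel
  have c3 : (band (go 16 Gd mult S169_198_216_364 (Tr.lf 139554 112307268 79104849645656272424192966523) 384 512 256 320 480 512)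
  (go 16 Gd mult S140_169_216_364 (Tr.lf 74018 108371012 79104849645656272424192966523) 384 512 256 320 480 512)) = true := by decide +kernel
  (And.intro (Ok.s4 512 (Ok.s4 364 (Ok.lf S24_82_216_364_ok (bl c0))
  (Ok.lf S24_82_364_512_ok (bl (br c0))))
  (Ok.s4 660 (Ok.s2 448 (Ok.lf S24_82_512_660_ok (bl (br c2)))
  (Ok.lf S24_82_512_660_ok (bl (br (br (br (br (br c1))))))))
  (Ok.lf S24_82_660_808_ok (br (br c0)))))
  (And.intro (Ok.s4 512 (Ok.s4 364 (Ok.s2 448 (Ok.lf S82_140_216_364_ok (bl (br (br (br (br (br (br c1))))))))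
  (Ok.lf S82_140_216_364_ok (bl c1)))
  (Ok.s2 448 (Ok.lf S82_140_364_512_ok (br (br (br (br (br (br (br c1))))))))
  (Ok.lf S82_140_364_512_ok (bl (br c1)))))
  (Ok.s4 660 (Ok.s2 448 (Ok.lf S82_140_512_660_ok (bl (br (br c2))))
  (Ok.lf S82_140_512_660_ok (bl (br (br c1)))))
  (Ok.s2 448 (Ok.lf S82_140_660_808_ok (bl (br (br (br c2)))))
  (Ok.lf S82_140_660_808_ok (bl (br (br (br c1))))))))
  (And.intro (Ok.s3 169 (Ok.s2 448 (Ok.lf S140_169_216_364_ok (bl (br (br (br (br c2))))))
  (Ok.s2 480 (Ok.lf S140_169_216_364_ok (br (br (br (br (br (br (br c2))))))))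
  (Ok.lf S140_169_216_364_ok (br c3))))
  (Ok.s2 448 (Ok.lf S169_198_216_364_ok (bl c2))
  (Ok.s2 480 (Ok.lf S169_198_216_364_ok (bl (br (br (br (br (br (br c2))))))))
  (Ok.lf S169_198_216_364_ok (bl c3)))))
  (Ok.s2 448 (Ok.lf S140_169_364_512_ok (bl (br (br (br (br (br c2)))))))
  (Ok.lf S140_169_364_512_ok (bl (br (br (br (br c1))))))))))

end Vale.Agent.P098.Ck
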