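import Vale.Agent.P098.CkGd
import Vale.Agent.P098.CkOk
import Vale.Agent.P098.Sh.A11
import Vale.Agent.P098.Sh.A18
import Vale.Agent.P098.Sh.A25
import Vale.Agent.P098.Sh.A26
import Vale.Agent.P098.Sh.A36
import Vale.Agent.P098.Sh.A37

namespace Vale.Agent.P098.Ck

theorem r744 :
    Ok Gd mult 384 512 256 320 384 512 169 198 364 512 ∧
    Ok Gd mult 384 512 256 320 384 512 140 198 512 808 ∧
    Ok Gd mult 384 512 256 320 384 512 198 256 216 512 :=
  have c0 : (band (go 16 Gd mult S198_227_216_364 (Tr.lf 9202582596 104045383 14781535996428070919132413952) 384 512 256 320 384 448)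
  (band (go 16 Gd mult S227_256_216_364 (Tr.lf 9202582596 104045383 14783953848067300177481826304) 384 512 256 320 384 448)
  (band (go 16 Gd mult S140_198_660_808 (Tr.lf 4295115298 104045509 0) 384 512 256 320 384 448)
  (band (go 16 Gd mult S198_227_364_512 (Tr.lf 4295107106 108235845 11152340685944954136664473600) 384 512 256 320 384 448)
  (band (go 16 Gd mult S227_256_364_512 (Tr.lf 9202442786 108243655 11153549611764568765839179776) 384 512 256 320 384 448)
  (band (go 16 Gd mult S198_227_364_512 (Tr.lf 139538 107981892 21786052195275232357379997696) 384 512 256 320 448 480)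
  (band (go 16 Gd mult S227_256_364_512 (Tr.lf 4295106834 99847109 21786052195275232357379997696) 384 512 256 320 448 480)
  (go 16 Gd mult S140_198_512_660 (Tr.lf 147746 108239940 15482733484583967136923254784) 384 512 256 320 448 480)))))))) = true := by decide +kernel
  have c1 : (band (go 16 Gd mult S198_227_216_364 (Tr.lf 139556 108235972 24467449663180479866878296064) 384 512 256 320 448 480)
  (band (go 16 Gd mult S227_256_216_364 (Tr.lf 4295106852 108108741 24466240737360865237703589888) 384 512 256 320 448 480)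
  (band (go 16 Gd mult S140_198_660_808 (Tr.lf 139554 103914564 9421234562354251441356406784) 384 512 256 320 448 480)
  (band (go 16 Gd mult S169_198_364_512 (Tr.lf 74018 112434499 20688790420505033459986595887) 384 512 256 320 448 480)
  (band (go 16 Gd mult S198_227_216_364 (Tr.lf 139554 112430276 79104849645656272424192966523) 384 512 256 320 480 512)
  (band (go 16 Gd mult S227_256_216_364 (Tr.lf 139554 112430276 79104849645656272424192966523) 384 512 256 320 480 512)
  (band (go 16 Gd mult S169_198_364_512 (Tr.lf 74018 108371012 79104849645656272424192966523) 384 512 256 320 480 512)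
  (go 16 Gd mult S198_227_364_512 (Tr.lf 139538 108113219 79104849645656272424192966523) 384 512 256 320 480 512)))))))) = true := by decide +kernel
  have c2 : (band (go 16 Gd mult S140_198_512_660 (Tr.lf 4295049506 104045509 0) 384 512 256 320 384 416)
  (band (go 16 Gd mult S169_198_364_512 (Tr.lf 4295041314 99847237 9372801879472219991496982528) 384 512 256 320 384 416)
  (band (go 16 Gd mult S140_198_512_660 (Tr.lf 82210 104041668 10510401075729586044895494144) 384 512 256 320 416 448)
  (band (go 16 Gd mult S169_198_364_512 (Tr.lf 74018 103914692 13524253144028856577437990912) 384 512 256 320 416 448)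
  (go 16 Gd mult S140_198_512_660 (Tr.sp 1 288 (Tr.lf 82194 104045636 79104849645656272424192966523) Tr.skip) 384 512 256 320 480 512))))) = true := by decide +kernel
  have c3 : (go 16 Gd mult S227_256_364_512 (Tr.lf 139538 112307268 79104849645656272424192966523) 384 512 256 320 480 512) = true := by decide +kernel
  have c4 : (go 16 Gd mult S140_198_660_808 (Tr.sp 1 288 (Tr.sp 0 448 (Tr.lf 74001 104041540 79104849645656272424192966523) Tr.skip) Tr.skip) 384 512 256 320 480 512) = true := by decide +kernel
  (And.intro (Ok.s2 448 (Ok.s2 416 (Ok.lf S169_198_364_512_ok (bl (br c2)))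
  (Ok.lf S169_198_364_512_ok (bl (br (br (br c2))))))
  (Ok.s2 480 (Ok.lf S169_198_364_512_ok (bl (br (br (br c1)))))
  (Ok.lf S169_198_364_512_ok (bl (br (br (br (br (br (br c1))))))))))
  (And.intro (Ok.s4 660 (Ok.s2 448 (Ok.s2 416 (Ok.lf S140_198_512_660_ok (bl c2))
  (Ok.lf S140_198_512_660_ok (bl (br (br c2)))))
  (Ok.s2 480 (Ok.lf S140_198_512_660_ok (br (br (br (br (br (br (br c0))))))))
  (Ok.lf S140_198_512_660_ok (br (br (br (br c2)))))))
  (Ok.s2 448 (Ok.lf S140_198_660_808_ok (bl (br (br c0))))
  (Ok.s2 480 (Ok.lf S140_198_660_808_ok (bl (br (br c1))))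
  (Ok.lf S140_198_660_808_ok c4))))
  (Ok.s4 364 (Ok.s3 227 (Ok.s2 448 (Ok.lf S198_227_216_364_ok (bl c0))
  (Ok.s2 480 (Ok.lf S198_227_216_364_ok (bl c1))
  (Ok.lf S198_227_216_364_ok (bl (br (br (br (br c1))))))))
  (Ok.s2 448 (Ok.lf S227_256_216_364_ok (bl (br c0)))
  (Ok.s2 480 (Ok.lf S227_256_216_364_ok (bl (br c1)))
  (Ok.lf S227_256_216_364_ok (bl (br (br (br (br (br c1))))))))))
  (Ok.s3 227 (Ok.s2 448 (Ok.lf S198_227_364_512_ok (bl (br (br (br c0)))))
  (Ok.s2 480 (Ok.lf S198_227_364_512_ok (bl (br (br (br (br (br c0)))))))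
  (Ok.lf S198_227_364_512_ok (br (br (br (br (br (br (br c1))))))))))
  (Ok.s2 448 (Ok.lf S227_256_364_512_ok (bl (br (br (br (br c0))))))
  (Ok.s2 480 (Ok.lf S227_256_364_512_ok (bl (br (br (br (br (br (br c0))))))))
  (Ok.lf S227_256_364_512_ok c3)))))))

end Vale.Agent.P098.Ck
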