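import Vale.Agent.P098.CkGd
import Vale.Agent.P098.CkOk
import Vale.Agent.P098.Sh.A27
import Vale.Agent.P098.Sh.A29
import Vale.Agent.P098.Sh.A37
import Vale.Agent.P098.Sh.A41
import Vale.Agent.P098.Sh.A42
import Vale.Agent.P098.Sh.A43
import Vale.Agent.P098.Sh.A45

namespace Vale.Agent.P098.Ck

theorem r745 :
    Ok Gd mult 384 512 256 320 384 512 198 227 512 660 ∧
    Ok Gd mult 384 512 256 320 384 512 227 256 512 660 ∧
    Ok Gd mult 384 512 256 320 384 512 198 256 660 808 ∧
    Ok Gd mult 384 512 256 320 384 512 256 314 216 512 ∧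
    Ok Gd mult 384 512 256 320 384 512 256 285 512 660 :=
  have c0 : (band (go 16 Gd mult S256_314_364_512 (Tr.lf 9202598468 104049606 8665580274997661924293869568) 384 512 256 320 384 448)
  (band (go 16 Gd mult S198_256_660_808 (Tr.lf 4295246370 108108741 0) 384 512 256 320 384 448)
  (band (go 16 Gd mult S256_285_216_364 (Tr.lf 9202442788 108243910 12668333663741699121746018304) 384 512 256 320 384 448)
  (band (go 16 Gd mult S285_314_216_364 (Tr.lf 4295107106 112307396 8501166363530072356533829632) 384 512 256 320 384 448)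
  (band (go 16 Gd mult S198_227_512_660 (Tr.lf 4295106850 104176581 0) 384 512 256 320 384 448)
  (band (go 16 Gd mult S227_256_512_660 (Tr.lf 9202442530 108239814 0) 384 512 256 320 384 448)
  (band (go 16 Gd mult S256_285_512_660 (Tr.lf 4295106850 108239813 0) 384 512 256 320 384 448)
  (go 16 Gd mult S198_256_660_808 (Tr.lf 4295246114 104037317 5167135431168766222551482368) 384 512 256 320 448 480)))))))) = true := by decide +kernel
  have c1 : (band (go 16 Gd mult S256_314_364_512 (Tr.lf 164386 104049732 79104849645656272424192966523) 384 512 256 320 480 512)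
  (band (go 16 Gd mult S256_285_216_364 (Tr.lf 139554 108244036 79104849645656272424192966523) 384 512 256 320 480 512)
  (band (go 16 Gd mult S227_256_512_660 (Tr.lf 139538 104049732 79104849645656272424192966523) 384 512 256 320 480 512)
  (band (go 16 Gd mult S285_314_216_364 (Tr.lf 135458 104049987 79104849645656272424192966523) 384 512 256 320 480 512)
  (band (go 16 Gd mult S256_285_512_660 (Tr.lf 139538 104049732 79104849645656272424192966523) 384 512 256 320 480 512)
  (band (go 16 Gd mult S198_227_512_660 (Tr.lf 135442 104176963 79104849645656272424192966523) 384 512 256 320 480 512)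
  (band (go 16 Gd mult S256_285_216_364 (Tr.lf 4295106850 108235972 22968381646858339690242637824) 384 512 256 320 448 480)
  (go 16 Gd mult S198_227_512_660 (Tr.lf 4295102754 104168389 15591572871733946533380358144) 384 512 256 320 448 480)))))))) = true := by decide +kernel
  have c2 : (go 16 Gd mult S198_256_660_808 (Tr.sp 1 288 (Tr.lf 147730 104176963 79104849645656272424192966523) Tr.skip) 384 512 256 320 480 512) = true := by decide +kernel
  have c3 : (band (go 16 Gd mult S256_314_364_512 (Tr.lf 4295115041 104176708 19807040628566084398385987584) 384 448 256 320 448 480)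
  (go 16 Gd mult S256_314_364_512 (Tr.lf 147745 99724356 11431610925097742940158033920) 448 512 256 320 448 480)) = true := by decide +kernel
  have c4 : (band (go 16 Gd mult S227_256_512_660 (Tr.lf 4295106834 103910341 14900102812904883435215847453) 384 512 256 320 448 480)
  (band (go 16 Gd mult S285_314_216_364 (Tr.lf 4295102754 104176708 19469750324893602858642964480) 384 512 256 320 448 480)
  (go 16 Gd mult S256_285_512_660 (Tr.lf 4295106834 104168389 9954412427773607947611734422) 384 512 256 320 448 480))) = true := by decide +kernel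
  (And.intro (Ok.s2 448 (Ok.lf S198_227_512_660_ok (bl (br (br (br (br c0))))))
  (Ok.s2 480 (Ok.lf S198_227_512_660_ok (br (br (br (br (br (br (br c1))))))))
  (Ok.lf S198_227_512_660_ok (bl (br (br (br (br (br c1)))))))))
  (And.intro (Ok.s2 448 (Ok.lf S227_256_512_660_ok (bl (br (br (br (br (br c0)))))))
  (Ok.s2 480 (Ok.lf S227_256_512_660_ok (bl c4))
  (Ok.lf S227_256_512_660_ok (bl (br (br c1))))))
  (And.intro (Ok.s2 448 (Ok.lf S198_256_660_808_ok (bl (br c0)))
  (Ok.s2 480 (Ok.lf S198_256_660_808_ok (br (br (br (br (br (br (br c0))))))))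
  (Ok.lf S198_256_660_808_ok c2)))
  (And.intro (Ok.s4 364 (Ok.s3 285 (Ok.s2 448 (Ok.lf S256_285_216_364_ok (bl (br (br c0))))
  (Ok.s2 480 (Ok.lf S256_285_216_364_ok (bl (br (br (br (br (br (br c1))))))))
  (Ok.lf S256_285_216_364_ok (bl (br c1)))))
  (Ok.s2 448 (Ok.lf S285_314_216_364_ok (bl (br (br (br c0)))))
  (Ok.s2 480 (Ok.lf S285_314_216_364_ok (bl (br c4)))
  (Ok.lf S285_314_216_364_ok (bl (br (br (br c1))))))))
  (Ok.s2 448 (Ok.lf S256_314_364_512_ok (bl c0))
  (Ok.s2 480 (Ok.s0 448 (Ok.lf S256_314_364_512_ok (bl c3))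
  (Ok.lf S256_314_364_512_ok (br c3)))
  (Ok.lf S256_314_364_512_ok (bl c1)))))
  (Ok.s2 448 (Ok.lf S256_285_512_660_ok (bl (br (br (br (br (br (br c0))))))))
  (Ok.s2 480 (Ok.lf S256_285_512_660_ok (br (br c4)))
  (Ok.lf S256_285_512_660_ok (bl (br (br (br (br c1))))))))))))

end Vale.Agent.P098.Ck
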