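import Vale.Agent.P098.CkGd
import Vale.Agent.P098.CkOk
import Vale.Agent.P098.Sh.A42
import Vale.Agent.P098.Sh.A46
import Vale.Agent.P098.Sh.A49
import Vale.Agent.P098.Sh.A50
import Vale.Agent.P098.Sh.A52
import Vale.Agent.P098.Sh.A54

namespace Vale.Agent.P098.Ck

theorem r746 :
    Ok Gd mult 384 512 256 320 384 512 285 314 512 660 ∧
    Ok Gd mult 384 512 256 320 384 512 256 314 660 808 ∧
    Ok Gd mult 384 512 256 320 384 512 314 372 216 808 ∧
    Ok Gd mult 384 512 256 320 384 512 372 430 216 364 :=
  have c0 : (band (go 16 Gd mult S314_372_512_660 (Tr.lf 4296311940 104041669 15234092293086303535211806749) 384 512 256 320 448 480)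
  (band (go 16 Gd mult S314_372_364_512 (Tr.lf 4296311364 108235718 16903650080303660316871360512) 384 512 256 320 448 480)
  (band (go 16 Gd mult S314_372_216_364 (Tr.lf 4296180292 108235718 17637461651789558743331504128) 384 512 256 320 448 480)
  (band (go 16 Gd mult S372_430_216_364 (Tr.lf 4296180292 108244037 22757427005921150545365565469) 384 512 256 320 448 480)
  (go 16 Gd mult S314_343_660_808 (Tr.lf 4295115298 99974085 2410683548076864070716751901) 384 512 256 320 448 480))))) = true := by decide +kernel
  have c1 : (go 16 Gd mult S285_314_660_808 (Tr.lf 4295247940 108100677 324201548769143132323869) 384 512 256 320 384 512) = true := by decide +kernel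
  have c2 : (band (go 16 Gd mult S314_372_660_808 (Tr.lf 4296311876 112434118 0) 384 512 256 320 384 448)
  (band (go 16 Gd mult S314_372_512_660 (Tr.lf 4296180804 112176070 0) 384 512 256 320 384 448)
  (band (go 16 Gd mult S314_372_364_512 (Tr.lf 4296180802 112176070 2419060565048872978587058176) 384 512 256 320 384 448)
  (band (go 16 Gd mult S314_372_216_364 (Tr.lf 4295115842 112434372 4518964713719483855051685888) 384 512 256 320 384 448)
  (band (go 16 Gd mult S372_430_216_364 (Tr.lf 4296164418 108112838 12390280725230334411563597824) 384 512 256 320 384 448)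
  (go 16 Gd mult S285_314_512_660 (Tr.lf 4295107105 108108741 0) 384 512 256 320 384 448)))))) = true := by decide +kernel
  have c3 : (band (go 16 Gd mult S314_372_660_808 (Tr.lf 4296311364 99843142 79104849645656272424192966523) 384 512 256 320 480 512)
  (band (go 16 Gd mult S314_372_364_512 (Tr.lf 4295131716 99851205 79104849645656272424192966523) 384 512 256 320 480 512)
  (band (go 16 Gd mult S314_372_512_660 (Tr.lf 4296180292 99843142 79104849645656272424192966523) 384 512 256 320 480 512)
  (band (go 16 Gd mult S314_372_216_364 (Tr.lf 4295115332 108108996 79104849645656272424192966523) 384 512 256 320 480 512)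
  (band (go 16 Gd mult S372_430_216_364 (Tr.lf 4296163906 108108997 79104849645656272424192966523) 384 512 256 320 480 512)
  (band (go 16 Gd mult S285_314_512_660 (Tr.lf 139554 112430276 79104849645656272424192966523) 384 512 256 320 480 512)
  (go 16 Gd mult S285_314_512_660 (Tr.lf 4295106850 108362693 5946806918140723733079261184) 384 512 256 320 448 480))))))) = true := by decide +kernel
  have c4 : (go 16 Gd mult S343_372_660_808 (Tr.lf 4296163908 99847365 13488388098765197703452295168) 384 512 256 320 448 480) = true := by decide +kernel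
  have c5 : (go 16 Gd mult S256_285_660_808 (Tr.lf 4295246370 99839045 213391935444672093093888) 384 512 256 320 448 512) = true := by decide +kernel
  have c6 : (go 16 Gd mult S256_285_660_808 (Tr.lf 4295106850 108235717 0) 384 512 256 320 384 448) = true := by decide +kernel
  (And.intro (Ok.s2 448 (Ok.lf S285_314_512_660_ok (br (br (br (br (br c2))))))
  (Ok.s2 480 (Ok.lf S285_314_512_660_ok (br (br (br (br (br (br c3)))))))
  (Ok.lf S285_314_512_660_ok (bl (br (br (br (br (br c3)))))))))
  (And.intro (Ok.s3 285 (Ok.s2 448 (Ok.lf S256_285_660_808_ok c6)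
  (Ok.lf S256_285_660_808_ok c5))
  (Ok.lf S285_314_660_808_ok c1))
  (And.intro (Ok.s4 512 (Ok.s4 364 (Ok.s2 448 (Ok.lf S314_372_216_364_ok (bl (br (br (br c2)))))
  (Ok.s2 480 (Ok.lf S314_372_216_364_ok (bl (br (br c0))))
  (Ok.lf S314_372_216_364_ok (bl (br (br (br c3)))))))
  (Ok.s2 448 (Ok.lf S314_372_364_512_ok (bl (br (br c2))))
  (Ok.s2 480 (Ok.lf S314_372_364_512_ok (bl (br c0)))
  (Ok.lf S314_372_364_512_ok (bl (br c3))))))
  (Ok.s4 660 (Ok.s2 448 (Ok.lf S314_372_512_660_ok (bl (br c2)))
  (Ok.s2 480 (Ok.lf S314_372_512_660_ok (bl c0))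
  (Ok.lf S314_372_512_660_ok (bl (br (br c3))))))
  (Ok.s2 448 (Ok.lf S314_372_660_808_ok (bl c2))
  (Ok.s2 480 (Ok.s3 343 (Ok.lf S314_343_660_808_ok (br (br (br (br c0)))))
  (Ok.lf S343_372_660_808_ok c4))
  (Ok.lf S314_372_660_808_ok (bl c3))))))
  (Ok.s2 448 (Ok.lf S372_430_216_364_ok (bl (br (br (br (br c2))))))
  (Ok.s2 480 (Ok.lf S372_430_216_364_ok (bl (br (br (br c0)))))
  (Ok.lf S372_430_216_364_ok (bl (br (br (br (br c3)))))))))))

end Vale.Agent.P098.Ck
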