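import Vale.Agent.P098.CkGd
import Vale.Agent.P098.CkOk
import Vale.Agent.P098.Sh.A54
import Vale.Agent.P098.Sh.A55
import Vale.Agent.P098.Sh.A57
import Vale.Agent.P098.Sh.A58
import Vale.Agent.P098.Sh.A59

namespace Vale.Agent.P098.Ck

theorem r747 :
    Ok Gd mult 384 512 256 320 384 512 372 430 364 512 ∧
    Ok Gd mult 384 512 256 320 384 512 372 430 512 808 ∧
    Ok Gd mult 384 512 256 320 384 512 430 488 216 808 :=
  have c0 : (band (go 16 Gd mult S372_430_512_660 (Tr.lf 8591148168 99584839 22570034870812819426096513053) 384 512 256 320 448 480)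
  (band (go 16 Gd mult S430_488_660_808 (Tr.lf 5370971272 103644359 24462611175584501583771340728) 384 512 256 320 448 480)
  (go 16 Gd mult S401_430_660_808 (Tr.lf 8591131268 91319239 22443114962791061603431219200) 384 512 256 320 448 480))) = true := by decide +kernel
  have c1 : (band (go 16 Gd mult S430_488_216_364 (Tr.lf 4834034824 112303047 24463820433766958863754073133) 384 512 256 320 448 480)
  (band (go 16 Gd mult S430_488_364_512 (Tr.lf 5370905736 103644359 24463820433639167274380563047) 384 512 256 320 448 480)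
  (go 16 Gd mult S430_488_512_660 (Tr.lf 5370905736 103644359 24462610622247764042794012833) 384 512 256 320 448 480))) = true := by decide +kernel
  have c2 : (band (go 16 Gd mult S372_430_364_512 (Tr.lf 4296180804 108244037 22698140886015455834992017408) 384 512 256 320 448 480)
  (go 16 Gd mult S372_401_660_808 (Tr.lf 8592180356 95390791 19015807404946419242483318784) 384 512 256 320 448 480)) = true := by decide +kernel
  have c3 : (band (go 16 Gd mult S372_430_660_808 (Tr.lf 4296180804 108112838 11985290575659433638037028864) 384 512 256 320 384 448)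
  (band (go 16 Gd mult S372_430_512_660 (Tr.lf 4296115268 108112838 12149704487127023205797068800) 384 512 256 320 384 448)
  (band (go 16 Gd mult S372_430_364_512 (Tr.lf 4296098884 108112838 12314118398594612773557108736) 384 512 256 320 384 448)
  (band (go 16 Gd mult S430_488_660_808 (Tr.lf 4296098884 108112838 14775525438466301914800717853) 384 512 256 320 384 448)
  (band (go 16 Gd mult S430_488_216_364 (Tr.lf 4295049796 108112837 14776736135181510394458865664) 384 512 256 320 384 448)
  (band (go 16 Gd mult S430_488_364_512 (Tr.lf 4295049796 108112837 14776736135181510394416988160) 384 512 256 320 384 448)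
  (go 16 Gd mult S430_488_512_660 (Tr.lf 4296098372 108112838 14776736135181510394416988160) 384 512 256 320 384 448))))))) = true := by decide +kernel
  have c4 : (band (go 16 Gd mult S372_430_660_808 (Tr.lf 4296180292 108108742 79104849645656272424192966523) 384 512 256 320 480 512)
  (band (go 16 Gd mult S372_430_364_512 (Tr.lf 4296114756 108108742 79104849645656272424192966523) 384 512 256 320 480 512)
  (band (go 16 Gd mult S372_430_512_660 (Tr.lf 4296114756 108108742 79104849645656272424192966523) 384 512 256 320 480 512)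
  (band (go 16 Gd mult S430_488_216_364 (Tr.lf 4296098114 99851461 79104849645656272424192966523) 384 512 256 320 480 512)
  (band (go 16 Gd mult S430_488_364_512 (Tr.lf 4296098114 99851461 79104849645656272424192966523) 384 512 256 320 480 512)
  (band (go 16 Gd mult S430_488_512_660 (Tr.lf 4296098114 99851461 79104849645656272424192966523) 384 512 256 320 480 512)
  (go 16 Gd mult S430_488_660_808 (Tr.lf 4296098114 99851461 79104849645656272424192966523) 384 512 256 320 480 512))))))) = true := by decide +kernel
  (And.intro (Ok.s2 448 (Ok.lf S372_430_364_512_ok (bl (br (br c3))))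
  (Ok.s2 480 (Ok.lf S372_430_364_512_ok (bl c2))
  (Ok.lf S372_430_364_512_ok (bl (br c4)))))
  (And.intro (Ok.s4 660 (Ok.s2 448 (Ok.lf S372_430_512_660_ok (bl (br c3)))
  (Ok.s2 480 (Ok.lf S372_430_512_660_ok (bl c0))
  (Ok.lf S372_430_512_660_ok (bl (br (br c4))))))
  (Ok.s2 448 (Ok.lf S372_430_660_808_ok (bl c3))
  (Ok.s2 480 (Ok.s3 401 (Ok.lf S372_401_660_808_ok (br c2))
  (Ok.lf S401_430_660_808_ok (br (br c0))))
  (Ok.lf S372_430_660_808_ok (bl c4)))))
  (Ok.s4 512 (Ok.s4 364 (Ok.s2 448 (Ok.lf S430_488_216_364_ok (bl (br (br (br (br c3))))))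
  (Ok.s2 480 (Ok.lf S430_488_216_364_ok (bl c1))
  (Ok.lf S430_488_216_364_ok (bl (br (br (br c4)))))))
  (Ok.s2 448 (Ok.lf S430_488_364_512_ok (bl (br (br (br (br (br c3)))))))
  (Ok.s2 480 (Ok.lf S430_488_364_512_ok (bl (br c1)))
  (Ok.lf S430_488_364_512_ok (bl (br (br (br (br c4)))))))))
  (Ok.s4 660 (Ok.s2 448 (Ok.lf S430_488_512_660_ok (br (br (br (br (br (br c3)))))))
  (Ok.s2 480 (Ok.lf S430_488_512_660_ok (br (br c1)))
  (Ok.lf S430_488_512_660_ok (bl (br (br (br (br (br c4)))))))))
  (Ok.s2 448 (Ok.lf S430_488_660_808_ok (bl (br (br (br c3)))))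
  (Ok.s2 480 (Ok.lf S430_488_660_808_ok (bl (br c0)))
  (Ok.lf S430_488_660_808_ok (br (br (br (br (br (br c4)))))))))))))

end Vale.Agent.P098.Ck
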