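import Vale.Agent.P098.CkGd
import Vale.Agent.P098.CkOk
import Vale.Agent.P098.Sh.A0
import Vale.Agent.P098.Sh.A1
import Vale.Agent.P098.Sh.A3

namespace Vale.Agent.P098.Ck

theorem r749 :
    Ok Gd mult 384 512 352 368 0 128 24 82 512 660 ∧
    Ok Gd mult 384 512 368 384 0 128 24 82 512 660 ∧
    Ok Gd mult 384 512 320 384 0 128 24 82 660 808 ∧
    Ok Gd mult 384 512 320 352 0 128 82 140 216 364 ∧
    Ok Gd mult 384 512 352 368 0 128 82 140 216 364 :=
  have c0 : (band (go 16 Gd mult S24_82_660_808 (Tr.lf 10741909540 90782795 79104849645656272424192966523) 480 496 368 372 0 128)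
  (go 16 Gd mult S24_82_512_660 (Tr.lf 10741778468 90782795 79104849645656272424192966523) 480 496 368 372 0 128)) = true := by decide +kernel
  have c1 : (go 16 Gd mult S82_140_216_364 (Tr.lf 13422987284 99584967 0) 384 512 352 368 0 128) = true := by decide +kernel
  have c2 : (band (go 16 Gd mult S24_53_512_660 (Tr.lf 15036663876 99306443 18409588809839411067) 448 512 352 368 0 128)
  (band (go 16 Gd mult S24_53_660_808 (Tr.lf 15036663876 99306443 18409588809839411067) 448 512 352 368 0 128)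
  (band (go 16 Gd mult S53_82_512_660 (Tr.lf 14498735138 103636041 88691908351131654029179) 448 512 352 368 0 128)
  (band (go 16 Gd mult S53_82_660_808 (Tr.lf 14498735138 103636041 88691908351131654029179) 448 512 352 368 0 128)
  (band (go 16 Gd mult S24_53_512_660 (Tr.lf 10741696529 90917835 79104849645656272424192966523) 496 504 368 370 0 128)
  (band (go 16 Gd mult S24_53_660_808 (Tr.lf 10741696529 90917835 79104849645656272424192966523) 496 504 368 370 0 128)
  (band (go 16 Gd mult S53_82_512_660 (Tr.lf 10203767313 95255497 79104849645656272424192966523) 496 504 368 370 0 128)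
  (go 16 Gd mult S53_82_660_808 (Tr.lf 10203767313 95255497 79104849645656272424192966523) 496 504 368 370 0 128)))))))) = true := by decide +kernel
  have c3 : (band (go 16 Gd mult S82_140_216_364 (Tr.lf 13422904340 103648199 0) 384 512 320 352 0 128)
  (band (go 16 Gd mult S24_82_660_808 (Tr.lf 13422896148 99580871 0) 384 512 320 352 0 128)
  (band (go 16 Gd mult S24_82_660_808 (Tr.lf 17717863441 86731592 0) 384 448 352 368 0 128)
  (go 16 Gd mult S24_82_512_660 (Tr.lf 17717863441 86731592 0) 384 448 352 368 0 128)))) = true := by decide +kernel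
  have c4 : (band (go 16 Gd mult S24_82_512_660 (Tr.sp 1 376 (Tr.lf 10203792401 95255497 804333344690693708971899) Tr.skip) 464 480 368 384 0 128)
  (go 16 Gd mult S24_82_660_808 (Tr.sp 1 376 (Tr.lf 10203792401 95255497 804333344690693708971899) Tr.skip) 464 480 368 384 0 128)) = true := by decide +kernel
  have c5 : (band (go 16 Gd mult S24_82_512_660 (Tr.lf 17717871634 91052872 63104730645533491390891163648) 384 448 368 376 0 128)
  (band (go 16 Gd mult S24_82_660_808 (Tr.lf 17717871634 91052872 63163968010694608220451766272) 384 448 368 376 0 128)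
  (band (go 16 Gd mult S24_82_512_660 (Tr.lf 10203776033 91053129 418630372853500694232955) 448 464 368 384 0 128)
  (band (go 16 Gd mult S24_82_660_808 (Tr.lf 10203776033 91053129 418630372853500694232955) 448 464 368 384 0 128)
  (band (go 16 Gd mult S24_82_512_660 (Tr.lf 13423952402 99441991 79104849645656272424192966523) 384 448 376 384 0 128)
  (go 16 Gd mult S24_82_660_808 (Tr.lf 13423952402 99441991 79104849645656272424192966523) 384 448 376 384 0 128)))))) = true := by decide +kernel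
  (And.intro (Ok.s0 448 (Ok.lf S24_82_512_660_ok (br (br (br c3))))
  (Ok.s3 53 (Ok.lf S24_53_512_660_ok (bl c2))
  (Ok.lf S53_82_512_660_ok (bl (br (br c2))))))
  (And.intro (Ok.s0 448 (Ok.s1 376 (Ok.lf S24_82_512_660_ok (bl c5))
  (Ok.lf S24_82_512_660_ok (bl (br (br (br (br c5)))))))
  (Ok.s0 480 (Ok.s0 464 (Ok.lf S24_82_512_660_ok (bl (br (br c5))))
  (Ok.lf S24_82_512_660_ok (bl c4)))
  (Ok.s1 376 (Ok.s1 372 (Ok.s0 496 (Ok.lf S24_82_512_660_ok (br c0))
  (Ok.s1 370 (Ok.s0 504 (Ok.s3 53 (Ok.lf S24_53_512_660_ok (bl (br (br (br (br c2))))))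
  (Ok.lf S53_82_512_660_ok (bl (br (br (br (br (br (br c2)))))))))
  (Ok.out rfl))
  (Ok.out rfl)))
  (Ok.s0 496 (Ok.s0 488 (Ok.out rfl)
  (Ok.out rfl))
  (Ok.out rfl)))
  (Ok.out rfl))))
  (And.intro (Ok.s1 352 (Ok.lf S24_82_660_808_ok (bl (br c3)))
  (Ok.s1 368 (Ok.s0 448 (Ok.lf S24_82_660_808_ok (bl (br (br c3))))
  (Ok.s3 53 (Ok.lf S24_53_660_808_ok (bl (br c2)))
  (Ok.lf S53_82_660_808_ok (bl (br (br (br c2)))))))
  (Ok.s0 448 (Ok.s1 376 (Ok.lf S24_82_660_808_ok (bl (br c5)))
  (Ok.lf S24_82_660_808_ok (br (br (br (br (br c5)))))))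
  (Ok.s0 480 (Ok.s0 464 (Ok.lf S24_82_660_808_ok (bl (br (br (br c5)))))
  (Ok.lf S24_82_660_808_ok (br c4)))
  (Ok.s1 376 (Ok.s1 372 (Ok.s0 496 (Ok.lf S24_82_660_808_ok (bl c0))
  (Ok.s1 370 (Ok.s0 504 (Ok.s3 53 (Ok.lf S24_53_660_808_ok (bl (br (br (br (br (br c2)))))))
  (Ok.lf S53_82_660_808_ok (br (br (br (br (br (br (br c2)))))))))
  (Ok.out rfl))
  (Ok.out rfl)))
  (Ok.s0 496 (Ok.s0 488 (Ok.out rfl)
  (Ok.out rfl))
  (Ok.out rfl)))
  (Ok.out rfl))))))
  (And.intro (Ok.lf S82_140_216_364_ok (bl c3))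
  (Ok.lf S82_140_216_364_ok c1)))))

end Vale.Agent.P098.Ck
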