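import Vale.Agent.P098.CkGd
import Vale.Agent.P098.CkOk
import Vale.Agent.P098.Sh.A2
import Vale.Agent.P098.Sh.A3
import Vale.Agent.P098.Sh.A4
import Vale.Agent.P098.Sh.A5
import Vale.Agent.P098.Sh.A6

namespace Vale.Agent.P098.Ck

theorem r750 :
    Ok Gd mult 384 512 368 384 0 128 82 140 216 364 ∧
    Ok Gd mult 384 512 320 384 0 128 82 140 364 512 ∧
    Ok Gd mult 384 512 320 384 0 128 82 140 512 808 :=
  have c0 : (band (go 16 Gd mult S82_140_660_808 (Tr.lf 10204251208 94985290 79104253170186649025841463163) 384 512 368 384 0 64)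
  (band (go 16 Gd mult S82_111_364_512 (Tr.lf 10204890184 99179467 79104491907948450974858477435) 384 512 368 384 0 64)
  (go 16 Gd mult S82_111_512_660 (Tr.lf 10203841064 90922185 79104371247795464840681357179) 384 512 368 384 0 64))) = true := by decide +kernel
  have c1 : (go 16 Gd mult S82_140_216_364 (Tr.lf 13961037848 103902535 79104848219784740020430746458) 384 512 372 376 0 128) = true := by decide +kernel
  have c2 : (band (go 16 Gd mult S82_111_216_364 (Tr.lf 10205022248 99437515 79104849645656272424192966523) 384 512 376 384 0 128)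
  (band (go 16 Gd mult S111_140_216_364 (Tr.lf 9127994388 108108870 79104849645656272424192966523) 384 512 376 384 0 128)
  (go 16 Gd mult S111_140_364_512 (Tr.lf 9127928340 108108870 79104849645656272424192966523) 384 512 376 384 0 128))) = true := by decide +kernel
  have c3 : (band (go 16 Gd mult S82_111_364_512 (Tr.lf 10203857992 95116489 79104848759167424096188035263) 384 512 368 384 64 128)
  (band (go 16 Gd mult S82_111_512_660 (Tr.lf 10203857992 95116489 79104847873244349405977307683) 384 512 368 384 64 128)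
  (band (go 16 Gd mult S82_111_660_808 (Tr.lf 10203972680 95116489 79104848223313082695905436724) 384 512 368 384 64 128)
  (go 16 Gd mult S111_140_512_660 (Tr.lf 10212246052 95128522 79104848745040823469072592033) 384 512 368 384 64 128)))) = true := by decide +kernel
  have c4 : (band (go 16 Gd mult S82_140_364_512 (Tr.lf 13422986260 103779271 0) 384 512 352 368 0 128)
  (band (go 16 Gd mult S82_140_660_808 (Tr.lf 13422986260 107973575 0) 384 512 352 368 0 128)
  (go 16 Gd mult S82_140_512_660 (Tr.lf 13422986260 103779271 0) 384 512 352 368 0 128))) = true := by decide +kernel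
  have c5 : (go 16 Gd mult S111_140_660_808 (Tr.lf 10212360740 95120458 79104848743208112394643313488) 384 512 368 384 64 128) = true := by decide +kernel
  have c6 : (band (go 16 Gd mult S82_111_216_364 (Tr.lf 13960889364 108096711 79104243319692586875875033117) 384 512 368 372 0 128)
  (go 16 Gd mult S111_140_216_364 (Tr.lf 13959766546 107969479 79103664755981341102434156544) 384 512 368 372 0 128)) = true := by decide +kernel
  have c7 : (band (go 16 Gd mult S82_140_364_512 (Tr.lf 13422904340 99576903 0) 384 512 320 352 0 128)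
  (band (go 16 Gd mult S82_140_660_808 (Tr.lf 13422904338 99576903 0) 384 512 320 352 0 128)
  (go 16 Gd mult S82_140_512_660 (Tr.lf 13422904338 99576903 0) 384 512 320 352 0 128))) = true := by decide +kernel
  have c8 : (go 16 Gd mult S111_140_364_512 (Tr.lf 13422961684 108100806 79103666526868772178551111680) 384 512 368 376 0 128) = true := by decide +kernel
  have c9 : (go 16 Gd mult S111_140_512_660 (Tr.lf 13422895380 104037574 79103665991876038777103974267) 384 512 368 384 0 64) = true := by decide +kernel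
  (And.intro (Ok.s1 376 (Ok.s1 372 (Ok.s3 111 (Ok.lf S82_111_216_364_ok (bl c6))
  (Ok.lf S111_140_216_364_ok (br c6)))
  (Ok.lf S82_140_216_364_ok c1))
  (Ok.s3 111 (Ok.lf S82_111_216_364_ok (bl c2))
  (Ok.lf S111_140_216_364_ok (bl (br c2)))))
  (And.intro (Ok.s1 352 (Ok.lf S82_140_364_512_ok (bl c7))
  (Ok.s1 368 (Ok.lf S82_140_364_512_ok (bl c4))
  (Ok.s3 111 (Ok.s2 64 (Ok.lf S82_111_364_512_ok (bl (br c0)))
  (Ok.lf S82_111_364_512_ok (bl c3)))
  (Ok.s1 376 (Ok.lf S111_140_364_512_ok c8)
  (Ok.lf S111_140_364_512_ok (br (br c2)))))))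
  (Ok.s4 660 (Ok.s1 352 (Ok.lf S82_140_512_660_ok (br (br c7)))
  (Ok.s1 368 (Ok.lf S82_140_512_660_ok (br (br c4)))
  (Ok.s2 64 (Ok.s3 111 (Ok.lf S82_111_512_660_ok (br (br c0)))
  (Ok.lf S111_140_512_660_ok c9))
  (Ok.s3 111 (Ok.lf S82_111_512_660_ok (bl (br c3)))
  (Ok.lf S111_140_512_660_ok (br (br (br c3))))))))
  (Ok.s1 352 (Ok.lf S82_140_660_808_ok (bl (br c7)))
  (Ok.s1 368 (Ok.lf S82_140_660_808_ok (bl (br c4)))
  (Ok.s2 64 (Ok.lf S82_140_660_808_ok (bl c0))
  (Ok.s3 111 (Ok.lf S82_111_660_808_ok (bl (br (br c3))))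
  (Ok.lf S111_140_660_808_ok c5))))))))

end Vale.Agent.P098.Ck
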