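import Vale.Agent.P098.CkGd
import Vale.Agent.P098.CkOk
import Vale.Agent.P098.Sh.A10
import Vale.Agent.P098.Sh.A11
import Vale.Agent.P098.Sh.A12
import Vale.Agent.P098.Sh.A17
import Vale.Agent.P098.Sh.A18
import Vale.Agent.P098.Sh.A19
import Vale.Agent.P098.Sh.A25
import Vale.Agent.P098.Sh.A28
import Vale.Agent.P098.Sh.A29
import Vale.Agent.P098.Sh.A36
import Vale.Agent.P098.Sh.A7
import Vale.Agent.P098.Sh.A8

namespace Vale.Agent.P098.Ck

theorem r751 :
    Ok Gd mult 384 512 320 384 0 128 140 198 216 364 ∧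
    Ok Gd mult 384 512 320 384 0 128 140 198 364 512 ∧
    Ok Gd mult 384 512 320 384 0 128 140 198 512 808 ∧
    Ok Gd mult 384 512 320 384 0 128 198 256 216 808 :=
  have c0 : (band (go 16 Gd mult S198_256_364_512 (Tr.lf 17717036100 99707720 20180738016638249467904) 384 448 320 384 0 128)
  (band (go 16 Gd mult S198_227_216_364 (Tr.lf 17717019716 99711816 25696314494677405401088) 384 448 320 384 0 128)
  (go 16 Gd mult S227_256_216_364 (Tr.lf 17717019716 99711816 25696314494677405401088) 384 448 320 384 0 128))) = true := by decide +kernel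
  have c1 : (band (go 16 Gd mult S198_256_512_660 (Tr.lf 13422068292 112299078 17303045941139559415808) 384 512 320 384 0 128)
  (band (go 16 Gd mult S198_256_660_808 (Tr.lf 13430456900 108108870 16768090363001982418944) 384 512 320 384 0 128)
  (band (go 16 Gd mult S140_198_660_808 (Tr.lf 13421920836 103906119 21398223125503079874560) 384 512 320 384 0 128)
  (go 16 Gd mult S140_154_364_512 (Tr.lf 13422891588 103644231 19073933372215676370944) 384 512 320 384 0 128)))) = true := by decide +kernel
  have c2 : (band (go 16 Gd mult S169_198_216_364 (Tr.lf 17717011496 99441608 21066181732176307945472) 384 512 352 384 0 128)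
  (band (go 16 Gd mult S140_169_216_364 (Tr.lf 13422969892 108100934 77387135101983731105136640) 384 512 352 384 0 128)
  (band (go 16 Gd mult S169_198_364_512 (Tr.lf 17716880404 99576648 405007452616841913085984768) 384 512 352 384 0 128)
  (band (go 16 Gd mult S169_198_512_660 (Tr.lf 13421912596 108104774 17303045941139559415808) 384 512 352 384 0 128)
  (band (go 16 Gd mult S140_169_512_660 (Tr.lf 13421912594 103775302 19073933372215676370944) 384 512 352 384 0 128)
  (band (go 16 Gd mult S154_169_364_512 (Tr.lf 13421842962 99839046 200698103658254044502163456) 384 512 352 384 0 128)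
  (band (go 16 Gd mult S169_198_216_364 (Tr.lf 17717011492 95247049 0) 384 512 320 352 0 128)
  (go 16 Gd mult S169_198_364_512 (Tr.lf 13421913108 108227527 0) 384 512 320 352 0 128)))))))) = true := by decide +kernel
  have c3 : (band (go 16 Gd mult S140_198_512_660 (Tr.lf 13421921316 103910215 0) 384 512 320 352 0 128)
  (band (go 16 Gd mult S140_169_216_364 (Tr.lf 13421913108 99711815 0) 384 512 320 352 0 128)
  (go 16 Gd mult S154_169_364_512 (Tr.lf 13421842962 103775047 0) 384 512 320 352 0 128))) = true := by decide +kernel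
  have c4 : (band (go 16 Gd mult S198_256_364_512 (Tr.lf 13421921314 112561222 35842023735217658789888) 448 512 320 384 0 128)
  (band (go 16 Gd mult S227_256_216_364 (Tr.lf 13421912610 108371014 29994405863851730927616) 448 512 320 384 0 128)
  (go 16 Gd mult S198_227_216_364 (Tr.lf 13421912610 108371014 29994405863851730927616) 448 512 320 384 0 128))) = true := by decide +kernel
  (And.intro (Ok.s1 352 (Ok.s3 169 (Ok.lf S140_169_216_364_ok (bl (br c3)))
  (Ok.lf S169_198_216_364_ok (bl (br (br (br (br (br (br c2)))))))))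
  (Ok.s3 169 (Ok.lf S140_169_216_364_ok (bl (br c2)))
  (Ok.lf S169_198_216_364_ok (bl c2))))
  (And.intro (Ok.s3 169 (Ok.s3 154 (Ok.lf S140_154_364_512_ok (br (br (br c1))))
  (Ok.s1 352 (Ok.lf S154_169_364_512_ok (br (br c3)))
  (Ok.lf S154_169_364_512_ok (bl (br (br (br (br (br c2)))))))))
  (Ok.s1 352 (Ok.lf S169_198_364_512_ok (br (br (br (br (br (br (br c2))))))))
  (Ok.lf S169_198_364_512_ok (bl (br (br c2))))))
  (And.intro (Ok.s4 660 (Ok.s1 352 (Ok.lf S140_198_512_660_ok (bl c3))
  (Ok.s3 169 (Ok.lf S140_169_512_660_ok (bl (br (br (br (br c2))))))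
  (Ok.lf S169_198_512_660_ok (bl (br (br (br c2)))))))
  (Ok.lf S140_198_660_808_ok (bl (br (br c1)))))
  (Ok.s4 512 (Ok.s4 364 (Ok.s3 227 (Ok.s0 448 (Ok.lf S198_227_216_364_ok (bl (br c0)))
  (Ok.lf S198_227_216_364_ok (br (br c4))))
  (Ok.s0 448 (Ok.lf S227_256_216_364_ok (br (br c0)))
  (Ok.lf S227_256_216_364_ok (bl (br c4)))))
  (Ok.s0 448 (Ok.lf S198_256_364_512_ok (bl c0))
  (Ok.lf S198_256_364_512_ok (bl c4))))
  (Ok.s4 660 (Ok.lf S198_256_512_660_ok (bl c1))
  (Ok.lf S198_256_660_808_ok (bl (br c1))))))))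

end Vale.Agent.P098.Ck
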