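import Vale.Agent.P098.CkGd
import Vale.Agent.P098.CkOk
import Vale.Agent.P098.Sh.A43
import Vale.Agent.P098.Sh.A44
import Vale.Agent.P098.Sh.A49
import Vale.Agent.P098.Sh.A50
import Vale.Agent.P098.Sh.A54
import Vale.Agent.P098.Sh.A55
import Vale.Agent.P098.Sh.A58

namespace Vale.Agent.P098.Ck

theorem r752 :
    Ok Gd mult 384 512 320 384 0 128 256 314 216 808 ∧
    Ok Gd mult 384 512 320 384 0 128 314 372 216 808 ∧
    Ok Gd mult 384 512 320 384 0 128 372 430 216 808 ∧
    Ok Gd mult 384 512 320 384 0 128 430 488 216 364 :=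
  have c0 : (band (go 16 Gd mult S372_430_216_364 (Tr.lf 17716906120 99449672 19627542582026699866925) 384 512 320 384 0 128)
  (go 16 Gd mult S256_314_364_512 (Tr.lf 13422068804 104045638 17653534078540040896512) 384 512 320 384 0 128)) = true := by decide +kernel
  have c1 : (band (go 16 Gd mult S372_430_364_512 (Tr.lf 17717954696 99441864 19627335694426962919424) 384 512 320 384 0 128)
  (go 16 Gd mult S256_314_512_660 (Tr.lf 13430456900 108239942 19073933372215676370944) 384 512 320 384 0 128)) = true := by decide +kernel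
  have c2 : (band (go 16 Gd mult S256_314_660_808 (Tr.lf 17725424712 95251272 10699111562751539937280) 384 512 320 384 0 128)
  (band (go 16 Gd mult S314_372_660_808 (Tr.lf 13430326340 103918662 17303045941139559415808) 384 512 320 384 0 128)
  (band (go 16 Gd mult S314_372_512_660 (Tr.lf 13421937220 108104774 17856448263350845964288) 384 512 320 384 0 128)
  (go 16 Gd mult S314_372_216_364 (Tr.lf 13421921348 108235846 16777261802113200521031) 384 512 320 384 0 128)))) = true := by decide +kernel
  have c3 : (band (go 16 Gd mult S372_430_512_660 (Tr.lf 17717954628 99576904 21066181732176307945472) 384 448 320 384 0 128)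
  (band (go 16 Gd mult S256_314_216_364 (Tr.lf 17717036100 95644488 21951625447714366423040) 384 448 320 384 0 128)
  (go 16 Gd mult S372_430_660_808 (Tr.lf 17716905028 95640392 20513185021466698319235) 384 448 320 384 0 128))) = true := by decide +kernel
  have c4 : (go 16 Gd mult S430_488_216_364 (Tr.lf 22012920904 91184073 30326654141410941141021) 384 448 352 384 64 128) = true := by decide +kernel
  have c5 : (go 16 Gd mult S314_372_364_512 (Tr.lf 13421921348 104041542 17303045941139559415808) 384 512 320 384 0 128) = true := by decide +kernel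
  have c6 : (band (go 16 Gd mult S372_430_660_808 (Tr.lf 13421855810 108235846 49953782951605465776128) 448 512 320 384 0 128)
  (band (go 16 Gd mult S430_488_216_364 (Tr.lf 13421847618 108236101 42464638766621362029297) 448 512 320 384 0 128)
  (band (go 16 Gd mult S372_430_512_660 (Tr.lf 13421855778 108235846 49419069736720093413956) 448 512 320 384 0 128)
  (go 16 Gd mult S256_314_216_364 (Tr.lf 13421920802 108239942 32301117236618753543540) 448 512 320 384 0 128)))) = true := by decide +kernel
  have c7 : (band (go 16 Gd mult S430_488_216_364 (Tr.lf 17716822596 99584967 26583075814690474627657) 384 448 320 384 0 64)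
  (go 16 Gd mult S430_488_216_364 (Tr.lf 17717871140 95390919 0) 384 448 320 352 64 128)) = true := by decide +kernel
  (And.intro (Ok.s4 512 (Ok.s4 364 (Ok.s0 448 (Ok.lf S256_314_216_364_ok (bl (br c3)))
  (Ok.lf S256_314_216_364_ok (br (br (br c6)))))
  (Ok.lf S256_314_364_512_ok (br c0)))
  (Ok.s4 660 (Ok.lf S256_314_512_660_ok (br c1))
  (Ok.lf S256_314_660_808_ok (bl c2))))
  (And.intro (Ok.s4 512 (Ok.s4 364 (Ok.lf S314_372_216_364_ok (br (br (br c2))))
  (Ok.lf S314_372_364_512_ok c5))
  (Ok.s4 660 (Ok.lf S314_372_512_660_ok (bl (br (br c2))))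
  (Ok.lf S314_372_660_808_ok (bl (br c2)))))
  (And.intro (Ok.s4 512 (Ok.s4 364 (Ok.lf S372_430_216_364_ok (bl c0))
  (Ok.lf S372_430_364_512_ok (bl c1)))
  (Ok.s4 660 (Ok.s0 448 (Ok.lf S372_430_512_660_ok (bl c3))
  (Ok.lf S372_430_512_660_ok (bl (br (br c6)))))
  (Ok.s0 448 (Ok.lf S372_430_660_808_ok (br (br c3)))
  (Ok.lf S372_430_660_808_ok (bl c6)))))
  (Ok.s0 448 (Ok.s2 64 (Ok.lf S430_488_216_364_ok (bl c7))
  (Ok.s1 352 (Ok.lf S430_488_216_364_ok (br c7))
  (Ok.lf S430_488_216_364_ok c4)))
  (Ok.lf S430_488_216_364_ok (bl (br c6)))))))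

end Vale.Agent.P098.Ck
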