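import Vale.Agent.P098.CkGd
import Vale.Agent.P098.CkOk
import Vale.Agent.P098.Sh.A0
import Vale.Agent.P098.Sh.A58
import Vale.Agent.P098.Sh.A59

namespace Vale.Agent.P098.Ck

theorem r753 :
    Ok Gd mult 384 512 320 384 0 128 430 488 364 512 ∧
    Ok Gd mult 384 512 320 384 0 128 430 488 512 808 ∧
    Ok Gd mult 384 512 320 384 128 256 24 82 216 364 ∧
    Ok Gd mult 384 512 320 352 128 256 24 82 364 512 :=
  have c0 : (band (go 16 Gd mult S430_488_364_512 (Tr.lf 22012856392 91184073 30326566602568628174848) 384 448 352 384 64 128)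
  (band (go 16 Gd mult S430_488_512_660 (Tr.lf 22012856392 91184073 30326575046817929494528) 384 448 352 384 64 128)
  (go 16 Gd mult S430_488_660_808 (Tr.lf 22012920904 91184073 30326575047148647022669) 384 448 352 384 64 128))) = true := by decide +kernel
  have c1 : (go 16 Gd mult S430_488_660_808 (Tr.lf 17717889096 99449928 0) 384 512 320 352 0 128) = true := by decide +kernel
  have c2 : (band (go 16 Gd mult S24_82_216_364 (Tr.lf 13960840212 103504968 57136248757153541486655930825) 384 512 364 368 128 256)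
  (go 16 Gd mult S24_82_216_364 (Tr.sp 1 376 (Tr.lf 10203792404 95120457 71439051023479908827381104507) (Tr.sp 0 480 Tr.skip Tr.skip)) 448 512 368 384 128 256)) = true := by decide +kernel
  have c3 : (band (go 16 Gd mult S430_488_364_512 (Tr.lf 17716822596 99584967 26583075814483838177817) 384 448 320 384 0 64)
  (band (go 16 Gd mult S430_488_512_660 (Tr.lf 17716822596 99584967 26583075814484316197401) 384 448 320 384 0 64)
  (band (go 16 Gd mult S430_488_364_512 (Tr.lf 17717871140 95390919 0) 384 448 320 352 64 128)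
  (band (go 16 Gd mult S430_488_512_660 (Tr.lf 17717871140 95390919 0) 384 448 320 352 64 128)
  (band (go 16 Gd mult S430_488_364_512 (Tr.lf 13421855778 104172869 42464775000508700492529) 448 512 320 384 0 128)
  (go 16 Gd mult S430_488_512_660 (Tr.lf 13421855778 104172869 42464674233261699171242) 448 512 320 384 0 128)))))) = true := by decide +kernel
  have c4 : (band (go 16 Gd mult S24_82_216_364 (Tr.lf 13422904340 95382471 22331491666842570871906566173) 384 512 360 364 128 256)
  (go 16 Gd mult S24_82_216_364 (Tr.lf 13959775250 103504712 67971845695322878070055143682) 384 448 368 384 128 256)) = true := by decide +kernel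
  have c5 : (go 16 Gd mult S430_488_660_808 (Tr.lf 17716822564 99584967 29443277049177142402831) 384 448 352 384 0 64) = true := by decide +kernel
  have c6 : (band (go 16 Gd mult S24_82_216_364 (Tr.lf 13422896162 99314504 0) 384 512 320 352 128 256)
  (band (go 16 Gd mult S24_82_364_512 (Tr.lf 13422895634 99441480 0) 384 512 320 352 128 256)
  (go 16 Gd mult S24_82_216_364 (Tr.lf 13422896146 99576775 745907230702226200793710592) 384 512 352 360 128 256))) = true := by decide +kernel
  have c7 : (go 16 Gd mult S430_488_660_808 (Tr.lf 13421847074 108236101 54251874320779791302656) 448 512 352 384 0 128) = true := by decide +kernel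
  (And.intro (Ok.s0 448 (Ok.s2 64 (Ok.lf S430_488_364_512_ok (bl c3))
  (Ok.s1 352 (Ok.lf S430_488_364_512_ok (bl (br (br c3))))
  (Ok.lf S430_488_364_512_ok (bl c0))))
  (Ok.lf S430_488_364_512_ok (bl (br (br (br (br c3)))))))
  (And.intro (Ok.s4 660 (Ok.s0 448 (Ok.s2 64 (Ok.lf S430_488_512_660_ok (bl (br c3)))
  (Ok.s1 352 (Ok.lf S430_488_512_660_ok (bl (br (br (br c3)))))
  (Ok.lf S430_488_512_660_ok (bl (br c0)))))
  (Ok.lf S430_488_512_660_ok (br (br (br (br (br c3)))))))
  (Ok.s1 352 (Ok.lf S430_488_660_808_ok c1)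
  (Ok.s0 448 (Ok.s2 64 (Ok.lf S430_488_660_808_ok c5)
  (Ok.lf S430_488_660_808_ok (br (br c0))))
  (Ok.lf S430_488_660_808_ok c7))))
  (And.intro (Ok.s1 352 (Ok.lf S24_82_216_364_ok (bl c6))
  (Ok.s1 368 (Ok.s1 360 (Ok.lf S24_82_216_364_ok (br (br c6)))
  (Ok.s1 364 (Ok.lf S24_82_216_364_ok (bl c4))
  (Ok.lf S24_82_216_364_ok (bl c2))))
  (Ok.s0 448 (Ok.lf S24_82_216_364_ok (br c4))
  (Ok.lf S24_82_216_364_ok (br c2)))))
  (Ok.lf S24_82_364_512_ok (bl (br c6))))))

end Vale.Agent.P098.Ck
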