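import Vale.Agent.P098.CkGd
import Vale.Agent.P098.CkOk
import Vale.Agent.P098.Sh.A0
import Vale.Agent.P098.Sh.A1
import Vale.Agent.P098.Sh.A3
import Vale.Agent.P098.Sh.A4

namespace Vale.Agent.P098.Ck

theorem r754 :
    Ok Gd mult 384 512 352 384 128 256 24 82 364 512 ∧
    Ok Gd mult 384 512 320 384 128 256 24 82 512 808 ∧
    Ok Gd mult 384 512 320 384 128 256 82 140 216 512 :=
  have c0 : (band (go 16 Gd mult S24_82_660_808 (Tr.lf 10203777048 99441737 58388695906252341935362900347) 384 512 364 368 128 256)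
  (band (go 16 Gd mult S24_82_364_512 (Tr.lf 13960823828 103504968 57356273256323403996452454857) 384 512 364 368 128 256)
  (band (go 16 Gd mult S24_82_512_660 (Tr.lf 13960823828 103504968 57865231026372718505148383659) 384 512 364 368 128 256)
  (band (go 16 Gd mult S24_82_364_512 (Tr.lf 13422904340 99576775 22471727947353139144929640477) 384 512 360 364 128 256)
  (band (go 16 Gd mult S24_82_512_660 (Tr.lf 13422904340 99576775 22802973289886154212027203613) 384 512 360 364 128 256)
  (band (go 16 Gd mult S24_82_660_808 (Tr.lf 13422904340 99576775 23147516595074001315531915293) 384 512 360 364 128 256)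
  (band (go 16 Gd mult S24_82_364_512 (Tr.lf 13959775250 103504712 68211218191136311205622483153) 384 448 368 384 128 256)
  (go 16 Gd mult S24_82_512_660 (Tr.lf 13959775250 103504712 68767321208913709201006823633) 384 448 368 384 128 256)))))))) = true := by decide +kernel
  have c1 : (band (go 16 Gd mult S82_140_216_364 (Tr.lf 13422986260 99576903 8108348611851262795972674445) 384 512 352 368 128 256)
  (band (go 16 Gd mult S82_140_364_512 (Tr.lf 13422920724 99576903 7301994555147135886083031823) 384 512 352 368 128 256)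
  (band (go 16 Gd mult S82_140_216_364 (Tr.lf 5370971156 95513927 79104849645656272424192966523) 384 512 368 384 128 256)
  (go 16 Gd mult S82_140_364_512 (Tr.lf 5370971156 99450183 79104848225129186875560951203) 384 512 368 384 128 256)))) = true := by decide +kernel
  have c2 : (band (go 16 Gd mult S24_82_364_512 (Tr.sp 1 376 (Tr.lf 10203792404 99314761 71676000484124376145623515003) (Tr.sp 0 480 Tr.skip Tr.skip)) 448 512 368 384 128 256)
  (band (go 16 Gd mult S24_82_660_808 (Tr.sp 1 376 (Tr.lf 10203792404 99314761 72800301496365981278100258683) (Tr.sp 0 480 Tr.skip Tr.skip)) 448 512 368 384 128 256)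
  (go 16 Gd mult S24_82_512_660 (Tr.sp 1 376 (Tr.lf 10203792404 99314761 72228479583688261678464237435) (Tr.sp 0 480 Tr.skip Tr.skip)) 448 512 368 384 128 256))) = true := by decide +kernel
  have c3 : (band (go 16 Gd mult S82_140_216_364 (Tr.lf 9128002084 108235846 0) 384 512 320 352 128 256)
  (band (go 16 Gd mult S82_140_364_512 (Tr.lf 9127936548 108235846 0) 384 512 320 352 128 256)
  (band (go 16 Gd mult S24_82_660_808 (Tr.lf 13422895634 95378248 0) 384 512 320 352 128 256)
  (band (go 16 Gd mult S24_82_512_660 (Tr.lf 13422895634 95378248 0) 384 512 320 352 128 256)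
  (band (go 16 Gd mult S24_82_512_660 (Tr.lf 13422896146 99576775 534345212269666095220129792) 384 512 352 360 128 256)
  (band (go 16 Gd mult S24_82_660_808 (Tr.lf 13422896146 99576775 386856262276681335905976320) 384 512 352 360 128 256)
  (go 16 Gd mult S24_82_364_512 (Tr.lf 13422896146 99576775 680625236443036225359577088) 384 512 352 360 128 256))))))) = true := by decide +kernel
  have c4 : (go 16 Gd mult S24_82_660_808 (Tr.lf 13959775250 103504712 69341562412068532952407050449) 384 448 368 384 128 256) = true := by decide +kernel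
  (And.intro (Ok.s1 368 (Ok.s1 360 (Ok.lf S24_82_364_512_ok (br (br (br (br (br (br c3)))))))
  (Ok.s1 364 (Ok.lf S24_82_364_512_ok (bl (br (br (br c0)))))
  (Ok.lf S24_82_364_512_ok (bl (br c0)))))
  (Ok.s0 448 (Ok.lf S24_82_364_512_ok (bl (br (br (br (br (br (br c0))))))))
  (Ok.lf S24_82_364_512_ok (bl c2))))
  (And.intro (Ok.s4 660 (Ok.s1 352 (Ok.lf S24_82_512_660_ok (bl (br (br (br c3)))))
  (Ok.s1 368 (Ok.s1 360 (Ok.lf S24_82_512_660_ok (bl (br (br (br (br c3))))))
  (Ok.s1 364 (Ok.lf S24_82_512_660_ok (bl (br (br (br (br c0))))))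
  (Ok.lf S24_82_512_660_ok (bl (br (br c0))))))
  (Ok.s0 448 (Ok.lf S24_82_512_660_ok (br (br (br (br (br (br (br c0))))))))
  (Ok.lf S24_82_512_660_ok (br (br c2))))))
  (Ok.s1 352 (Ok.lf S24_82_660_808_ok (bl (br (br c3))))
  (Ok.s1 368 (Ok.s1 360 (Ok.lf S24_82_660_808_ok (bl (br (br (br (br (br c3)))))))
  (Ok.s1 364 (Ok.lf S24_82_660_808_ok (bl (br (br (br (br (br c0)))))))
  (Ok.lf S24_82_660_808_ok (bl c0))))
  (Ok.s0 448 (Ok.lf S24_82_660_808_ok c4)
  (Ok.lf S24_82_660_808_ok (bl (br c2)))))))
  (Ok.s4 364 (Ok.s1 352 (Ok.lf S82_140_216_364_ok (bl c3))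
  (Ok.s1 368 (Ok.lf S82_140_216_364_ok (bl c1))
  (Ok.lf S82_140_216_364_ok (bl (br (br c1))))))
  (Ok.s1 352 (Ok.lf S82_140_364_512_ok (bl (br c3)))
  (Ok.s1 368 (Ok.lf S82_140_364_512_ok (bl (br c1)))
  (Ok.lf S82_140_364_512_ok (br (br (br c1)))))))))

end Vale.Agent.P098.Ck
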