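import Vale.Agent.P098.CkGd
import Vale.Agent.P098.CkOk
import Vale.Agent.P098.Sh.A10
import Vale.Agent.P098.Sh.A11
import Vale.Agent.P098.Sh.A17
import Vale.Agent.P098.Sh.A18
import Vale.Agent.P098.Sh.A19
import Vale.Agent.P098.Sh.A25
import Vale.Agent.P098.Sh.A28
import Vale.Agent.P098.Sh.A36
import Vale.Agent.P098.Sh.A4
import Vale.Agent.P098.Sh.A8
import Vale.Agent.P098.Sh.A9

namespace Vale.Agent.P098.Ck

theorem r755 :
    Ok Gd mult 384 512 320 384 128 256 82 140 512 660 ∧
    Ok Gd mult 384 512 320 384 128 256 82 140 660 808 ∧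
    Ok Gd mult 384 512 320 384 128 256 140 198 216 808 ∧
    Ok Gd mult 384 512 320 384 128 256 198 256 216 512 :=
  have c0 : (band (go 16 Gd mult S198_256_364_512 (Tr.lf 13422068776 108231623 11861995139261673388082462720) 384 512 352 384 128 256)
  (band (go 16 Gd mult S140_198_660_808 (Tr.lf 13422052388 108092359 10193703739463557941970337792) 384 512 352 384 128 256)
  (band (go 16 Gd mult S140_169_216_364 (Tr.lf 13422051876 103639752 11031482728522117572022239232) 384 512 352 384 128 256)
  (band (go 16 Gd mult S140_169_364_512 (Tr.lf 13421920804 103640007 10257773063214086325190787072) 384 512 352 384 128 256)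
  (band (go 16 Gd mult S169_198_512_660 (Tr.lf 13422043684 108096455 10642203763112515592154775552) 384 512 352 384 128 256)
  (band (go 16 Gd mult S169_198_364_512 (Tr.lf 13421912612 107969479 12328648880454729713655480320) 384 512 352 384 128 256)
  (go 16 Gd mult S140_169_512_660 (Tr.lf 13421912612 107961287 10200960836689511630369130265) 384 512 352 384 128 256))))))) = true := by decide +kernel
  have c1 : (band (go 16 Gd mult S198_256_364_512 (Tr.lf 13422068772 108100296 0) 384 512 320 352 128 256)
  (band (go 16 Gd mult S140_198_512_660 (Tr.lf 13421937188 107965128 0) 384 512 320 352 128 256)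
  (band (go 16 Gd mult S140_198_660_808 (Tr.lf 13422051876 103897800 0) 384 512 320 352 128 256)
  (band (go 16 Gd mult S82_140_512_660 (Tr.lf 9127936548 112430150 0) 384 512 320 352 128 256)
  (band (go 16 Gd mult S140_169_216_364 (Tr.lf 13421912612 103766728 0) 384 512 320 352 128 256)
  (band (go 16 Gd mult S140_169_364_512 (Tr.lf 13421912612 99703496 0) 384 512 320 352 128 256)
  (band (go 16 Gd mult S82_140_660_808 (Tr.lf 9127936546 108235846 0) 384 512 320 352 128 256)
  (go 16 Gd mult S169_198_364_512 (Tr.lf 13421912596 108096200 0) 384 512 320 352 128 256)))))))) = true := by decide +kernel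
  have c2 : (band (go 16 Gd mult S198_227_216_364 (Tr.lf 13422052420 112290632 7246314367918035498110485311) 384 512 320 384 128 256)
  (band (go 16 Gd mult S227_256_216_364 (Tr.lf 13422052420 112290887 7478425819860157721586174845) 384 512 320 384 128 256)
  (go 16 Gd mult S169_198_216_364 (Tr.lf 13422044228 103897928 7881002747325322368318898397) 384 512 320 384 128 256))) = true := by decide +kernel
  have c3 : (band (go 16 Gd mult S82_140_512_660 (Tr.lf 5370971156 99449928 79104847874336207500848986442) 384 512 368 384 128 256)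
  (go 16 Gd mult S82_140_660_808 (Tr.lf 5370970644 95513672 79104848759493940098972775732) 384 512 368 384 128 256)) = true := by decide +kernel
  have c4 : (band (go 16 Gd mult S82_140_512_660 (Tr.lf 13422920724 103771207 7159340957789658643500630016) 384 512 352 368 128 256)
  (go 16 Gd mult S82_140_660_808 (Tr.lf 13422969876 103771207 6331226236582991402805756735) 384 512 352 368 128 256)) = true := by decide +kernel
  (And.intro (Ok.s1 352 (Ok.lf S82_140_512_660_ok (bl (br (br (br c1)))))
  (Ok.s1 368 (Ok.lf S82_140_512_660_ok (bl c4))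
  (Ok.lf S82_140_512_660_ok (bl c3))))
  (And.intro (Ok.s1 352 (Ok.lf S82_140_660_808_ok (bl (br (br (br (br (br (br c1))))))))
  (Ok.s1 368 (Ok.lf S82_140_660_808_ok (br c4))
  (Ok.lf S82_140_660_808_ok (br c3))))
  (And.intro (Ok.s4 512 (Ok.s4 364 (Ok.s3 169 (Ok.s1 352 (Ok.lf S140_169_216_364_ok (bl (br (br (br (br c1))))))
  (Ok.lf S140_169_216_364_ok (bl (br (br c0)))))
  (Ok.lf S169_198_216_364_ok (br (br c2))))
  (Ok.s1 352 (Ok.s3 169 (Ok.lf S140_169_364_512_ok (bl (br (br (br (br (br c1)))))))
  (Ok.lf S169_198_364_512_ok (br (br (br (br (br (br (br c1)))))))))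
  (Ok.s3 169 (Ok.lf S140_169_364_512_ok (bl (br (br (br c0)))))
  (Ok.lf S169_198_364_512_ok (bl (br (br (br (br (br c0))))))))))
  (Ok.s4 660 (Ok.s1 352 (Ok.lf S140_198_512_660_ok (bl (br c1)))
  (Ok.s3 169 (Ok.lf S140_169_512_660_ok (br (br (br (br (br (br c0)))))))
  (Ok.lf S169_198_512_660_ok (bl (br (br (br (br c0))))))))
  (Ok.s1 352 (Ok.lf S140_198_660_808_ok (bl (br (br c1))))
  (Ok.lf S140_198_660_808_ok (bl (br c0))))))
  (Ok.s4 364 (Ok.s3 227 (Ok.lf S198_227_216_364_ok (bl c2))
  (Ok.lf S227_256_216_364_ok (bl (br c2))))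
  (Ok.s1 352 (Ok.lf S198_256_364_512_ok (bl c1))
  (Ok.lf S198_256_364_512_ok (bl c0)))))))

end Vale.Agent.P098.Ck
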