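import Vale.Agent.P098.CkGd
import Vale.Agent.P098.CkOk
import Vale.Agent.P098.Sh.A29
import Vale.Agent.P098.Sh.A41
import Vale.Agent.P098.Sh.A43
import Vale.Agent.P098.Sh.A44
import Vale.Agent.P098.Sh.A45
import Vale.Agent.P098.Sh.A49
import Vale.Agent.P098.Sh.A50

namespace Vale.Agent.P098.Ck

theorem r756 :
    Ok Gd mult 384 512 320 384 128 256 198 256 512 808 ∧
    Ok Gd mult 384 512 320 384 128 256 256 372 216 808 :=
  have c0 : (band (go 16 Gd mult S256_314_660_808 (Tr.lf 13430719556 103910215 2562945557302903392312102791) 384 512 320 384 128 256)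
  (band (go 16 Gd mult S314_372_216_364 (Tr.lf 13422068804 108104519 7149607810835179452517518301) 384 512 320 384 128 256)
  (go 16 Gd mult S256_285_216_364 (Tr.lf 13422052420 108362695 7882207043532348190578117143) 384 512 320 384 128 256))) = true := by decide +kernel
  have c1 : (band (go 16 Gd mult S314_372_660_808 (Tr.lf 13422068808 104168518 9249528726741300782680768512) 384 512 352 384 128 256)
  (band (go 16 Gd mult S198_256_512_660 (Tr.lf 13422330916 112290759 10181596624911473169794793830) 384 512 352 384 128 256)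
  (go 16 Gd mult S198_256_660_808 (Tr.lf 13430719524 108108615 10348435010307089587215794176) 384 512 352 384 128 256))) = true := by decide +kernel
  have c2 : (band (go 16 Gd mult S256_314_364_512 (Tr.lf 13422330916 108358854 10047396930811169045249721306) 384 512 352 384 128 256)
  (band (go 16 Gd mult S256_314_512_660 (Tr.lf 13430719524 108239942 10092143954663003651672049977) 384 512 352 384 128 256)
  (band (go 16 Gd mult S314_372_364_512 (Tr.lf 13422068772 108104774 9972453344773628947280237081) 384 512 352 384 128 256)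
  (go 16 Gd mult S314_372_512_660 (Tr.lf 13422068772 104168518 10138079925445784150185345024) 384 512 352 384 128 256)))) = true := by decide +kernel
  have c3 : (band (go 16 Gd mult S198_256_512_660 (Tr.lf 13422068772 108096455 0) 384 512 320 352 128 256)
  (band (go 16 Gd mult S198_256_660_808 (Tr.lf 13430457380 103906247 0) 384 512 320 352 128 256)
  (band (go 16 Gd mult S256_314_364_512 (Tr.lf 13422068772 104164295 0) 384 512 320 352 128 256)
  (band (go 16 Gd mult S256_314_512_660 (Tr.lf 13430457380 104037319 0) 384 512 320 352 128 256)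
  (go 16 Gd mult S314_372_512_660 (Tr.lf 13421937700 103910215 0) 384 512 320 352 128 256))))) = true := by decide +kernel
  have c4 : (go 16 Gd mult S285_314_216_364 (Tr.lf 13422052420 108358599 7150810666821141282965946368) 384 512 320 384 128 256) = true := by decide +kernel
  have c5 : (band (go 16 Gd mult S314_372_660_808 (Tr.lf 13421937700 107973447 0) 384 512 320 352 128 256)
  (go 16 Gd mult S314_372_364_512 (Tr.lf 13421921316 103910215 0) 384 512 320 352 128 256)) = true := by decide +kernel
  (And.intro (Ok.s4 660 (Ok.s1 352 (Ok.lf S198_256_512_660_ok (bl c3))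
  (Ok.lf S198_256_512_660_ok (bl (br c1))))
  (Ok.s1 352 (Ok.lf S198_256_660_808_ok (bl (br c3)))
  (Ok.lf S198_256_660_808_ok (br (br c1)))))
  (Ok.s3 314 (Ok.s4 512 (Ok.s4 364 (Ok.s3 285 (Ok.lf S256_285_216_364_ok (br (br c0)))
  (Ok.lf S285_314_216_364_ok c4))
  (Ok.s1 352 (Ok.lf S256_314_364_512_ok (bl (br (br c3))))
  (Ok.lf S256_314_364_512_ok (bl c2))))
  (Ok.s4 660 (Ok.s1 352 (Ok.lf S256_314_512_660_ok (bl (br (br (br c3)))))
  (Ok.lf S256_314_512_660_ok (bl (br c2))))
  (Ok.lf S256_314_660_808_ok (bl c0))))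
  (Ok.s4 512 (Ok.s4 364 (Ok.lf S314_372_216_364_ok (bl (br c0)))
  (Ok.s1 352 (Ok.lf S314_372_364_512_ok (br c5))
  (Ok.lf S314_372_364_512_ok (bl (br (br c2))))))
  (Ok.s4 660 (Ok.s1 352 (Ok.lf S314_372_512_660_ok (br (br (br (br c3)))))
  (Ok.lf S314_372_512_660_ok (br (br (br c2)))))
  (Ok.s1 352 (Ok.lf S314_372_660_808_ok (bl c5))
  (Ok.lf S314_372_660_808_ok (bl c1)))))))

end Vale.Agent.P098.Ck
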