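import Vale.Agent.P098.CkGd
import Vale.Agent.P098.CkOk
import Vale.Agent.P098.Sh.A54
import Vale.Agent.P098.Sh.A55
import Vale.Agent.P098.Sh.A58

namespace Vale.Agent.P098.Ck

theorem r757 :
    Ok Gd mult 384 512 320 384 128 256 372 430 216 512 ∧
    Ok Gd mult 384 512 320 384 128 256 372 430 512 808 ∧
    Ok Gd mult 384 512 320 384 128 256 430 488 216 364 ∧
    Ok Gd mult 384 512 320 352 128 256 430 488 364 512 :=
  have c0 : (band (go 16 Gd mult S430_488_216_364 (Tr.lf 22549792904 99441354 49068339236067407298560) 384 512 320 352 192 256)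
  (go 16 Gd mult S430_488_216_364 (Tr.lf 22012921896 91061065 28556335581897257716169) 384 448 352 368 128 192)) = true := by decide +kernel
  have c1 : (go 16 Gd mult S430_488_364_512 (Tr.lf 22549792904 99441354 49068339236067407298560) 384 512 320 352 192 256) = true := by decide +kernel
  have c2 : (go 16 Gd mult S372_430_660_808 (Tr.lf 17718085764 107961161 6714402889740869865475932160) 384 448 320 384 128 256) = true := by decide +kernel
  have c3 : (band (go 16 Gd mult S372_430_216_364 (Tr.lf 17717954692 99703880 7838703569941081671180746752) 384 448 320 384 128 256)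
  (go 16 Gd mult S372_430_364_512 (Tr.lf 17717954692 99703880 7616261219131989903034810368) 384 448 320 384 128 256)) = true := by decide +kernel
  have c4 : (band (go 16 Gd mult S372_430_216_364 (Tr.lf 17717954692 99576649 78509342777707851677696) 448 512 320 384 128 256)
  (go 16 Gd mult S372_430_660_808 (Tr.lf 17717954692 99576649 75650097446282871177216) 448 512 320 384 128 256)) = true := by decide +kernel
  have c5 : (go 16 Gd mult S372_430_364_512 (Tr.lf 18253777028 107965001 77642601669819159151405) 448 512 320 384 128 256) = true := by decide +kernel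
  have c6 : (band (go 16 Gd mult S430_488_216_364 (Tr.lf 17716906056 99441353 79104128138192472686370750464) 384 512 368 384 128 256)
  (go 16 Gd mult S430_488_216_364 (Tr.lf 22549791268 103504841 154177886968064432406528) 448 512 352 368 224 256)) = true := by decide +kernel
  have c7 : (band (go 16 Gd mult S372_430_512_660 (Tr.lf 17716905000 95382089 0) 384 512 320 352 128 256)
  (go 16 Gd mult S372_430_512_660 (Tr.lf 17716906020 103766856 12534171453950310667617437854) 384 448 352 384 128 256)) = true := by decide +kernel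
  have c8 : (band (go 16 Gd mult S430_488_216_364 (Tr.lf 17717888040 99576904 0) 384 512 320 352 128 192)
  (band (go 16 Gd mult S430_488_364_512 (Tr.lf 17717888040 99576904 0) 384 512 320 352 128 192)
  (go 16 Gd mult S430_488_216_364 (Tr.lf 22012854820 99445577 3557930225464083556224466944) 384 448 352 368 192 224))) = true := by decide +kernel
  have c9 : (go 16 Gd mult S372_430_512_660 (Tr.lf 17717888036 95382600 92971590131496140144640) 448 512 352 384 128 256) = true := by decide +kernel
  have c10 : (band (go 16 Gd mult S430_488_216_364 (Tr.lf 22548660772 103770697 105091307875189285061265) 448 512 352 368 192 224)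
  (band (go 16 Gd mult S430_488_216_364 (Tr.lf 18253693204 103775175 8923176752220672541994975985) 384 448 352 368 224 256)
  (go 16 Gd mult S430_488_216_364 (Tr.lf 17717871122 99843271 75318548923165093594839) 448 512 352 368 128 192))) = true := by decide +kernel
  (And.intro (Ok.s4 364 (Ok.s0 448 (Ok.lf S372_430_216_364_ok (bl c3))
  (Ok.lf S372_430_216_364_ok (bl c4)))
  (Ok.s0 448 (Ok.lf S372_430_364_512_ok (br c3))
  (Ok.lf S372_430_364_512_ok c5)))
  (And.intro (Ok.s4 660 (Ok.s1 352 (Ok.lf S372_430_512_660_ok (bl c7))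
  (Ok.s0 448 (Ok.lf S372_430_512_660_ok (br c7))
  (Ok.lf S372_430_512_660_ok c9)))
  (Ok.s0 448 (Ok.lf S372_430_660_808_ok c2)
  (Ok.lf S372_430_660_808_ok (br c4))))
  (And.intro (Ok.s1 352 (Ok.s2 192 (Ok.lf S430_488_216_364_ok (bl c8))
  (Ok.lf S430_488_216_364_ok (bl c0)))
  (Ok.s1 368 (Ok.s2 192 (Ok.s0 448 (Ok.lf S430_488_216_364_ok (br c0))
  (Ok.lf S430_488_216_364_ok (br (br c10))))
  (Ok.s2 224 (Ok.s0 448 (Ok.lf S430_488_216_364_ok (br (br c8)))
  (Ok.lf S430_488_216_364_ok (bl c10)))
  (Ok.s0 448 (Ok.lf S430_488_216_364_ok (bl (br c10)))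
  (Ok.lf S430_488_216_364_ok (br c6)))))
  (Ok.lf S430_488_216_364_ok (bl c6))))
  (Ok.s2 192 (Ok.lf S430_488_364_512_ok (bl (br c8)))
  (Ok.lf S430_488_364_512_ok c1)))))

end Vale.Agent.P098.Ck
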