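import Vale.Agent.P098.CkGd
import Vale.Agent.P098.CkOk
import Vale.Agent.P098.Sh.A58
import Vale.Agent.P098.Sh.A59

namespace Vale.Agent.P098.Ck

theorem r758 :
    Ok Gd mult 384 512 352 360 128 256 430 488 364 512 ∧
    Ok Gd mult 384 512 360 368 128 256 430 488 364 512 ∧
    Ok Gd mult 384 512 368 384 128 256 430 488 364 512 ∧
    Ok Gd mult 384 512 320 384 128 256 430 488 512 660 ∧
    Ok Gd mult 384 512 320 352 128 256 430 488 660 808 :=
  have c0 : (band (go 16 Gd mult S430_488_512_660 (Tr.lf 22549792904 99441354 49068339236067407298560) 384 512 320 352 192 256)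
  (go 16 Gd mult S430_488_512_660 (Tr.lf 23085615144 107829961 127042770064925210509407) 448 512 352 360 192 256)) = true := by decide +kernel
  have c1 : (band (go 16 Gd mult S430_488_364_512 (Tr.lf 17716906056 99441353 79104128138192472686370750464) 384 512 368 384 128 256)
  (go 16 Gd mult S430_488_512_660 (Tr.lf 17716906056 99441353 79104128138192472686370750464) 384 512 368 384 128 256)) = true := by decide +kernel
  have c2 : (band (go 16 Gd mult S430_488_364_512 (Tr.lf 23085615144 107829961 127042783575800994922525) 448 512 352 360 192 256)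
  (band (go 16 Gd mult S430_488_364_512 (Tr.lf 22012921896 91061320 751979530316672434671256741) 384 448 360 368 128 192)
  (band (go 16 Gd mult S430_488_512_660 (Tr.lf 22012856360 91061320 863200705435239871257183427) 384 448 360 368 128 192)
  (go 16 Gd mult S430_488_512_660 (Tr.lf 17717888040 99576904 0) 384 512 320 352 128 192)))) = true := by decide +kernel
  have c3 : (band (go 16 Gd mult S430_488_364_512 (Tr.lf 22012856360 91053001 7004516198847161438247583744) 384 448 352 360 128 256)
  (band (go 16 Gd mult S430_488_512_660 (Tr.lf 22012856360 91053001 7060126786549434380284067840) 384 448 352 360 128 256)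
  (band (go 16 Gd mult S430_488_364_512 (Tr.lf 22549727252 99314633 79103806592996523855176531968) 448 512 360 368 128 256)
  (go 16 Gd mult S430_488_512_660 (Tr.lf 22549727252 99314633 79103806592996523855176531968) 448 512 360 368 128 256)))) = true := by decide +kernel
  have c4 : (go 16 Gd mult S430_488_660_808 (Tr.lf 22549791812 107698890 77421297879354465255830) 448 512 320 352 192 256) = true := by decide +kernel
  have c5 : (band (go 16 Gd mult S430_488_660_808 (Tr.lf 17717872708 99711944 0) 384 448 320 352 128 256)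
  (go 16 Gd mult S430_488_660_808 (Tr.lf 17716822546 103647944 0) 448 512 320 352 128 192)) = true := by decide +kernel
  have c6 : (band (go 16 Gd mult S430_488_364_512 (Tr.lf 22012838932 90921929 79103703807738545145554927616) 384 448 360 368 192 256)
  (go 16 Gd mult S430_488_512_660 (Tr.lf 22012838932 90921929 79103703807738545145554927616) 384 448 360 368 192 256)) = true := by decide +kernel
  have c7 : (band (go 16 Gd mult S430_488_364_512 (Tr.lf 17716814354 99711943 0) 448 512 352 360 128 192)
  (go 16 Gd mult S430_488_512_660 (Tr.lf 17716814354 99711943 0) 448 512 352 360 128 192)) = true := by decide +kernel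
  (And.intro (Ok.s0 448 (Ok.lf S430_488_364_512_ok (bl c3))
  (Ok.s2 192 (Ok.lf S430_488_364_512_ok (bl c7))
  (Ok.lf S430_488_364_512_ok (bl c2))))
  (And.intro (Ok.s0 448 (Ok.s2 192 (Ok.lf S430_488_364_512_ok (bl (br c2)))
  (Ok.lf S430_488_364_512_ok (bl c6)))
  (Ok.lf S430_488_364_512_ok (bl (br (br c3)))))
  (And.intro (Ok.lf S430_488_364_512_ok (bl c1))
  (And.intro (Ok.s1 352 (Ok.s2 192 (Ok.lf S430_488_512_660_ok (br (br (br c2))))
  (Ok.lf S430_488_512_660_ok (bl c0)))
  (Ok.s1 368 (Ok.s1 360 (Ok.s0 448 (Ok.lf S430_488_512_660_ok (bl (br c3)))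
  (Ok.s2 192 (Ok.lf S430_488_512_660_ok (br c7))
  (Ok.lf S430_488_512_660_ok (br c0))))
  (Ok.s0 448 (Ok.s2 192 (Ok.lf S430_488_512_660_ok (bl (br (br c2))))
  (Ok.lf S430_488_512_660_ok (br c6)))
  (Ok.lf S430_488_512_660_ok (br (br (br c3))))))
  (Ok.lf S430_488_512_660_ok (br c1))))
  (Ok.s0 448 (Ok.lf S430_488_660_808_ok (bl c5))
  (Ok.s2 192 (Ok.lf S430_488_660_808_ok (br c5))
  (Ok.lf S430_488_660_808_ok c4)))))))

end Vale.Agent.P098.Ck
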