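import Vale.Agent.P098.CkGd
import Vale.Agent.P098.CkOk
import Vale.Agent.P098.Sh.A0
import Vale.Agent.P098.Sh.A1
import Vale.Agent.P098.Sh.A3
import Vale.Agent.P098.Sh.A4
import Vale.Agent.P098.Sh.A59

namespace Vale.Agent.P098.Ck

theorem r759 :
    Ok Gd mult 384 512 352 360 128 256 430 488 660 808 ∧
    Ok Gd mult 384 512 360 368 128 256 430 488 660 808 ∧
    Ok Gd mult 384 512 368 384 128 256 430 488 660 808 ∧
    Ok Gd mult 384 512 320 384 256 384 24 82 216 808 ∧
    Ok Gd mult 384 512 320 384 256 384 82 140 216 512 :=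
  have c0 : (go 16 Gd mult S430_488_660_808 (Tr.lf 17717037128 99441353 79104128138192472686370750464) 384 512 368 384 128 256) = true := by decide +kernel
  have c1 : (band (go 16 Gd mult S430_488_660_808 (Tr.lf 23085615144 107829961 127042753176091187019805) 448 512 352 360 192 256)
  (go 16 Gd mult S430_488_660_808 (Tr.lf 22012920872 91061320 911558070146934288827809792) 384 448 360 368 128 192)) = true := by decide +kernel
  have c2 : (band (go 16 Gd mult S430_488_660_808 (Tr.lf 22012856344 91053001 7084305302941726963778191360) 384 448 352 360 128 256)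
  (go 16 Gd mult S430_488_660_808 (Tr.lf 22549727252 99314633 79103806592996523855176531968) 448 512 360 368 128 256)) = true := by decide +kernel
  have c3 : (band (go 16 Gd mult S24_82_216_364 (Tr.lf 538003492 95784133 534900273089852512993309) 384 512 320 352 256 384)
  (band (go 16 Gd mult S24_82_364_512 (Tr.lf 8590033956 95390534 533461435496352469286941) 384 512 320 352 256 384)
  (band (go 16 Gd mult S24_82_512_660 (Tr.lf 8590033956 95390534 532022581014353822941213) 384 512 320 352 256 384)
  (band (go 16 Gd mult S24_82_660_808 (Tr.lf 8590017604 95390534 531137145743065065783325) 384 512 320 352 256 384)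
  (band (go 16 Gd mult S82_140_216_364 (Tr.lf 9674310692 99593415 1460622013330107477185724445) 384 512 320 352 256 384)
  (band (go 16 Gd mult S82_140_364_512 (Tr.lf 9674245154 103656647 235325122311211630526493) 384 512 320 352 256 384)
  (band (go 16 Gd mult S82_140_216_364 (Tr.lf 4834083876 104041543 13471057636506544166424724008) 384 512 352 384 256 384)
  (go 16 Gd mult S82_140_364_512 (Tr.lf 4834018340 104041543 12193223044839205972587232643) 384 512 352 384 256 384)))))))) = true := by decide +kernel
  have c4 : (go 16 Gd mult S430_488_660_808 (Tr.lf 22012838932 90921929 79103703807738545145554927616) 384 448 360 368 192 256) = true := by decide +kernel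
  have c5 : (band (go 16 Gd mult S24_82_216_364 (Tr.lf 5370888740 99450055 3407959450486266649965756283) 384 512 352 384 256 384)
  (band (go 16 Gd mult S24_82_364_512 (Tr.lf 5370888740 99450055 3333006049670159641133973371) 384 512 352 384 256 384)
  (band (go 16 Gd mult S24_82_512_660 (Tr.lf 5370888740 99450055 3164965360743726185849814907) 384 512 352 384 256 384)
  (go 16 Gd mult S24_82_660_808 (Tr.lf 5370888740 99450055 2999342523456521988915068795) 384 512 352 384 256 384)))) = true := by decide +kernel
  have c6 : (go 16 Gd mult S430_488_660_808 (Tr.lf 17716814354 99711943 0) 448 512 352 360 128 192) = true := by decide +kernel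
  (And.intro (Ok.s0 448 (Ok.lf S430_488_660_808_ok (bl c2))
  (Ok.s2 192 (Ok.lf S430_488_660_808_ok c6)
  (Ok.lf S430_488_660_808_ok (bl c1))))
  (And.intro (Ok.s0 448 (Ok.s2 192 (Ok.lf S430_488_660_808_ok (br c1))
  (Ok.lf S430_488_660_808_ok c4))
  (Ok.lf S430_488_660_808_ok (br c2)))
  (And.intro (Ok.lf S430_488_660_808_ok c0)
  (And.intro (Ok.s4 512 (Ok.s4 364 (Ok.s1 352 (Ok.lf S24_82_216_364_ok (bl c3))
  (Ok.lf S24_82_216_364_ok (bl c5)))
  (Ok.s1 352 (Ok.lf S24_82_364_512_ok (bl (br c3)))
  (Ok.lf S24_82_364_512_ok (bl (br c5)))))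
  (Ok.s4 660 (Ok.s1 352 (Ok.lf S24_82_512_660_ok (bl (br (br c3))))
  (Ok.lf S24_82_512_660_ok (bl (br (br c5)))))
  (Ok.s1 352 (Ok.lf S24_82_660_808_ok (bl (br (br (br c3)))))
  (Ok.lf S24_82_660_808_ok (br (br (br c5)))))))
  (Ok.s4 364 (Ok.s1 352 (Ok.lf S82_140_216_364_ok (bl (br (br (br (br c3))))))
  (Ok.lf S82_140_216_364_ok (bl (br (br (br (br (br (br c3)))))))))
  (Ok.s1 352 (Ok.lf S82_140_364_512_ok (bl (br (br (br (br (br c3)))))))
  (Ok.lf S82_140_364_512_ok (br (br (br (br (br (br (br c3))))))))))))))

end Vale.Agent.P098.Ck
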