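import Vale.Agent.P098.CkGd
import Vale.Agent.P098.CkOk
import Vale.Agent.P098.Sh.A10
import Vale.Agent.P098.Sh.A18
import Vale.Agent.P098.Sh.A19
import Vale.Agent.P098.Sh.A25

namespace Vale.Agent.P098.Ck

theorem r76 :
    Ok Gd mult 0 128 128 192 384 512 140 169 512 660 ∧
    Ok Gd mult 0 128 128 192 384 512 169 198 512 660 ∧
    Ok Gd mult 0 128 128 192 384 512 140 198 660 808 ∧
    Ok Gd mult 0 64 128 192 384 448 198 227 216 290 :=
  have c0 : (go 16 Gd mult S169_198_512_586 (Tr.lf 13439764616 90794697 197054908597184555477106688) 0 128 128 192 384 448) = true := by decide +kernel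
  have c1 : (go 16 Gd mult S169_198_586_660 (Tr.lf 9137457288 99187911 257501199577916014212415488) 0 128 128 192 384 448) = true := by decide +kernel
  have c2 : (go 16 Gd mult S169_198_586_660 (Tr.lf 9136408712 103644230 1188374080681180478736171008) 0 128 128 192 448 512) = true := by decide +kernel
  have c3 : (go 16 Gd mult S140_169_660_808 (Tr.lf 9136523400 99318854 1059019017982415157042610176) 0 128 128 192 448 512) = true := by decide +kernel
  have c4 : (band (go 16 Gd mult S169_198_512_586 (Tr.lf 9145845892 99585350 401363372112056886002450432) 64 128 128 192 448 512)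
  (band (go 16 Gd mult S169_198_660_808 (Tr.lf 9136523394 103771206 33849922949209616891772928) 64 128 128 192 448 512)
  (go 16 Gd mult S169_198_660_808 (Tr.lf 9136523394 103644230 1084456967379596186463764480) 0 64 128 192 448 512))) = true := by decide +kernel
  have c5 : (band (go 16 Gd mult S198_227_216_290 (Tr.lf 13440944258 94866504 0) 32 64 160 192 384 448)
  (band (go 16 Gd mult S198_227_216_290 (Tr.lf 13439895618 90528585 0) 0 64 128 160 384 448)
  (go 16 Gd mult S198_227_216_290 (Tr.lf 13439895618 94866248 28555567989001266462749) 0 32 160 192 384 448))) = true := by decide +kernel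
  have c6 : (band (go 16 Gd mult S140_169_512_660 (Tr.lf 9137571912 103644486 247829793020998980814766080) 0 128 160 192 384 448)
  (go 16 Gd mult S140_169_660_808 (Tr.lf 9137571912 103644486 287724345068281743580069888) 0 128 160 192 384 448)) = true := by decide +kernel
  have c7 : (band (go 16 Gd mult S140_169_512_660 (Tr.lf 9137570952 99319110 1204090116336170658007351296) 0 128 128 192 448 480)
  (band (go 16 Gd mult S140_169_512_660 (Tr.lf 9137571908 103378119 0) 0 128 128 160 384 448)
  (band (go 16 Gd mult S169_198_660_808 (Tr.lf 9136522308 99445703 0) 0 128 128 160 384 448)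
  (go 16 Gd mult S140_169_660_808 (Tr.lf 9136391236 99183559 0) 0 128 128 160 384 448)))) = true := by decide +kernel
  have c8 : (go 16 Gd mult S140_169_512_660 (Tr.lf 9136522372 107961159 2647557358623885106087985152) 0 128 128 192 480 512) = true := by decide +kernel
  have c9 : (go 16 Gd mult S169_198_660_808 (Tr.lf 9136522312 99454022 282888641789823226881245184) 0 128 160 192 384 448) = true := by decide +kernel
  have c10 : (go 16 Gd mult S169_198_512_586 (Tr.lf 9136392322 99449926 1243984668383453420772655104) 0 64 128 192 448 512) = true := by decide +kernel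
  (And.intro (Ok.s2 448 (Ok.s1 160 (Ok.lf S140_169_512_660_ok (bl (br c7)))
  (Ok.lf S140_169_512_660_ok (bl c6)))
  (Ok.s2 480 (Ok.lf S140_169_512_660_ok (bl c7))
  (Ok.lf S140_169_512_660_ok c8)))
  (And.intro (Ok.s4 586 (Ok.s2 448 (Ok.lf S169_198_512_586_ok c0)
  (Ok.s0 64 (Ok.lf S169_198_512_586_ok c10)
  (Ok.lf S169_198_512_586_ok (bl c4))))
  (Ok.s2 448 (Ok.lf S169_198_586_660_ok c1)
  (Ok.lf S169_198_586_660_ok c2)))
  (And.intro (Ok.s3 169 (Ok.s2 448 (Ok.s1 160 (Ok.lf S140_169_660_808_ok (br (br (br c7))))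
  (Ok.lf S140_169_660_808_ok (br c6)))
  (Ok.lf S140_169_660_808_ok c3))
  (Ok.s2 448 (Ok.s1 160 (Ok.lf S169_198_660_808_ok (bl (br (br c7))))
  (Ok.lf S169_198_660_808_ok c9))
  (Ok.s0 64 (Ok.lf S169_198_660_808_ok (br (br c4)))
  (Ok.lf S169_198_660_808_ok (bl (br c4))))))
  (Ok.s1 160 (Ok.lf S198_227_216_290_ok (bl (br c5)))
  (Ok.s0 32 (Ok.lf S198_227_216_290_ok (br (br c5)))
  (Ok.lf S198_227_216_290_ok (bl c5)))))))

end Vale.Agent.P098.Ck
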