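import Vale.Agent.P098.CkGd
import Vale.Agent.P098.CkOk
import Vale.Agent.P098.Sh.A10
import Vale.Agent.P098.Sh.A11
import Vale.Agent.P098.Sh.A17
import Vale.Agent.P098.Sh.A18
import Vale.Agent.P098.Sh.A19
import Vale.Agent.P098.Sh.A28
import Vale.Agent.P098.Sh.A4
import Vale.Agent.P098.Sh.A8
import Vale.Agent.P098.Sh.A9

namespace Vale.Agent.P098.Ck

theorem r760 :
    Ok Gd mult 384 512 320 384 256 384 82 140 512 808 ∧
    Ok Gd mult 384 512 320 384 256 384 140 198 216 808 ∧
    Ok Gd mult 384 512 320 384 256 384 198 256 216 364 :=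
  have c0 : (band (go 16 Gd mult S140_198_660_808 (Tr.lf 9127101476 108235718 11890134448307752517951815680) 384 512 352 384 256 384)
  (band (go 16 Gd mult S198_256_216_364 (Tr.lf 9127101460 99978310 49302486654733822209621491712) 384 512 352 384 256 384)
  (band (go 16 Gd mult S140_169_216_364 (Tr.lf 9126954020 104041159 21807038963774171345705762816) 384 512 352 384 256 384)
  (band (go 16 Gd mult S82_140_512_660 (Tr.lf 5370889252 95382855 10509188824378745318329202891) 384 512 352 384 256 384)
  (band (go 16 Gd mult S82_140_660_808 (Tr.lf 5370889252 103640391 8889228779325761620196570729) 384 512 352 384 256 384)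
  (band (go 16 Gd mult S140_169_364_512 (Tr.lf 9126945828 108104646 18775049595533027739275624448) 384 512 352 384 256 384)
  (go 16 Gd mult S140_169_512_660 (Tr.lf 9126945828 108104646 13791877861414192172448612352) 384 512 352 384 256 384))))))) = true := by decide +kernel
  have c1 : (band (go 16 Gd mult S198_256_216_364 (Tr.lf 9135490084 104041415 20996623635066879506296864768) 384 512 320 352 256 384)
  (band (go 16 Gd mult S140_169_216_364 (Tr.lf 9126954020 112290631 5123427623526798442404773888) 384 512 320 352 256 384)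
  (band (go 16 Gd mult S169_198_216_364 (Tr.lf 9127076900 112425799 13954630735811664563633389568) 384 512 320 352 256 384)
  (band (go 16 Gd mult S169_198_364_512 (Tr.lf 9126954020 108231495 8817904928269105200306847744) 384 512 320 352 256 384)
  (band (go 16 Gd mult S140_198_660_808 (Tr.lf 9135342628 104168518 0) 384 512 320 352 256 384)
  (band (go 16 Gd mult S140_169_364_512 (Tr.lf 9126945828 108104391 3498631321964736831599673344) 384 512 320 352 256 384)
  (go 16 Gd mult S82_140_512_660 (Tr.lf 9127937058 112291014 231248383708022939058176) 384 512 320 352 256 384))))))) = true := by decide +kernel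
  have c2 : (band (go 16 Gd mult S169_198_512_660 (Tr.lf 9126945828 108366790 17551315836580668959105220608) 384 512 352 384 256 384)
  (band (go 16 Gd mult S169_198_364_512 (Tr.lf 9126945316 108231750 28833004095846294491385298944) 384 512 352 384 256 384)
  (band (go 16 Gd mult S169_198_216_364 (Tr.lf 9126945300 108231750 37649676726271043672515543040) 384 512 352 384 256 384)
  (band (go 16 Gd mult S169_198_512_660 (Tr.lf 9126945316 112430022 3243547974026050075736670208) 384 512 320 352 256 384)
  (band (go 16 Gd mult S82_140_660_808 (Tr.lf 9127937058 112291014 228924115628433298227229) 384 512 320 352 256 384)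
  (go 16 Gd mult S140_169_512_660 (Tr.lf 9126945316 112425926 0) 384 512 320 352 256 384)))))) = true := by decide +kernel
  (And.intro (Ok.s4 660 (Ok.s1 352 (Ok.lf S82_140_512_660_ok (br (br (br (br (br (br c1)))))))
  (Ok.lf S82_140_512_660_ok (bl (br (br (br c0))))))
  (Ok.s1 352 (Ok.lf S82_140_660_808_ok (bl (br (br (br (br c2))))))
  (Ok.lf S82_140_660_808_ok (bl (br (br (br (br c0))))))))
  (And.intro (Ok.s4 512 (Ok.s4 364 (Ok.s1 352 (Ok.s3 169 (Ok.lf S140_169_216_364_ok (bl (br c1)))
  (Ok.lf S169_198_216_364_ok (bl (br (br c1)))))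
  (Ok.s3 169 (Ok.lf S140_169_216_364_ok (bl (br (br c0))))
  (Ok.lf S169_198_216_364_ok (bl (br (br c2))))))
  (Ok.s1 352 (Ok.s3 169 (Ok.lf S140_169_364_512_ok (bl (br (br (br (br (br c1)))))))
  (Ok.lf S169_198_364_512_ok (bl (br (br (br c1))))))
  (Ok.s3 169 (Ok.lf S140_169_364_512_ok (bl (br (br (br (br (br c0)))))))
  (Ok.lf S169_198_364_512_ok (bl (br c2))))))
  (Ok.s4 660 (Ok.s1 352 (Ok.s3 169 (Ok.lf S140_169_512_660_ok (br (br (br (br (br c2))))))
  (Ok.lf S169_198_512_660_ok (bl (br (br (br c2))))))
  (Ok.s3 169 (Ok.lf S140_169_512_660_ok (br (br (br (br (br (br c0)))))))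
  (Ok.lf S169_198_512_660_ok (bl c2))))
  (Ok.s1 352 (Ok.lf S140_198_660_808_ok (bl (br (br (br (br c1))))))
  (Ok.lf S140_198_660_808_ok (bl c0)))))
  (Ok.s1 352 (Ok.lf S198_256_216_364_ok (bl c1))
  (Ok.lf S198_256_216_364_ok (bl (br c0))))))

end Vale.Agent.P098.Ck
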