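import Vale.Agent.P098.CkGd
import Vale.Agent.P098.CkOk
import Vale.Agent.P098.Sh.A28
import Vale.Agent.P098.Sh.A29
import Vale.Agent.P098.Sh.A43
import Vale.Agent.P098.Sh.A44
import Vale.Agent.P098.Sh.A49

namespace Vale.Agent.P098.Ck

theorem r761 :
    Ok Gd mult 384 512 320 384 256 384 198 256 364 512 ∧
    Ok Gd mult 384 512 320 384 256 384 198 256 512 808 ∧
    Ok Gd mult 384 512 320 384 256 384 256 314 216 808 ∧
    Ok Gd mult 384 512 320 384 256 384 314 372 216 512 :=
  have c0 : (band (go 16 Gd mult S198_256_512_660 (Tr.lf 9127101480 104045510 17264767231639413241216499712) 384 512 352 384 256 384)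
  (band (go 16 Gd mult S256_314_364_512 (Tr.lf 9127101480 108105029 24498981310014970109580279808) 384 512 352 384 256 384)
  (band (go 16 Gd mult S198_256_364_512 (Tr.lf 9127101476 104041542 29702176104457630436858789888) 384 512 352 384 256 384)
  (go 16 Gd mult S198_256_660_808 (Tr.lf 9202598948 108108870 11961187377323194010642153472) 384 512 352 384 256 384)))) = true := by decide +kernel
  have c1 : (go 16 Gd mult S256_314_660_808 (Tr.lf 9135490116 104172741 3372971732448721966528790827) 384 512 320 384 256 384) = true := by decide +kernel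
  have c2 : (band (go 16 Gd mult S198_256_512_660 (Tr.lf 9127101476 108366790 2700740281019081576293597184) 384 512 320 352 256 384)
  (band (go 16 Gd mult S198_256_660_808 (Tr.lf 9202582564 107977798 0) 384 512 320 352 256 384)
  (band (go 16 Gd mult S256_314_512_660 (Tr.lf 9202582564 108108870 0) 384 512 320 352 256 384)
  (band (go 16 Gd mult S314_372_364_512 (Tr.lf 13422052388 108100423 3777893186295716170956800000) 384 512 320 352 256 384)
  (band (go 16 Gd mult S314_372_216_364 (Tr.lf 13421921316 103906119 7699648545125573213703634944) 384 512 320 352 256 384)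
  (go 16 Gd mult S314_372_364_512 (Tr.lf 13422052388 108100423 19605285102197293101256540160) 384 512 352 384 256 384)))))) = true := by decide +kernel
  have c3 : (band (go 16 Gd mult S256_314_512_660 (Tr.lf 9202598948 107981894 13291026291678696067840344064) 384 512 352 384 256 384)
  (go 16 Gd mult S314_372_216_364 (Tr.lf 13421920804 104164167 24719039013324165296569712640) 384 512 352 384 256 384)) = true := by decide +kernel
  have c4 : (band (go 16 Gd mult S198_256_364_512 (Tr.lf 9135489316 104168646 4060781828085539397838045184) 384 512 320 352 256 320)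
  (band (go 16 Gd mult S256_314_364_512 (Tr.lf 9127084580 108240069 738653675784538425745473536) 384 512 320 352 256 320)
  (band (go 16 Gd mult S256_314_216_364 (Tr.lf 13422051620 108096455 5686787055467215637817851904) 384 512 320 352 256 320)
  (band (go 16 Gd mult S256_314_216_364 (Tr.lf 9127084580 112303046 15245784577349983674718683213) 384 512 320 352 320 384)
  (band (go 16 Gd mult S198_256_364_512 (Tr.lf 9135473188 108108870 13326039263487334199383822341) 384 512 320 352 320 384)
  (band (go 16 Gd mult S256_314_364_512 (Tr.lf 9126953508 112430277 10933567226590240937195602500) 384 512 320 352 320 384)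
  (go 16 Gd mult S256_314_216_364 (Tr.lf 13422051620 108227527 18733608911184462936732073984) 384 512 352 384 256 320))))))) = true := by decide +kernel
  have c5 : (go 16 Gd mult S256_314_216_364 (Tr.lf 9126953234 108235846 79104849645656272424192966523) 384 512 352 384 320 384) = true := by decide +kernel
  (And.intro (Ok.s1 352 (Ok.s2 320 (Ok.lf S198_256_364_512_ok (bl c4))
  (Ok.lf S198_256_364_512_ok (bl (br (br (br (br c4)))))))
  (Ok.lf S198_256_364_512_ok (bl (br (br c0)))))
  (And.intro (Ok.s4 660 (Ok.s1 352 (Ok.lf S198_256_512_660_ok (bl c2))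
  (Ok.lf S198_256_512_660_ok (bl c0)))
  (Ok.s1 352 (Ok.lf S198_256_660_808_ok (bl (br c2)))
  (Ok.lf S198_256_660_808_ok (br (br (br c0))))))
  (And.intro (Ok.s4 512 (Ok.s4 364 (Ok.s1 352 (Ok.s2 320 (Ok.lf S256_314_216_364_ok (bl (br (br c4))))
  (Ok.lf S256_314_216_364_ok (bl (br (br (br c4))))))
  (Ok.s2 320 (Ok.lf S256_314_216_364_ok (br (br (br (br (br (br c4)))))))
  (Ok.lf S256_314_216_364_ok c5)))
  (Ok.s1 352 (Ok.s2 320 (Ok.lf S256_314_364_512_ok (bl (br c4)))
  (Ok.lf S256_314_364_512_ok (bl (br (br (br (br (br c4))))))))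
  (Ok.lf S256_314_364_512_ok (bl (br c0)))))
  (Ok.s4 660 (Ok.s1 352 (Ok.lf S256_314_512_660_ok (bl (br (br c2))))
  (Ok.lf S256_314_512_660_ok (bl c3)))
  (Ok.lf S256_314_660_808_ok c1)))
  (Ok.s4 364 (Ok.s1 352 (Ok.lf S314_372_216_364_ok (bl (br (br (br (br c2))))))
  (Ok.lf S314_372_216_364_ok (br c3)))
  (Ok.s1 352 (Ok.lf S314_372_364_512_ok (bl (br (br (br c2)))))
  (Ok.lf S314_372_364_512_ok (br (br (br (br (br c2)))))))))))

end Vale.Agent.P098.Ck
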