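import Vale.Agent.P098.CkGd
import Vale.Agent.P098.CkOk
import Vale.Agent.P098.Sh.A50
import Vale.Agent.P098.Sh.A54
import Vale.Agent.P098.Sh.A55
import Vale.Agent.P098.Sh.A58

namespace Vale.Agent.P098.Ck

theorem r762 :
    Ok Gd mult 384 512 320 384 256 384 314 372 512 808 ∧
    Ok Gd mult 384 512 320 384 256 384 372 430 216 808 ∧
    Ok Gd mult 384 512 320 384 256 384 430 488 216 364 :=
  have c0 : (go 16 Gd mult S430_488_216_364 (Tr.lf 22548744328 99301962 10577022783232036153390202909) 384 512 320 352 256 320) = true := by decide +kernel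
  have c1 : (band (go 16 Gd mult S372_430_660_808 (Tr.lf 13421937736 104037191 9753673280537359069205300748) 384 512 320 352 256 384)
  (band (go 16 Gd mult S372_430_512_660 (Tr.lf 13421937732 104037191 10522560800488093907129729024) 384 512 320 352 256 384)
  (band (go 16 Gd mult S314_372_512_660 (Tr.lf 9126970404 108235718 2520610333896501829262376960) 384 512 320 352 256 384)
  (band (go 16 Gd mult S314_372_660_808 (Tr.lf 9126970404 104049478 0) 384 512 320 352 256 384)
  (go 16 Gd mult S372_430_216_364 (Tr.lf 13421921316 112294727 14675235434727161755908243659) 384 512 320 352 256 384))))) = true := by decide +kernel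
  have c2 : (band (go 16 Gd mult S314_372_512_660 (Tr.lf 13422068772 108100423 16862237601026784216232230912) 384 512 352 384 256 384)
  (go 16 Gd mult S314_372_660_808 (Tr.lf 9127101476 108235973 14055116478014377773661945856) 384 512 352 384 256 384)) = true := by decide +kernel
  have c3 : (go 16 Gd mult S430_488_216_364 (Tr.lf 18254758952 111897672 74095340056227748770820849693) 384 512 352 368 256 320) = true := by decide +kernel
  have c4 : (band (go 16 Gd mult S372_430_660_808 (Tr.lf 13421937192 99715911 17171777213210587465229795328) 384 512 352 384 256 320)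
  (band (go 16 Gd mult S372_430_216_364 (Tr.lf 13421937188 103910215 31327106403168643473846829056) 384 512 352 384 256 320)
  (band (go 16 Gd mult S372_430_364_512 (Tr.lf 13421937188 99715911 23003648925388452780532826112) 384 512 352 384 256 320)
  (go 16 Gd mult S372_430_512_660 (Tr.lf 13421937188 99715911 18433902723310776112124002304) 384 512 352 384 256 320)))) = true := by decide +kernel
  have c5 : (go 16 Gd mult S372_430_364_512 (Tr.lf 13421921316 112294727 12419375225324670555432551105) 384 512 320 352 256 384) = true := by decide +kernel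
  have c6 : (go 16 Gd mult S430_488_216_364 (Tr.lf 13960823844 103771336 26912249339183510782798135325) 384 512 320 352 320 384) = true := by decide +kernel
  have c7 : (band (go 16 Gd mult S372_430_512_660 (Tr.lf 9126879508 104037446 79104849645656272424192966523) 384 512 352 384 320 384)
  (band (go 16 Gd mult S372_430_364_512 (Tr.lf 9126879506 99843142 79104849645656272424192966523) 384 512 352 384 320 384)
  (band (go 16 Gd mult S372_430_216_364 (Tr.lf 9126879506 104037446 79104849645656272424192966523) 384 512 352 384 320 384)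
  (go 16 Gd mult S372_430_660_808 (Tr.lf 9126879506 103906374 79104849645656272424192966523) 384 512 352 384 320 384)))) = true := by decide +kernel
  have c8 : (band (go 16 Gd mult S430_488_216_364 (Tr.lf 9126879762 108104774 79104849645656272424192966523) 384 512 368 384 256 384)
  (go 16 Gd mult S430_488_216_364 (Tr.lf 9126879506 108100678 79104849645656272424192966523) 384 512 352 368 320 384)) = true := by decide +kernel
  (And.intro (Ok.s4 660 (Ok.s1 352 (Ok.lf S314_372_512_660_ok (bl (br (br c1))))
  (Ok.lf S314_372_512_660_ok (bl c2)))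
  (Ok.s1 352 (Ok.lf S314_372_660_808_ok (bl (br (br (br c1)))))
  (Ok.lf S314_372_660_808_ok (br c2))))
  (And.intro (Ok.s4 512 (Ok.s4 364 (Ok.s1 352 (Ok.lf S372_430_216_364_ok (br (br (br (br c1)))))
  (Ok.s2 320 (Ok.lf S372_430_216_364_ok (bl (br c4)))
  (Ok.lf S372_430_216_364_ok (bl (br (br c7))))))
  (Ok.s1 352 (Ok.lf S372_430_364_512_ok c5)
  (Ok.s2 320 (Ok.lf S372_430_364_512_ok (bl (br (br c4))))
  (Ok.lf S372_430_364_512_ok (bl (br c7))))))
  (Ok.s4 660 (Ok.s1 352 (Ok.lf S372_430_512_660_ok (bl (br c1)))
  (Ok.s2 320 (Ok.lf S372_430_512_660_ok (br (br (br c4))))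
  (Ok.lf S372_430_512_660_ok (bl c7))))
  (Ok.s1 352 (Ok.lf S372_430_660_808_ok (bl c1))
  (Ok.s2 320 (Ok.lf S372_430_660_808_ok (bl c4))
  (Ok.lf S372_430_660_808_ok (br (br (br c7))))))))
  (Ok.s1 352 (Ok.s2 320 (Ok.lf S430_488_216_364_ok c0)
  (Ok.lf S430_488_216_364_ok c6))
  (Ok.s1 368 (Ok.s2 320 (Ok.lf S430_488_216_364_ok c3)
  (Ok.lf S430_488_216_364_ok (br c8)))
  (Ok.lf S430_488_216_364_ok (bl c8))))))

end Vale.Agent.P098.Ck
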