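import Vale.Agent.P098.CkGd
import Vale.Agent.P098.CkOk
import Vale.Agent.P098.Sh.A0
import Vale.Agent.P098.Sh.A1
import Vale.Agent.P098.Sh.A58
import Vale.Agent.P098.Sh.A59

namespace Vale.Agent.P098.Ck

theorem r763 :
    Ok Gd mult 384 512 320 384 256 384 430 488 364 512 ∧
    Ok Gd mult 384 512 320 384 256 384 430 488 512 808 ∧
    Ok Gd mult 384 512 320 384 384 512 24 82 216 808 :=
  have c0 : (band (go 16 Gd mult S430_488_364_512 (Tr.lf 22548744328 99301707 10580649560682717142035660829) 384 512 320 352 256 320)
  (band (go 16 Gd mult S459_488_660_808 (Tr.lf 22548661320 99170890 10475473014397918097312645149) 384 512 320 352 256 320)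
  (go 16 Gd mult S430_459_660_808 (Tr.lf 17716823076 95378248 10583067965830104608380027208) 384 512 320 352 256 320))) = true := by decide +kernel
  have c1 : (go 16 Gd mult S430_488_512_660 (Tr.lf 22548744328 99301707 10583067412335175720004222976) 384 512 320 352 256 320) = true := by decide +kernel
  have c2 : (band (go 16 Gd mult S430_488_660_808 (Tr.lf 18254824488 103640136 71089950468660714015609913373) 384 512 352 368 256 320)
  (band (go 16 Gd mult S430_488_364_512 (Tr.lf 18254758952 103640136 72859818200609761555271122944) 384 512 352 368 256 320)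
  (go 16 Gd mult S430_488_512_660 (Tr.lf 18254758952 103640136 71636385271159756830468472832) 384 512 352 368 256 320))) = true := by decide +kernel
  have c3 : (band (go 16 Gd mult S430_488_660_808 (Tr.lf 13422904388 108092615 26848176270738868809647325213) 384 512 320 352 320 384)
  (band (go 16 Gd mult S430_488_364_512 (Tr.lf 13960823844 107965640 26911040413363896153623429167) 384 512 320 352 320 384)
  (go 16 Gd mult S430_488_512_660 (Tr.lf 13960823844 107965640 26911040413363896153623429149) 384 512 320 352 320 384))) = true := by decide +kernel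
  have c4 : (band (go 16 Gd mult S24_82_364_512 (Tr.lf 4834018338 107965639 4974727312706826060384960379) 384 512 320 384 384 512)
  (band (go 16 Gd mult S24_82_512_660 (Tr.lf 4834018338 107965639 4759538516815422067287261051) 384 512 320 384 384 512)
  (go 16 Gd mult S24_82_660_808 (Tr.lf 4834018338 107965639 4543140795104403445014855547) 384 512 320 384 384 512))) = true := by decide +kernel
  have c5 : (go 16 Gd mult S24_82_216_364 (Tr.sp 2 448 (Tr.lf 4834017826 112303047 5008577235656035677276733307) Tr.skip) 384 512 320 384 384 512) = true := by decide +kernel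
  have c6 : (band (go 16 Gd mult S430_488_660_808 (Tr.lf 9126879508 103910470 79104849645656272424192966523) 384 512 352 384 320 384)
  (go 16 Gd mult S430_488_660_808 (Tr.lf 9126879506 108104774 79104849645656272424192966523) 384 512 368 384 256 320)) = true := by decide +kernel
  have c7 : (band (go 16 Gd mult S430_488_364_512 (Tr.lf 9126879762 108104774 79104849645656272424192966523) 384 512 368 384 256 384)
  (band (go 16 Gd mult S430_488_512_660 (Tr.lf 9126879762 108104774 79104849645656272424192966523) 384 512 368 384 256 384)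
  (band (go 16 Gd mult S430_488_512_660 (Tr.lf 9126879506 108100678 79104849645656272424192966523) 384 512 352 368 320 384)
  (go 16 Gd mult S430_488_364_512 (Tr.lf 9126879506 108100678 79104849645656272424192966523) 384 512 352 368 320 384)))) = true := by decide +kernel
  (And.intro (Ok.s1 352 (Ok.s2 320 (Ok.lf S430_488_364_512_ok (bl c0))
  (Ok.lf S430_488_364_512_ok (bl (br c3))))
  (Ok.s1 368 (Ok.s2 320 (Ok.lf S430_488_364_512_ok (bl (br c2)))
  (Ok.lf S430_488_364_512_ok (br (br (br c7)))))
  (Ok.lf S430_488_364_512_ok (bl c7))))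
  (And.intro (Ok.s4 660 (Ok.s1 352 (Ok.s2 320 (Ok.lf S430_488_512_660_ok c1)
  (Ok.lf S430_488_512_660_ok (br (br c3))))
  (Ok.s1 368 (Ok.s2 320 (Ok.lf S430_488_512_660_ok (br (br c2)))
  (Ok.lf S430_488_512_660_ok (bl (br (br c7)))))
  (Ok.lf S430_488_512_660_ok (bl (br c7)))))
  (Ok.s1 352 (Ok.s2 320 (Ok.s3 459 (Ok.lf S430_459_660_808_ok (br (br c0)))
  (Ok.lf S459_488_660_808_ok (bl (br c0))))
  (Ok.lf S430_488_660_808_ok (bl c3)))
  (Ok.s2 320 (Ok.s1 368 (Ok.lf S430_488_660_808_ok (bl c2))
  (Ok.lf S430_488_660_808_ok (br c6)))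
  (Ok.lf S430_488_660_808_ok (bl c6)))))
  (Ok.s4 512 (Ok.s4 364 (Ok.lf S24_82_216_364_ok c5)
  (Ok.lf S24_82_364_512_ok (bl c4)))
  (Ok.s4 660 (Ok.lf S24_82_512_660_ok (bl (br c4)))
  (Ok.lf S24_82_660_808_ok (br (br c4)))))))

end Vale.Agent.P098.Ck
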