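import Vale.Agent.P098.CkGd
import Vale.Agent.P098.CkOk
import Vale.Agent.P098.Sh.A10
import Vale.Agent.P098.Sh.A11
import Vale.Agent.P098.Sh.A17
import Vale.Agent.P098.Sh.A18
import Vale.Agent.P098.Sh.A19
import Vale.Agent.P098.Sh.A25
import Vale.Agent.P098.Sh.A26
import Vale.Agent.P098.Sh.A29
import Vale.Agent.P098.Sh.A3
import Vale.Agent.P098.Sh.A36
import Vale.Agent.P098.Sh.A37
import Vale.Agent.P098.Sh.A4
import Vale.Agent.P098.Sh.A41
import Vale.Agent.P098.Sh.A45
import Vale.Agent.P098.Sh.A8
import Vale.Agent.P098.Sh.A9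

namespace Vale.Agent.P098.Ck

theorem r764 :
    Ok Gd mult 384 512 320 384 384 512 82 140 216 808 ∧
    Ok Gd mult 384 512 320 384 384 512 140 256 216 808 ∧
    Ok Gd mult 384 512 320 384 384 512 256 314 216 512 :=
  have c0 : (band (go 16 Gd mult S140_198_660_808 (Tr.sp 2 448 (Tr.lf 9202598468 104172359 17397647803106574839261574762) Tr.skip) 384 512 320 384 384 512)
  (band (go 16 Gd mult S198_256_512_660 (Tr.sp 2 448 (Tr.lf 9202467396 104041542 24692481346561710097365467136) Tr.skip) 384 512 320 384 384 512)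
  (band (go 16 Gd mult S198_256_660_808 (Tr.sp 2 448 (Tr.lf 4295246404 108240068 17403877947183443126710501405) Tr.skip) 384 512 320 384 384 512)
  (band (go 16 Gd mult S198_227_216_364 (Tr.lf 9135333956 108108615 47876091062429586708341194752) 384 512 320 384 384 448)
  (band (go 16 Gd mult S227_256_216_364 (Tr.lf 9135333956 108108870 47882088929031433000501379072) 384 512 320 384 384 448)
  (band (go 16 Gd mult S169_198_216_364 (Tr.lf 4841415204 108105030 41746411996426005934835236864) 384 512 320 384 384 448)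
  (go 16 Gd mult S169_198_364_512 (Tr.lf 9135333924 99588935 34923044097208013379415834624) 384 512 320 384 384 448))))))) = true := by decide +kernel
  have c1 : (band (go 16 Gd mult S82_140_216_364 (Tr.lf 4833035332 104033478 18871328721631470861427073616) 384 512 320 384 384 512)
  (band (go 16 Gd mult S82_140_660_808 (Tr.lf 4832970788 103902406 13365879653692848645870772941) 384 512 320 384 384 512)
  (band (go 16 Gd mult S82_140_364_512 (Tr.lf 4832969796 108096710 17863085473524744744145379949) 384 512 320 384 384 512)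
  (go 16 Gd mult S82_140_512_660 (Tr.lf 4832969764 103910470 15621735233085295246794678960) 384 512 320 384 384 512)))) = true := by decide +kernel
  have c2 : (band (go 16 Gd mult S169_198_512_660 (Tr.lf 9202442788 99978055 24682144326138381402216857600) 384 512 320 384 384 448)
  (band (go 16 Gd mult S198_227_364_512 (Tr.lf 9135333924 108235591 38349738835775945809674108928) 384 512 320 384 384 448)
  (band (go 16 Gd mult S227_256_364_512 (Tr.lf 9135333924 108235846 38350908488477427511213424640) 384 512 320 384 384 448)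
  (band (go 16 Gd mult S256_285_216_364 (Tr.lf 9135333924 112430150 42330692286648786754346156032) 384 512 320 384 384 448)
  (band (go 16 Gd mult S140_169_216_364 (Tr.lf 139810 103918788 28276771254553494242471002317) 384 512 320 384 384 448)
  (band (go 16 Gd mult S140_169_512_660 (Tr.lf 4295107106 99847237 21412490783440579214307051823) 384 512 320 384 384 448)
  (band (go 16 Gd mult S285_314_216_364 (Tr.lf 9135333922 112434118 31796123393638470877496475648) 384 512 320 384 384 448)
  (go 16 Gd mult S256_285_364_438 (Tr.lf 9202376996 112303174 32632687387898615627931189248) 384 512 320 384 384 448)))))))) = true := by decide +kernel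
  have c3 : (band (go 16 Gd mult S140_169_364_512 (Tr.lf 74274 108240068 25856502096083028757056603554) 384 512 320 384 384 448)
  (band (go 16 Gd mult S285_314_364_512 (Tr.lf 9202442530 108104774 25743022554562497597547741184) 384 512 320 384 384 448)
  (go 16 Gd mult S256_285_438_512 (Tr.lf 9202376994 108235846 25684990352085204360413315072) 384 512 320 384 384 448))) = true := by decide +kernel
  (And.intro (Ok.s4 512 (Ok.s4 364 (Ok.lf S82_140_216_364_ok (bl c1))
  (Ok.lf S82_140_364_512_ok (bl (br (br c1)))))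
  (Ok.s4 660 (Ok.lf S82_140_512_660_ok (br (br (br c1))))
  (Ok.lf S82_140_660_808_ok (bl (br c1)))))
  (And.intro (Ok.s3 198 (Ok.s4 512 (Ok.s4 364 (Ok.s2 448 (Ok.s3 169 (Ok.lf S140_169_216_364_ok (bl (br (br (br (br c2))))))
  (Ok.lf S169_198_216_364_ok (bl (br (br (br (br (br c0))))))))
  (Ok.out rfl))
  (Ok.s2 448 (Ok.s3 169 (Ok.lf S140_169_364_512_ok (bl c3))
  (Ok.lf S169_198_364_512_ok (br (br (br (br (br (br c0))))))))
  (Ok.out rfl)))
  (Ok.s4 660 (Ok.s2 448 (Ok.s3 169 (Ok.lf S140_169_512_660_ok (bl (br (br (br (br (br c2)))))))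
  (Ok.lf S169_198_512_660_ok (bl c2)))
  (Ok.out rfl))
  (Ok.lf S140_198_660_808_ok (bl c0))))
  (Ok.s4 512 (Ok.s4 364 (Ok.s2 448 (Ok.s3 227 (Ok.lf S198_227_216_364_ok (bl (br (br (br c0)))))
  (Ok.lf S227_256_216_364_ok (bl (br (br (br (br c0)))))))
  (Ok.out rfl))
  (Ok.s2 448 (Ok.s3 227 (Ok.lf S198_227_364_512_ok (bl (br c2)))
  (Ok.lf S227_256_364_512_ok (bl (br (br c2)))))
  (Ok.out rfl)))
  (Ok.s4 660 (Ok.lf S198_256_512_660_ok (bl (br c0)))
  (Ok.lf S198_256_660_808_ok (bl (br (br c0)))))))
  (Ok.s4 364 (Ok.s2 448 (Ok.s3 285 (Ok.lf S256_285_216_364_ok (bl (br (br (br c2)))))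
  (Ok.lf S285_314_216_364_ok (bl (br (br (br (br (br (br c2)))))))))
  (Ok.out rfl))
  (Ok.s2 448 (Ok.s3 285 (Ok.s4 438 (Ok.lf S256_285_364_438_ok (br (br (br (br (br (br (br c2))))))))
  (Ok.lf S256_285_438_512_ok (br (br c3))))
  (Ok.lf S285_314_364_512_ok (bl (br c3))))
  (Ok.out rfl)))))

end Vale.Agent.P098.Ck
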