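import Vale.Agent.P098.CkGd
import Vale.Agent.P098.CkOk
import Vale.Agent.P098.Sh.A10
import Vale.Agent.P098.Sh.A11
import Vale.Agent.P098.Sh.A17
import Vale.Agent.P098.Sh.A18
import Vale.Agent.P098.Sh.A19
import Vale.Agent.P098.Sh.A44
import Vale.Agent.P098.Sh.A49
import Vale.Agent.P098.Sh.A50
import Vale.Agent.P098.Sh.A54
import Vale.Agent.P098.Sh.A55
import Vale.Agent.P098.Sh.A58
import Vale.Agent.P098.Sh.A59
import Vale.Agent.P098.Sh.A8
import Vale.Agent.P098.Sh.A9

namespace Vale.Agent.P098.Ck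

theorem r765 :
    Ok Gd mult 384 512 320 384 384 512 256 314 512 808 ∧
    Ok Gd mult 384 512 320 384 384 512 314 372 216 808 ∧
    Ok Gd mult 384 512 320 384 384 512 372 488 216 808 ∧
    Ok Gd mult 384 512 384 448 0 128 24 140 216 808 ∧
    Ok Gd mult 384 512 384 448 0 128 140 198 216 808 :=
  have c0 : (band (go 16 Gd mult S256_314_660_808 (Tr.sp 2 448 (Tr.lf 4295263300 108108996 9059873711082540740124868608) Tr.skip) 384 512 320 384 384 512)
  (band (go 16 Gd mult S314_372_216_364 (Tr.sp 2 448 (Tr.lf 9135490116 99588935 27779903070469498013119219057) Tr.skip) 384 512 320 384 384 512)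
  (band (go 16 Gd mult S314_372_364_512 (Tr.sp 2 448 (Tr.lf 9135490116 95394631 26545590362247095412492994640) Tr.skip) 384 512 320 384 384 512)
  (go 16 Gd mult S256_314_512_660 (Tr.sp 2 448 (Tr.lf 9202598468 112299078 19980093685238970286744797184) Tr.skip) 384 512 320 384 384 512)))) = true := by decide +kernel
  have c1 : (band (go 16 Gd mult S314_372_660_808 (Tr.sp 2 448 (Tr.lf 4295263300 99978309 22159606935081086979907061105) Tr.skip) 384 512 320 384 384 512)
  (band (go 16 Gd mult S314_372_512_660 (Tr.sp 2 448 (Tr.lf 4295132228 103914565 24359851926907495734440494933) Tr.skip) 384 512 320 384 384 512)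
  (band (go 16 Gd mult S372_430_660_808 (Tr.sp 2 448 (Tr.lf 9129050692 103779145 40537697811395609980241886140) Tr.skip) 384 512 320 384 384 512)
  (band (go 16 Gd mult S372_430_216_364 (Tr.sp 2 448 (Tr.lf 9128985156 103779400 41599135013455933657694585181) Tr.skip) 384 512 320 384 384 512)
  (band (go 16 Gd mult S372_430_364_512 (Tr.sp 2 448 (Tr.lf 9128985156 103779145 41402080104782846275477487696) Tr.skip) 384 512 320 384 384 512)
  (go 16 Gd mult S372_430_512_660 (Tr.sp 2 448 (Tr.lf 9128985156 103779145 40968075735369639595302895104) Tr.skip) 384 512 320 384 384 512)))))) = true := by decide +kernel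
  have c2 : (band (go 16 Gd mult S140_169_216_364 (Tr.lf 4834231332 104168520 79104849645656272424192966523) 384 512 384 416 0 128)
  (band (go 16 Gd mult S140_198_660_808 (Tr.sp 1 416 (Tr.lf 9126970404 112164038 79104849645656272424192966523) Tr.skip) 384 512 384 448 0 128)
  (band (go 16 Gd mult S140_169_364_512 (Tr.lf 4834083876 108231752 79104849645656272424192966523) 384 512 384 416 0 128)
  (band (go 16 Gd mult S140_169_512_660 (Tr.lf 9126953508 103910470 79104849645656272424192966523) 384 512 384 416 0 128)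
  (band (go 16 Gd mult S169_198_364_512 (Tr.lf 9126945316 104037574 79104849627246683614353555456) 384 512 384 416 0 128)
  (band (go 16 Gd mult S169_198_216_364 (Tr.lf 9126945300 104037574 79104849627246683614353555456) 384 512 384 416 0 128)
  (go 16 Gd mult S169_198_512_660 (Tr.lf 9126879764 103902406 79104849627246683614353555456) 384 512 384 416 0 128))))))) = true := by decide +kernel
  have c3 : (band (go 16 Gd mult S430_488_216_364 (Tr.sp 2 448 (Tr.lf 9128985156 103910217 47864997540994639920610672507) Tr.skip) 384 512 320 384 384 512)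
  (band (go 16 Gd mult S430_488_364_512 (Tr.sp 2 448 (Tr.lf 9128985156 103910217 47863788615175025291435966331) Tr.skip) 384 512 320 384 384 512)
  (band (go 16 Gd mult S430_488_512_660 (Tr.sp 2 448 (Tr.lf 9128985156 103910217 47863788615175025291435966331) Tr.skip) 384 512 320 384 384 512)
  (go 16 Gd mult S430_488_660_808 (Tr.sp 2 448 (Tr.lf 9128985156 103910217 47862579689355410662261260155) Tr.skip) 384 512 320 384 384 512)))) = true := by decide +kernel
  (And.intro (Ok.s4 660 (Ok.lf S256_314_512_660_ok (br (br (br c0))))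
  (Ok.lf S256_314_660_808_ok (bl c0)))
  (And.intro (Ok.s4 512 (Ok.s4 364 (Ok.lf S314_372_216_364_ok (bl (br c0)))
  (Ok.lf S314_372_364_512_ok (bl (br (br c0)))))
  (Ok.s4 660 (Ok.lf S314_372_512_660_ok (bl (br c1)))
  (Ok.lf S314_372_660_808_ok (bl c1))))
  (And.intro (Ok.s3 430 (Ok.s4 512 (Ok.s4 364 (Ok.lf S372_430_216_364_ok (bl (br (br (br c1)))))
  (Ok.lf S372_430_364_512_ok (bl (br (br (br (br c1)))))))
  (Ok.s4 660 (Ok.lf S372_430_512_660_ok (br (br (br (br (br c1))))))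
  (Ok.lf S372_430_660_808_ok (bl (br (br c1))))))
  (Ok.s4 512 (Ok.s4 364 (Ok.lf S430_488_216_364_ok (bl c3))
  (Ok.lf S430_488_364_512_ok (bl (br c3))))
  (Ok.s4 660 (Ok.lf S430_488_512_660_ok (bl (br (br c3))))
  (Ok.lf S430_488_660_808_ok (br (br (br c3)))))))
  (And.intro (Ok.s3 82 (Ok.s4 512 (Ok.s4 364 (Ok.s1 416 (Ok.s1 400 (Ok.s0 448 (Ok.s0 416 (Ok.out rfl)
  (Ok.out rfl))
  (Ok.out rfl))
  (Ok.out rfl))
  (Ok.out rfl))
  (Ok.s1 416 (Ok.s1 400 (Ok.s0 448 (Ok.s0 416 (Ok.out rfl)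
  (Ok.out rfl))
  (Ok.out rfl))
  (Ok.out rfl))
  (Ok.out rfl)))
  (Ok.s4 660 (Ok.s1 416 (Ok.s1 400 (Ok.s0 448 (Ok.s0 416 (Ok.out rfl)
  (Ok.out rfl))
  (Ok.out rfl))
  (Ok.out rfl))
  (Ok.out rfl))
  (Ok.s1 416 (Ok.s0 448 (Ok.s0 416 (Ok.out rfl)
  (Ok.out rfl))
  (Ok.out rfl))
  (Ok.out rfl))))
  (Ok.s4 512 (Ok.s4 364 (Ok.s1 416 (Ok.s1 400 (Ok.s0 448 (Ok.s0 416 (Ok.out rfl)
  (Ok.out rfl))
  (Ok.out rfl))
  (Ok.out rfl))
  (Ok.out rfl))
  (Ok.s1 416 (Ok.s1 400 (Ok.s0 448 (Ok.s0 416 (Ok.out rfl)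
  (Ok.out rfl))
  (Ok.out rfl))
  (Ok.out rfl))
  (Ok.out rfl)))
  (Ok.s4 660 (Ok.s1 416 (Ok.s1 400 (Ok.s0 448 (Ok.s0 416 (Ok.out rfl)
  (Ok.out rfl))
  (Ok.out rfl))
  (Ok.out rfl))
  (Ok.out rfl))
  (Ok.s1 416 (Ok.s0 448 (Ok.s0 416 (Ok.out rfl)
  (Ok.out rfl))
  (Ok.out rfl))
  (Ok.out rfl)))))
  (Ok.s4 512 (Ok.s4 364 (Ok.s1 416 (Ok.s3 169 (Ok.lf S140_169_216_364_ok (bl c2))
  (Ok.lf S169_198_216_364_ok (bl (br (br (br (br (br c2))))))))
  (Ok.out rfl))
  (Ok.s1 416 (Ok.s3 169 (Ok.lf S140_169_364_512_ok (bl (br (br c2))))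
  (Ok.lf S169_198_364_512_ok (bl (br (br (br (br c2)))))))
  (Ok.out rfl)))
  (Ok.s4 660 (Ok.s1 416 (Ok.s3 169 (Ok.lf S140_169_512_660_ok (bl (br (br (br c2)))))
  (Ok.lf S169_198_512_660_ok (br (br (br (br (br (br c2))))))))
  (Ok.out rfl))
  (Ok.lf S140_198_660_808_ok (bl (br c2)))))))))

end Vale.Agent.P098.Ck
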