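import Vale.Agent.P098.CkGd
import Vale.Agent.P098.CkOk
import Vale.Agent.P098.Sh.A28
import Vale.Agent.P098.Sh.A29
import Vale.Agent.P098.Sh.A43
import Vale.Agent.P098.Sh.A44
import Vale.Agent.P098.Sh.A49
import Vale.Agent.P098.Sh.A50
import Vale.Agent.P098.Sh.A54
import Vale.Agent.P098.Sh.A55
import Vale.Agent.P098.Sh.A58
import Vale.Agent.P098.Sh.A59

namespace Vale.Agent.P098.Ck

theorem r766 :
    Ok Gd mult 384 512 384 448 0 128 198 256 216 808 ∧
    Ok Gd mult 384 512 384 448 0 128 256 488 216 808 ∧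
    Ok Gd mult 384 512 384 448 128 256 24 256 216 808 ∧
    Ok Gd mult 384 512 384 448 128 256 256 372 216 808 :=
  have c0 : (band (go 16 Gd mult S256_314_512_660 (Tr.sp 1 416 (Tr.lf 9127101476 99839174 79104849627246683614353555456) Tr.skip) 384 512 384 448 0 128)
  (band (go 16 Gd mult S314_372_660_808 (Tr.sp 1 416 (Tr.lf 9127100964 99839174 79104849627246683614353555456) Tr.skip) 384 512 384 448 0 128)
  (band (go 16 Gd mult S314_372_512_660 (Tr.sp 1 416 (Tr.lf 9126953508 99839174 79104849627246683614353555456) Tr.skip) 384 512 384 448 0 128)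
  (go 16 Gd mult S256_314_364_512 (Tr.sp 1 416 (Tr.lf 9126953492 107973830 79104849627246683614353555456) Tr.skip) 384 512 384 448 0 128)))) = true := by decide +kernel
  have c1 : (band (go 16 Gd mult S314_372_364_512 (Tr.lf 9126969924 103775175 79104849627246683614353555456) 384 512 384 448 0 128)
  (band (go 16 Gd mult S198_256_364_512 (Tr.lf 9126953540 108096583 79104849627246683614353555456) 384 512 384 448 0 128)
  (band (go 16 Gd mult S256_314_216_364 (Tr.lf 9126953540 103775303 79104849627246683614353555456) 384 512 384 448 0 128)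
  (band (go 16 Gd mult S198_256_216_364 (Tr.lf 9126953508 107969607 79104849627246683614353555456) 384 512 384 448 0 128)
  (band (go 16 Gd mult S256_314_660_808 (Tr.lf 9135342116 107846471 79104849645656272424192966523) 384 512 384 448 0 128)
  (band (go 16 Gd mult S314_372_216_364 (Tr.lf 9126953508 99580871 79104849627246683614353555456) 384 512 384 448 0 128)
  (band (go 16 Gd mult S372_430_216_364 (Tr.lf 9126887972 103906247 79104849627246683614353555456) 384 512 384 448 0 128)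
  (go 16 Gd mult S372_430_364_512 (Tr.lf 9126887972 103906247 79104849627246683614353555456) 384 512 384 448 0 128)))))))) = true := by decide +kernel
  have c2 : (band (go 16 Gd mult S256_314_660_808 (Tr.lf 9135358532 103906247 79104849645656272424192966523) 384 512 384 448 128 256)
  (band (go 16 Gd mult S314_372_216_364 (Tr.lf 9126879780 107969479 79104849645656272424192966523) 384 512 384 448 128 256)
  (go 16 Gd mult S314_372_364_512 (Tr.lf 9126887970 103906247 79104849645656272424192966523) 384 512 384 448 128 256))) = true := by decide +kernel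
  have c3 : (band (go 16 Gd mult S372_430_512_660 (Tr.lf 9126887972 103906247 79104849627246683614353555456) 384 512 384 448 0 128)
  (band (go 16 Gd mult S372_430_660_808 (Tr.lf 9126879780 107973575 79104849645656272424192966523) 384 512 384 448 0 128)
  (band (go 16 Gd mult S430_488_216_364 (Tr.lf 9126879522 103910343 79104849645656272424192966523) 384 512 384 448 0 128)
  (band (go 16 Gd mult S430_488_364_512 (Tr.lf 9126879522 103910343 79104849645656272424192966523) 384 512 384 448 0 128)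
  (band (go 16 Gd mult S430_488_512_660 (Tr.lf 9126879522 103910343 79104849645656272424192966523) 384 512 384 448 0 128)
  (go 16 Gd mult S430_488_660_808 (Tr.lf 9126879522 103910343 79104849645656272424192966523) 384 512 384 448 0 128)))))) = true := by decide +kernel
  have c4 : (go 16 Gd mult S198_256_660_808 (Tr.sp 0 448 (Tr.lf 9135342113 107973575 79104849645656272424192966523) Tr.skip) 384 512 384 448 0 128) = true := by decide +kernel
  (And.intro (Ok.s4 512 (Ok.s4 364 (Ok.lf S198_256_216_364_ok (bl (br (br (br c1)))))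
  (Ok.lf S198_256_364_512_ok (bl (br c1))))
  (Ok.s4 660 (Ok.s0 448 (Ok.s0 416 (Ok.out rfl)
  (Ok.out rfl))
  (Ok.out rfl))
  (Ok.lf S198_256_660_808_ok c4)))
  (And.intro (Ok.s3 372 (Ok.s3 314 (Ok.s4 512 (Ok.s4 364 (Ok.lf S256_314_216_364_ok (bl (br (br c1))))
  (Ok.lf S256_314_364_512_ok (br (br (br c0)))))
  (Ok.s4 660 (Ok.lf S256_314_512_660_ok (bl c0))
  (Ok.lf S256_314_660_808_ok (bl (br (br (br (br c1))))))))
  (Ok.s4 512 (Ok.s4 364 (Ok.lf S314_372_216_364_ok (bl (br (br (br (br (br c1)))))))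
  (Ok.lf S314_372_364_512_ok (bl c1)))
  (Ok.s4 660 (Ok.lf S314_372_512_660_ok (bl (br (br c0))))
  (Ok.lf S314_372_660_808_ok (bl (br c0))))))
  (Ok.s3 430 (Ok.s4 512 (Ok.s4 364 (Ok.lf S372_430_216_364_ok (bl (br (br (br (br (br (br c1))))))))
  (Ok.lf S372_430_364_512_ok (br (br (br (br (br (br (br c1)))))))))
  (Ok.s4 660 (Ok.lf S372_430_512_660_ok (bl c3))
  (Ok.lf S372_430_660_808_ok (bl (br c3)))))
  (Ok.s4 512 (Ok.s4 364 (Ok.lf S430_488_216_364_ok (bl (br (br c3))))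
  (Ok.lf S430_488_364_512_ok (bl (br (br (br c3))))))
  (Ok.s4 660 (Ok.lf S430_488_512_660_ok (bl (br (br (br (br c3))))))
  (Ok.lf S430_488_660_808_ok (br (br (br (br (br c3))))))))))
  (And.intro (Ok.s3 140 (Ok.s3 82 (Ok.s4 512 (Ok.s4 364 (Ok.s0 448 (Ok.out rfl)
  (Ok.out rfl))
  (Ok.s0 448 (Ok.out rfl)
  (Ok.out rfl)))
  (Ok.s4 660 (Ok.s0 448 (Ok.out rfl)
  (Ok.out rfl))
  (Ok.s0 448 (Ok.out rfl)
  (Ok.out rfl))))
  (Ok.s4 512 (Ok.s4 364 (Ok.s0 448 (Ok.out rfl)
  (Ok.out rfl))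
  (Ok.s0 448 (Ok.out rfl)
  (Ok.out rfl)))
  (Ok.s4 660 (Ok.s0 448 (Ok.out rfl)
  (Ok.out rfl))
  (Ok.s0 448 (Ok.out rfl)
  (Ok.out rfl)))))
  (Ok.s3 198 (Ok.s4 512 (Ok.s4 364 (Ok.s0 448 (Ok.out rfl)
  (Ok.out rfl))
  (Ok.s0 448 (Ok.out rfl)
  (Ok.out rfl)))
  (Ok.s4 660 (Ok.s0 448 (Ok.out rfl)
  (Ok.out rfl))
  (Ok.s0 448 (Ok.out rfl)
  (Ok.out rfl))))
  (Ok.s4 512 (Ok.s4 364 (Ok.s0 448 (Ok.out rfl)
  (Ok.out rfl))
  (Ok.s0 448 (Ok.out rfl)
  (Ok.out rfl)))
  (Ok.s4 660 (Ok.s0 448 (Ok.out rfl)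
  (Ok.out rfl))
  (Ok.s0 448 (Ok.out rfl)
  (Ok.out rfl))))))
  (Ok.s3 314 (Ok.s4 512 (Ok.s4 364 (Ok.s0 448 (Ok.out rfl)
  (Ok.out rfl))
  (Ok.s0 448 (Ok.out rfl)
  (Ok.out rfl)))
  (Ok.s4 660 (Ok.s0 448 (Ok.out rfl)
  (Ok.out rfl))
  (Ok.lf S256_314_660_808_ok (bl c2))))
  (Ok.s4 512 (Ok.s4 364 (Ok.lf S314_372_216_364_ok (bl (br c2)))
  (Ok.lf S314_372_364_512_ok (br (br c2))))
  (Ok.s4 660 (Ok.s0 448 (Ok.out rfl)
  (Ok.out rfl))
  (Ok.s0 448 (Ok.out rfl)
  (Ok.out rfl))))))))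

end Vale.Agent.P098.Ck
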