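import Vale.Agent.P098.CkGd
import Vale.Agent.P098.CkOk
import Vale.Agent.P098.Sh.A23
import Vale.Agent.P098.Sh.A29
import Vale.Agent.P098.Sh.A30
import Vale.Agent.P098.Sh.A33
import Vale.Agent.P098.Sh.A36

namespace Vale.Agent.P098.Ck

theorem r78 :
    Ok Gd mult 0 128 128 160 448 512 212 227 216 364 ∧
    Ok Gd mult 0 128 160 192 448 512 198 227 216 364 ∧
    Ok Gd mult 0 128 128 192 384 512 227 256 216 364 :=
  have c0 : (band (go 16 Gd mult S212_227_216_364 (Tr.lf 9145174148 99327046 593582577430782924780732416) 0 64 128 160 448 512)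
  (go 16 Gd mult S212_227_216_364 (Tr.lf 13440140356 99318727 1312893440101487283730907136) 0 64 160 192 448 480)) = true := by decide +kernel
  have c1 : (band (go 16 Gd mult S198_212_216_364 (Tr.lf 13441190020 99318983 1320146995019175058779144192) 0 64 160 192 448 480)
  (go 16 Gd mult S198_212_216_364 (Tr.lf 13441188900 99318728 1421696763866803909454462976) 64 128 176 192 448 480)) = true := by decide +kernel
  have c2 : (go 16 Gd mult S212_227_216_364 (Tr.lf 13441190020 99318983 1506321571239827951683895296) 64 128 160 192 448 480) = true := by decide +kernel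
  have c3 : (go 16 Gd mult S227_256_290_364 (Tr.lf 9143748740 95263303 1972966937611074813120479232) 64 128 128 192 448 512) = true := by decide +kernel
  have c4 : (go 16 Gd mult S198_212_216_364 (Tr.lf 13986449476 103513160 292560048346740260278894592) 64 128 160 176 448 480) = true := by decide +kernel
  have c5 : (go 16 Gd mult S227_256_216_364 (Tr.lf 13439895620 94989001 0) 64 128 160 192 384 448) = true := by decide +kernel
  have c6 : (go 16 Gd mult S227_256_216_290 (Tr.lf 9144927364 95255495 1337071956493779867225030656) 0 128 128 192 448 480) = true := by decide +kernel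
  have c7 : (band (go 16 Gd mult S227_256_216_364 (Tr.lf 9144911940 95124296 0) 0 128 128 160 384 448)
  (go 16 Gd mult S227_256_216_364 (Tr.lf 8606992450 95001287 2417851639229258349412352) 0 64 160 192 384 448)) = true := by decide +kernel
  have c8 : (band (go 16 Gd mult S212_219_216_364 (Tr.lf 13440133186 103508680 3387410146560190947526705152) 64 128 128 160 480 512)
  (go 16 Gd mult S212_219_216_364 (Tr.lf 13441180740 94989384 0) 64 128 128 160 448 480)) = true := by decide +kernel
  have c9 : (go 16 Gd mult S219_227_216_364 (Tr.lf 13440133186 99183432 647984239313441237642510336) 64 128 128 160 448 512) = true := by decide +kernel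
  have c10 : (go 16 Gd mult S227_256_216_290 (Tr.lf 9144910212 103652294 10591399105643766199600807936) 0 128 128 192 488 496) = true := by decide +kernel
  have c11 : (go 16 Gd mult S227_256_216_290 (Tr.lf 9144779140 99322950 3214533754355298975543721984) 0 128 128 192 480 488) = true := by decide +kernel
  have c12 : (band (go 16 Gd mult S227_256_290_364 (Tr.lf 9135342210 99183303 1324982698297633575477968896) 0 64 128 192 448 480)
  (go 16 Gd mult S227_256_290_364 (Tr.sp 1 160 (Tr.lf 9135342114 99445574 3156570265999680306489065472) Tr.skip) 0 64 128 192 480 512)) = true := by decide +kernel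
  have c13 : (band (go 16 Gd mult S198_212_216_364 (Tr.sp 2 496 (Tr.lf 9144902212 99457990 9429621392994107562708172800) Tr.skip) 0 128 160 192 480 512)
  (go 16 Gd mult S212_227_216_364 (Tr.sp 2 496 (Tr.lf 9144902212 107973574 8723608714339164124679766016) Tr.skip) 0 128 160 192 480 512)) = true := by decide +kernel
  (And.intro (Ok.s0 64 (Ok.lf S212_227_216_364_ok (bl c0))
  (Ok.s3 219 (Ok.s2 480 (Ok.lf S212_219_216_364_ok (br c8))
  (Ok.lf S212_219_216_364_ok (bl c8)))
  (Ok.lf S219_227_216_364_ok c9)))
  (And.intro (Ok.s3 212 (Ok.s2 480 (Ok.s0 64 (Ok.lf S198_212_216_364_ok (bl c1))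
  (Ok.s1 176 (Ok.lf S198_212_216_364_ok c4)
  (Ok.lf S198_212_216_364_ok (br c1))))
  (Ok.lf S198_212_216_364_ok (bl c13)))
  (Ok.s2 480 (Ok.s0 64 (Ok.lf S212_227_216_364_ok (br c0))
  (Ok.lf S212_227_216_364_ok c2))
  (Ok.lf S212_227_216_364_ok (br c13))))
  (Ok.s2 448 (Ok.s1 160 (Ok.lf S227_256_216_364_ok (bl c7))
  (Ok.s0 64 (Ok.lf S227_256_216_364_ok (br c7))
  (Ok.lf S227_256_216_364_ok c5)))
  (Ok.s4 290 (Ok.s2 480 (Ok.lf S227_256_216_290_ok c6)
  (Ok.s2 496 (Ok.s2 488 (Ok.lf S227_256_216_290_ok c11)
  (Ok.lf S227_256_216_290_ok c10))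
  (Ok.out rfl)))
  (Ok.s0 64 (Ok.s2 480 (Ok.lf S227_256_290_364_ok (bl c12))
  (Ok.lf S227_256_290_364_ok (br c12)))
  (Ok.lf S227_256_290_364_ok c3))))))

end Vale.Agent.P098.Ck
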