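import Vale.Agent.P098.CkGd
import Vale.Agent.P098.CkOk
import Vale.Agent.P098.Sh.A23
import Vale.Agent.P098.Sh.A26
import Vale.Agent.P098.Sh.A31
import Vale.Agent.P098.Sh.A32
import Vale.Agent.P098.Sh.A37

namespace Vale.Agent.P098.Ck

theorem r79 :
    Ok Gd mult 0 128 128 160 384 448 198 227 364 438 ∧
    Ok Gd mult 0 128 128 160 448 512 198 227 364 438 ∧
    Ok Gd mult 0 128 128 160 384 512 198 227 438 512 ∧
    Ok Gd mult 0 128 160 192 384 512 198 227 364 512 ∧
    Ok Gd mult 0 128 128 192 384 448 227 256 364 512 :=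
  have c0 : (go 16 Gd mult S198_227_364_438 (Tr.lf 9135491204 103774918 2850649056452911605433237504) 64 128 128 160 480 512) = true := by decide +kernel
  have c1 : (go 16 Gd mult S198_227_438_512 (Tr.sp 2 496 (Tr.lf 9135490184 103512902 3012672030080878695485014016) Tr.skip) 0 128 128 160 480 512) = true := by decide +kernel
  have c2 : (band (go 16 Gd mult S198_212_364_512 (Tr.lf 13441189000 99322824 1270581036414975262616190976) 0 128 160 192 448 480)
  (go 16 Gd mult S212_227_364_438 (Tr.lf 13439747144 95128264 1318938069199560429604438016) 0 128 160 192 448 480)) = true := by decide +kernel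
  have c3 : (go 16 Gd mult S198_227_364_438 (Tr.lf 13440813188 90794953 0) 64 128 128 160 384 448) = true := by decide +kernel
  have c4 : (band (go 16 Gd mult S198_227_438_512 (Tr.lf 13440813128 86465609 0) 0 128 128 160 384 448)
  (band (go 16 Gd mult S227_256_364_512 (Tr.lf 9135473732 99310152 0) 0 128 128 160 384 448)
  (go 16 Gd mult S227_256_364_512 (Tr.lf 9143863368 99326663 172876392204891971982983168) 0 128 160 192 384 448))) = true := by decide +kernel
  have c5 : (band (go 16 Gd mult S198_227_364_438 (Tr.lf 9144928324 99457863 11234067140889116934144) 0 64 128 160 448 512)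
  (go 16 Gd mult S198_227_364_438 (Tr.lf 13977814148 103251016 0) 64 128 128 160 448 480)) = true := by decide +kernel
  have c6 : (go 16 Gd mult S198_227_438_512 (Tr.lf 13440943176 86469577 0) 0 128 128 160 448 480) = true := by decide +kernel
  have c7 : (band (go 16 Gd mult S198_212_364_512 (Tr.lf 13440927876 95124552 0) 64 128 160 192 384 448)
  (go 16 Gd mult S212_227_364_512 (Tr.lf 13439879236 90803016 0) 64 128 160 192 384 448)) = true := by decide +kernel
  have c8 : (go 16 Gd mult S212_227_438_512 (Tr.lf 13439748168 90798920 1257282852399214341694423040) 0 128 160 192 448 512) = true := by decide +kernel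
  have c9 : (band (go 16 Gd mult S198_212_364_512 (Tr.lf 9144902728 103783111 12642946221529791909077188608) 0 128 160 192 480 512)
  (band (go 16 Gd mult S198_212_364_512 (Tr.lf 9144903746 99454150 178921021302965117856514048) 0 64 160 192 384 448)
  (go 16 Gd mult S212_227_364_512 (Tr.lf 9136514114 103640007 186174576220652892904751104) 0 64 160 192 384 448))) = true := by decide +kernel
  have c10 : (go 16 Gd mult S198_227_364_438 (Tr.lf 9136391234 103373895 0) 0 64 128 160 384 448) = true := by decide +kernel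
  have c11 : (go 16 Gd mult S212_227_364_438 (Tr.sp 2 496 (Tr.lf 9144771140 107846598 12427757425638387915979489280) Tr.skip) 0 128 160 192 480 512) = true := by decide +kernel
  (And.intro (Ok.s0 64 (Ok.lf S198_227_364_438_ok c10)
  (Ok.lf S198_227_364_438_ok c3))
  (And.intro (Ok.s0 64 (Ok.lf S198_227_364_438_ok (bl c5))
  (Ok.s2 480 (Ok.lf S198_227_364_438_ok (br c5))
  (Ok.lf S198_227_364_438_ok c0)))
  (And.intro (Ok.s2 448 (Ok.lf S198_227_438_512_ok (bl c4))
  (Ok.s2 480 (Ok.lf S198_227_438_512_ok c6)
  (Ok.lf S198_227_438_512_ok c1)))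
  (And.intro (Ok.s3 212 (Ok.s2 448 (Ok.s0 64 (Ok.lf S198_212_364_512_ok (bl (br c9)))
  (Ok.lf S198_212_364_512_ok (bl c7)))
  (Ok.s2 480 (Ok.lf S198_212_364_512_ok (bl c2))
  (Ok.lf S198_212_364_512_ok (bl c9))))
  (Ok.s2 448 (Ok.s0 64 (Ok.lf S212_227_364_512_ok (br (br c9)))
  (Ok.lf S212_227_364_512_ok (br c7)))
  (Ok.s4 438 (Ok.s2 480 (Ok.lf S212_227_364_438_ok (br c2))
  (Ok.lf S212_227_364_438_ok c11))
  (Ok.lf S212_227_438_512_ok c8))))
  (Ok.s1 160 (Ok.lf S227_256_364_512_ok (bl (br c4)))
  (Ok.lf S227_256_364_512_ok (br (br c4))))))))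

end Vale.Agent.P098.Ck
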