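import Vale.Agent.P098.CkGd
import Vale.Agent.P098.CkOk
import Vale.Agent.P098.Sh.A11
import Vale.Agent.P098.Sh.A28
import Vale.Agent.P098.Sh.A29
import Vale.Agent.P098.Sh.A43
import Vale.Agent.P098.Sh.A44
import Vale.Agent.P098.Sh.A48
import Vale.Agent.P098.Sh.A49
import Vale.Agent.P098.Sh.A52

namespace Vale.Agent.P098.Ck

theorem r8 :
    Ok Gd mult 0 128 0 64 256 384 140 198 216 808 ∧
    Ok Gd mult 0 128 0 64 256 384 198 256 216 808 ∧
    Ok Gd mult 0 128 0 64 256 384 256 372 216 808 :=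
  have c0 : (band (go 16 Gd mult S314_372_364_512 (Tr.lf 614762628 112430150 0) 0 128 0 64 256 384)
  (go 16 Gd mult S140_198_216_364 (Tr.lf 1227129986 103914567 0) 0 128 0 64 256 384)) = true := by decide +kernel
  have c1 : (band (go 16 Gd mult S343_372_660_808 (Tr.lf 547653762 103779398 0) 0 128 0 64 256 384)
  (band (go 16 Gd mult S198_256_512_660 (Tr.lf 690259074 112299334 0) 0 128 0 64 256 384)
  (go 16 Gd mult S314_372_216_364 (Tr.lf 614761602 108366918 0) 0 128 0 64 256 384))) = true := by decide +kernel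
  have c2 : (band (go 16 Gd mult S314_343_660_808 (Tr.lf 10766466 107981766 0) 0 128 0 64 256 384)
  (band (go 16 Gd mult S343_372_512_660 (Tr.lf 614615170 108235846 0) 0 128 0 64 256 384)
  (band (go 16 Gd mult S140_198_364_512 (Tr.lf 1227129922 104172615 0) 0 128 0 64 256 384)
  (band (go 16 Gd mult S198_256_660_808 (Tr.lf 690259010 104041798 0) 0 128 0 64 256 384)
  (go 16 Gd mult S140_198_512_660 (Tr.lf 1159889985 103779399 0) 0 128 0 64 256 384))))) = true := by decide +kernel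
  have c3 : (band (go 16 Gd mult S256_314_660_808 (Tr.lf 9733186 107982020 0) 0 128 0 64 256 384)
  (band (go 16 Gd mult S198_256_216_364 (Tr.lf 1227129921 95653063 0) 0 128 0 64 256 384)
  (band (go 16 Gd mult S256_314_216_364 (Tr.lf 76842049 99982405 0) 0 128 0 64 256 384)
  (band (go 16 Gd mult S256_314_364_512 (Tr.lf 76710978 99851588 0) 0 128 0 64 256 384)
  (band (go 16 Gd mult S256_314_512_660 (Tr.lf 76710978 104041796 0) 0 128 0 64 256 384)
  (go 16 Gd mult S314_343_512_660 (Tr.lf 77743234 104041542 0) 0 128 0 64 256 384)))))) = true := by decide +kernel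
  have c4 : (band (go 16 Gd mult S140_198_660_808 (Tr.lf 623019073 108235974 0) 0 128 0 64 256 384)
  (go 16 Gd mult S198_256_364_512 (Tr.lf 690127937 112172358 0) 0 128 0 64 256 384)) = true := by decide +kernel
  (And.intro (Ok.s4 512 (Ok.s4 364 (Ok.lf S140_198_216_364_ok (br c0))
  (Ok.lf S140_198_364_512_ok (bl (br (br c2)))))
  (Ok.s4 660 (Ok.lf S140_198_512_660_ok (br (br (br (br c2)))))
  (Ok.lf S140_198_660_808_ok (bl c4))))
  (And.intro (Ok.s4 512 (Ok.s4 364 (Ok.lf S198_256_216_364_ok (bl (br c3)))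
  (Ok.lf S198_256_364_512_ok (br c4)))
  (Ok.s4 660 (Ok.lf S198_256_512_660_ok (bl (br c1)))
  (Ok.lf S198_256_660_808_ok (bl (br (br (br c2)))))))
  (Ok.s3 314 (Ok.s4 512 (Ok.s4 364 (Ok.lf S256_314_216_364_ok (bl (br (br c3))))
  (Ok.lf S256_314_364_512_ok (bl (br (br (br c3))))))
  (Ok.s4 660 (Ok.lf S256_314_512_660_ok (bl (br (br (br (br c3))))))
  (Ok.lf S256_314_660_808_ok (bl c3))))
  (Ok.s4 512 (Ok.s4 364 (Ok.lf S314_372_216_364_ok (br (br c1)))
  (Ok.lf S314_372_364_512_ok (bl c0)))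
  (Ok.s4 660 (Ok.s3 343 (Ok.lf S314_343_512_660_ok (br (br (br (br (br c3))))))
  (Ok.lf S343_372_512_660_ok (bl (br c2))))
  (Ok.s3 343 (Ok.lf S314_343_660_808_ok (bl c2))
  (Ok.lf S343_372_660_808_ok (bl c1))))))))

end Vale.Agent.P098.Ck
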