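import Vale.Agent.P098.CkGd
import Vale.Agent.P098.CkOk
import Vale.Agent.P098.Sh.A24
import Vale.Agent.P098.Sh.A25
import Vale.Agent.P098.Sh.A27
import Vale.Agent.P098.Sh.A32
import Vale.Agent.P098.Sh.A37

namespace Vale.Agent.P098.Ck

theorem r80 :
    Ok Gd mult 0 128 128 192 448 512 227 256 364 438 ∧
    Ok Gd mult 0 128 128 192 448 512 227 256 438 512 ∧
    Ok Gd mult 0 128 128 192 384 448 198 256 512 660 ∧
    Ok Gd mult 0 128 128 192 448 512 198 227 512 660 :=
  have c0 : (go 16 Gd mult S227_256_364_438 (Tr.lf 9144928328 99322823 82254031824670890655744) 0 128 128 160 448 512) = true := by decide +kernel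
  have c1 : (band (go 16 Gd mult S198_227_512_660 (Tr.lf 13439895684 90794697 0) 64 128 128 192 384 448)
  (go 16 Gd mult S198_227_512_660 (Tr.lf 13439894596 99322823 406214072601610227447300125) 64 128 160 192 448 480)) = true := by decide +kernel
  have c2 : (go 16 Gd mult S227_256_512_660 (Tr.lf 8598866052 90921544 212770944252174734748286976) 0 128 128 192 384 448) = true := by decide +kernel
  have c3 : (go 16 Gd mult S227_256_438_512 (Tr.lf 9143862408 95259335 1246402520022682679122067456) 0 128 128 192 448 480) = true := by decide +kernel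
  have c4 : (go 16 Gd mult S227_256_438_512 (Tr.lf 13439894088 94735176 2904001485979401805025509579) 0 128 128 160 480 496) = true := by decide +kernel
  have c5 : (band (go 16 Gd mult S198_227_512_660 (Tr.lf 8599652482 86727751 193428131138340667952988160) 0 64 128 192 384 448)
  (band (go 16 Gd mult S198_227_512_660 (Tr.lf 13439878212 94993224 0) 64 128 128 160 448 480)
  (band (go 16 Gd mult S198_227_512_660 (Tr.lf 9136521858 99314631 1259711403150006351583772672) 0 64 128 192 448 480)
  (go 16 Gd mult S198_227_512_660 (Tr.lf 9136521602 99449926 2774623051255894556459139072) 0 64 128 192 480 496)))) = true := by decide +kernel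
  have c6 : (band (go 16 Gd mult S212_227_512_586 (Tr.lf 18281153666 94993353 1766342522279399294689411101) 96 128 128 160 480 496)
  (band (go 16 Gd mult S212_227_586_660 (Tr.lf 18280105090 94993097 1339652028800417924649058351) 96 128 128 160 480 496)
  (go 16 Gd mult S198_212_512_586 (Tr.lf 13976609858 103521095 1771132348497190657779040351) 96 128 128 160 480 496))) = true := by decide +kernel
  have c7 : (go 16 Gd mult S198_212_586_660 (Tr.lf 13976749186 107707335 1896906842831094709506539567) 96 128 128 192 480 496) = true := by decide +kernel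
  have c8 : (band (go 16 Gd mult S198_227_586_660 (Tr.lf 9144795778 103779398 2069838040312544636509880320) 64 96 128 192 480 496)
  (band (go 16 Gd mult S198_227_512_586 (Tr.lf 9144779394 107850694 2321236060826698547164348445) 64 96 128 192 480 496)
  (band (go 16 Gd mult S198_227_512_586 (Tr.lf 13439746625 103381704 18276669557462015387811971072) 96 128 160 192 480 496)
  (go 16 Gd mult S212_227_586_660 (Tr.lf 13439738433 99318727 19271669574411735241290940416) 96 128 160 192 480 496)))) = true := by decide +kernel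
  have c9 : (band (go 16 Gd mult S227_256_438_512 (Tr.lf 9143730760 107715398 15354645897670505067081367552) 0 128 160 192 480 496)
  (band (go 16 Gd mult S227_256_364_438 (Tr.sp 2 496 (Tr.lf 9143730756 103656134 12470069829324899937094205440) Tr.skip) 0 128 160 192 480 512)
  (go 16 Gd mult S227_256_364_438 (Tr.lf 9143731268 103652166 1286297072069965441887371264) 0 128 160 192 448 480))) = true := by decide +kernel
  (And.intro (Ok.s1 160 (Ok.lf S227_256_364_438_ok c0)
  (Ok.s2 480 (Ok.lf S227_256_364_438_ok (br (br c9)))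
  (Ok.lf S227_256_364_438_ok (bl (br c9)))))
  (And.intro (Ok.s2 480 (Ok.lf S227_256_438_512_ok c3)
  (Ok.s2 496 (Ok.s1 160 (Ok.lf S227_256_438_512_ok c4)
  (Ok.lf S227_256_438_512_ok (bl c9)))
  (Ok.out rfl)))
  (And.intro (Ok.s3 227 (Ok.s0 64 (Ok.lf S198_227_512_660_ok (bl c5))
  (Ok.lf S198_227_512_660_ok (bl c1)))
  (Ok.lf S227_256_512_660_ok c2))
  (Ok.s2 480 (Ok.s0 64 (Ok.lf S198_227_512_660_ok (bl (br (br c5))))
  (Ok.s1 160 (Ok.lf S198_227_512_660_ok (bl (br c5)))
  (Ok.lf S198_227_512_660_ok (br c1))))
  (Ok.s2 496 (Ok.s0 64 (Ok.lf S198_227_512_660_ok (br (br (br c5))))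
  (Ok.s4 586 (Ok.s0 96 (Ok.lf S198_227_512_586_ok (bl (br c8)))
  (Ok.s1 160 (Ok.s3 212 (Ok.lf S198_212_512_586_ok (br (br c6)))
  (Ok.lf S212_227_512_586_ok (bl c6)))
  (Ok.lf S198_227_512_586_ok (bl (br (br c8))))))
  (Ok.s0 96 (Ok.lf S198_227_586_660_ok (bl c8))
  (Ok.s3 212 (Ok.lf S198_212_586_660_ok c7)
  (Ok.s1 160 (Ok.lf S212_227_586_660_ok (bl (br c6)))
  (Ok.lf S212_227_586_660_ok (br (br (br c8)))))))))
  (Ok.out rfl))))))

end Vale.Agent.P098.Ck
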