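import Vale.Agent.P098.CkGd
import Vale.Agent.P098.CkOk
import Vale.Agent.P098.Sh.A25
import Vale.Agent.P098.Sh.A27
import Vale.Agent.P098.Sh.A33
import Vale.Agent.P098.Sh.A35
import Vale.Agent.P098.Sh.A37
import Vale.Agent.P098.Sh.A38
import Vale.Agent.P098.Sh.A39

namespace Vale.Agent.P098.Ck

theorem r81 :
    Ok Gd mult 0 128 128 192 448 480 227 256 512 660 ∧
    Ok Gd mult 0 128 128 192 480 512 227 256 512 660 ∧
    Ok Gd mult 0 128 128 192 384 448 198 256 660 808 ∧
    Ok Gd mult 0 128 128 192 448 480 198 256 660 808 ∧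
    Ok Gd mult 0 128 128 192 480 496 198 212 660 808 :=
  have c0 : (go 16 Gd mult S227_256_660_808 (Tr.lf 13440156804 103517127 234458117176848401039360) 96 128 160 192 448 480) = true := by decide +kernel
  have c1 : (go 16 Gd mult S227_256_512_660 (Tr.lf 13438846084 90663369 355527529627001898271768576) 64 128 128 192 448 480) = true := by decide +kernel
  have c2 : (band (go 16 Gd mult S227_256_660_808 (Tr.lf 8598602888 94984776 302231454903657293676544000) 0 128 128 192 384 448)
  (band (go 16 Gd mult S227_256_660_808 (Tr.lf 13438829634 94992968 0) 96 128 128 160 448 480)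
  (go 16 Gd mult S227_256_660_808 (Tr.lf 8598602305 95255366 319571402495843152756765) 64 96 128 192 448 480))) = true := by decide +kernel
  have c3 : (go 16 Gd mult S241_256_512_660 (Tr.lf 9144115848 99330631 2687908301566320449154973947) 0 128 128 192 480 496) = true := by decide +kernel
  have c4 : (go 16 Gd mult S227_241_512_660 (Tr.lf 13977010820 107711431 1849901329197728910469496832) 64 128 128 160 480 496) = true := by decide +kernel
  have c5 : (band (go 16 Gd mult S198_227_660_808 (Tr.lf 9136522372 103508935 0) 64 128 128 192 384 448)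
  (band (go 16 Gd mult S198_227_660_808 (Tr.lf 13438829636 94992968 0) 64 128 128 160 448 480)
  (band (go 16 Gd mult S198_227_660_808 (Tr.lf 8599650882 90926023 1076048203561036424455127040) 0 64 128 192 448 480)
  (band (go 16 Gd mult S227_256_512_660 (Tr.lf 4303626818 99584965 1245435541698338824426356831) 0 64 128 192 448 480)
  (go 16 Gd mult S227_256_660_808 (Tr.lf 4303495746 99584965 942128254233561000912617579) 0 64 128 192 448 480))))) = true := by decide +kernel
  have c6 : (band (go 16 Gd mult S198_212_660_808 (Tr.lf 13439869576 90798920 2824175433056579178974937117) 0 128 128 160 480 496)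
  (band (go 16 Gd mult S198_212_660_808 (Tr.lf 13439869512 95128264 17557306213804421325187448832) 0 128 160 192 480 496)
  (band (go 16 Gd mult S198_212_660_808 (Tr.lf 13439870018 95128519 21760664753063325144711168) 64 128 160 192 448 480)
  (go 16 Gd mult S212_227_660_808 (Tr.lf 13438821444 99322567 105976557932987145978011) 64 128 160 192 448 480)))) = true := by decide +kernel
  have c7 : (go 16 Gd mult S227_241_512_660 (Tr.lf 13438820932 103385544 18168035187425669867871666176) 64 128 160 192 480 496) = true := by decide +kernel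
  have c8 : (go 16 Gd mult S198_227_660_808 (Tr.lf 4303627330 99457989 286516839647960790040838144) 0 64 128 192 384 448) = true := by decide +kernel
  have c9 : (go 16 Gd mult S227_241_512_660 (Tr.lf 4840362306 108108613 2747109308194843064904187904) 0 64 128 192 480 496) = true := by decide +kernel
  (And.intro (Ok.s0 64 (Ok.lf S227_256_512_660_ok (bl (br (br (br c5)))))
  (Ok.lf S227_256_512_660_ok c1))
  (And.intro (Ok.s2 496 (Ok.s3 241 (Ok.s0 64 (Ok.lf S227_241_512_660_ok c9)
  (Ok.s1 160 (Ok.lf S227_241_512_660_ok c4)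
  (Ok.lf S227_241_512_660_ok c7)))
  (Ok.lf S241_256_512_660_ok c3))
  (Ok.out rfl))
  (And.intro (Ok.s3 227 (Ok.s0 64 (Ok.lf S198_227_660_808_ok c8)
  (Ok.lf S198_227_660_808_ok (bl c5)))
  (Ok.lf S227_256_660_808_ok (bl c2)))
  (And.intro (Ok.s3 227 (Ok.s0 64 (Ok.lf S198_227_660_808_ok (bl (br (br c5))))
  (Ok.s1 160 (Ok.lf S198_227_660_808_ok (bl (br c5)))
  (Ok.s3 212 (Ok.lf S198_212_660_808_ok (bl (br (br c6))))
  (Ok.lf S212_227_660_808_ok (br (br (br c6)))))))
  (Ok.s0 64 (Ok.lf S227_256_660_808_ok (br (br (br (br c5)))))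
  (Ok.s0 96 (Ok.lf S227_256_660_808_ok (br (br c2)))
  (Ok.s1 160 (Ok.lf S227_256_660_808_ok (bl (br c2)))
  (Ok.lf S227_256_660_808_ok c0)))))
  (Ok.s1 160 (Ok.lf S198_212_660_808_ok (bl c6))
  (Ok.lf S198_212_660_808_ok (bl (br c6))))))))

end Vale.Agent.P098.Ck
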