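import Vale.Agent.P098.CkGd
import Vale.Agent.P098.CkOk
import Vale.Agent.P098.Sh.A30
import Vale.Agent.P098.Sh.A33
import Vale.Agent.P098.Sh.A36
import Vale.Agent.P098.Sh.A40
import Vale.Agent.P098.Sh.A41
import Vale.Agent.P098.Sh.A43
import Vale.Agent.P098.Sh.A45

namespace Vale.Agent.P098.Ck

theorem r82 :
    Ok Gd mult 0 128 128 192 480 496 212 227 660 808 ∧
    Ok Gd mult 0 128 128 192 480 496 227 256 660 808 ∧
    Ok Gd mult 0 128 128 192 384 512 256 314 216 512 :=
  have c0 : (go 16 Gd mult S227_241_660_808 (Tr.lf 13977011336 107711431 919157464622515970549743616) 64 128 128 160 480 496) = true := by decide +kernel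
  have c1 : (band (go 16 Gd mult S219_227_660_808 (Tr.lf 13440132228 99449799 1407453534705402774493855773) 96 128 128 192 480 496)
  (go 16 Gd mult S212_219_660_808 (Tr.lf 13977003138 103644103 1446073877905794049981284352) 96 128 128 192 480 496)) = true := by decide +kernel
  have c2 : (band (go 16 Gd mult S256_285_216_364 (Tr.lf 4303897668 99580997 166831763106818826109452288) 0 128 160 192 384 448)
  (band (go 16 Gd mult S256_285_364_512 (Tr.lf 4303636548 99580997 172876392204891971982983168) 0 128 160 192 384 448)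
  (band (go 16 Gd mult S285_314_216_364 (Tr.lf 4303635524 99580742 171667466385277342808276992) 0 128 160 192 384 448)
  (go 16 Gd mult S285_314_364_512 (Tr.lf 4303635524 99580742 176503169663735859507101696) 0 128 160 192 384 448)))) = true := by decide +kernel
  have c3 : (band (go 16 Gd mult S256_314_216_364 (Tr.lf 4303651908 95386565 2977823603321699891314425856) 0 128 128 160 480 512)
  (band (go 16 Gd mult S256_314_216_364 (Tr.lf 4303651876 99449670 0) 0 128 128 160 384 448)
  (band (go 16 Gd mult S256_314_364_512 (Tr.lf 4303635522 95255366 0) 0 128 128 160 384 448)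
  (band (go 16 Gd mult S256_314_216_364 (Tr.sp 0 64 Tr.skip (Tr.sp 2 496 (Tr.lf 4303651106 103779396 11591326543083479053669236736) Tr.skip)) 0 128 160 192 480 512)
  (go 16 Gd mult S227_241_660_808 (Tr.lf 13439869508 103385800 15975162049614477244309176320) 64 128 160 192 480 496))))) = true := by decide +kernel
  have c4 : (band (go 16 Gd mult S241_256_660_808 (Tr.lf 13438820936 90671688 2623933701846585632196919296) 0 128 128 160 480 496)
  (go 16 Gd mult S241_256_660_808 (Tr.lf 9143853640 99322567 13804105968252981275990687744) 0 128 160 192 480 496)) = true := by decide +kernel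
  have c5 : (band (go 16 Gd mult S256_285_216_364 (Tr.lf 4303635012 95390661 1292341701168038587760902144) 0 128 128 192 448 480)
  (band (go 16 Gd mult S256_285_364_512 (Tr.lf 4303635012 95263685 1250120830225620313441304576) 0 128 128 192 448 480)
  (band (go 16 Gd mult S285_314_216_364 (Tr.lf 4303495746 99453638 1245332424398966788032823296) 0 128 128 192 448 480)
  (go 16 Gd mult S256_285_364_512 (Tr.sp 2 496 (Tr.lf 4303634756 103648197 2863111381601204474598129664) Tr.skip) 0 128 128 192 480 512)))) = true := by decide +kernel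
  have c6 : (go 16 Gd mult S285_314_364_512 (Tr.lf 4303627330 95390661 1246960589371144614187106304) 0 128 128 192 448 512) = true := by decide +kernel
  have c7 : (go 16 Gd mult S212_227_660_808 (Tr.lf 9136513409 112037061 1590012585981096742700974080) 64 96 128 192 480 496) = true := by decide +kernel
  have c8 : (band (go 16 Gd mult S212_227_660_808 (Tr.lf 4840493378 108108868 2374710201970585673628909568) 0 64 128 192 480 496)
  (go 16 Gd mult S227_241_660_808 (Tr.lf 4303491394 103914309 2280597348676737270944890880) 0 64 128 192 480 496)) = true := by decide +kernel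
  (And.intro (Ok.s0 64 (Ok.lf S212_227_660_808_ok (bl c8))
  (Ok.s0 96 (Ok.lf S212_227_660_808_ok c7)
  (Ok.s3 219 (Ok.lf S212_219_660_808_ok (br c1))
  (Ok.lf S219_227_660_808_ok (bl c1)))))
  (And.intro (Ok.s3 241 (Ok.s0 64 (Ok.lf S227_241_660_808_ok (br c8))
  (Ok.s1 160 (Ok.lf S227_241_660_808_ok c0)
  (Ok.lf S227_241_660_808_ok (br (br (br (br c3)))))))
  (Ok.s1 160 (Ok.lf S241_256_660_808_ok (bl c4))
  (Ok.lf S241_256_660_808_ok (br c4))))
  (Ok.s4 364 (Ok.s2 448 (Ok.s1 160 (Ok.lf S256_314_216_364_ok (bl (br c3)))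
  (Ok.s3 285 (Ok.lf S256_285_216_364_ok (bl c2))
  (Ok.lf S285_314_216_364_ok (bl (br (br c2))))))
  (Ok.s2 480 (Ok.s3 285 (Ok.lf S256_285_216_364_ok (bl c5))
  (Ok.lf S285_314_216_364_ok (bl (br (br c5)))))
  (Ok.s1 160 (Ok.lf S256_314_216_364_ok (bl c3))
  (Ok.lf S256_314_216_364_ok (bl (br (br (br c3))))))))
  (Ok.s2 448 (Ok.s1 160 (Ok.lf S256_314_364_512_ok (bl (br (br c3))))
  (Ok.s3 285 (Ok.lf S256_285_364_512_ok (bl (br c2)))
  (Ok.lf S285_314_364_512_ok (br (br (br c2))))))
  (Ok.s3 285 (Ok.s2 480 (Ok.lf S256_285_364_512_ok (bl (br c5)))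
  (Ok.lf S256_285_364_512_ok (br (br (br c5)))))
  (Ok.lf S285_314_364_512_ok c6))))))

end Vale.Agent.P098.Ck
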