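import Vale.Agent.P098.CkGd
import Vale.Agent.P098.CkOk
import Vale.Agent.P098.Sh.A42
import Vale.Agent.P098.Sh.A46
import Vale.Agent.P098.Sh.A47
import Vale.Agent.P098.Sh.A49
import Vale.Agent.P098.Sh.A51

namespace Vale.Agent.P098.Ck

theorem r83 :
    Ok Gd mult 0 128 128 192 384 448 256 314 512 660 ∧
    Ok Gd mult 0 128 128 192 448 512 256 314 512 660 ∧
    Ok Gd mult 0 128 128 192 384 512 256 314 660 808 ∧
    Ok Gd mult 0 128 128 192 384 512 314 372 216 364 ∧
    Ok Gd mult 0 128 128 192 384 448 314 372 364 512 :=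
  have c0 : (band (go 16 Gd mult S256_285_660_808 (Tr.lf 9144124040 103516871 2040224338361049022189078423) 0 128 128 192 480 496)
  (band (go 16 Gd mult S285_314_660_808 (Tr.lf 9143861892 99322567 1976381946447952514992046080) 0 128 128 192 480 496)
  (band (go 16 Gd mult S343_372_216_364 (Tr.sp 2 496 (Tr.lf 547496258 103787462 2863940157182974653501146026) Tr.skip) 0 128 128 192 480 512)
  (go 16 Gd mult S285_314_660_808 (Tr.lf 8598602372 95120071 602607093566523111622311936) 0 128 128 192 448 480)))) = true := by decide +kernel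
  have c1 : (band (go 16 Gd mult S256_285_512_660 (Tr.lf 4303636612 99580742 264754754495603789260652544) 0 128 128 192 384 448)
  (band (go 16 Gd mult S256_285_660_808 (Tr.lf 8598602820 90790472 249038718840613609989472256) 0 128 128 192 384 448)
  (band (go 16 Gd mult S285_314_660_808 (Tr.lf 4303635522 99449670 224860202448321026495348736) 0 128 128 192 384 448)
  (go 16 Gd mult S285_314_512_660 (Tr.lf 4303496260 99449670 296186825805584147803013120) 0 128 128 192 384 448)))) = true := by decide +kernel
  have c2 : (band (go 16 Gd mult S256_285_660_808 (Tr.lf 8598602888 95120071 681046154249310129908350976) 0 128 128 192 448 480)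
  (band (go 16 Gd mult S256_285_512_660 (Tr.lf 8598602372 86862535 1164486580123394737128341504) 0 128 128 192 448 480)
  (band (go 16 Gd mult S285_314_512_660 (Tr.lf 4303503940 99584965 1024469742071883063629971456) 0 128 128 192 448 480)
  (go 16 Gd mult S343_372_216_364 (Tr.lf 547496258 103910470 1244816081585601740047122432) 0 128 128 192 448 480)))) = true := by decide +kernel
  have c3 : (band (go 16 Gd mult S314_372_364_512 (Tr.lf 546605124 99724357 171667466385277342808276992) 0 128 160 192 384 448)
  (go 16 Gd mult S314_372_216_364 (Tr.lf 546604100 99724357 171667466385277342808276992) 0 128 160 192 384 448)) = true := by decide +kernel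
  have c4 : (band (go 16 Gd mult S256_285_512_660 (Tr.lf 9135473796 99314375 2580605786460234725436751901) 0 128 128 192 480 512)
  (go 16 Gd mult S285_314_512_660 (Tr.lf 4303635012 99584965 2364475690104076867381231645) 0 128 128 192 480 512)) = true := by decide +kernel
  have c5 : (go 16 Gd mult S314_343_216_364 (Tr.lf 546579524 99720516 1245154191957726937057591325) 0 128 128 192 448 512) = true := by decide +kernel
  have c6 : (band (go 16 Gd mult S314_372_364_512 (Tr.lf 546456642 107981893 0) 0 128 128 160 384 448)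
  (go 16 Gd mult S314_372_216_364 (Tr.lf 546456610 107981893 0) 0 128 128 160 384 448)) = true := by decide +kernel
  (And.intro (Ok.s3 285 (Ok.lf S256_285_512_660_ok (bl c1))
  (Ok.lf S285_314_512_660_ok (br (br (br c1)))))
  (And.intro (Ok.s2 480 (Ok.s3 285 (Ok.lf S256_285_512_660_ok (bl (br c2)))
  (Ok.lf S285_314_512_660_ok (bl (br (br c2)))))
  (Ok.s3 285 (Ok.lf S256_285_512_660_ok (bl c4))
  (Ok.lf S285_314_512_660_ok (br c4))))
  (And.intro (Ok.s2 448 (Ok.s3 285 (Ok.lf S256_285_660_808_ok (bl (br c1)))
  (Ok.lf S285_314_660_808_ok (bl (br (br c1)))))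
  (Ok.s2 480 (Ok.s3 285 (Ok.lf S256_285_660_808_ok (bl c2))
  (Ok.lf S285_314_660_808_ok (br (br (br c0)))))
  (Ok.s2 496 (Ok.s3 285 (Ok.lf S256_285_660_808_ok (bl c0))
  (Ok.lf S285_314_660_808_ok (bl (br c0))))
  (Ok.out rfl))))
  (And.intro (Ok.s2 448 (Ok.s1 160 (Ok.lf S314_372_216_364_ok (br c6))
  (Ok.lf S314_372_216_364_ok (br c3)))
  (Ok.s3 343 (Ok.lf S314_343_216_364_ok c5)
  (Ok.s2 480 (Ok.lf S343_372_216_364_ok (br (br (br c2))))
  (Ok.lf S343_372_216_364_ok (bl (br (br c0)))))))
  (Ok.s1 160 (Ok.lf S314_372_364_512_ok (bl c6))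
  (Ok.lf S314_372_364_512_ok (bl c3)))))))

end Vale.Agent.P098.Ck
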