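import Vale.Agent.P098.CkGd
import Vale.Agent.P098.CkOk
import Vale.Agent.P098.Sh.A48
import Vale.Agent.P098.Sh.A49
import Vale.Agent.P098.Sh.A50
import Vale.Agent.P098.Sh.A51
import Vale.Agent.P098.Sh.A52
import Vale.Agent.P098.Sh.A53
import Vale.Agent.P098.Sh.A54
import Vale.Agent.P098.Sh.A56

namespace Vale.Agent.P098.Ck

theorem r84 :
    Ok Gd mult 0 128 128 192 448 512 314 372 364 512 ∧
    Ok Gd mult 0 128 128 192 384 512 314 372 512 808 ∧
    Ok Gd mult 0 128 128 192 384 448 372 430 216 364 ∧
    Ok Gd mult 0 128 128 160 448 480 372 430 216 364 :=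
  have c0 : (band (go 16 Gd mult S343_372_512_660 (Tr.lf 546457732 103787589 203099537695257701350637568) 0 128 128 192 384 448)
  (band (go 16 Gd mult S343_372_660_808 (Tr.lf 546587780 107981893 241785163922925834941235200) 0 128 128 192 384 448)
  (band (go 16 Gd mult S314_343_512_660 (Tr.lf 9585796 104045637 276844012691750081007714304) 0 128 128 192 384 448)
  (go 16 Gd mult S372_401_216_364 (Tr.lf 4842472580 107842758 149906801632214017663565824) 0 128 128 192 384 448)))) = true := by decide +kernel
  have c1 : (go 16 Gd mult S314_343_364_512 (Tr.lf 546587780 108108869 1242709426532125208429461504) 0 128 128 192 448 512) = true := by decide +kernel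
  have c2 : (band (go 16 Gd mult S372_430_216_364 (Tr.lf 5380538948 107838408 0) 0 128 128 160 448 480)
  (band (go 16 Gd mult S314_372_512_660 (Tr.lf 547521058 103914566 0) 0 128 128 160 448 480)
  (go 16 Gd mult S314_372_512_660 (Tr.sp 2 496 (Tr.lf 547520804 99720262 2897791316033916483019932490) Tr.skip) 0 128 128 160 480 512))) = true := by decide +kernel
  have c3 : (go 16 Gd mult S314_343_512_660 (Tr.lf 8599651396 90926023 1115824844055384532411285533) 0 128 160 192 448 512) = true := by decide +kernel
  have c4 : (go 16 Gd mult S401_430_216_364 (Tr.lf 4843520644 99449800 448511479077027423815991296) 0 128 128 192 416 448) = true := by decide +kernel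
  have c5 : (band (go 16 Gd mult S314_343_660_808 (Tr.lf 9585220 108235845 938970872637797959242612765) 0 128 128 192 448 480)
  (band (go 16 Gd mult S343_372_660_808 (Tr.lf 547504708 103783494 1224513244570097829357289472) 0 128 128 192 448 480)
  (band (go 16 Gd mult S343_372_364_512 (Tr.lf 547496514 108104774 1246118513950926591349489664) 0 128 128 192 448 480)
  (band (go 16 Gd mult S314_343_660_808 (Tr.lf 4304552260 99454149 2275195053967059509385364490) 0 128 128 192 480 496)
  (band (go 16 Gd mult S343_357_660_808 (Tr.lf 9572674 108240068 2460157845735452637169978584) 0 128 128 192 480 496)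
  (band (go 16 Gd mult S357_372_660_808 (Tr.lf 547492162 108108742 2681394683236148338789321442) 0 128 128 192 480 496)
  (band (go 16 Gd mult S357_372_364_512 (Tr.sp 2 496 (Tr.lf 547426626 112172229 2827675039102454660739106286) Tr.skip) 0 128 128 192 480 512)
  (go 16 Gd mult S314_343_660_808 (Tr.lf 9585218 103914565 302231454903657293676544000) 0 128 128 192 384 448)))))))) = true := by decide +kernel
  have c6 : (go 16 Gd mult S401_430_216_364 (Tr.lf 4834017860 103767238 0) 0 128 128 192 384 416) = true := by decide +kernel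
  have c7 : (go 16 Gd mult S343_372_512_660 (Tr.lf 547504674 103783494 1240269088298681314427535360) 0 128 160 192 448 480) = true := by decide +kernel
  have c8 : (go 16 Gd mult S343_357_364_512 (Tr.lf 9572674 108108996 2766018402382453497481530566) 0 128 128 192 480 512) = true := by decide +kernel
  have c9 : (go 16 Gd mult S343_372_512_660 (Tr.sp 0 64 Tr.skip (Tr.lf 547430945 99851206 18040791485180981424722678878)) 0 128 160 192 480 512) = true := by decide +kernel
  (And.intro (Ok.s3 343 (Ok.lf S314_343_364_512_ok c1)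
  (Ok.s2 480 (Ok.lf S343_372_364_512_ok (bl (br (br c5))))
  (Ok.s3 357 (Ok.lf S343_357_364_512_ok c8)
  (Ok.lf S357_372_364_512_ok (bl (br (br (br (br (br (br c5)))))))))))
  (And.intro (Ok.s4 660 (Ok.s2 448 (Ok.s3 343 (Ok.lf S314_343_512_660_ok (bl (br (br c0))))
  (Ok.lf S343_372_512_660_ok (bl c0)))
  (Ok.s1 160 (Ok.s2 480 (Ok.lf S314_372_512_660_ok (bl (br c2)))
  (Ok.lf S314_372_512_660_ok (br (br c2))))
  (Ok.s3 343 (Ok.lf S314_343_512_660_ok c3)
  (Ok.s2 480 (Ok.lf S343_372_512_660_ok c7)
  (Ok.lf S343_372_512_660_ok c9)))))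
  (Ok.s2 448 (Ok.s3 343 (Ok.lf S314_343_660_808_ok (br (br (br (br (br (br (br c5))))))))
  (Ok.lf S343_372_660_808_ok (bl (br c0))))
  (Ok.s2 480 (Ok.s3 343 (Ok.lf S314_343_660_808_ok (bl c5))
  (Ok.lf S343_372_660_808_ok (bl (br c5))))
  (Ok.s2 496 (Ok.s3 343 (Ok.lf S314_343_660_808_ok (bl (br (br (br c5)))))
  (Ok.s3 357 (Ok.lf S343_357_660_808_ok (bl (br (br (br (br c5))))))
  (Ok.lf S357_372_660_808_ok (bl (br (br (br (br (br c5)))))))))
  (Ok.out rfl)))))
  (And.intro (Ok.s3 401 (Ok.lf S372_401_216_364_ok (br (br (br c0))))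
  (Ok.s2 416 (Ok.lf S401_430_216_364_ok c6)
  (Ok.lf S401_430_216_364_ok c4)))
  (Ok.lf S372_430_216_364_ok (bl c2)))))

end Vale.Agent.P098.Ck
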