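import Vale.Agent.P098.CkGd
import Vale.Agent.P098.CkOk
import Vale.Agent.P098.Sh.A53
import Vale.Agent.P098.Sh.A54
import Vale.Agent.P098.Sh.A55
import Vale.Agent.P098.Sh.A56

namespace Vale.Agent.P098.Ck

theorem r85 :
    Ok Gd mult 0 128 160 192 448 480 372 430 216 364 ∧
    Ok Gd mult 0 128 128 192 480 512 372 430 216 364 ∧
    Ok Gd mult 0 128 128 192 384 512 372 430 364 512 ∧
    Ok Gd mult 0 128 128 192 384 448 372 401 512 660 :=
  have c0 : (band (go 16 Gd mult S372_430_364_512 (Tr.lf 5380539464 107838408 0) 0 128 128 160 448 480)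
  (band (go 16 Gd mult S372_430_364_512 (Tr.sp 0 64 Tr.skip (Tr.sp 0 96 Tr.skip (Tr.lf 615810178 103914439 12213758002303862818857288696))) 0 128 160 192 480 512)
  (band (go 16 Gd mult S372_430_216_364 (Tr.sp 0 64 Tr.skip (Tr.sp 0 96 Tr.skip (Tr.lf 615810113 108108743 12136358194160627921812783665))) 0 128 160 192 480 512)
  (go 16 Gd mult S372_430_216_364 (Tr.lf 5380538946 103644104 1145232108466929665375731712) 64 128 160 192 448 480)))) = true := by decide +kernel
  have c1 : (band (go 16 Gd mult S372_430_364_512 (Tr.lf 4834100356 103640262 175294243844121230332395520) 0 128 128 192 384 416)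
  (band (go 16 Gd mult S372_401_512_660 (Tr.lf 4842472068 99577158 175294243844121230332395520) 0 128 128 192 384 416)
  (go 16 Gd mult S372_430_364_512 (Tr.lf 5380408388 103644104 1137986042927335816405450752) 64 128 160 192 448 480))) = true := by decide +kernel
  have c2 : (band (go 16 Gd mult S372_430_216_364 (Tr.sp 2 496 (Tr.lf 1085571652 103640263 3076542276569428411985952768) Tr.skip) 0 128 128 160 480 512)
  (band (go 16 Gd mult S401_430_364_512 (Tr.sp 2 496 (Tr.lf 1085423908 91061319 3151493039501086894137016320) Tr.skip) 0 128 128 160 480 512)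
  (band (go 16 Gd mult S372_401_364_512 (Tr.sp 2 496 (Tr.lf 547504418 108104901 3024704804346687824209117184) Tr.skip) 0 128 128 160 480 512)
  (band (go 16 Gd mult S372_401_364_512 (Tr.lf 4842472068 103517382 464227514732017603087171584) 0 128 128 192 416 448)
  (band (go 16 Gd mult S401_430_364_512 (Tr.lf 5380326020 99322824 455765033994715198864228352) 0 128 128 192 416 448)
  (band (go 16 Gd mult S372_386_512_660 (Tr.lf 4842398340 103517382 463018588912402973912465408) 0 128 128 192 416 448)
  (go 16 Gd mult S386_401_512_660 (Tr.lf 4842398340 103644358 470272143830090748960702464) 0 128 128 192 416 448))))))) = true := by decide +kernel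
  have c3 : (band (go 16 Gd mult S401_430_364_512 (Tr.lf 614547745 99982405 10489843692819230479606024726) 0 64 160 192 464 480)
  (band (go 16 Gd mult S401_430_216_364 (Tr.lf 614605089 99982405 10237110017225884962216085584) 0 64 160 192 464 480)
  (band (go 16 Gd mult S401_430_216_364 (Tr.lf 614605089 99855429 1323759734704225360576185025) 0 64 160 192 448 464)
  (go 16 Gd mult S401_430_364_512 (Tr.lf 540090658 99842887 1323764918304891457627620266) 0 64 160 192 448 464)))) = true := by decide +kernel
  have c4 : (band (go 16 Gd mult S386_401_216_364 (Tr.lf 1160909089 95530055 1317717983663585265490003923) 0 64 160 192 448 480)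
  (go 16 Gd mult S372_386_216_364 (Tr.lf 1160843537 99716295 1298378693828890805898905381) 0 64 160 192 448 480)) = true := by decide +kernel
  have c5 : (band (go 16 Gd mult S372_401_364_512 (Tr.lf 1152459041 95644871 1265711668912277757205548810) 0 32 160 192 448 480)
  (go 16 Gd mult S372_401_364_512 (Tr.lf 547430689 103783621 936907770832196544654542618) 32 64 160 192 448 480)) = true := by decide +kernel
  (And.intro (Ok.s0 64 (Ok.s3 401 (Ok.s3 386 (Ok.lf S372_386_216_364_ok (br c4))
  (Ok.lf S386_401_216_364_ok (bl c4)))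
  (Ok.s2 464 (Ok.lf S401_430_216_364_ok (bl (br (br c3))))
  (Ok.lf S401_430_216_364_ok (bl (br c3)))))
  (Ok.lf S372_430_216_364_ok (br (br (br c0)))))
  (And.intro (Ok.s1 160 (Ok.lf S372_430_216_364_ok (bl c2))
  (Ok.lf S372_430_216_364_ok (bl (br (br c0)))))
  (And.intro (Ok.s2 448 (Ok.s2 416 (Ok.lf S372_430_364_512_ok (bl c1))
  (Ok.s3 401 (Ok.lf S372_401_364_512_ok (bl (br (br (br c2)))))
  (Ok.lf S401_430_364_512_ok (bl (br (br (br (br c2))))))))
  (Ok.s2 480 (Ok.s1 160 (Ok.lf S372_430_364_512_ok (bl c0))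
  (Ok.s0 64 (Ok.s3 401 (Ok.s0 32 (Ok.lf S372_401_364_512_ok (bl c5))
  (Ok.lf S372_401_364_512_ok (br c5)))
  (Ok.s2 464 (Ok.lf S401_430_364_512_ok (br (br (br c3))))
  (Ok.lf S401_430_364_512_ok (bl c3))))
  (Ok.lf S372_430_364_512_ok (br (br c1)))))
  (Ok.s1 160 (Ok.s3 401 (Ok.lf S372_401_364_512_ok (bl (br (br c2))))
  (Ok.lf S401_430_364_512_ok (bl (br c2))))
  (Ok.lf S372_430_364_512_ok (bl (br c0))))))
  (Ok.s2 416 (Ok.lf S372_401_512_660_ok (bl (br c1)))
  (Ok.s3 386 (Ok.lf S372_386_512_660_ok (bl (br (br (br (br (br c2)))))))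
  (Ok.lf S386_401_512_660_ok (br (br (br (br (br (br c2))))))))))))

end Vale.Agent.P098.Ck
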