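import Vale.Agent.P098.CkGd
import Vale.Agent.P098.CkOk
import Vale.Agent.P098.Sh.A53
import Vale.Agent.P098.Sh.A54
import Vale.Agent.P098.Sh.A55
import Vale.Agent.P098.Sh.A56
import Vale.Agent.P098.Sh.A57

namespace Vale.Agent.P098.Ck

theorem r86 :
    Ok Gd mult 0 128 128 192 384 448 401 430 512 660 ∧
    Ok Gd mult 0 128 128 192 448 512 372 430 512 660 ∧
    Ok Gd mult 0 128 128 192 384 448 372 430 660 808 ∧
    Ok Gd mult 0 128 128 160 448 480 372 430 660 808 :=
  have c0 : (go 16 Gd mult S372_430_512_660 (Tr.lf 5380538952 107838408 1000990578640912956656713728) 0 128 160 176 448 464) = true := by decide +kernel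
  have c1 : (band (go 16 Gd mult S372_401_660_808 (Tr.lf 4842472068 99577158 174085318024506601157689344) 0 128 128 192 384 416)
  (band (go 16 Gd mult S401_430_512_660 (Tr.lf 4834017924 103767238 15716035654990179271180288) 0 128 128 192 384 416)
  (band (go 16 Gd mult S401_430_660_808 (Tr.lf 4834017924 103767238 48357032784585166988247040) 0 128 128 192 384 416)
  (band (go 16 Gd mult S372_401_660_808 (Tr.lf 4843520580 103644104 0) 0 128 128 160 448 480)
  (band (go 16 Gd mult S401_430_512_660 (Tr.lf 5380325956 103648327 0) 0 128 128 160 448 480)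
  (band (go 16 Gd mult S401_430_660_808 (Tr.lf 5380391492 103648327 0) 0 128 128 160 448 480)
  (band (go 16 Gd mult S372_401_512_660 (Tr.lf 547504706 112303046 0) 0 128 128 160 448 480)
  (go 16 Gd mult S372_401_512_660 (Tr.lf 4843520290 103648327 12827574167387089513828319232) 0 128 160 176 464 480)))))))) = true := by decide +kernel
  have c2 : (band (go 16 Gd mult S372_386_660_808 (Tr.lf 4842463876 99454150 461809663092788344737759232) 0 128 128 192 416 448)
  (go 16 Gd mult S386_401_660_808 (Tr.lf 4842463876 103644358 467854292190861490611290112) 0 128 128 192 416 448)) = true := by decide +kernel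
  have c3 : (band (go 16 Gd mult S401_430_660_808 (Tr.lf 540164738 95386567 462615416874048902758465536) 0 64 128 192 416 448)
  (band (go 16 Gd mult S401_430_512_660 (Tr.lf 539050562 103775429 460152223137766001089642496) 0 64 128 192 416 448)
  (band (go 16 Gd mult S401_430_660_808 (Tr.lf 5380391554 99322824 0) 64 128 128 192 416 448)
  (go 16 Gd mult S401_430_512_660 (Tr.lf 5380326018 99322824 0) 64 128 128 192 416 448)))) = true := by decide +kernel
  have c4 : (band (go 16 Gd mult S401_430_512_660 (Tr.lf 1085423940 91061319 3135774661109577170246696960) 0 128 128 160 480 496)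
  (band (go 16 Gd mult S372_401_512_660 (Tr.lf 548553026 112298951 2966701175919584704433291311) 0 128 128 160 480 496)
  (band (go 16 Gd mult S401_430_512_660 (Tr.lf 5380391204 103517255 10752709038826304882239078400) 0 128 160 176 464 480)
  (band (go 16 Gd mult S401_430_512_660 (Tr.lf 615662114 99982151 12078324220959442189271041142) 64 128 160 176 480 512)
  (band (go 16 Gd mult S372_401_512_660 (Tr.lf 548553234 103910343 15323108588178454069657405143) 64 128 160 176 480 512)
  (band (go 16 Gd mult S372_401_512_660 (Tr.lf 5380391458 103644104 856755210027421771780587520) 64 128 176 192 448 480)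
  (go 16 Gd mult S401_430_512_660 (Tr.lf 5380391458 95390791 1215493008078822364757884928) 64 128 176 192 448 480))))))) = true := by decide +kernel
  have c5 : (go 16 Gd mult S372_430_512_660 (Tr.sp 0 32 Tr.skip (Tr.sp 2 464 (Tr.lf 539066641 103775429 8322228445137327769659113926) Tr.skip)) 0 64 176 192 448 480) = true := by decide +kernel
  (And.intro (Ok.s2 416 (Ok.lf S401_430_512_660_ok (bl (br c1)))
  (Ok.s0 64 (Ok.lf S401_430_512_660_ok (bl (br c3)))
  (Ok.lf S401_430_512_660_ok (br (br (br c3))))))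
  (And.intro (Ok.s1 160 (Ok.s2 480 (Ok.s3 401 (Ok.lf S372_401_512_660_ok (bl (br (br (br (br (br (br c1))))))))
  (Ok.lf S401_430_512_660_ok (bl (br (br (br (br c1)))))))
  (Ok.s2 496 (Ok.s3 401 (Ok.lf S372_401_512_660_ok (bl (br c4)))
  (Ok.lf S401_430_512_660_ok (bl c4)))
  (Ok.out rfl)))
  (Ok.s1 176 (Ok.s2 480 (Ok.s2 464 (Ok.lf S372_430_512_660_ok c0)
  (Ok.s3 401 (Ok.lf S372_401_512_660_ok (br (br (br (br (br (br (br c1))))))))
  (Ok.lf S401_430_512_660_ok (bl (br (br c4))))))
  (Ok.s0 64 (Ok.out rfl)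
  (Ok.s3 401 (Ok.lf S372_401_512_660_ok (bl (br (br (br (br c4))))))
  (Ok.lf S401_430_512_660_ok (bl (br (br (br c4))))))))
  (Ok.s2 480 (Ok.s0 64 (Ok.lf S372_430_512_660_ok c5)
  (Ok.s3 401 (Ok.lf S372_401_512_660_ok (bl (br (br (br (br (br c4)))))))
  (Ok.lf S401_430_512_660_ok (br (br (br (br (br (br c4)))))))))
  (Ok.out rfl))))
  (And.intro (Ok.s3 401 (Ok.s2 416 (Ok.lf S372_401_660_808_ok (bl c1))
  (Ok.s3 386 (Ok.lf S372_386_660_808_ok (bl c2))
  (Ok.lf S386_401_660_808_ok (br c2))))
  (Ok.s2 416 (Ok.lf S401_430_660_808_ok (bl (br (br c1))))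
  (Ok.s0 64 (Ok.lf S401_430_660_808_ok (bl c3))
  (Ok.lf S401_430_660_808_ok (bl (br (br c3)))))))
  (Ok.s3 401 (Ok.lf S372_401_660_808_ok (bl (br (br (br c1)))))
  (Ok.lf S401_430_660_808_ok (bl (br (br (br (br (br c1)))))))))))

end Vale.Agent.P098.Ck
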