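import Vale.Agent.P098.CkGd
import Vale.Agent.P098.CkOk
import Vale.Agent.P098.Sh.A53
import Vale.Agent.P098.Sh.A54
import Vale.Agent.P098.Sh.A56
import Vale.Agent.P098.Sh.A57
import Vale.Agent.P098.Sh.A58

namespace Vale.Agent.P098.Ck

theorem r87 :
    Ok Gd mult 0 64 160 192 448 480 372 430 660 808 ∧
    Ok Gd mult 64 128 160 192 448 480 372 430 660 808 ∧
    Ok Gd mult 0 128 128 192 480 512 372 430 660 808 ∧
    Ok Gd mult 0 128 128 192 384 512 430 488 216 512 :=
  have c0 : (band (go 16 Gd mult S430_488_216_364 (Tr.lf 4843472004 95386568 0) 0 128 128 192 384 448)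
  (band (go 16 Gd mult S430_488_216_364 (Tr.lf 5380342402 95259719 1467932679337329509940592640) 64 128 128 192 448 480)
  (band (go 16 Gd mult S430_488_216_364 (Tr.sp 2 496 (Tr.lf 1085374850 99326919 3682218410287699435307663360) Tr.skip) 64 128 128 192 480 512)
  (band (go 16 Gd mult S430_488_216_364 (Tr.lf 548504610 99720007 765241189471228803942842726) 0 64 128 160 448 512)
  (band (go 16 Gd mult S430_488_216_364 (Tr.sp 2 480 (Tr.lf 615612962 99982151 1415637211802017128299365948) Tr.skip) 0 64 160 192 448 512)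
  (band (go 16 Gd mult S430_488_364_512 (Tr.sp 2 480 (Tr.lf 615612962 99982151 1396286909367228555707352839) Tr.skip) 0 64 160 192 448 512)
  (band (go 16 Gd mult S386_401_660_808 (Tr.lf 1152524833 99585095 1281458916317204247810149622) 0 64 160 192 448 480)
  (go 16 Gd mult S372_386_660_808 (Tr.lf 615584289 108239815 1241550805926286576945728836) 0 64 160 192 448 480)))))))) = true := by decide +kernel
  have c1 : (band (go 16 Gd mult S430_488_364_512 (Tr.lf 5380342404 99450055 394109817194369110954213376) 0 128 128 192 416 448)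
  (band (go 16 Gd mult S430_488_364_512 (Tr.lf 1085375556 95390663 3221779893712000986410319979) 0 128 128 160 480 512)
  (band (go 16 Gd mult S430_488_364_512 (Tr.lf 5380342308 95259719 0) 0 128 128 160 448 480)
  (band (go 16 Gd mult S430_488_364_512 (Tr.lf 615612994 99982151 9228812184803184624149660383) 64 128 160 192 480 512)
  (band (go 16 Gd mult S372_401_660_808 (Tr.sp 0 64 Tr.skip (Tr.lf 548553282 108104647 15809054303708466570383854868)) 0 128 160 192 480 512)
  (band (go 16 Gd mult S372_401_660_808 (Tr.sp 2 496 (Tr.lf 548553028 104041415 2938891030566301916924280987) Tr.skip) 0 128 128 160 480 512)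
  (go 16 Gd mult S401_430_660_808 (Tr.sp 2 496 (Tr.lf 1085424196 91061319 3129729478609181813088518144) Tr.skip) 0 128 128 160 480 512))))))) = true := by decide +kernel
  have c2 : (band (go 16 Gd mult S372_401_660_808 (Tr.lf 4843537474 107842376 711737810145940838214008832) 64 128 160 192 448 480)
  (band (go 16 Gd mult S401_430_660_808 (Tr.lf 5380408386 95390791 1104332135080653437211049984) 64 128 160 192 448 480)
  (go 16 Gd mult S430_488_364_512 (Tr.lf 5380342306 95259719 1505506114471305547245158400) 64 128 160 192 448 480))) = true := by decide +kernel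
  have c3 : (go 16 Gd mult S430_488_364_512 (Tr.lf 4834017924 103636166 0) 0 128 128 192 384 416) = true := by decide +kernel
  have c4 : (band (go 16 Gd mult S401_430_660_808 (Tr.sp 0 64 Tr.skip (Tr.sp 2 496 (Tr.lf 548553026 95525703 12246410584086409944633640275) Tr.skip)) 0 128 160 192 480 512)
  (go 16 Gd mult S401_430_660_808 (Tr.lf 540164386 103906119 1320144542043283972796515870) 0 64 160 192 448 464)) = true := by decide +kernel
  have c5 : (go 16 Gd mult S401_430_660_808 (Tr.lf 548487458 104041542 10898415277972987952352202022) 0 64 160 192 464 480) = true := by decide +kernel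
  (And.intro (Ok.s3 401 (Ok.s3 386 (Ok.lf S372_386_660_808_ok (br (br (br (br (br (br (br c0))))))))
  (Ok.lf S386_401_660_808_ok (bl (br (br (br (br (br (br c0)))))))))
  (Ok.s2 464 (Ok.lf S401_430_660_808_ok (br c4))
  (Ok.lf S401_430_660_808_ok c5)))
  (And.intro (Ok.s3 401 (Ok.lf S372_401_660_808_ok (bl c2))
  (Ok.lf S401_430_660_808_ok (bl (br c2))))
  (And.intro (Ok.s1 160 (Ok.s3 401 (Ok.lf S372_401_660_808_ok (bl (br (br (br (br (br c1)))))))
  (Ok.lf S401_430_660_808_ok (br (br (br (br (br (br c1))))))))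
  (Ok.s3 401 (Ok.lf S372_401_660_808_ok (bl (br (br (br (br c1))))))
  (Ok.lf S401_430_660_808_ok (bl c4))))
  (Ok.s4 364 (Ok.s2 448 (Ok.lf S430_488_216_364_ok (bl c0))
  (Ok.s0 64 (Ok.s1 160 (Ok.lf S430_488_216_364_ok (bl (br (br (br c0)))))
  (Ok.lf S430_488_216_364_ok (bl (br (br (br (br c0)))))))
  (Ok.s2 480 (Ok.lf S430_488_216_364_ok (bl (br c0)))
  (Ok.lf S430_488_216_364_ok (bl (br (br c0)))))))
  (Ok.s2 448 (Ok.s2 416 (Ok.lf S430_488_364_512_ok c3)
  (Ok.lf S430_488_364_512_ok (bl c1)))
  (Ok.s1 160 (Ok.s2 480 (Ok.lf S430_488_364_512_ok (bl (br (br c1))))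
  (Ok.lf S430_488_364_512_ok (bl (br c1))))
  (Ok.s0 64 (Ok.lf S430_488_364_512_ok (bl (br (br (br (br (br c0)))))))
  (Ok.s2 480 (Ok.lf S430_488_364_512_ok (br (br c2)))
  (Ok.lf S430_488_364_512_ok (bl (br (br (br c1)))))))))))))

end Vale.Agent.P098.Ck
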