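import Vale.Agent.P098.CkGd
import Vale.Agent.P098.CkOk
import Vale.Agent.P098.Sh.A0
import Vale.Agent.P098.Sh.A1
import Vale.Agent.P098.Sh.A59

namespace Vale.Agent.P098.Ck

theorem r88 :
    Ok Gd mult 0 128 128 192 384 448 430 488 512 660 ∧
    Ok Gd mult 0 128 128 192 448 512 430 488 512 660 ∧
    Ok Gd mult 0 128 128 192 384 512 430 488 660 808 ∧
    Ok Gd mult 0 128 192 256 0 128 24 82 216 808 :=
  have c0 : (go 16 Gd mult S430_488_660_808 (Tr.lf 1086620808 95390409 3216949152648497553441554635) 0 128 128 160 480 512) = true := by decide +kernel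
  have c1 : (band (go 16 Gd mult S24_82_216_364 (Tr.lf 13423970440 108096582 493241734402768703280119808) 0 128 192 256 0 128)
  (go 16 Gd mult S24_82_512_660 (Tr.lf 13423970440 108096582 495659586041997961629532160) 0 128 192 256 0 128)) = true := by decide +kernel
  have c2 : (band (go 16 Gd mult S24_82_364_512 (Tr.lf 13423970440 108096582 494450660222383332454825984) 0 128 192 256 0 128)
  (go 16 Gd mult S24_82_660_808 (Tr.lf 13423970440 108096582 498077437681227219978944512) 0 128 192 256 0 128)) = true := by decide +kernel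
  have c3 : (band (go 16 Gd mult S430_488_660_808 (Tr.lf 5380408450 95259592 0) 64 128 128 192 384 448)
  (band (go 16 Gd mult S430_488_512_660 (Tr.lf 5380342914 95259592 0) 64 128 128 192 384 448)
  (band (go 16 Gd mult S430_488_660_808 (Tr.lf 5380408388 99454023 1505526073848393300980006912) 64 128 160 192 448 480)
  (band (go 16 Gd mult S430_488_660_808 (Tr.lf 5380407876 99454023 0) 0 128 128 160 448 480)
  (band (go 16 Gd mult S430_488_512_660 (Tr.lf 5380342402 95259719 1467948027028400992361119744) 64 128 128 192 448 480)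
  (go 16 Gd mult S430_488_512_660 (Tr.lf 539067458 95525957 543256612974031972859904) 0 64 128 192 384 448)))))) = true := by decide +kernel
  have c4 : (go 16 Gd mult S430_488_660_808 (Tr.lf 540116098 95394631 566093682232005605326848) 0 64 128 192 384 448) = true := by decide +kernel
  have c5 : (band (go 16 Gd mult S430_488_660_808 (Tr.lf 548569666 103914311 1368483035994753199739373618) 0 64 160 192 448 480)
  (band (go 16 Gd mult S430_488_512_660 (Tr.lf 615612994 108239687 1376944981754531592250853331) 0 64 160 192 448 480)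
  (band (go 16 Gd mult S430_488_512_660 (Tr.sp 2 496 (Tr.lf 1085374788 95390663 3219190542663030280298692608) Tr.skip) 0 128 128 160 480 512)
  (band (go 16 Gd mult S430_488_660_808 (Tr.sp 0 64 Tr.skip (Tr.sp 2 496 (Tr.lf 5380407618 99449927 9230140663764253906355355648) Tr.skip)) 0 128 160 192 480 512)
  (go 16 Gd mult S430_488_512_660 (Tr.sp 0 64 Tr.skip (Tr.sp 2 496 (Tr.lf 5380342082 99449927 9228834689624067491229597696) Tr.skip)) 0 128 160 192 480 512))))) = true := by decide +kernel
  have c6 : (go 16 Gd mult S430_488_512_660 (Tr.lf 547439137 99720261 473158985490649998950400) 0 64 128 160 448 480) = true := by decide +kernel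
  (And.intro (Ok.s0 64 (Ok.lf S430_488_512_660_ok (br (br (br (br (br c3))))))
  (Ok.lf S430_488_512_660_ok (bl (br c3))))
  (And.intro (Ok.s2 480 (Ok.s0 64 (Ok.s1 160 (Ok.lf S430_488_512_660_ok c6)
  (Ok.lf S430_488_512_660_ok (bl (br c5))))
  (Ok.lf S430_488_512_660_ok (bl (br (br (br (br c3)))))))
  (Ok.s1 160 (Ok.lf S430_488_512_660_ok (bl (br (br c5))))
  (Ok.lf S430_488_512_660_ok (br (br (br (br c5)))))))
  (And.intro (Ok.s2 448 (Ok.s0 64 (Ok.lf S430_488_660_808_ok c4)
  (Ok.lf S430_488_660_808_ok (bl c3)))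
  (Ok.s1 160 (Ok.s2 480 (Ok.lf S430_488_660_808_ok (bl (br (br (br c3)))))
  (Ok.lf S430_488_660_808_ok c0))
  (Ok.s2 480 (Ok.s0 64 (Ok.lf S430_488_660_808_ok (bl c5))
  (Ok.lf S430_488_660_808_ok (bl (br (br c3)))))
  (Ok.lf S430_488_660_808_ok (bl (br (br (br c5))))))))
  (Ok.s4 512 (Ok.s4 364 (Ok.lf S24_82_216_364_ok (bl c1))
  (Ok.lf S24_82_364_512_ok (bl c2)))
  (Ok.s4 660 (Ok.lf S24_82_512_660_ok (br c1))
  (Ok.lf S24_82_660_808_ok (br c2)))))))

end Vale.Agent.P098.Ck
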