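import Vale.Agent.P098.CkGd
import Vale.Agent.P098.CkOk
import Vale.Agent.P098.Sh.A17
import Vale.Agent.P098.Sh.A18
import Vale.Agent.P098.Sh.A2
import Vale.Agent.P098.Sh.A3
import Vale.Agent.P098.Sh.A5
import Vale.Agent.P098.Sh.A6
import Vale.Agent.P098.Sh.A8
import Vale.Agent.P098.Sh.A9

namespace Vale.Agent.P098.Ck

theorem r89 :
    Ok Gd mult 0 128 192 256 0 128 82 140 216 512 ∧
    Ok Gd mult 0 128 192 256 0 128 82 140 512 808 ∧
    Ok Gd mult 0 128 192 256 0 128 140 198 216 512 :=
  have c0 : (go 16 Gd mult S140_169_216_364 (Tr.lf 13431507016 104045510 670953829886119191961927680) 0 128 240 256 0 128) = true := by decide +kernel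
  have c1 : (band (go 16 Gd mult S140_169_364_512 (Tr.lf 12885182600 99576646 548852322105041645316603904) 0 128 224 256 0 128)
  (go 16 Gd mult S111_140_216_364 (Tr.lf 12886099080 95382470 200681686056028443001225216) 0 128 224 256 0 128)) = true := by decide +kernel
  have c2 : (band (go 16 Gd mult S111_140_364_512 (Tr.lf 12886100104 86858567 82206955733794783880019968) 0 128 192 256 0 128)
  (band (go 16 Gd mult S111_140_512_660 (Tr.lf 12886090888 90921799 0) 0 128 192 256 0 128)
  (band (go 16 Gd mult S82_111_216_364 (Tr.lf 9129051268 99843269 213979870071789363922993152) 0 128 192 256 0 128)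
  (go 16 Gd mult S82_111_512_660 (Tr.lf 9128985732 99716293 403781223751286144351862784) 0 128 192 256 0 128)))) = true := by decide +kernel
  have c3 : (band (go 16 Gd mult S169_198_216_364 (Tr.lf 12885182536 104033349 1243984668383453420772655104) 0 64 240 256 0 128)
  (band (go 16 Gd mult S169_198_216_364 (Tr.lf 12885182500 104029126 0) 0 128 224 240 0 128)
  (band (go 16 Gd mult S140_169_216_364 (Tr.lf 12894487588 95390790 0) 0 128 224 240 0 128)
  (band (go 16 Gd mult S169_198_216_364 (Tr.lf 8591262756 103906374 0) 0 128 192 224 0 128)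
  (go 16 Gd mult S140_169_216_364 (Tr.lf 9128002596 108100805 0) 0 128 192 224 0 128))))) = true := by decide +kernel
  have c4 : (go 16 Gd mult S169_198_216_364 (Tr.lf 17189603396 99707975 0) 64 128 240 256 0 128) = true := by decide +kernel
  have c5 : (band (go 16 Gd mult S169_198_364_512 (Tr.lf 12885182596 103898054 651611016772285125166628864) 0 64 224 256 0 128)
  (go 16 Gd mult S169_198_364_512 (Tr.lf 12894619716 99843270 0) 64 128 224 256 0 128)) = true := by decide +kernel
  have c6 : (band (go 16 Gd mult S82_111_364_512 (Tr.lf 9129051268 99974341 267172606134833047610064896) 0 128 192 256 0 128)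
  (band (go 16 Gd mult S82_111_660_808 (Tr.lf 9129043076 99716038 464227514732017603087171584) 0 128 192 256 0 128)
  (go 16 Gd mult S111_140_660_808 (Tr.lf 12885042308 90921543 0) 0 128 192 256 0 128))) = true := by decide +kernel
  have c7 : (band (go 16 Gd mult S111_140_216_364 (Tr.lf 9129051172 107969606 0) 0 128 192 224 0 128)
  (band (go 16 Gd mult S140_169_364_512 (Tr.lf 9128002596 108100805 0) 0 128 192 224 0 128)
  (go 16 Gd mult S169_198_364_512 (Tr.lf 8590083108 99712069 0) 0 128 192 224 0 128))) = true := by decide +kernel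
  (And.intro (Ok.s4 364 (Ok.s3 111 (Ok.lf S82_111_216_364_ok (bl (br (br c2))))
  (Ok.s1 224 (Ok.lf S111_140_216_364_ok (bl c7))
  (Ok.lf S111_140_216_364_ok (br c1))))
  (Ok.s3 111 (Ok.lf S82_111_364_512_ok (bl c6))
  (Ok.lf S111_140_364_512_ok (bl c2))))
  (And.intro (Ok.s4 660 (Ok.s3 111 (Ok.lf S82_111_512_660_ok (br (br (br c2))))
  (Ok.lf S111_140_512_660_ok (bl (br c2))))
  (Ok.s3 111 (Ok.lf S82_111_660_808_ok (bl (br c6)))
  (Ok.lf S111_140_660_808_ok (br (br c6)))))
  (Ok.s4 364 (Ok.s1 224 (Ok.s3 169 (Ok.lf S140_169_216_364_ok (br (br (br (br c3)))))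
  (Ok.lf S169_198_216_364_ok (bl (br (br (br c3))))))
  (Ok.s1 240 (Ok.s3 169 (Ok.lf S140_169_216_364_ok (bl (br (br c3))))
  (Ok.lf S169_198_216_364_ok (bl (br c3))))
  (Ok.s3 169 (Ok.lf S140_169_216_364_ok c0)
  (Ok.s0 64 (Ok.lf S169_198_216_364_ok (bl c3))
  (Ok.lf S169_198_216_364_ok c4)))))
  (Ok.s1 224 (Ok.s3 169 (Ok.lf S140_169_364_512_ok (bl (br c7)))
  (Ok.lf S169_198_364_512_ok (br (br c7))))
  (Ok.s3 169 (Ok.lf S140_169_364_512_ok (bl c1))
  (Ok.s0 64 (Ok.lf S169_198_364_512_ok (bl c5))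
  (Ok.lf S169_198_364_512_ok (br c5))))))))

end Vale.Agent.P098.Ck
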