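import Vale.Agent.P098.CkGd
import Vale.Agent.P098.CkOk
import Vale.Agent.P098.Sh.A0
import Vale.Agent.P098.Sh.A54
import Vale.Agent.P098.Sh.A55
import Vale.Agent.P098.Sh.A57
import Vale.Agent.P098.Sh.A58
import Vale.Agent.P098.Sh.A59

namespace Vale.Agent.P098.Ck

theorem r9 :
    Ok Gd mult 0 128 0 64 256 384 372 430 216 512 ∧
    Ok Gd mult 0 128 0 64 256 384 372 430 512 808 ∧
    Ok Gd mult 0 128 0 64 256 384 430 488 216 808 ∧
    Ok Gd mult 0 128 0 64 384 448 24 82 216 364 ∧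
    Ok Gd mult 0 128 0 64 448 480 24 82 216 364 :=
  have c0 : (band (go 16 Gd mult S459_488_660_808 (Tr.lf 1152485508 99847239 0) 0 128 0 64 256 384)
  (band (go 16 Gd mult S372_401_660_808 (Tr.lf 614615170 112307142 0) 0 128 0 64 256 384)
  (band (go 16 Gd mult S430_459_660_808 (Tr.lf 1152534658 99712199 0) 0 128 0 64 256 384)
  (band (go 16 Gd mult S372_401_512_660 (Tr.lf 614614146 104049606 0) 0 128 0 64 256 384)
  (go 16 Gd mult S401_430_512_660 (Tr.lf 614548610 112307142 0) 0 128 0 64 256 384))))) = true := by decide +kernel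
  have c1 : (band (go 16 Gd mult S430_488_216_364 (Tr.lf 1152551042 103906375 0) 0 128 0 32 256 384)
  (band (go 16 Gd mult S430_488_364_512 (Tr.lf 1152551042 103906375 0) 0 128 0 32 256 384)
  (go 16 Gd mult S430_488_512_660 (Tr.lf 1152551042 103906375 0) 0 128 0 32 256 384))) = true := by decide +kernel
  have c2 : (go 16 Gd mult S24_82_216_364 (Tr.lf 1077052548 99576903 0) 0 128 0 64 448 480) = true := by decide +kernel
  have c3 : (band (go 16 Gd mult S372_430_216_364 (Tr.lf 614631489 104172741 0) 0 128 0 32 256 384)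
  (go 16 Gd mult S372_430_364_512 (Tr.lf 614631489 112430277 0) 0 128 0 32 256 384)) = true := by decide +kernel
  have c4 : (go 16 Gd mult S24_82_216_364 (Tr.lf 1690403970 99445833 0) 0 128 0 64 384 448) = true := by decide +kernel
  have c5 : (go 16 Gd mult S401_430_660_808 (Tr.lf 614614146 112307142 0) 0 128 0 64 256 384) = true := by decide +kernel
  have c6 : (band (go 16 Gd mult S372_430_364_512 (Tr.lf 1160872993 103914440 0) 0 128 32 64 256 384)
  (band (go 16 Gd mult S372_430_216_364 (Tr.lf 1160922145 103914440 0) 0 128 32 64 256 384)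
  (band (go 16 Gd mult S430_488_216_364 (Tr.lf 1152468001 99839175 0) 0 128 32 64 256 384)
  (band (go 16 Gd mult S430_488_364_512 (Tr.lf 1152468001 99839175 0) 0 128 32 64 256 384)
  (go 16 Gd mult S430_488_512_660 (Tr.lf 1152468001 99839175 0) 0 128 32 64 256 384))))) = true := by decide +kernel
  (And.intro (Ok.s4 364 (Ok.s1 32 (Ok.lf S372_430_216_364_ok (bl c3))
  (Ok.lf S372_430_216_364_ok (bl (br c6))))
  (Ok.s1 32 (Ok.lf S372_430_364_512_ok (br c3))
  (Ok.lf S372_430_364_512_ok (bl c6))))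
  (And.intro (Ok.s4 660 (Ok.s3 401 (Ok.lf S372_401_512_660_ok (bl (br (br (br c0)))))
  (Ok.lf S401_430_512_660_ok (br (br (br (br c0))))))
  (Ok.s3 401 (Ok.lf S372_401_660_808_ok (bl (br c0)))
  (Ok.lf S401_430_660_808_ok c5)))
  (And.intro (Ok.s4 512 (Ok.s4 364 (Ok.s1 32 (Ok.lf S430_488_216_364_ok (bl c1))
  (Ok.lf S430_488_216_364_ok (bl (br (br c6)))))
  (Ok.s1 32 (Ok.lf S430_488_364_512_ok (bl (br c1)))
  (Ok.lf S430_488_364_512_ok (bl (br (br (br c6)))))))
  (Ok.s4 660 (Ok.s1 32 (Ok.lf S430_488_512_660_ok (br (br c1)))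
  (Ok.lf S430_488_512_660_ok (br (br (br (br c6))))))
  (Ok.s3 459 (Ok.lf S430_459_660_808_ok (bl (br (br c0))))
  (Ok.lf S459_488_660_808_ok (bl c0)))))
  (And.intro (Ok.lf S24_82_216_364_ok c4)
  (Ok.lf S24_82_216_364_ok c2)))))

end Vale.Agent.P098.Ck
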