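import Vale.Agent.P098.CkGd
import Vale.Agent.P098.CkOk
import Vale.Agent.P098.Sh.A10
import Vale.Agent.P098.Sh.A11
import Vale.Agent.P098.Sh.A19
import Vale.Agent.P098.Sh.A25
import Vale.Agent.P098.Sh.A28
import Vale.Agent.P098.Sh.A36

namespace Vale.Agent.P098.Ck

theorem r90 :
    Ok Gd mult 0 128 192 256 0 128 140 198 512 660 ∧
    Ok Gd mult 0 128 192 256 0 128 140 198 660 808 ∧
    Ok Gd mult 0 128 192 256 0 128 198 256 216 364 ∧
    Ok Gd mult 0 128 192 224 0 128 198 256 364 512 :=
  have c0 : (go 16 Gd mult S169_198_512_660 (Tr.lf 12893571208 95517638 544016618826583128617779200) 0 128 224 256 0 128) = true := by decide +kernel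
  have c1 : (band (go 16 Gd mult S198_227_216_364 (Tr.lf 22031140932 90799050 0) 64 128 224 256 0 128)
  (go 16 Gd mult S227_256_216_364 (Tr.lf 22087485508 99568074 0) 64 128 224 256 0 128)) = true := by decide +kernel
  have c2 : (band (go 16 Gd mult S198_227_216_364 (Tr.lf 12885444738 95644614 0) 32 64 224 256 0 128)
  (go 16 Gd mult S227_256_216_364 (Tr.lf 17792780418 95386312 0) 32 64 224 256 0 128)) = true := by decide +kernel
  have c3 : (band (go 16 Gd mult S140_169_512_660 (Tr.lf 12885182536 95382342 576657615956178116334845952) 0 128 224 256 0 128)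
  (go 16 Gd mult S140_198_660_808 (Tr.lf 12885197896 95513414 45939181145355908638834688) 0 128 224 256 0 128)) = true := by decide +kernel
  have c4 : (band (go 16 Gd mult S198_227_216_364 (Tr.lf 22087485572 86862409 275635086872135451833008128) 0 32 224 256 0 64)
  (go 16 Gd mult S227_256_216_364 (Tr.lf 22087746692 91048649 674580607344963079486046208) 0 32 224 256 0 64)) = true := by decide +kernel
  have c5 : (band (go 16 Gd mult S198_256_216_364 (Tr.lf 13497567298 103901896 0) 0 64 192 224 0 128)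
  (go 16 Gd mult S198_256_216_364 (Tr.lf 13430457378 103648071 0) 64 128 192 224 0 128)) = true := by decide +kernel
  have c6 : (band (go 16 Gd mult S198_256_364_512 (Tr.lf 8590230596 103771333 0) 0 128 192 224 0 128)
  (band (go 16 Gd mult S140_198_660_808 (Tr.lf 8590099492 99576901 0) 0 128 192 224 0 128)
  (band (go 16 Gd mult S140_169_512_660 (Tr.lf 9127994404 103906501 0) 0 128 192 224 0 128)
  (go 16 Gd mult S169_198_512_660 (Tr.lf 8590074914 103902277 0) 0 128 192 224 0 128)))) = true := by decide +kernel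
  have c7 : (band (go 16 Gd mult S198_227_216_364 (Tr.lf 12885172802 99576774 791846411847582109432545280) 0 32 224 256 64 128)
  (go 16 Gd mult S227_256_216_364 (Tr.lf 12885041730 99576774 1146061676994668457621454848) 0 32 224 256 64 128)) = true := by decide +kernel
  (And.intro (Ok.s1 224 (Ok.s3 169 (Ok.lf S140_169_512_660_ok (bl (br (br c6))))
  (Ok.lf S169_198_512_660_ok (br (br (br c6)))))
  (Ok.s3 169 (Ok.lf S140_169_512_660_ok (bl c3))
  (Ok.lf S169_198_512_660_ok c0)))
  (And.intro (Ok.s1 224 (Ok.lf S140_198_660_808_ok (bl (br c6)))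
  (Ok.lf S140_198_660_808_ok (br c3)))
  (And.intro (Ok.s0 64 (Ok.s1 224 (Ok.lf S198_256_216_364_ok (bl c5))
  (Ok.s0 32 (Ok.s3 227 (Ok.s2 64 (Ok.lf S198_227_216_364_ok (bl c4))
  (Ok.lf S198_227_216_364_ok (bl c7)))
  (Ok.s2 64 (Ok.lf S227_256_216_364_ok (br c4))
  (Ok.lf S227_256_216_364_ok (br c7))))
  (Ok.s3 227 (Ok.lf S198_227_216_364_ok (bl c2))
  (Ok.lf S227_256_216_364_ok (br c2)))))
  (Ok.s1 224 (Ok.lf S198_256_216_364_ok (br c5))
  (Ok.s3 227 (Ok.lf S198_227_216_364_ok (bl c1))
  (Ok.lf S227_256_216_364_ok (br c1)))))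
  (Ok.lf S198_256_364_512_ok (bl c6)))))

end Vale.Agent.P098.Ck
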