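import Vale.Agent.P098.CkGd
import Vale.Agent.P098.CkOk
import Vale.Agent.P098.Sh.A26
import Vale.Agent.P098.Sh.A27
import Vale.Agent.P098.Sh.A29
import Vale.Agent.P098.Sh.A37
import Vale.Agent.P098.Sh.A38
import Vale.Agent.P098.Sh.A41
import Vale.Agent.P098.Sh.A43
import Vale.Agent.P098.Sh.A45

namespace Vale.Agent.P098.Ck

theorem r91 :
    Ok Gd mult 0 128 224 256 0 128 198 256 364 512 ∧
    Ok Gd mult 0 128 192 256 0 128 198 256 512 808 ∧
    Ok Gd mult 0 128 192 256 0 128 256 314 216 364 :=
  have c0 : (go 16 Gd mult S198_227_364_512 (Tr.lf 12894636104 108231878 715684085211860471426056192) 0 128 240 256 0 128) = true := by decide +kernel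
  have c1 : (go 16 Gd mult S198_227_512_660 (Tr.lf 12885444740 103640006 498077437681227219978944512) 0 64 224 256 0 128) = true := by decide +kernel
  have c2 : (go 16 Gd mult S227_256_512_660 (Tr.lf 12893833288 99720261 570612986858104970461315072) 0 128 240 256 0 128) = true := by decide +kernel
  have c3 : (go 16 Gd mult S198_227_660_808 (Tr.lf 12885443720 91048775 41103477866897391940009984) 0 128 192 256 0 128) = true := by decide +kernel
  have c4 : (go 16 Gd mult S227_256_660_808 (Tr.lf 12885443720 86854471 0) 0 128 192 256 0 128) = true := by decide +kernel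
  have c5 : (go 16 Gd mult S227_256_364_512 (Tr.lf 12893833256 104037318 565777283579646453762490368) 0 128 248 256 0 128) = true := by decide +kernel
  have c6 : (band (go 16 Gd mult S285_314_216_364 (Tr.lf 17725671464 107829960 728982269227621392347824128) 0 128 240 256 0 128)
  (go 16 Gd mult S256_285_216_364 (Tr.lf 17725409352 103897800 673371681525348450311340032) 0 128 240 256 0 128)) = true := by decide +kernel
  have c7 : (band (go 16 Gd mult S198_227_364_512 (Tr.lf 17792518180 103901896 0) 0 128 224 240 0 128)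
  (band (go 16 Gd mult S256_285_216_364 (Tr.lf 17792509988 108096200 0) 0 128 224 240 0 128)
  (band (go 16 Gd mult S227_256_364_512 (Tr.lf 17792508964 99707592 0) 0 128 224 240 0 128)
  (band (go 16 Gd mult S227_256_512_660 (Tr.lf 12885173284 99703750 0) 0 128 224 240 0 128)
  (go 16 Gd mult S285_314_216_364 (Tr.lf 17725269028 103635656 0) 0 128 224 240 0 128))))) = true := by decide +kernel
  have c8 : (band (go 16 Gd mult S198_256_512_660 (Tr.lf 8590230564 99580997 0) 0 128 192 224 0 128)
  (go 16 Gd mult S256_314_216_364 (Tr.lf 13497549892 104036936 0) 0 128 192 224 0 128)) = true := by decide +kernel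
  have c9 : (go 16 Gd mult S198_227_512_660 (Tr.lf 12893570116 103914310 0) 64 128 224 256 0 128) = true := by decide +kernel
  have c10 : (go 16 Gd mult S227_256_364_512 (Tr.lf 17792517144 108231240 0) 0 128 240 248 0 128) = true := by decide +kernel
  (And.intro (Ok.s1 240 (Ok.s3 227 (Ok.lf S198_227_364_512_ok (bl c7))
  (Ok.lf S227_256_364_512_ok (bl (br (br c7)))))
  (Ok.s3 227 (Ok.lf S198_227_364_512_ok c0)
  (Ok.s1 248 (Ok.lf S227_256_364_512_ok c10)
  (Ok.lf S227_256_364_512_ok c5))))
  (And.intro (Ok.s4 660 (Ok.s1 224 (Ok.lf S198_256_512_660_ok (bl c8))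
  (Ok.s3 227 (Ok.s0 64 (Ok.lf S198_227_512_660_ok c1)
  (Ok.lf S198_227_512_660_ok c9))
  (Ok.s1 240 (Ok.lf S227_256_512_660_ok (bl (br (br (br c7)))))
  (Ok.lf S227_256_512_660_ok c2))))
  (Ok.s3 227 (Ok.lf S198_227_660_808_ok c3)
  (Ok.lf S227_256_660_808_ok c4)))
  (Ok.s1 224 (Ok.lf S256_314_216_364_ok (br c8))
  (Ok.s3 285 (Ok.s1 240 (Ok.lf S256_285_216_364_ok (bl (br c7)))
  (Ok.lf S256_285_216_364_ok (br c6)))
  (Ok.s1 240 (Ok.lf S285_314_216_364_ok (br (br (br (br c7)))))
  (Ok.lf S285_314_216_364_ok (bl c6)))))))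

end Vale.Agent.P098.Ck
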