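import Vale.Agent.P098.CkGd
import Vale.Agent.P098.CkOk
import Vale.Agent.P098.Sh.A41
import Vale.Agent.P098.Sh.A42
import Vale.Agent.P098.Sh.A43
import Vale.Agent.P098.Sh.A44
import Vale.Agent.P098.Sh.A45
import Vale.Agent.P098.Sh.A46
import Vale.Agent.P098.Sh.A48
import Vale.Agent.P098.Sh.A49
import Vale.Agent.P098.Sh.A50
import Vale.Agent.P098.Sh.A51
import Vale.Agent.P098.Sh.A52

namespace Vale.Agent.P098.Ck

theorem r92 :
    Ok Gd mult 0 128 192 256 0 128 256 314 364 512 ∧
    Ok Gd mult 0 128 192 256 0 128 256 314 512 808 ∧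
    Ok Gd mult 0 128 192 256 0 128 314 372 216 512 ∧
    Ok Gd mult 0 128 192 256 0 128 314 372 512 660 :=
  have c0 : (go 16 Gd mult S256_285_364_512 (Tr.lf 17801168968 104037064 539180915548124611918954496) 0 128 240 256 0 128) = true := by decide +kernel
  have c1 : (go 16 Gd mult S256_285_512_660 (Tr.lf 12893833348 95517638 373558078260920414984208384) 0 64 224 256 0 128) = true := by decide +kernel
  have c2 : (band (go 16 Gd mult S314_343_364_512 (Tr.lf 12885182600 103766982 554896951203114791190134784) 0 128 224 256 0 128)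
  (go 16 Gd mult S285_314_512_660 (Tr.lf 12885181512 91184070 0) 0 128 224 256 0 128)) = true := by decide +kernel
  have c3 : (go 16 Gd mult S343_372_512_660 (Tr.lf 12885182600 95509191 546434470465812386967191552) 0 128 224 256 0 128) = true := by decide +kernel
  have c4 : (go 16 Gd mult S285_314_364_512 (Tr.lf 12893833256 107977542 569404061038490341286608896) 0 128 240 256 0 128) = true := by decide +kernel
  have c5 : (band (go 16 Gd mult S256_285_660_808 (Tr.lf 12885181576 91052743 459391811453559086388346880) 0 128 192 256 0 128)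
  (go 16 Gd mult S285_314_660_808 (Tr.lf 8590214276 95517637 470272143830090748960702464) 0 128 192 256 0 128)) = true := by decide +kernel
  have c6 : (go 16 Gd mult S314_372_216_364 (Tr.lf 12885198916 99572423 929663955283649835349049344) 0 64 224 256 0 128) = true := by decide +kernel
  have c7 : (band (go 16 Gd mult S343_372_364_512 (Tr.lf 12885182536 99703495 544016618826583128617779200) 0 128 224 256 0 128)
  (go 16 Gd mult S314_343_512_660 (Tr.lf 12885181576 95378374 165622837287204196934746112) 0 128 224 256 0 128)) = true := by decide +kernel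
  have c8 : (band (go 16 Gd mult S314_372_216_364 (Tr.lf 12885182532 103775046 0) 64 128 224 256 0 128)
  (go 16 Gd mult S256_285_512_660 (Tr.lf 12893561924 99589189 0) 64 128 224 256 0 128)) = true := by decide +kernel
  have c9 : (band (go 16 Gd mult S256_314_512_660 (Tr.lf 8590214212 99707973 0) 0 128 192 224 0 128)
  (band (go 16 Gd mult S256_314_364_512 (Tr.lf 8590214180 103906373 0) 0 128 192 224 0 128)
  (band (go 16 Gd mult S314_372_364_512 (Tr.lf 8590083108 95513414 0) 0 128 192 224 0 128)
  (band (go 16 Gd mult S314_372_512_660 (Tr.lf 8590083108 99576646 0) 0 128 192 224 0 128)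
  (go 16 Gd mult S314_372_216_364 (Tr.lf 8590083106 99707718 0) 0 128 192 224 0 128))))) = true := by decide +kernel
  have c10 : (band (go 16 Gd mult S285_314_364_512 (Tr.lf 17792508964 99445448 0) 0 128 224 240 0 128)
  (go 16 Gd mult S256_285_364_512 (Tr.lf 17725269028 99314376 0) 0 128 224 240 0 128)) = true := by decide +kernel
  (And.intro (Ok.s1 224 (Ok.lf S256_314_364_512_ok (bl (br c9)))
  (Ok.s3 285 (Ok.s1 240 (Ok.lf S256_285_364_512_ok (br c10))
  (Ok.lf S256_285_364_512_ok c0))
  (Ok.s1 240 (Ok.lf S285_314_364_512_ok (bl c10))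
  (Ok.lf S285_314_364_512_ok c4))))
  (And.intro (Ok.s4 660 (Ok.s1 224 (Ok.lf S256_314_512_660_ok (bl c9))
  (Ok.s3 285 (Ok.s0 64 (Ok.lf S256_285_512_660_ok c1)
  (Ok.lf S256_285_512_660_ok (br c8)))
  (Ok.lf S285_314_512_660_ok (br c2))))
  (Ok.s3 285 (Ok.lf S256_285_660_808_ok (bl c5))
  (Ok.lf S285_314_660_808_ok (br c5))))
  (And.intro (Ok.s4 364 (Ok.s1 224 (Ok.lf S314_372_216_364_ok (br (br (br (br c9)))))
  (Ok.s0 64 (Ok.lf S314_372_216_364_ok c6)
  (Ok.lf S314_372_216_364_ok (bl c8))))
  (Ok.s1 224 (Ok.lf S314_372_364_512_ok (bl (br (br c9))))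
  (Ok.s3 343 (Ok.lf S314_343_364_512_ok (bl c2))
  (Ok.lf S343_372_364_512_ok (bl c7)))))
  (Ok.s1 224 (Ok.lf S314_372_512_660_ok (bl (br (br (br c9)))))
  (Ok.s3 343 (Ok.lf S314_343_512_660_ok (br c7))
  (Ok.lf S343_372_512_660_ok c3))))))

end Vale.Agent.P098.Ck
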