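import Vale.Agent.P098.CkGd
import Vale.Agent.P098.CkOk
import Vale.Agent.P098.Sh.A49
import Vale.Agent.P098.Sh.A50
import Vale.Agent.P098.Sh.A52
import Vale.Agent.P098.Sh.A54
import Vale.Agent.P098.Sh.A55
import Vale.Agent.P098.Sh.A56
import Vale.Agent.P098.Sh.A57
import Vale.Agent.P098.Sh.A58

namespace Vale.Agent.P098.Ck

theorem r93 :
    Ok Gd mult 0 128 192 256 0 128 314 372 660 808 ∧
    Ok Gd mult 0 128 192 256 0 128 372 430 216 808 ∧
    Ok Gd mult 0 128 192 256 0 128 430 488 216 364 :=
  have c0 : (band (go 16 Gd mult S372_401_660_808 (Tr.lf 17726343304 99441353 546434470465812386967191552) 0 128 224 256 0 128)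
  (go 16 Gd mult S401_430_512_660 (Tr.lf 17726261384 99449417 429168665963193357020692480) 0 128 224 256 0 128)) = true := by decide +kernel
  have c1 : (band (go 16 Gd mult S343_372_660_808 (Tr.lf 12885198920 103766982 565777283579646453762490368) 0 128 224 256 0 128)
  (go 16 Gd mult S372_401_216_364 (Tr.lf 17726318728 99441353 489614956943924815756001280) 0 128 224 256 0 128)) = true := by decide +kernel
  have c2 : (band (go 16 Gd mult S430_488_216_364 (Tr.lf 17181018248 91061191 0) 0 128 224 256 0 64)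
  (go 16 Gd mult S372_430_364_512 (Tr.lf 17726325896 99449672 478734624567393153183645696) 0 128 224 256 0 64)) = true := by decide +kernel
  have c3 : (band (go 16 Gd mult S372_430_364_512 (Tr.lf 17727390856 99441609 579075467595407374684258304) 0 128 224 256 64 128)
  (go 16 Gd mult S430_488_216_364 (Tr.lf 17727325320 99449673 0) 0 128 224 256 64 128)) = true := by decide +kernel
  have c4 : (band (go 16 Gd mult S372_401_512_660 (Tr.lf 17726326920 99441353 546434470465812386967191552) 0 128 224 256 0 128)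
  (band (go 16 Gd mult S401_430_216_364 (Tr.lf 17726318728 99449417 385647336457066706731270144) 0 128 224 256 0 128)
  (go 16 Gd mult S314_343_660_808 (Tr.lf 12885173316 91319110 0) 0 128 224 256 0 128))) = true := by decide +kernel
  have c5 : (go 16 Gd mult S401_430_660_808 (Tr.lf 17179953284 91052361 0) 64 128 224 256 0 128) = true := by decide +kernel
  have c6 : (band (go 16 Gd mult S314_372_660_808 (Tr.lf 8590099524 95513414 0) 0 128 192 224 0 128)
  (band (go 16 Gd mult S372_430_364_512 (Tr.lf 13432357956 107834440 0) 0 128 192 224 0 128)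
  (band (go 16 Gd mult S372_430_512_660 (Tr.lf 13432357956 107834440 0) 0 128 192 224 0 128)
  (band (go 16 Gd mult S430_488_216_364 (Tr.lf 8590018628 108104390 0) 0 128 192 224 0 128)
  (band (go 16 Gd mult S372_430_660_808 (Tr.lf 13432423460 107834440 0) 0 128 192 224 0 128)
  (go 16 Gd mult S372_430_216_364 (Tr.lf 13432407108 107834440 0) 0 128 192 224 0 128)))))) = true := by decide +kernel
  have c7 : (go 16 Gd mult S401_430_660_808 (Tr.lf 12884977796 95386183 938126436020952239571992576) 0 64 224 256 0 128) = true := by decide +kernel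
  (And.intro (Ok.s1 224 (Ok.lf S314_372_660_808_ok (bl c6))
  (Ok.s3 343 (Ok.lf S314_343_660_808_ok (br (br c4)))
  (Ok.lf S343_372_660_808_ok (bl c1))))
  (And.intro (Ok.s4 512 (Ok.s4 364 (Ok.s1 224 (Ok.lf S372_430_216_364_ok (br (br (br (br (br c6))))))
  (Ok.s3 401 (Ok.lf S372_401_216_364_ok (br c1))
  (Ok.lf S401_430_216_364_ok (bl (br c4)))))
  (Ok.s1 224 (Ok.lf S372_430_364_512_ok (bl (br c6)))
  (Ok.s2 64 (Ok.lf S372_430_364_512_ok (br c2))
  (Ok.lf S372_430_364_512_ok (bl c3)))))
  (Ok.s4 660 (Ok.s1 224 (Ok.lf S372_430_512_660_ok (bl (br (br c6))))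
  (Ok.s3 401 (Ok.lf S372_401_512_660_ok (bl c4))
  (Ok.lf S401_430_512_660_ok (br c0))))
  (Ok.s1 224 (Ok.lf S372_430_660_808_ok (bl (br (br (br (br c6))))))
  (Ok.s3 401 (Ok.lf S372_401_660_808_ok (bl c0))
  (Ok.s0 64 (Ok.lf S401_430_660_808_ok c7)
  (Ok.lf S401_430_660_808_ok c5))))))
  (Ok.s1 224 (Ok.lf S430_488_216_364_ok (bl (br (br (br c6)))))
  (Ok.s2 64 (Ok.lf S430_488_216_364_ok (bl c2))
  (Ok.lf S430_488_216_364_ok (br c3))))))

end Vale.Agent.P098.Ck
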