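import Vale.Agent.P098.CkGd
import Vale.Agent.P098.CkOk
import Vale.Agent.P098.Sh.A0
import Vale.Agent.P098.Sh.A1
import Vale.Agent.P098.Sh.A2
import Vale.Agent.P098.Sh.A5
import Vale.Agent.P098.Sh.A58
import Vale.Agent.P098.Sh.A59

namespace Vale.Agent.P098.Ck

theorem r94 :
    Ok Gd mult 0 128 192 256 0 128 430 488 364 512 ∧
    Ok Gd mult 0 128 192 256 0 128 430 488 512 808 ∧
    Ok Gd mult 0 128 192 256 128 256 24 82 216 808 ∧
    Ok Gd mult 0 128 192 224 128 256 82 140 216 364 :=
  have c0 : (band (go 16 Gd mult S111_140_216_364 (Tr.lf 13969426504 99314632 0) 0 128 192 224 128 256)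
  (go 16 Gd mult S24_82_364_512 (Tr.lf 13423970376 103504839 0) 0 128 192 224 128 256)) = true := by decide +kernel
  have c1 : (band (go 16 Gd mult S430_488_512_660 (Tr.lf 17181018248 91061191 0) 0 128 224 256 0 64)
  (go 16 Gd mult S430_488_660_808 (Tr.lf 17181018248 91061191 0) 0 128 224 256 0 64)) = true := by decide +kernel
  have c2 : (band (go 16 Gd mult S430_488_660_808 (Tr.lf 17727326344 99449673 0) 0 128 224 256 64 128)
  (go 16 Gd mult S430_488_512_660 (Tr.lf 17727325320 99449673 0) 0 128 224 256 64 128)) = true := by decide +kernel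
  have c3 : (band (go 16 Gd mult S24_82_216_364 (Tr.lf 13424035912 103504839 0) 0 128 192 224 128 256)
  (go 16 Gd mult S24_82_660_808 (Tr.lf 13424035912 95247303 0) 0 128 192 224 128 256)) = true := by decide +kernel
  have c4 : (band (go 16 Gd mult S24_82_216_364 (Tr.lf 9129068616 99716038 990110246264381294084358144) 0 128 224 256 128 256)
  (band (go 16 Gd mult S24_82_364_512 (Tr.lf 9129003080 99716293 987692394625152035734945792) 0 128 224 256 128 256)
  (go 16 Gd mult S24_82_512_660 (Tr.lf 13423969352 103635911 984065617166308148210827264) 0 128 224 256 128 256))) = true := by decide +kernel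
  have c5 : (band (go 16 Gd mult S82_111_216_364 (Tr.lf 13970344008 99323079 0) 0 128 192 224 128 256)
  (go 16 Gd mult S24_82_512_660 (Tr.lf 13423970376 103504839 0) 0 128 192 224 128 256)) = true := by decide +kernel
  have c6 : (go 16 Gd mult S24_82_660_808 (Tr.lf 13423970376 107830215 979229913887849631512002560) 0 128 224 256 128 256) = true := by decide +kernel
  have c7 : (band (go 16 Gd mult S430_488_364_512 (Tr.lf 17181001860 91057095 0) 0 64 224 256 0 64)
  (band (go 16 Gd mult S430_488_364_512 (Tr.lf 17727308936 95255369 0) 0 128 224 256 64 128)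
  (band (go 16 Gd mult S430_488_364_512 (Tr.lf 8590018628 108104390 0) 0 128 192 224 0 128)
  (band (go 16 Gd mult S430_488_512_660 (Tr.lf 8590018628 108104390 0) 0 128 192 224 0 128)
  (go 16 Gd mult S430_488_660_808 (Tr.lf 8590018628 108104390 0) 0 128 192 224 0 128))))) = true := by decide +kernel
  have c8 : (go 16 Gd mult S430_488_364_512 (Tr.lf 17726260292 99716039 0) 64 128 224 256 0 64) = true := by decide +kernel
  (And.intro (Ok.s1 224 (Ok.lf S430_488_364_512_ok (bl (br (br c7))))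
  (Ok.s2 64 (Ok.s0 64 (Ok.lf S430_488_364_512_ok (bl c7))
  (Ok.lf S430_488_364_512_ok c8))
  (Ok.lf S430_488_364_512_ok (bl (br c7)))))
  (And.intro (Ok.s4 660 (Ok.s1 224 (Ok.lf S430_488_512_660_ok (bl (br (br (br c7)))))
  (Ok.s2 64 (Ok.lf S430_488_512_660_ok (bl c1))
  (Ok.lf S430_488_512_660_ok (br c2))))
  (Ok.s1 224 (Ok.lf S430_488_660_808_ok (br (br (br (br c7)))))
  (Ok.s2 64 (Ok.lf S430_488_660_808_ok (br c1))
  (Ok.lf S430_488_660_808_ok (bl c2)))))
  (And.intro (Ok.s4 512 (Ok.s4 364 (Ok.s1 224 (Ok.lf S24_82_216_364_ok (bl c3))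
  (Ok.lf S24_82_216_364_ok (bl c4)))
  (Ok.s1 224 (Ok.lf S24_82_364_512_ok (br c0))
  (Ok.lf S24_82_364_512_ok (bl (br c4)))))
  (Ok.s4 660 (Ok.s1 224 (Ok.lf S24_82_512_660_ok (br c5))
  (Ok.lf S24_82_512_660_ok (br (br c4))))
  (Ok.s1 224 (Ok.lf S24_82_660_808_ok (br c3))
  (Ok.lf S24_82_660_808_ok c6))))
  (Ok.s3 111 (Ok.lf S82_111_216_364_ok (bl c5))
  (Ok.lf S111_140_216_364_ok (bl c0))))))

end Vale.Agent.P098.Ck
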