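import Vale.Agent.P098.CkGd
import Vale.Agent.P098.CkOk
import Vale.Agent.P098.Sh.A17
import Vale.Agent.P098.Sh.A2
import Vale.Agent.P098.Sh.A3
import Vale.Agent.P098.Sh.A5
import Vale.Agent.P098.Sh.A6
import Vale.Agent.P098.Sh.A8

namespace Vale.Agent.P098.Ck

theorem r95 :
    Ok Gd mult 0 128 224 256 128 256 82 140 216 364 ∧
    Ok Gd mult 0 128 192 256 128 256 82 140 364 512 ∧
    Ok Gd mult 0 128 192 256 128 256 82 140 512 808 ∧
    Ok Gd mult 0 32 192 256 128 256 140 198 216 364 :=
  have c0 : (go 16 Gd mult S82_111_512_660 (Tr.lf 9129068680 103902533 744698304882611571619004416) 0 128 192 256 128 256) = true := by decide +kernel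
  have c1 : (go 16 Gd mult S111_140_660_808 (Tr.lf 9137571976 99585222 738653675784538425745473536) 0 128 192 256 128 256) = true := by decide +kernel
  have c2 : (band (go 16 Gd mult S82_111_216_364 (Tr.lf 13970344008 107711687 1066272572900102932090847232) 0 128 224 256 128 256)
  (go 16 Gd mult S111_140_364_512 (Tr.lf 13432424520 99449927 1062645795441259044566728704) 0 128 224 256 128 256)) = true := by decide +kernel
  have c3 : (band (go 16 Gd mult S111_140_364_512 (Tr.lf 13432424520 99183815 0) 0 128 192 224 128 256)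
  (band (go 16 Gd mult S82_111_364_512 (Tr.lf 13960890440 99306567 0) 0 128 192 224 128 256)
  (go 16 Gd mult S111_140_512_660 (Tr.lf 9137439816 108100806 0) 0 128 192 224 128 256))) = true := by decide +kernel
  have c4 : (go 16 Gd mult S82_111_660_808 (Tr.lf 9129052296 103902278 743489379062996942444298240) 0 128 192 256 128 256) = true := by decide +kernel
  have c5 : (go 16 Gd mult S111_140_216_364 (Tr.lf 13969425480 107838535 1478516277388691480665653248) 0 128 224 256 192 256) = true := by decide +kernel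
  have c6 : (band (go 16 Gd mult S82_111_364_512 (Tr.lf 13960890440 99445703 1062645795441259044566728704) 0 128 224 256 128 256)
  (go 16 Gd mult S111_140_512_660 (Tr.lf 9137570888 99851334 1075943979457019965488496640) 0 128 224 256 128 256)) = true := by decide +kernel
  have c7 : (band (go 16 Gd mult S169_198_216_364 (Tr.lf 12894636098 99707847 1465240912003512843501371469) 0 32 240 256 128 256)
  (band (go 16 Gd mult S140_169_216_364 (Tr.lf 8591131682 108104773 1802508397045412099486908416) 0 32 240 256 128 256)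
  (band (go 16 Gd mult S140_169_216_364 (Tr.lf 9136391233 108100678 0) 0 32 192 224 128 256)
  (band (go 16 Gd mult S169_198_216_364 (Tr.lf 8599520289 95525958 0) 0 32 192 224 128 256)
  (band (go 16 Gd mult S140_169_216_364 (Tr.lf 9128002593 103914565 1206507967975399916356763648) 0 32 224 240 128 256)
  (go 16 Gd mult S169_198_216_364 (Tr.lf 8599651362 104168773 559732654481573307888959488) 0 32 224 240 128 256)))))) = true := by decide +kernel
  have c8 : (go 16 Gd mult S111_140_216_364 (Tr.lf 9129050696 108100678 956260323315171677192585216) 0 128 224 256 128 192) = true := by decide +kernel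
  (And.intro (Ok.s3 111 (Ok.lf S82_111_216_364_ok (bl c2))
  (Ok.s2 192 (Ok.lf S111_140_216_364_ok c8)
  (Ok.lf S111_140_216_364_ok c5)))
  (And.intro (Ok.s1 224 (Ok.s3 111 (Ok.lf S82_111_364_512_ok (bl (br c3)))
  (Ok.lf S111_140_364_512_ok (bl c3)))
  (Ok.s3 111 (Ok.lf S82_111_364_512_ok (bl c6))
  (Ok.lf S111_140_364_512_ok (br c2))))
  (And.intro (Ok.s4 660 (Ok.s3 111 (Ok.lf S82_111_512_660_ok c0)
  (Ok.s1 224 (Ok.lf S111_140_512_660_ok (br (br c3)))
  (Ok.lf S111_140_512_660_ok (br c6))))
  (Ok.s3 111 (Ok.lf S82_111_660_808_ok c4)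
  (Ok.lf S111_140_660_808_ok c1)))
  (Ok.s1 224 (Ok.s3 169 (Ok.lf S140_169_216_364_ok (bl (br (br c7))))
  (Ok.lf S169_198_216_364_ok (bl (br (br (br c7))))))
  (Ok.s1 240 (Ok.s3 169 (Ok.lf S140_169_216_364_ok (bl (br (br (br (br c7))))))
  (Ok.lf S169_198_216_364_ok (br (br (br (br (br c7)))))))
  (Ok.s3 169 (Ok.lf S140_169_216_364_ok (bl (br c7)))
  (Ok.lf S169_198_216_364_ok (bl c7))))))))

end Vale.Agent.P098.Ck
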