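import Vale.Agent.P098.CkGd
import Vale.Agent.P098.CkOk
import Vale.Agent.P098.Sh.A14
import Vale.Agent.P098.Sh.A16
import Vale.Agent.P098.Sh.A17
import Vale.Agent.P098.Sh.A20
import Vale.Agent.P098.Sh.A8
import Vale.Agent.P098.Sh.A9

namespace Vale.Agent.P098.Ck

theorem r96 :
    Ok Gd mult 32 64 192 256 128 256 140 198 216 290 ∧
    Ok Gd mult 32 64 192 256 128 256 140 198 290 364 ∧
    Ok Gd mult 64 128 192 256 128 256 140 198 216 364 :=
  have c0 : (band (go 16 Gd mult S169_198_216_290 (Tr.lf 17735911496 103902408 0) 64 128 240 256 128 192)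
  (go 16 Gd mult S169_198_216_290 (Tr.lf 13440943172 112295239 0) 64 128 224 240 192 256)) = true := by decide +kernel
  have c1 : (band (go 16 Gd mult S169_198_290_364 (Tr.lf 17735910536 99449801 0) 64 128 224 256 192 256)
  (go 16 Gd mult S140_169_216_290 (Tr.lf 13440812164 103779527 0) 64 128 224 256 192 256)) = true := by decide +kernel
  have c2 : (go 16 Gd mult S140_169_290_364 (Tr.lf 12894505092 91052872 510166695877373511726006272) 32 64 192 256 128 256) = true := by decide +kernel
  have c3 : (go 16 Gd mult S169_198_216_290 (Tr.lf 17199040580 99454024 353017924010540850648449304) 32 64 240 256 128 256) = true := by decide +kernel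
  have c4 : (band (go 16 Gd mult S183_198_216_290 (Tr.lf 17744283720 103771209 0) 64 128 240 256 192 256)
  (go 16 Gd mult S169_183_216_290 (Tr.lf 17735894088 95509704 0) 64 128 240 256 192 256)) = true := by decide +kernel
  have c5 : (band (go 16 Gd mult S169_198_290_364 (Tr.lf 17735910532 99581128 0) 64 128 224 256 128 192)
  (go 16 Gd mult S140_169_216_290 (Tr.lf 17727390788 95120456 0) 64 128 224 256 128 192)) = true := by decide +kernel
  have c6 : (band (go 16 Gd mult S169_198_290_364 (Tr.lf 12902893698 99712071 401368887715293198480769071) 32 64 224 256 128 256)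
  (band (go 16 Gd mult S140_169_216_290 (Tr.lf 12894488642 95390535 840203444632167276420792320) 32 64 224 256 128 256)
  (band (go 16 Gd mult S140_169_216_290 (Tr.lf 9137439809 108100679 0) 32 64 192 224 128 256)
  (band (go 16 Gd mult S169_198_216_290 (Tr.lf 9136391201 108108870 0) 32 64 192 224 128 256)
  (band (go 16 Gd mult S169_198_290_364 (Tr.lf 9136391201 108108870 0) 32 64 192 224 128 256)
  (go 16 Gd mult S169_198_216_290 (Tr.lf 13431359522 112294855 0) 32 64 224 240 128 256)))))) = true := by decide +kernel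
  have c7 : (band (go 16 Gd mult S169_198_216_364 (Tr.lf 13431507010 103643976 0) 64 128 192 224 128 256)
  (go 16 Gd mult S140_169_216_364 (Tr.lf 9136523330 103914438 0) 64 128 192 224 128 256)) = true := by decide +kernel
  have c8 : (go 16 Gd mult S140_169_290_364 (Tr.lf 13431359620 103779143 0) 64 128 224 256 128 256) = true := by decide +kernel
  have c9 : (go 16 Gd mult S169_198_216_290 (Tr.lf 13431358498 108231878 0) 64 128 224 240 128 192) = true := by decide +kernel
  (And.intro (Ok.s1 224 (Ok.s3 169 (Ok.lf S140_169_216_290_ok (bl (br (br c6))))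
  (Ok.lf S169_198_216_290_ok (bl (br (br (br c6))))))
  (Ok.s3 169 (Ok.lf S140_169_216_290_ok (bl (br c6)))
  (Ok.s1 240 (Ok.lf S169_198_216_290_ok (br (br (br (br (br c6))))))
  (Ok.lf S169_198_216_290_ok c3))))
  (And.intro (Ok.s3 169 (Ok.lf S140_169_290_364_ok c2)
  (Ok.s1 224 (Ok.lf S169_198_290_364_ok (bl (br (br (br (br c6))))))
  (Ok.lf S169_198_290_364_ok (bl c6))))
  (Ok.s1 224 (Ok.s3 169 (Ok.lf S140_169_216_364_ok (br c7))
  (Ok.lf S169_198_216_364_ok (bl c7)))
  (Ok.s4 290 (Ok.s2 192 (Ok.s3 169 (Ok.lf S140_169_216_290_ok (br c5))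
  (Ok.s1 240 (Ok.lf S169_198_216_290_ok c9)
  (Ok.lf S169_198_216_290_ok (bl c0))))
  (Ok.s3 169 (Ok.lf S140_169_216_290_ok (br c1))
  (Ok.s1 240 (Ok.lf S169_198_216_290_ok (br c0))
  (Ok.s3 183 (Ok.lf S169_183_216_290_ok (br c4))
  (Ok.lf S183_198_216_290_ok (bl c4))))))
  (Ok.s3 169 (Ok.lf S140_169_290_364_ok c8)
  (Ok.s2 192 (Ok.lf S169_198_290_364_ok (bl c5))
  (Ok.lf S169_198_290_364_ok (bl c1))))))))

end Vale.Agent.P098.Ck
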