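import Vale.Agent.P098.CkGd
import Vale.Agent.P098.CkOk
import Vale.Agent.P098.Sh.A10
import Vale.Agent.P098.Sh.A11
import Vale.Agent.P098.Sh.A18
import Vale.Agent.P098.Sh.A19
import Vale.Agent.P098.Sh.A9

namespace Vale.Agent.P098.Ck

theorem r97 :
    Ok Gd mult 0 128 192 224 128 256 140 198 364 512 ∧
    Ok Gd mult 0 128 224 256 128 256 140 198 364 512 ∧
    Ok Gd mult 0 128 192 256 128 256 140 198 512 660 :=
  have c0 : (band (go 16 Gd mult S169_198_364_512 (Tr.lf 13431507012 95255368 0) 0 128 192 224 128 256)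
  (band (go 16 Gd mult S140_169_364_512 (Tr.lf 9136523332 107842630 0) 0 128 192 224 128 256)
  (go 16 Gd mult S140_169_364_512 (Tr.lf 13431490600 103771079 668535978246889933612515328) 0 128 224 240 128 256))) = true := by decide +kernel
  have c1 : (band (go 16 Gd mult S169_198_364_512 (Tr.lf 13439895620 104037447 0) 64 128 224 240 128 256)
  (band (go 16 Gd mult S169_198_364_512 (Tr.lf 17734861892 99576776 0) 64 128 240 256 192 256)
  (band (go 16 Gd mult S140_169_364_512 (Tr.lf 13431358500 103906374 0) 64 128 240 256 192 256)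
  (go 16 Gd mult S140_169_364_512 (Tr.lf 12894488612 99453767 1560723233122486264545673216) 0 64 240 256 128 256)))) = true := by decide +kernel
  have c2 : (band (go 16 Gd mult S140_198_512_660 (Tr.lf 8590231618 99843013 1538962568369422939400962048) 0 32 224 256 128 256)
  (go 16 Gd mult S140_198_512_660 (Tr.lf 9136538690 103783494 0) 0 32 192 224 128 256)) = true := by decide +kernel
  have c3 : (band (go 16 Gd mult S140_169_512_660 (Tr.lf 12886100100 90921927 0) 64 128 192 256 128 256)
  (band (go 16 Gd mult S140_169_512_660 (Tr.lf 12886099074 95116231 194637056957955297127694336) 32 64 192 256 128 256)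
  (band (go 16 Gd mult S169_198_512_660 (Tr.lf 12893570178 86993480 404990149570900773526568960) 32 64 192 256 128 256)
  (go 16 Gd mult S169_198_512_660 (Tr.lf 13431489668 99445831 0) 64 128 192 256 192 256)))) = true := by decide +kernel
  have c4 : (band (go 16 Gd mult S169_198_364_512 (Tr.lf 12894619684 103902151 1461591315914086672219766784) 0 64 240 256 128 256)
  (band (go 16 Gd mult S169_198_364_512 (Tr.lf 17734845508 107973448 0) 64 128 240 256 128 192)
  (band (go 16 Gd mult S140_169_364_512 (Tr.lf 13431357988 99843142 0) 64 128 240 256 128 192)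
  (go 16 Gd mult S169_198_364_512 (Tr.lf 13431489572 103906247 846248073730240422294323200) 0 64 224 240 128 256)))) = true := by decide +kernel
  have c5 : (go 16 Gd mult S169_198_512_660 (Tr.lf 12893569668 95251271 0) 64 128 192 256 128 192) = true := by decide +kernel
  (And.intro (Ok.s3 169 (Ok.lf S140_169_364_512_ok (bl (br c0)))
  (Ok.lf S169_198_364_512_ok (bl c0)))
  (And.intro (Ok.s1 240 (Ok.s3 169 (Ok.lf S140_169_364_512_ok (br (br c0)))
  (Ok.s0 64 (Ok.lf S169_198_364_512_ok (br (br (br c4))))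
  (Ok.lf S169_198_364_512_ok (bl c1))))
  (Ok.s0 64 (Ok.s3 169 (Ok.lf S140_169_364_512_ok (br (br (br c1))))
  (Ok.lf S169_198_364_512_ok (bl c4)))
  (Ok.s2 192 (Ok.s3 169 (Ok.lf S140_169_364_512_ok (bl (br (br c4))))
  (Ok.lf S169_198_364_512_ok (bl (br c4))))
  (Ok.s3 169 (Ok.lf S140_169_364_512_ok (bl (br (br c1))))
  (Ok.lf S169_198_364_512_ok (bl (br c1)))))))
  (Ok.s0 64 (Ok.s0 32 (Ok.s1 224 (Ok.lf S140_198_512_660_ok (br c2))
  (Ok.lf S140_198_512_660_ok (bl c2)))
  (Ok.s3 169 (Ok.lf S140_169_512_660_ok (bl (br c3)))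
  (Ok.lf S169_198_512_660_ok (bl (br (br c3))))))
  (Ok.s3 169 (Ok.lf S140_169_512_660_ok (bl c3))
  (Ok.s2 192 (Ok.lf S169_198_512_660_ok c5)
  (Ok.lf S169_198_512_660_ok (br (br (br c3)))))))))

end Vale.Agent.P098.Ck
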