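import Vale.Agent.P098.CkGd
import Vale.Agent.P098.CkOk
import Vale.Agent.P098.Sh.A10
import Vale.Agent.P098.Sh.A19
import Vale.Agent.P098.Sh.A23
import Vale.Agent.P098.Sh.A25
import Vale.Agent.P098.Sh.A30
import Vale.Agent.P098.Sh.A36

namespace Vale.Agent.P098.Ck

theorem r98 :
    Ok Gd mult 0 128 192 256 128 256 140 198 660 808 ∧
    Ok Gd mult 0 128 192 224 128 256 198 256 216 364 ∧
    Ok Gd mult 0 128 224 240 128 256 198 256 216 364 ∧
    Ok Gd mult 0 128 240 256 128 256 198 256 216 290 :=
  have c0 : (band (go 16 Gd mult S198_227_216_364 (Tr.lf 9136801860 104041670 0) 0 128 192 224 128 256)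
  (band (go 16 Gd mult S169_198_660_808 (Tr.lf 13431489604 95251272 0) 0 128 192 224 128 256)
  (go 16 Gd mult S140_169_660_808 (Tr.lf 9136391236 103914693 0) 0 128 192 224 128 256))) = true := by decide +kernel
  have c1 : (go 16 Gd mult S198_227_216_364 (Tr.lf 13441206340 112299080 0) 64 128 224 240 192 256) = true := by decide +kernel
  have c2 : (go 16 Gd mult S198_227_216_290 (Tr.lf 17734862920 103906248 159578208189131051061215232) 0 128 240 256 128 192) = true := by decide +kernel
  have c3 : (go 16 Gd mult S198_227_216_290 (Tr.lf 17735911496 103775177 0) 64 128 240 256 192 256) = true := by decide +kernel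
  have c4 : (band (go 16 Gd mult S169_198_660_808 (Tr.lf 13431490632 103644103 1063854721260873673741434880) 0 128 224 256 128 256)
  (go 16 Gd mult S140_169_660_808 (Tr.lf 9136391240 95526085 1068690424539332190440259584) 0 128 224 256 128 256)) = true := by decide +kernel
  have c5 : (band (go 16 Gd mult S198_227_216_364 (Tr.lf 12894636068 99707975 291351122527125631104188416) 0 64 224 240 128 256)
  (band (go 16 Gd mult S227_256_216_364 (Tr.lf 8590215204 108100677 288933270887896372754776064) 0 64 224 240 128 256)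
  (go 16 Gd mult S227_256_216_364 (Tr.lf 8598602820 103910342 0) 0 128 192 224 128 256))) = true := by decide +kernel
  have c6 : (go 16 Gd mult S227_256_216_364 (Tr.lf 13439092772 112163783 0) 64 128 224 240 128 256) = true := by decide +kernel
  have c7 : (band (go 16 Gd mult S198_212_216_290 (Tr.lf 17199023172 91188424 591189868752421711549235325) 0 64 240 256 192 256)
  (band (go 16 Gd mult S212_227_216_290 (Tr.lf 12902999076 103775303 302275339707808648699838541) 0 64 240 256 192 256)
  (go 16 Gd mult S227_256_216_290 (Tr.lf 12893439010 103774919 488462607296547152657842475) 0 64 240 256 192 256))) = true := by decide +kernel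
  have c8 : (go 16 Gd mult S227_256_216_290 (Tr.lf 12901959714 104160199 206726315154101588874756096) 64 128 240 256 128 256) = true := by decide +kernel
  have c9 : (go 16 Gd mult S198_227_216_364 (Tr.lf 13431489570 108227655 0) 64 128 224 240 128 192) = true := by decide +kernel
  have c10 : (go 16 Gd mult S227_256_216_290 (Tr.lf 8590074386 112299204 188592427859882151254163456) 0 64 240 256 128 192) = true := by decide +kernel
  (And.intro (Ok.s1 224 (Ok.s3 169 (Ok.lf S140_169_660_808_ok (br (br c0)))
  (Ok.lf S169_198_660_808_ok (bl (br c0))))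
  (Ok.s3 169 (Ok.lf S140_169_660_808_ok (br c4))
  (Ok.lf S169_198_660_808_ok (bl c4))))
  (And.intro (Ok.s3 227 (Ok.lf S198_227_216_364_ok (bl c0))
  (Ok.lf S227_256_216_364_ok (br (br c5))))
  (And.intro (Ok.s0 64 (Ok.s3 227 (Ok.lf S198_227_216_364_ok (bl c5))
  (Ok.lf S227_256_216_364_ok (bl (br c5))))
  (Ok.s3 227 (Ok.s2 192 (Ok.lf S198_227_216_364_ok c9)
  (Ok.lf S198_227_216_364_ok c1))
  (Ok.lf S227_256_216_364_ok c6)))
  (Ok.s3 227 (Ok.s2 192 (Ok.lf S198_227_216_290_ok c2)
  (Ok.s0 64 (Ok.s3 212 (Ok.lf S198_212_216_290_ok (bl c7))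
  (Ok.lf S212_227_216_290_ok (bl (br c7))))
  (Ok.lf S198_227_216_290_ok c3)))
  (Ok.s0 64 (Ok.s2 192 (Ok.lf S227_256_216_290_ok c10)
  (Ok.lf S227_256_216_290_ok (br (br c7))))
  (Ok.lf S227_256_216_290_ok c8))))))

end Vale.Agent.P098.Ck
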