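import Vale.Agent.P098.CkGd
import Vale.Agent.P098.CkOk
import Vale.Agent.P098.Sh.A25
import Vale.Agent.P098.Sh.A26
import Vale.Agent.P098.Sh.A36
import Vale.Agent.P098.Sh.A37

namespace Vale.Agent.P098.Ck

theorem r99 :
    Ok Gd mult 0 128 240 256 128 256 198 227 290 364 ∧
    Ok Gd mult 0 128 240 256 128 256 227 256 290 364 ∧
    Ok Gd mult 0 128 192 256 128 256 198 256 364 512 :=
  have c0 : (go 16 Gd mult S198_227_364_512 (Tr.lf 13440157764 112299079 0) 64 128 224 240 128 256) = true := by decide +kernel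
  have c1 : (band (go 16 Gd mult S198_227_290_364 (Tr.lf 12903024708 103906375 864397290423596474318717256) 0 64 240 256 128 256)
  (go 16 Gd mult S198_227_364_512 (Tr.lf 12893833284 103905991 1358832621246843192369741824) 0 64 240 256 128 256)) = true := by decide +kernel
  have c2 : (band (go 16 Gd mult S198_227_364_512 (Tr.lf 9136539716 103910598 0) 0 128 192 224 128 256)
  (band (go 16 Gd mult S227_256_364_512 (Tr.lf 9135473732 103910342 0) 0 128 192 224 128 256)
  (band (go 16 Gd mult S227_256_364_512 (Tr.lf 8590214180 104164421 686669865541109371233107968) 0 64 224 240 128 256)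
  (go 16 Gd mult S198_227_364_512 (Tr.lf 8599651364 104172614 689087717180338629582520320) 0 64 224 240 128 256)))) = true := by decide +kernel
  have c3 : (go 16 Gd mult S227_256_364_512 (Tr.lf 13438847044 112298823 0) 64 128 224 240 128 256) = true := by decide +kernel
  have c4 : (band (go 16 Gd mult S227_256_364_512 (Tr.lf 12893833284 103905991 1360041547066457821544448000) 0 64 240 256 128 256)
  (band (go 16 Gd mult S227_256_364_512 (Tr.lf 13430704194 108231622 0) 64 96 240 256 128 256)
  (go 16 Gd mult S227_256_364_512 (Tr.lf 17734059074 103774920 0) 96 128 240 256 128 192))) = true := by decide +kernel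
  have c5 : (go 16 Gd mult S227_256_364_512 (Tr.lf 17734075460 103643848 0) 96 128 240 256 192 256) = true := by decide +kernel
  have c6 : (band (go 16 Gd mult S198_227_364_438 (Tr.lf 17733683268 103774920 0) 64 128 240 256 128 256)
  (go 16 Gd mult S198_227_438_512 (Tr.lf 17733683268 103901896 0) 64 128 240 256 128 256)) = true := by decide +kernel
  have c7 : (band (go 16 Gd mult S198_227_290_364 (Tr.lf 17735910468 103775432 0) 64 128 240 256 192 256)
  (band (go 16 Gd mult S227_256_290_364 (Tr.lf 13438698532 112425799 0) 64 128 240 256 192 256)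
  (go 16 Gd mult S227_256_290_364 (Tr.lf 17800774696 99973577 741071527423767684094885888) 0 128 240 256 128 192))) = true := by decide +kernel
  have c8 : (go 16 Gd mult S198_227_290_364 (Tr.lf 17734730820 103906248 0) 64 128 240 256 128 192) = true := by decide +kernel
  have c9 : (go 16 Gd mult S227_256_290_364 (Tr.lf 8598602820 104168517 886177582392728314791788669) 0 64 240 256 192 256) = true := by decide +kernel
  (And.intro (Ok.s0 64 (Ok.lf S198_227_290_364_ok (bl c1))
  (Ok.s2 192 (Ok.lf S198_227_290_364_ok c8)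
  (Ok.lf S198_227_290_364_ok (bl c7))))
  (And.intro (Ok.s2 192 (Ok.lf S227_256_290_364_ok (br (br c7)))
  (Ok.s0 64 (Ok.lf S227_256_290_364_ok c9)
  (Ok.lf S227_256_290_364_ok (bl (br c7)))))
  (Ok.s1 224 (Ok.s3 227 (Ok.lf S198_227_364_512_ok (bl c2))
  (Ok.lf S227_256_364_512_ok (bl (br c2))))
  (Ok.s1 240 (Ok.s0 64 (Ok.s3 227 (Ok.lf S198_227_364_512_ok (br (br (br c2))))
  (Ok.lf S227_256_364_512_ok (bl (br (br c2)))))
  (Ok.s3 227 (Ok.lf S198_227_364_512_ok c0)
  (Ok.lf S227_256_364_512_ok c3)))
  (Ok.s0 64 (Ok.s3 227 (Ok.lf S198_227_364_512_ok (br c1))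
  (Ok.lf S227_256_364_512_ok (bl c4)))
  (Ok.s3 227 (Ok.s4 438 (Ok.lf S198_227_364_438_ok (bl c6))
  (Ok.lf S198_227_438_512_ok (br c6)))
  (Ok.s0 96 (Ok.lf S227_256_364_512_ok (bl (br c4)))
  (Ok.s2 192 (Ok.lf S227_256_364_512_ok (br (br c4)))
  (Ok.lf S227_256_364_512_ok c5)))))))))

end Vale.Agent.P098.Ck
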